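import Crest.Agent.R230.BSix

/-!
# Row 230: block B5 for dimension `N = 6` (Lean `n = 5`)

Case II (`λ ≥ 0`), region `l > 0`, `k ≥ 0`, parameters `(σ, θ, Λ) = (3, 1, 1/4)`, `μ = 27/16`.
The proof splits the range of `c = cc s` into boxes with rational constants.
-/

set_option autoImplicit false

open MeasureTheory Set Filter Topology

namespace Crest.Agent.R230.WR.BSix

/-! ### tangent bounds for `hm 5`, `k ≥ 0` -/


















/-! ### two-variable inequalities -/





/-! ### reduction of `PP` -/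


/-! ### boxes -/

/-- common numerical side conditions -/
structure Cst5 (clo chi vM EM XM q aL : ℝ) : Prop where
  clo0 : 0 ≤ clo
  v0 : 0 ≤ vM
  kX : (2 + EM) * ((1 + clo) * (1 + clo * vM) - clo ^ 2 * (1 + vM)) ≤
      XM * ((1 + vM) ^ 2 * ((1 + clo) * (1 + clo * vM)))
  kq1 : (q - 2) * (1 - clo ^ 2) ≤ (27 / 40 - XM) * clo ^ 2
  kq2 : (q - 2) * (1 - chi ^ 2) ≤ (27 / 40 - XM) * chi ^ 2
  ka : 2 * chi ^ 2 ≤ (2 - aL) * (1 + chi)







/-- the numerical side conditions of the two-variable part -/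
structure Alg (aL q D B u z W e0 c0 c1 : ℝ) : Prop where
  hq : 0 < q
  hB0 : 0 ≤ B
  hz0 : 0 ≤ z
  he0 : 0 ≤ e0
  hc0 : 0 ≤ c0
  hc1 : 0 ≤ c1
  hD : D ≤ aL - 27 / 16 * e0 * (c0 + c1) - 3 / 14
  hB : 3 / 14 + 27 / 16 * e0 * c0 ≤ B
  hu : u ≤ 1 - W * (c0 + c1)
  hz : 2 + W * c0 ≤ z






/-! ### the table -/
































end Crest.Agent.R230.WR.BSix
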