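import Mathlib

-- ▼ part R230/Defs
section

/-!
# Row 230 (Petty projection inequality): basic definitions

`E n` is Euclidean `n`-space; `sh K u = |K + [0,u]| - |K|` is (for compact convex `K`) `‖u‖` times the
`(n-1)`-volume of the shadow of `K` on `u^⊥`, i.e. the support function of the projection body `PB K`.
-/

set_option autoImplicit false

open MeasureTheory Set
open scoped Pointwise ENNReal

namespace Crest.Agent.R230

/-- Euclidean space of dimension `n`. -/
abbrev E (n : ℕ) := EuclideanSpace ℝ (Fin n)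

/-- Convex bodies. -/
structure CB {n : ℕ} (K : Set (E n)) : Prop where
  isCompact : IsCompact K
  convex : Convex ℝ K
  interior_nonempty : (interior K).Nonempty

/-- Volume, as a real number. -/
noncomputable def vol {n : ℕ} (K : Set (E n)) : ℝ := (volume K).toReal

/-- Volume of the unit ball. -/
noncomputable def κ (n : ℕ) : ℝ := vol (Metric.ball (0 : E n) 1)

/-- `‖u‖` times the volume of the shadow of `K` in direction `u`. -/
noncomputable def sh {n : ℕ} (K : Set (E n)) (u : E n) : ℝ := vol (K + segment ℝ 0 u) - vol K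

/-- The projection body. -/
def PB {n : ℕ} (K : Set (E n)) : Set (E n) := {x | ∀ u : E n, inner ℝ x u ≤ sh K u}

/-- The support function. -/
noncomputable def hs {n : ℕ} (K : Set (E n)) (u : E n) : ℝ := sSup ((fun x : E n => inner ℝ x u) '' K)

/-- The (normalised) outer normal at `x`: gradient of the gauge of `K`. -/
noncomputable def nu {n : ℕ} (K : Set (E n)) (x : E n) : E n := gradient (gauge K) x

/-- The mixed volume `V_1(K,L)` (for `0` in the interior of `K`). -/
noncomputable def V1 {n : ℕ} (K L : Set (E n)) : ℝ := ∫ x in K, hs L (nu K x)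

/-- A linear isometric parametrisation `ι` of `e^⊥` which together with `e` gives orthonormal
coordinates `(t,y) ↦ t • e + ι y`. -/
structure Frame {n : ℕ} (e : E (n + 1)) where
  ι : E n →ₗᵢ[ℝ] E (n + 1)
  inner_eq : ∀ y, inner ℝ (ι y) e = 0
  surj : ∀ x : E (n + 1), ∃ (t : ℝ) (y : E n), x = t • e + ι y
  mp : MeasurePreserving (fun p : ℝ × E n => p.1 • e + ι p.2)
    ((volume : Measure ℝ).prod (volume : Measure (E n))) (volume : Measure (E (n + 1)))

/-- The shadow of `K` along `e`, in the coordinates of the frame. -/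
def Frame.shadow {n : ℕ} {e : E (n + 1)} (F : Frame e) (K : Set (E (n + 1))) : Set (E n) :=
  {y | ∃ t : ℝ, t • e + F.ι y ∈ K}

/-- The slice of `K` at height `t`, in the coordinates of the frame. -/
def Frame.slice {n : ℕ} {e : E (n + 1)} (F : Frame e) (K : Set (E (n + 1))) (t : ℝ) : Set (E n) :=
  {y | t • e + F.ι y ∈ K}

/-- The area of the slice of `K` at height `t` in direction `e` (`‖e‖ = 1`). -/
noncomputable def area {n : ℕ} (K : Set (E (n + 1))) (e : E (n + 1)) (t : ℝ) : ℝ :=
  ((μHE[n] : Measure (E (n + 1))) (K ∩ {x | inner ℝ x e = t})).toReal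

/-- Renyi power of the slice function. -/
noncomputable def NK {n : ℕ} (K : Set (E (n + 1))) (e : E (n + 1)) : ℝ :=
  (∫ t : ℝ, area K e t ^ (((n : ℝ) - 1) / n)) ^ n

/-- The ball value of `NK`. -/
noncomputable def NB (n : ℕ) : ℝ := κ n ^ (2 * n - 1) / κ (n - 1) ^ n

/-- Petty's inequality in dimension `n`. -/
def PettyIneq (n : ℕ) : Prop :=
  ∀ K : Set (E n), CB K → κ (n - 1) ^ n * vol K ^ (n - 1) ≤ vol (PB K) * κ n ^ (n - 2)

/-- The crux `(E)` in dimension `n + 1`. -/
def CruxE (n : ℕ) : Prop :=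
  ∀ K : Set (E (n + 1)), CB K → (∀ x ∈ K, -x ∈ K) →
    (∀ e : E (n + 1), ‖e‖ = 1 → NK K e ≤ NB n * (vol K / κ (n + 1)) ^ (n - 1) * hs K e) →
    ∃ T : E (n + 1) ≃ₗ[ℝ] E (n + 1), K = T '' Metric.closedBall 0 1

end Crest.Agent.R230
end

-- ▼ part R230/Basic

/-!
# Row 230: elementary facts on convex bodies, volume, support functions
-/

set_option autoImplicit false

open MeasureTheory Set
open scoped Pointwise ENNReal

namespace Crest.Agent.R230

variable {n : ℕ}

lemma CB.nonempty {K : Set (E n)} (hK : CB K) : K.Nonempty := hK.interior_nonempty.mono interior_subset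

lemma CB.vadd {K : Set (E n)} (hK : CB K) (a : E n) : CB (a +ᵥ K) := by
  refine ⟨hK.isCompact.vadd a, hK.convex.vadd a, ?_⟩
  rw [interior_vadd]
  exact hK.interior_nonempty.vadd_set

lemma CB.smul {K : Set (E n)} (hK : CB K) {r : ℝ} (hr : r ≠ 0) : CB (r • K) := by
  refine ⟨hK.isCompact.smul r, hK.convex.smul r, ?_⟩
  rw [interior_smul₀ hr]
  exact hK.interior_nonempty.smul_set

lemma CB.add {K L : Set (E n)} (hK : CB K) (hL : IsCompact L) (hLc : Convex ℝ L) (hL0 : L.Nonempty) :
    CB (K + L) := by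
  refine ⟨hK.isCompact.add hL, hK.convex.add hLc, ?_⟩
  obtain ⟨y, hy⟩ := hL0
  obtain ⟨x, hx⟩ := hK.interior_nonempty
  exact ⟨x + y, (subset_interior_add_left (Set.add_mem_add hx hy))⟩

lemma CB.image {K : Set (E n)} (hK : CB K) (T : E n ≃ₗ[ℝ] E n) : CB (T '' K) := by
  have hc : Continuous (T : E n → E n) := T.toLinearMap.continuous_of_finiteDimensional
  refine ⟨hK.isCompact.image hc, hK.convex.linear_image (T : E n →ₗ[ℝ] E n), ?_⟩
  have h := (T.toContinuousLinearEquiv.toHomeomorph).image_interior K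
  have h2 : interior (T '' K) = T '' interior K := h.symm
  rw [h2]
  exact hK.interior_nonempty.image _

lemma CB.vol_pos {K : Set (E n)} (hK : CB K) : 0 < vol K := by
  unfold vol
  refine ENNReal.toReal_pos ?_ hK.isCompact.measure_lt_top.ne
  exact ((isOpen_interior.measure_pos volume hK.interior_nonempty).trans_le
    (measure_mono interior_subset)).ne'

lemma vol_nonneg (K : Set (E n)) : 0 ≤ vol K := ENNReal.toReal_nonneg

lemma vol_mono {K L : Set (E n)} (hL : IsCompact L) (h : K ⊆ L) : vol K ≤ vol L :=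
  ENNReal.toReal_mono hL.measure_lt_top.ne (measure_mono h)

lemma vol_vadd (a : E n) (K : Set (E n)) : vol (a +ᵥ K) = vol K := by
  unfold vol
  rw [measure_vadd]

lemma vol_smul (r : ℝ) (K : Set (E n)) : vol (r • K) = |r| ^ n * vol K := by
  unfold vol
  rw [Measure.addHaar_smul, ENNReal.toReal_mul, ENNReal.toReal_ofReal (abs_nonneg _)]
  simp [abs_pow]

lemma vol_image (T : E n ≃ₗ[ℝ] E n) (K : Set (E n)) :
    vol (T '' K) = |LinearMap.det (T : E n →ₗ[ℝ] E n)| * vol K := by
  unfold vol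
  have := Measure.addHaar_image_linearMap (volume : Measure (E n)) (T : E n →ₗ[ℝ] E n) K
  have h2 : ((T : E n →ₗ[ℝ] E n) : E n → E n) '' K = T '' K := rfl
  rw [h2] at this
  rw [this, ENNReal.toReal_mul, ENNReal.toReal_ofReal (abs_nonneg _)]

lemma det_pos' (T : E n ≃ₗ[ℝ] E n) :
    0 < |LinearMap.det (T : E n →ₗ[ℝ] E n)| := by
  rw [abs_pos]
  exact (LinearEquiv.isUnit_det' T).ne_zero

/-! ### support functions -/

lemma bddAbove_inner {K : Set (E n)} (hK : IsCompact K) (u : E n) :
    BddAbove ((fun x : E n => inner ℝ x u) '' K) :=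
  (hK.image (by fun_prop)).bddAbove

lemma le_hs {K : Set (E n)} (hK : IsCompact K) {x : E n} (hx : x ∈ K) (u : E n) :
    inner ℝ x u ≤ hs K u :=
  le_csSup (bddAbove_inner hK u) ⟨x, hx, rfl⟩

lemma hs_le {K : Set (E n)} (hK : K.Nonempty) {u : E n} {c : ℝ} (h : ∀ x ∈ K, inner ℝ x u ≤ c) :
    hs K u ≤ c :=
  csSup_le (hK.image _) (by rintro _ ⟨x, hx, rfl⟩; exact h x hx)

lemma exists_hs_eq {K : Set (E n)} (hK : IsCompact K) (hK0 : K.Nonempty) (u : E n) :
    ∃ x ∈ K, inner ℝ x u = hs K u := by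
  obtain ⟨x, hx, h⟩ := hK.exists_isMaxOn hK0 (f := fun x : E n => inner ℝ x u) (by fun_prop)
  exact ⟨x, hx, le_antisymm (le_hs hK hx u) (hs_le hK0 fun y hy => h hy)⟩


lemma hs_zero {K : Set (E n)} (hK0 : K.Nonempty) : hs K 0 = 0 := by
  unfold hs
  have : (fun x : E n => inner ℝ x (0 : E n)) '' K = {0} := by
    ext y; simp only [inner_zero_right, mem_image, mem_singleton_iff]
    constructor
    · rintro ⟨_, _, rfl⟩; rfl
    · rintro rfl; exact ⟨hK0.some, hK0.some_mem, rfl⟩
  rw [this, csSup_singleton]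

lemma hs_smul_set {r : ℝ} (hr : 0 ≤ r) (K : Set (E n)) (u : E n) : hs (r • K) u = r * hs K u := by
  unfold hs
  have : (fun x : E n => inner ℝ x u) '' (r • K) = r • ((fun x : E n => inner ℝ x u) '' K) := by
    ext y
    simp only [mem_image, mem_smul_set]
    constructor
    · rintro ⟨x, ⟨z, hz, rfl⟩, rfl⟩
      exact ⟨_, ⟨z, hz, rfl⟩, by simp [inner_smul_left]⟩
    · rintro ⟨x, ⟨z, hz, rfl⟩, rfl⟩
      exact ⟨_, ⟨z, hz, rfl⟩, by simp [inner_smul_left]⟩
  rw [this, Real.sSup_smul_of_nonneg hr, smul_eq_mul]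

lemma hs_smul {c : ℝ} (hc : 0 ≤ c) (K : Set (E n)) (u : E n) : hs K (c • u) = c * hs K u := by
  unfold hs
  have : (fun x : E n => inner ℝ x (c • u)) '' K = c • ((fun x : E n => inner ℝ x u) '' K) := by
    ext y
    simp only [mem_image, mem_smul_set]
    constructor
    · rintro ⟨x, hx, rfl⟩
      exact ⟨_, ⟨x, hx, rfl⟩, by simp [inner_smul_right]⟩
    · rintro ⟨_, ⟨z, hz, rfl⟩, rfl⟩
      exact ⟨z, hz, by simp [inner_smul_right]⟩
  rw [this, Real.sSup_smul_of_nonneg hc, smul_eq_mul]



lemma hs_nonneg {K : Set (E n)} (h0 : (0 : E n) ∈ K) (u : E n) : 0 ≤ hs K u := by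
  unfold hs
  apply Real.sSup_nonneg'
  exact ⟨0, ⟨0, h0, by simp⟩, le_rfl⟩

/-- membership in a closed convex set through its support function -/
lemma mem_of_forall_le_hs {K : Set (E n)} (hK : IsCompact K) (hKc : Convex ℝ K) (hK0 : K.Nonempty)
    {x : E n} (h : ∀ u : E n, inner ℝ x u ≤ hs K u) : x ∈ K := by
  by_contra hx
  obtain ⟨f, s, hf1, hf2⟩ := geometric_hahn_banach_closed_point hKc hK.isClosed hx
  set v := (InnerProductSpace.toDual ℝ (E n)).symm f with hv
  have hfv : ∀ y, f y = inner ℝ y v := by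
    intro y
    rw [hv, real_inner_comm, InnerProductSpace.toDual_symm_apply]
  have h1 : hs K v ≤ s := hs_le hK0 fun y hy => by rw [← hfv]; exact (hf1 y hy).le
  have h2 := h v
  rw [← hfv] at h2
  linarith



end Crest.Agent.R230
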