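import Mathlib
import Crest.Agent.R230.Shadow
import Crest.Agent.R230.BM
import Crest.Agent.R230.Basic

-- ▼ part R230/BMeqOne
section

/-!
# One-dimensional equality lemma (row 230)

Quantile functions and the equality case of one-dimensional Prekopa–Leindler for densities that
are continuous and positive on an interval.
-/

set_option autoImplicit false

open MeasureTheory Set Filter Topology
open scoped ENNReal

namespace Crest.Agent.R230

/-- The quantile function of a positive continuous density on an interval. -/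
theorem exists_quantile {f : ℝ → ℝ} {a b : ℝ} (hab : a < b) (hc : ContinuousOn f (Ioo a b))
    (hpos : ∀ s ∈ Ioo a b, 0 < f s) (hi : IntervalIntegrable f volume a b)
    (h1 : ∫ s in a..b, f s = 1) :
    ∃ s : ℝ → ℝ, (∀ τ ∈ Ioo (0:ℝ) 1, s τ ∈ Ioo a b ∧ HasDerivAt s (f (s τ))⁻¹ τ) ∧
      (∀ x ∈ Ioo a b, ∃ τ ∈ Ioo (0:ℝ) 1, s τ = x) := by
  set F : ℝ → ℝ := fun x => ∫ t in a..x, f t with hF
  have hisub : ∀ {x y : ℝ}, x ∈ Icc a b → y ∈ Icc a b → IntervalIntegrable f volume x y := by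
    intro x y hx hy
    exact hi.mono_set (by rw [uIcc_of_le hab.le]; exact uIcc_subset_Icc hx hy)
  have hFc : ContinuousOn F (Icc a b) := by
    have := intervalIntegral.continuousOn_primitive_interval' (μ := volume) hi
      (a := a) (by rw [uIcc_of_le hab.le]; exact left_mem_Icc.2 hab.le)
    rwa [uIcc_of_le hab.le] at this
  have hFa : F a = 0 := by simp [hF]
  have hFb : F b = 1 := h1
  have hFm : StrictMonoOn F (Icc a b) := by
    intro x hx y hy hxy
    have h2 : F y - F x = ∫ t in x..y, f t :=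
      intervalIntegral.integral_interval_sub_left (hisub (left_mem_Icc.2 hab.le) hy)
        (hisub (left_mem_Icc.2 hab.le) hx)
    have h3 : 0 < ∫ t in x..y, f t :=
      intervalIntegral.intervalIntegral_pos_of_pos_on (hisub hx hy)
        (fun t ht => hpos t ⟨hx.1.trans_lt ht.1, ht.2.trans_le hy.2⟩) hxy
    linarith
  have hFd : ∀ x ∈ Ioo a b, HasDerivAt F (f x) x := by
    intro x hx
    refine intervalIntegral.integral_hasDerivAt_right
      (hisub (left_mem_Icc.2 hab.le) (Ioo_subset_Icc_self hx)) ?_ ?_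
    · exact hc.stronglyMeasurableAtFilter isOpen_Ioo x hx
    · exact hc.continuousAt (Ioo_mem_nhds hx.1 hx.2)
  have hsurj : ∀ τ ∈ Ioo (0:ℝ) 1, ∃ x, x ∈ Ioo a b ∧ F x = τ := by
    intro τ hτ
    have := intermediate_value_Ioo hab.le hFc (by rw [hFa, hFb]; exact hτ)
    obtain ⟨x, hx, h⟩ := this
    exact ⟨x, hx, h⟩
  choose! s hs using hsurj
  have hsm : StrictMonoOn s (Ioo 0 1) := by
    intro x hx y hy hxy
    by_contra hcon
    push Not at hcon
    have := hFm.monotoneOn (Ioo_subset_Icc_self (hs y hy).1) (Ioo_subset_Icc_self (hs x hx).1) hcon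
    rw [(hs y hy).2, (hs x hx).2] at this
    linarith
  have hFmem : ∀ x ∈ Ioo a b, F x ∈ Ioo (0:ℝ) 1 := by
    intro x hx
    constructor
    · rw [← hFa]; exact hFm (left_mem_Icc.2 hab.le) (Ioo_subset_Icc_self hx) hx.1
    · rw [← hFb]; exact hFm (Ioo_subset_Icc_self hx) (right_mem_Icc.2 hab.le) hx.2
  have hsF : ∀ x ∈ Ioo a b, s (F x) = x := by
    intro x hx
    have h2 := hs (F x) (hFmem x hx)
    exact hFm.injOn (Ioo_subset_Icc_self h2.1) (Ioo_subset_Icc_self hx) h2.2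
  have himg : s '' Ioo 0 1 = Ioo a b := by
    apply Subset.antisymm
    · rintro _ ⟨τ, hτ, rfl⟩
      exact (hs τ hτ).1
    · intro x hx
      exact ⟨F x, hFmem x hx, hsF x hx⟩
  have hsc : ∀ τ ∈ Ioo (0:ℝ) 1, ContinuousAt s τ := by
    intro τ hτ
    apply hsm.continuousAt_of_image_mem_nhds (Ioo_mem_nhds hτ.1 hτ.2)
    rw [himg]
    exact Ioo_mem_nhds (hs τ hτ).1.1 (hs τ hτ).1.2
  refine ⟨s, fun τ hτ => ⟨(hs τ hτ).1, ?_⟩, fun x hx => ⟨F x, hFmem x hx, hsF x hx⟩⟩
  refine HasDerivAt.of_local_left_inverse (hsc τ hτ) (hFd _ (hs τ hτ).1) (hpos _ (hs τ hτ).1).ne' ?_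
  filter_upwards [Ioo_mem_nhds hτ.1 hτ.2] with y hy
  exact (hs y hy).2

/-- weighted AM–GM for the transport Jacobian. -/
theorem amgm_one_le {lam x y : ℝ} (h0 : 0 < lam) (h1 : lam < 1) (hx : 0 < x) (hy : 0 < y) :
    1 ≤ (lam * x⁻¹ + (1 - lam) * y⁻¹) * (x ^ lam * y ^ (1 - lam)) := by
  have h := Real.geom_mean_le_arith_mean2_weighted h0.le (by linarith : (0:ℝ) ≤ 1 - lam)
    (inv_pos.2 hx).le (inv_pos.2 hy).le (by ring)
  have hp : 0 < x ^ lam * y ^ (1 - lam) := by positivity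
  calc (1:ℝ) = (x⁻¹ ^ lam * y⁻¹ ^ (1 - lam)) * (x ^ lam * y ^ (1 - lam)) := by
        rw [Real.inv_rpow hx.le, Real.inv_rpow hy.le]
        field_simp
    _ ≤ _ := mul_le_mul_of_nonneg_right h hp.le

theorem amgm_eq_one {lam x y : ℝ} (h0 : 0 < lam) (h1 : lam < 1) (hx : 0 < x) (hy : 0 < y)
    (h : (lam * x⁻¹ + (1 - lam) * y⁻¹) * (x ^ lam * y ^ (1 - lam)) = 1) : x = y := by
  by_contra hne
  have hne' : x⁻¹ ≠ y⁻¹ := fun h => hne (inv_injective h)
  have hlog := strictConcaveOn_log_Ioi.2 (inv_pos.2 hx) (inv_pos.2 hy) hne' h0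
    (by linarith : (0:ℝ) < 1 - lam) (by ring)
  simp only [smul_eq_mul] at hlog
  have hA : 0 < lam * x⁻¹ + (1 - lam) * y⁻¹ := by
    have : 0 < 1 - lam := by linarith
    positivity
  have hB : 0 < x ^ lam * y ^ (1 - lam) := by positivity
  have h2 := congrArg Real.log h
  rw [Real.log_mul hA.ne' hB.ne', Real.log_one, Real.log_mul (by positivity) (by positivity),
    Real.log_rpow hx, Real.log_rpow hy] at h2
  rw [Real.log_inv, Real.log_inv] at hlog
  linarith

/-- Equality in one-dimensional Prekopa–Leindler: the densities are translates. -/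
theorem one_dim_eq {f g : ℝ → ℝ} {h : ℝ → ℝ≥0∞} {a b c d lam : ℝ} (hl0 : 0 < lam) (hl1 : lam < 1)
    (hab : a < b) (hcd : c < d)
    (hfc : ContinuousOn f (Ioo a b)) (hfp : ∀ s ∈ Ioo a b, 0 < f s)
    (hfi : IntervalIntegrable f volume a b) (hf1 : ∫ s in a..b, f s = 1)
    (hgc : ContinuousOn g (Ioo c d)) (hgp : ∀ s ∈ Ioo c d, 0 < g s)
    (hgi : IntervalIntegrable g volume c d) (hg1 : ∫ s in c..d, g s = 1)
    (hh : ∀ s ∈ Ioo a b, ∀ t ∈ Ioo c d,
      ENNReal.ofReal (f s ^ lam * g t ^ (1 - lam)) ≤ h (lam * s + (1 - lam) * t))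
    (hint : ∫⁻ x, h x ≤ 1) :
    ∃ c0 : ℝ, c = a + c0 ∧ d = b + c0 ∧ ∀ s ∈ Ioo a b, g (s + c0) = f s := by
  obtain ⟨s, hs, hs'⟩ := exists_quantile hab hfc hfp hfi hf1
  obtain ⟨t, ht, ht'⟩ := exists_quantile hcd hgc hgp hgi hg1
  have hl1' : 0 < 1 - lam := by linarith
  set r : ℝ → ℝ := fun τ => lam * s τ + (1 - lam) * t τ with hr
  set r' : ℝ → ℝ := fun τ => lam * (f (s τ))⁻¹ + (1 - lam) * (g (t τ))⁻¹ with hr'
  have hrd : ∀ τ ∈ Ioo (0:ℝ) 1, HasDerivAt r (r' τ) τ := fun τ hτ =>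
    ((hs τ hτ).2.const_mul lam).add ((ht τ hτ).2.const_mul (1 - lam))
  have hr'pos : ∀ τ ∈ Ioo (0:ℝ) 1, 0 < r' τ := by
    intro τ hτ
    have h1 := hfp _ (hs τ hτ).1
    have h2 := hgp _ (ht τ hτ).1
    simp only [hr']
    positivity
  have hrm : StrictMonoOn r (Ioo 0 1) := by
    apply strictMonoOn_of_deriv_pos (convex_Ioo _ _)
    · exact fun τ hτ => (hrd τ hτ).continuousAt.continuousWithinAt
    · intro τ hτ
      rw [interior_Ioo] at hτ
      rw [(hrd τ hτ).deriv]
      exact hr'pos τ hτ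
  set ψ : ℝ → ℝ := fun τ => r' τ * (f (s τ) ^ lam * g (t τ) ^ (1 - lam)) with hψ
  have hsc : ContinuousOn s (Ioo 0 1) := fun τ hτ => (hs τ hτ).2.continuousAt.continuousWithinAt
  have htc : ContinuousOn t (Ioo 0 1) := fun τ hτ => (ht τ hτ).2.continuousAt.continuousWithinAt
  have hfs : ContinuousOn (fun τ => f (s τ)) (Ioo 0 1) := hfc.comp hsc fun τ hτ => (hs τ hτ).1
  have hgt : ContinuousOn (fun τ => g (t τ)) (Ioo 0 1) := hgc.comp htc fun τ hτ => (ht τ hτ).1
  have hfs0 : ∀ τ ∈ Ioo (0:ℝ) 1, f (s τ) ≠ 0 := fun τ hτ => (hfp _ (hs τ hτ).1).ne'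
  have hgt0 : ∀ τ ∈ Ioo (0:ℝ) 1, g (t τ) ≠ 0 := fun τ hτ => (hgp _ (ht τ hτ).1).ne'
  have hψc : ContinuousOn ψ (Ioo 0 1) := by
    simp only [hψ, hr']
    exact ((continuousOn_const.mul (hfs.inv₀ hfs0)).add
      (continuousOn_const.mul (hgt.inv₀ hgt0))).mul
      ((hfs.rpow_const fun τ hτ => Or.inl (hfs0 τ hτ)).mul
        (hgt.rpow_const fun τ hτ => Or.inl (hgt0 τ hτ)))
  have hψ1 : ∀ τ ∈ Ioo (0:ℝ) 1, 1 ≤ ψ τ := fun τ hτ =>
    amgm_one_le hl0 hl1 (hfp _ (hs τ hτ).1) (hgp _ (ht τ hτ).1)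
  -- the transported integral
  have hle : ∫⁻ τ in Ioo (0:ℝ) 1, ENNReal.ofReal (ψ τ) ≤ 1 := by
    calc ∫⁻ τ in Ioo (0:ℝ) 1, ENNReal.ofReal (ψ τ)
        ≤ ∫⁻ τ in Ioo (0:ℝ) 1, ENNReal.ofReal |r' τ| * h (r τ) := by
          apply setLIntegral_mono' measurableSet_Ioo
          intro τ hτ
          rw [abs_of_pos (hr'pos τ hτ)]
          simp only [hψ]
          rw [ENNReal.ofReal_mul (hr'pos τ hτ).le]
          gcongr
          exact hh _ (hs τ hτ).1 _ (ht τ hτ).1
      _ = ∫⁻ x in r '' Ioo 0 1, h x := by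
          rw [lintegral_image_eq_lintegral_abs_deriv_mul measurableSet_Ioo
            (fun τ hτ => (hrd τ hτ).hasDerivWithinAt) hrm.injOn]
      _ ≤ ∫⁻ x, h x := setLIntegral_le_lintegral _ _
      _ ≤ 1 := hint
  have hone : ∫⁻ _ in Ioo (0:ℝ) 1, (1:ℝ≥0∞) = 1 := by simp
  have hae : (fun _ => (1:ℝ≥0∞)) =ᵐ[volume.restrict (Ioo (0:ℝ) 1)]
      fun τ => ENNReal.ofReal (ψ τ) := by
    apply ae_eq_of_ae_le_of_lintegral_le
    · filter_upwards [ae_restrict_mem measurableSet_Ioo] with τ hτ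
      simpa using ENNReal.ofReal_le_ofReal (hψ1 τ hτ)
    · rw [hone]; exact ENNReal.one_ne_top
    · exact (hψc.aemeasurable measurableSet_Ioo).ennreal_ofReal
    · rw [hone]; exact hle
  have hae' : (fun _ => (1:ℝ)) =ᵐ[volume.restrict (Ioo (0:ℝ) 1)] ψ := by
    filter_upwards [hae, ae_restrict_mem measurableSet_Ioo] with τ hτ hmem
    have h2 : (0:ℝ) ≤ ψ τ := by linarith [hψ1 τ hmem]
    have h3 := congrArg ENNReal.toReal hτ
    simpa [ENNReal.toReal_ofReal h2] using h3
  have heq : EqOn (fun _ => (1:ℝ)) ψ (Ioo 0 1) :=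
    Measure.eqOn_open_of_ae_eq hae' isOpen_Ioo continuousOn_const hψc
  have hfg : ∀ τ ∈ Ioo (0:ℝ) 1, f (s τ) = g (t τ) := fun τ hτ =>
    amgm_eq_one hl0 hl1 (hfp _ (hs τ hτ).1) (hgp _ (ht τ hτ).1) (heq hτ).symm
  -- the difference of the quantile functions is constant
  have hconst : ∀ τ ∈ Ioo (0:ℝ) 1, t τ - s τ = t (1/2) - s (1/2) := by
    intro τ hτ
    have hd : ∀ x ∈ Ioo (0:ℝ) 1, HasDerivAt (fun y => t y - s y) 0 x := by
      intro x hx
      have := (ht x hx).2.sub (hs x hx).2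
      rwa [hfg x hx, sub_self] at this
    have hdo : DifferentiableOn ℝ (fun y => t y - s y) (Ioo 0 1) :=
      fun x hx => (hd x hx).differentiableAt.differentiableWithinAt
    exact isOpen_Ioo.is_const_of_deriv_eq_zero (convex_Ioo _ _).isPreconnected hdo
      (fun x hx => (hd x hx).deriv) hτ (by norm_num)
  set c0 : ℝ := t (1/2) - s (1/2) with hc0
  have hts : ∀ τ ∈ Ioo (0:ℝ) 1, t τ = s τ + c0 := fun τ hτ => by
    have := hconst τ hτ; linarith
  have key : ∀ x ∈ Ioo a b, x + c0 ∈ Ioo c d ∧ g (x + c0) = f x := by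
    intro x hx
    obtain ⟨τ, hτ, rfl⟩ := hs' x hx
    rw [← hts τ hτ]
    exact ⟨(ht τ hτ).1, (hfg τ hτ).symm⟩
  have key2 : ∀ y ∈ Ioo c d, y - c0 ∈ Ioo a b := by
    intro y hy
    obtain ⟨τ, hτ, rfl⟩ := ht' y hy
    rw [hts τ hτ, add_sub_cancel_right]
    exact (hs τ hτ).1
  have hset : Ioo c d = Ioo (a + c0) (b + c0) := by
    ext y
    constructor
    · intro hy
      have := key2 y hy
      exact ⟨by linarith [this.1], by linarith [this.2]⟩
    · intro hy
      have := (key (y - c0) ⟨by linarith [hy.1], by linarith [hy.2]⟩).1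
      rwa [sub_add_cancel] at this
  have hcl : Icc c d = Icc (a + c0) (b + c0) := by
    rw [← closure_Ioo hcd.ne, ← closure_Ioo (by linarith : a + c0 < b + c0).ne, hset]
  refine ⟨c0, ?_, ?_, fun x hx => (key x hx).2⟩
  · have h1 : c ∈ Icc (a + c0) (b + c0) := hcl ▸ left_mem_Icc.2 hcd.le
    have h2 : a + c0 ∈ Icc c d := hcl ▸ left_mem_Icc.2 (by linarith)
    linarith [h1.1, h2.1]
  · have h1 : d ∈ Icc (a + c0) (b + c0) := hcl ▸ right_mem_Icc.2 hcd.le
    have h2 : b + c0 ∈ Icc c d := hcl ▸ right_mem_Icc.2 (by linarith)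
    linarith [h1.2, h2.2]

end Crest.Agent.R230
end

-- ▼ part R230/BMeqSlice
section

/-!
# Slices of convex bodies by the hyperplanes `⟨x,u⟩ = s` (row 230)
-/

set_option autoImplicit false
set_option linter.unusedSectionVars false

open MeasureTheory Set Filter Topology
open scoped ENNReal Pointwise

namespace Crest.Agent.R230

variable {V : Type*} [NormedAddCommGroup V] [InnerProductSpace ℝ V] [MeasurableSpace V]
  [BorelSpace V] [FiniteDimensional ℝ V]

/-- The slice of `K` at height `s` in direction `u`, as a subset of `u^⊥`. -/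
def slc (u : V) (K : Set V) (s : ℝ) : Set (ℝ ∙ u)ᗮ := {y | fib u (s, y) ∈ K}

theorem inner_fib {u : V} (hu : ‖u‖ = 1) (p : ℝ × (ℝ ∙ u)ᗮ) : inner ℝ (fib u p) u = p.1 := by
  unfold fib
  have h2 : inner ℝ (p.2 : V) u = 0 := by
    rw [real_inner_comm]
    exact Submodule.mem_orthogonal_singleton_iff_inner_right.1 p.2.2
  rw [inner_add_left, h2, add_zero, inner_smul_left, real_inner_self_eq_norm_sq, hu]
  simp

theorem fib_comb (u : V) (p q : ℝ × (ℝ ∙ u)ᗮ) (a b : ℝ) :
    fib u (a * p.1 + b * q.1, a • p.2 + b • q.2) = a • fib u p + b • fib u q := by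
  unfold fib
  simp only [Submodule.coe_add, Submodule.coe_smul, smul_add, add_smul, mul_smul]
  abel

theorem isCompact_slc {K : Set V} (hK : IsCompact K) (u : V) (s : ℝ) : IsCompact (slc u K s) := by
  rw [Metric.isCompact_iff_isClosed_bounded]
  constructor
  · exact hK.isClosed.preimage ((continuous_fib u).comp (continuous_const.prodMk continuous_id))
  · obtain ⟨R, hR⟩ := hK.isBounded.exists_norm_le
    rw [isBounded_iff_forall_norm_le]
    refine ⟨R + ‖s • u‖, fun y hy => ?_⟩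
    have h1 := hR _ hy
    have h2 : (y : V) = fib u (s, y) - s • u := by unfold fib; simp
    calc ‖y‖ = ‖(y : V)‖ := rfl
      _ ≤ ‖fib u (s, y)‖ + ‖s • u‖ := by rw [h2]; exact norm_sub_le _ _
      _ ≤ R + ‖s • u‖ := by linarith

theorem slc_comb (u : V) (K L : Set V) (s t a b : ℝ) :
    a • slc u K s + b • slc u L t ⊆ slc u (a • K + b • L) (a * s + b * t) := by
  rintro _ ⟨_, ⟨y, hy, rfl⟩, _, ⟨z, hz, rfl⟩, rfl⟩
  show fib u (a * s + b * t, a • y + b • z) ∈ a • K + b • L
  have := fib_comb u (s, y) (t, z) a b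
  simp only at this
  rw [this]
  exact add_mem_add (smul_mem_smul_set hy) (smul_mem_smul_set hz)

/-- The volume of the slice. -/
noncomputable def vs (u : V) (K : Set V) (s : ℝ) : ℝ := volume.real (slc u K s)


theorem vs_comb {K L : Set V} (hK : IsCompact K) (hL : IsCompact L) (u : V) (s t : ℝ) {lam : ℝ}
    (h0 : 0 < lam) (h1 : lam < 1) :
    vs u K s ^ lam * vs u L t ^ (1 - lam) ≤
      vs u (lam • K + (1 - lam) • L) (lam * s + (1 - lam) * t) := by
  have hC : IsCompact (lam • K + (1 - lam) • L) := (hK.smul lam).add (hL.smul _)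
  have h := BM_mult_real (isCompact_slc hK u s) (isCompact_slc hL u t) (t := 1 - lam)
    (by linarith) (by linarith)
  rw [sub_sub_cancel] at h
  refine h.trans ?_
  exact measureReal_mono (slc_comb u K L s t lam (1 - lam))
    (isCompact_slc hC u _).measure_lt_top.ne

/-- The lower and the upper end of `K` in direction `u`. -/
theorem exists_ends {K : Set V} (hK : IsCompact K) (hc : Convex ℝ K)
    (hi : (interior K).Nonempty) {u : V} (hu : ‖u‖ = 1) :
    ∃ a b : ℝ, a < b ∧ (∀ x ∈ K, a ≤ inner ℝ x u ∧ inner ℝ x u ≤ b) ∧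
      (∃ x ∈ K, inner ℝ x u = a) ∧ (∃ x ∈ K, inner ℝ x u = b) ∧
      ∀ s ∈ Ioo a b, ∃ x ∈ interior K, inner ℝ x u = s := by
  have hne : K.Nonempty := hi.mono interior_subset
  obtain ⟨p, hp, hpm⟩ := hK.exists_isMinOn hne (f := fun x : V => (inner ℝ x u : ℝ)) (by fun_prop)
  obtain ⟨q, hq, hqm⟩ := hK.exists_isMaxOn hne (f := fun x : V => (inner ℝ x u : ℝ)) (by fun_prop)
  have hsurj : ∀ s ∈ Ioo (inner ℝ p u : ℝ) (inner ℝ q u), ∃ x ∈ interior K, inner ℝ x u = s := by
    intro s hs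
    obtain ⟨z, hz⟩ := hi
    -- the image of the interior is convex and its closure contains both ends
    have himc : Convex ℝ ((fun x : V => (inner ℝ x u : ℝ)) '' interior K) := by
      have := hc.interior.linear_image ((innerₗ V).flip u)
      exact this
    have hcl : ∀ x ∈ K, (inner ℝ x u : ℝ) ∈ closure ((fun x : V => (inner ℝ x u : ℝ)) '' interior K) := by
      intro x hx
      have h1 : x ∈ closure (interior K) := by
        rw [hc.closure_interior_eq_closure_of_nonempty_interior ⟨z, hz⟩]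
        exact subset_closure hx
      exact image_closure_subset_closure_image (by fun_prop) ⟨x, h1, rfl⟩
    have hord : OrdConnected ((fun x : V => (inner ℝ x u : ℝ)) '' interior K) := himc.ordConnected
    obtain ⟨s1, hs1, hs1'⟩ : ∃ s1 ∈ (fun x : V => (inner ℝ x u : ℝ)) '' interior K, s1 < s := by
      have := mem_closure_iff.1 (hcl p hp) (Iio s) isOpen_Iio hs.1
      obtain ⟨s1, h1, h2⟩ := this
      exact ⟨s1, h2, h1⟩
    obtain ⟨s2, hs2, hs2'⟩ : ∃ s2 ∈ (fun x : V => (inner ℝ x u : ℝ)) '' interior K, s < s2 := by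
      have := mem_closure_iff.1 (hcl q hq) (Ioi s) isOpen_Ioi hs.2
      obtain ⟨s2, h1, h2⟩ := this
      exact ⟨s2, h2, h1⟩
    obtain ⟨x, hx, hxs⟩ := hord.out hs1 hs2 ⟨hs1'.le, hs2'.le⟩
    exact ⟨x, hx, hxs⟩
  refine ⟨inner ℝ p u, inner ℝ q u, ?_, fun x hx => ⟨hpm hx, hqm hx⟩, ⟨p, hp, rfl⟩, ⟨q, hq, rfl⟩,
    hsurj⟩
  -- strict inequality
  obtain ⟨z, hz⟩ := hi
  obtain ⟨ε, hε, hball⟩ := Metric.isOpen_iff.1 isOpen_interior z hz
  have h1 : z + (ε / 2) • u ∈ K := by
    apply interior_subset; apply hball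
    rw [mem_ball_iff_norm, add_sub_cancel_left, norm_smul, hu, mul_one, Real.norm_eq_abs,
      abs_of_pos (by positivity)]
    linarith
  have h2 : z - (ε / 2) • u ∈ K := by
    apply interior_subset; apply hball
    rw [mem_ball_iff_norm, sub_sub_cancel_left, norm_neg, norm_smul, hu, mul_one, Real.norm_eq_abs,
      abs_of_pos (by positivity)]
    linarith
  have h3 : (inner ℝ (z + (ε / 2) • u) u : ℝ) = inner ℝ z u + ε / 2 := by
    rw [inner_add_left, inner_smul_left, real_inner_self_eq_norm_sq, hu]; simp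
  have h4 : (inner ℝ (z - (ε / 2) • u) u : ℝ) = inner ℝ z u - ε / 2 := by
    rw [inner_sub_left, inner_smul_left, real_inner_self_eq_norm_sq, hu]; simp
  have h5 : (inner ℝ p u : ℝ) ≤ inner ℝ z u - ε / 2 := h4 ▸ hpm h2
  have h6 : (inner ℝ z u : ℝ) + ε / 2 ≤ inner ℝ q u := h3 ▸ hqm h1
  linarith

theorem vs_pos {K : Set V} (hK : IsCompact K) {u : V} (hu : ‖u‖ = 1) {x : V}
    (hx : x ∈ interior K) : 0 < vs u K (inner ℝ x u) := by
  unfold vs
  rw [measureReal_def, ENNReal.toReal_pos_iff]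
  refine ⟨?_, (isCompact_slc hK u _).measure_lt_top⟩
  apply Measure.measure_pos_of_nonempty_interior
  refine ⟨(ℝ ∙ u)ᗮ.orthogonalProjectionOnto x, ?_⟩
  rw [mem_interior_iff_mem_nhds]
  have hc : Continuous fun y : (ℝ ∙ u)ᗮ => fib u (inner ℝ x u, y) :=
    (continuous_fib u).comp (continuous_const.prodMk continuous_id)
  apply hc.continuousAt
  show K ∈ 𝓝 (fib u (inner ℝ x u, (ℝ ∙ u)ᗮ.orthogonalProjectionOnto x))
  rw [fib_proj hu]
  exact mem_interior_iff_mem_nhds.1 hx

theorem vs_eq_zero {K : Set V} {u : V} (hu : ‖u‖ = 1) {s : ℝ}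
    (h : ∀ x ∈ K, (inner ℝ x u : ℝ) ≠ s) : vs u K s = 0 := by
  unfold vs
  have : slc u K s = ∅ := by
    ext y
    simp only [slc, mem_ofPred_eq, mem_empty_iff_false, iff_false]
    intro hy
    exact h _ hy (inner_fib hu _)
  rw [this]; simp

theorem continuousOn_vs {K : Set V} (hK : IsCompact K) (hc : Convex ℝ K) {u : V} (hu : ‖u‖ = 1)
    {a b : ℝ} (h : ∀ s ∈ Ioo a b, ∃ x ∈ interior K, inner ℝ x u = s) :
    ContinuousOn (vs u K) (Ioo a b) := by
  have hpos : ∀ s ∈ Ioo a b, 0 < vs u K s := by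
    intro s hs
    obtain ⟨x, hx, rfl⟩ := h s hs
    exact vs_pos hK hu hx
  have hconc : ConcaveOn ℝ (Ioo a b) (fun s => Real.log (vs u K s)) := by
    refine ⟨convex_Ioo a b, ?_⟩
    intro s hs t ht p q hp hq hpq
    rcases hp.eq_or_lt with hp0 | hp0
    · have hq1 : q = 1 := by linarith
      simp [← hp0, hq1]
    rcases hq.eq_or_lt with hq0 | hq0
    · have hp1 : p = 1 := by linarith
      simp [← hq0, hp1]
    have hq' : q = 1 - p := by linarith
    subst hq'
    have h1 := vs_comb hK hK u s t hp0 (by linarith)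
    have h2 : p • K + (1 - p) • K = K := by
      rw [← hc.add_smul hp (by linarith)]; simp
    rw [h2] at h1
    have hs' := hpos s hs
    have ht' := hpos t ht
    have h3 := Real.log_le_log (by positivity) h1
    rw [Real.log_mul (by positivity) (by positivity), Real.log_rpow hs', Real.log_rpow ht'] at h3
    simpa using h3
  have h4 := hconc.continuousOn isOpen_Ioo
  refine (Real.continuous_exp.comp_continuousOn h4).congr ?_
  intro s hs
  simp only [Function.comp]
  rw [Real.exp_log (hpos s hs)]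

/-- Fubini along the slices. -/
theorem integral_slc {K : Set V} (hK : IsCompact K) {u : V} (hu : ‖u‖ = 1) {φ : ℝ → ℝ}
    (hφ : Continuous φ) :
    Integrable (fun s => φ s * vs u K s) volume ∧
      ∫ x in K, φ (inner ℝ x u) = ∫ s, φ s * vs u K s := by
  have hmp := measurePreserving_fib hu
  have hKm := hK.measurableSet
  have hpre : MeasurableSet (fib u ⁻¹' K) := hmp.measurable hKm
  -- the function on the product
  set F : ℝ × (ℝ ∙ u)ᗮ → ℝ := (fib u ⁻¹' K).indicator (fun p => φ p.1) with hF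
  have hF' : F = (K.indicator fun x => φ (inner ℝ x u)) ∘ fib u := by
    funext p
    by_cases hp : fib u p ∈ K
    · have hp' : p ∈ fib u ⁻¹' K := hp
      simp only [hF, Function.comp]
      rw [indicator_of_mem hp', indicator_of_mem hp, inner_fib hu]
    · have hp' : p ∉ fib u ⁻¹' K := hp
      simp only [hF, Function.comp]
      rw [indicator_of_notMem hp', indicator_of_notMem hp]
  have hG : Integrable (K.indicator fun x => φ (inner ℝ x u)) (volume : Measure V) := by
    rw [integrable_indicator_iff hKm]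
    apply ContinuousOn.integrableOn_compact hK
    fun_prop
  have hFi : Integrable F ((volume : Measure ℝ).prod (volume : Measure (ℝ ∙ u)ᗮ)) := by
    rw [hF']
    exact hmp.integrable_comp_of_integrable hG
  have hsec : ∀ s, ∫ y, F (s, y) = φ s * vs u K s := by
    intro s
    have : (fun y => F (s, y)) = (slc u K s).indicator (fun _ => φ s) := by
      funext y
      by_cases hp : fib u (s, y) ∈ K
      · have hp' : (s, y) ∈ fib u ⁻¹' K := hp
        have hp2 : y ∈ slc u K s := hp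
        simp only [hF]
        rw [indicator_of_mem hp', indicator_of_mem hp2]
      · have hp' : (s, y) ∉ fib u ⁻¹' K := hp
        have hp2 : y ∉ slc u K s := hp
        simp only [hF]
        rw [indicator_of_notMem hp', indicator_of_notMem hp2]
    rw [this, integral_indicator_const _ (isCompact_slc hK u s).measurableSet]
    simp [vs, mul_comm]
  constructor
  · have := hFi.integral_prod_left
    simpa only [hsec] using this
  · rw [← integral_indicator hKm]
    have hme : AEStronglyMeasurable (K.indicator fun x => φ (inner ℝ x u)) (volume : Measure V) :=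
      hG.aestronglyMeasurable
    calc ∫ x, K.indicator (fun x => φ (inner ℝ x u)) x
        = ∫ p, F p ∂((volume : Measure ℝ).prod (volume : Measure (ℝ ∙ u)ᗮ)) := by
          rw [hF', ← hmp.map_eq, integral_map hmp.measurable.aemeasurable]
          · rfl
          · rw [hmp.map_eq]; exact hme
      _ = ∫ s, ∫ y, F (s, y) := integral_prod _ hFi
      _ = _ := by simp only [hsec]

theorem integral_slc_interval {K : Set V} (hK : IsCompact K) {u : V} (hu : ‖u‖ = 1) {a b : ℝ}
    (hab : a < b) (h : ∀ x ∈ K, a ≤ (inner ℝ x u : ℝ) ∧ inner ℝ x u ≤ b) {φ : ℝ → ℝ}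
    (hφ : Continuous φ) :
    IntervalIntegrable (fun s => φ s * vs u K s) volume a b ∧
      ∫ x in K, φ (inner ℝ x u) = ∫ s in a..b, φ s * vs u K s := by
  obtain ⟨h1, h2⟩ := integral_slc hK hu hφ
  refine ⟨h1.intervalIntegrable, ?_⟩
  rw [h2, intervalIntegral.integral_of_le hab.le, ← integral_Icc_eq_integral_Ioc]
  symm
  apply setIntegral_eq_integral_of_forall_compl_eq_zero
  intro s hs
  rw [vs_eq_zero hu, mul_zero]
  intro x hx hxs
  exact hs (hxs ▸ ⟨(h x hx).1, (h x hx).2⟩)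

theorem lintegral_slc {K : Set V} (hK : IsCompact K) {u : V} (hu : ‖u‖ = 1) :
    ∫⁻ s, ENNReal.ofReal (vs u K s) = volume K := by
  have hmp := measurePreserving_fib hu
  rw [← hmp.measure_preimage hK.measurableSet.nullMeasurableSet,
    Measure.prod_apply (hmp.measurable hK.measurableSet)]
  congr 1
  funext s
  rw [vs, measureReal_def, ENNReal.ofReal_toReal (isCompact_slc hK u s).measure_lt_top.ne]
  rfl

end Crest.Agent.R230
end

-- ▼ part R230/BMeqGen
section

/-!
# Equality in the Brunn–Minkowski inequality (row 230)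
-/

set_option autoImplicit false
set_option linter.unusedSectionVars false

open MeasureTheory Set Filter Topology
open scoped ENNReal Pointwise

namespace Crest.Agent.R230

variable {V : Type*} [NormedAddCommGroup V] [InnerProductSpace ℝ V] [MeasurableSpace V]
  [BorelSpace V] [FiniteDimensional ℝ V]

/-- The marginals of the two bodies agree up to a translation, which is read off the centroids. -/
theorem ends_eq {K L : Set V} (hK : IsCompact K) (hKc : Convex ℝ K) (hKi : (interior K).Nonempty)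
    (hL : IsCompact L) (hLc : Convex ℝ L) (hLi : (interior L).Nonempty)
    (hK1 : volume.real K = 1) (hL1 : volume.real L = 1) {lam : ℝ} (h0 : 0 < lam) (h1 : lam < 1)
    (hM : volume.real (lam • K + (1 - lam) • L) ≤ 1) {u : V} (hu : ‖u‖ = 1) {b d : ℝ}
    (hb : ∀ x ∈ K, inner ℝ x u ≤ b) (hb' : ∃ x ∈ K, inner ℝ x u = b)
    (hd : ∀ x ∈ L, inner ℝ x u ≤ d) (hd' : ∃ x ∈ L, inner ℝ x u = d) :
    d = b + ((∫ x in L, inner ℝ x u) - ∫ x in K, inner ℝ x u) := by
  obtain ⟨a, b1, hab, hK2, -, hK4, hK5⟩ := exists_ends hK hKc hKi hu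
  obtain ⟨c, d1, hcd, hL2, -, hL4, hL5⟩ := exists_ends hL hLc hLi hu
  have hbb : b1 = b := by
    obtain ⟨x, hx, hx'⟩ := hb'
    obtain ⟨y, hy, hy'⟩ := hK4
    exact le_antisymm (hy' ▸ hb y hy) (hx' ▸ (hK2 x hx).2)
  have hdd : d1 = d := by
    obtain ⟨x, hx, hx'⟩ := hd'
    obtain ⟨y, hy, hy'⟩ := hL4
    exact le_antisymm (hy' ▸ hd y hy) (hx' ▸ (hL2 x hx).2)
  subst hbb hdd
  have hMc : IsCompact (lam • K + (1 - lam) • L) := (hK.smul lam).add (hL.smul _)
  obtain ⟨iK1, eK1⟩ := integral_slc_interval hK hu hab hK2 (φ := fun _ => 1) continuous_const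
  obtain ⟨iL1, eL1⟩ := integral_slc_interval hL hu hcd hL2 (φ := fun _ => 1) continuous_const
  obtain ⟨iK2, eK2⟩ := integral_slc_interval hK hu hab hK2 (φ := fun s => s) continuous_id
  obtain ⟨iL2, eL2⟩ := integral_slc_interval hL hu hcd hL2 (φ := fun s => s) continuous_id
  simp only [one_mul] at iK1 eK1 iL1 eL1
  rw [setIntegral_const, smul_eq_mul, mul_one] at eK1 eL1
  obtain ⟨c0, hc, hd0, hg⟩ := one_dim_eq (f := vs u K) (g := vs u L)
    (h := fun s => ENNReal.ofReal (vs u (lam • K + (1 - lam) • L) s)) h0 h1 hab hcd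
    (continuousOn_vs hK hKc hu hK5)
    (fun s hs => by obtain ⟨x, hx, rfl⟩ := hK5 s hs; exact vs_pos hK hu hx) iK1
    (by rw [← eK1, hK1])
    (continuousOn_vs hL hLc hu hL5)
    (fun s hs => by obtain ⟨x, hx, rfl⟩ := hL5 s hs; exact vs_pos hL hu hx) iL1
    (by rw [← eL1, hL1])
    (fun s _ t _ => ENNReal.ofReal_le_ofReal (vs_comb hK hL u s t h0 h1))
    (by
      rw [lintegral_slc hMc hu, ← ENNReal.ofReal_toReal hMc.measure_lt_top.ne]
      exact ENNReal.ofReal_le_one.2 hM)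
  have key : (∫ x in L, inner ℝ x u) = (∫ x in K, inner ℝ x u) + c0 := by
    rw [eK2, eL2, hc, hd0, ← intervalIntegral.integral_comp_add_right]
    have e3 : ∫ s in a..b1, (s + c0) * vs u L (s + c0) = ∫ s in a..b1, (s * vs u K s + c0 * vs u K s) := by
      rw [intervalIntegral.integral_of_le hab.le, intervalIntegral.integral_of_le hab.le,
        integral_Ioc_eq_integral_Ioo, integral_Ioc_eq_integral_Ioo]
      apply setIntegral_congr_fun measurableSet_Ioo
      intro s hs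
      simp only
      rw [hg s hs]; ring
    rw [e3, intervalIntegral.integral_add iK2 (iK1.const_mul c0), intervalIntegral.integral_const_mul,
      ← eK1, hK1, mul_one]
  rw [key, hd0]; ring

/-- Equality in Brunn–Minkowski for bodies of volume one. -/
theorem bm_eq_normalized {K L : Set V} (hK : IsCompact K) (hKc : Convex ℝ K)
    (hKi : (interior K).Nonempty)
    (hL : IsCompact L) (hLc : Convex ℝ L) (hLi : (interior L).Nonempty)
    (hK1 : volume.real K = 1) (hL1 : volume.real L = 1) {lam : ℝ} (h0 : 0 < lam) (h1 : lam < 1)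
    (hM : volume.real (lam • K + (1 - lam) • L) ≤ 1) :
    ∃ x0 : V, L = (fun x => x0 + x) '' K := by
  have hKn : K.Nonempty := hKi.mono interior_subset
  have hLn : L.Nonempty := hLi.mono interior_subset
  set x0 : V := (∫ x in L, x) - ∫ x in K, x with hx0
  have hint : ∀ {A : Set V}, IsCompact A → IntegrableOn (fun x : V => x) A volume := fun hA =>
    continuousOn_id.integrableOn_compact hA
  have hinner : ∀ u : V, inner ℝ x0 u = (∫ x in L, inner ℝ x u) - ∫ x in K, inner ℝ x u := by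
    intro u
    have h2 : ∀ {A : Set V}, IsCompact A → ∫ x in A, inner ℝ x u = inner ℝ (∫ x in A, x) u := by
      intro A hA
      have := integral_inner (𝕜 := ℝ) (μ := volume.restrict A) (f := fun x : V => x) (hint hA) u
      rw [real_inner_comm, ← this]
      congr 1
      funext x
      exact real_inner_comm _ _
    rw [hx0, inner_sub_left, h2 hL, h2 hK]
  refine ⟨x0, ?_⟩
  -- comparison of support functions
  have hsupp : ∀ u : V, ‖u‖ = 1 → ∃ b : ℝ, (∀ x ∈ K, inner ℝ x u ≤ b) ∧ (∃ x ∈ K, inner ℝ x u = b) ∧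
      (∀ x ∈ L, inner ℝ x u ≤ b + inner ℝ x0 u) ∧ (∃ x ∈ L, inner ℝ x u = b + inner ℝ x0 u) := by
    intro u hu
    obtain ⟨p, hp, hpm⟩ := hK.exists_isMaxOn hKn (f := fun x : V => (inner ℝ x u : ℝ)) (by fun_prop)
    obtain ⟨q, hq, hqm⟩ := hL.exists_isMaxOn hLn (f := fun x : V => (inner ℝ x u : ℝ)) (by fun_prop)
    have h2 := ends_eq hK hKc hKi hL hLc hLi hK1 hL1 h0 h1 hM hu (b := inner ℝ p u)
      (d := inner ℝ q u) (fun x hx => hpm hx) ⟨p, hp, rfl⟩ (fun x hx => hqm hx) ⟨q, hq, rfl⟩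
    rw [← hinner] at h2
    refine ⟨inner ℝ p u, fun x hx => hpm hx, ⟨p, hp, rfl⟩, ?_, ⟨q, hq, h2⟩⟩
    intro x hx
    rw [← h2]
    exact hqm hx
  have hsep : ∀ {A : Set V} (z : V), IsCompact A → Convex ℝ A → A.Nonempty → z ∉ A →
      ∃ u : V, ‖u‖ = 1 ∧ ∀ x ∈ A, (inner ℝ x u : ℝ) < inner ℝ z u := by
    intro A z hA hAc hAn hz
    obtain ⟨f, s, hf1, hf2⟩ := geometric_hahn_banach_closed_point hAc hA.isClosed hz
    set v := (InnerProductSpace.toDual ℝ V).symm f with hv
    have hfv : ∀ y, f y = inner ℝ y v := by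
      intro y
      rw [hv, real_inner_comm, InnerProductSpace.toDual_symm_apply]
    have hv0 : v ≠ 0 := by
      intro hv0
      obtain ⟨y, hy⟩ := hAn
      have h2 := hf1 y hy
      rw [hfv, hv0, inner_zero_right] at h2 hf2
      linarith
    have hvp : 0 < ‖v‖ := norm_pos_iff.2 hv0
    refine ⟨‖v‖⁻¹ • v, by rw [norm_smul, norm_inv, norm_norm, inv_mul_cancel₀ hvp.ne'], ?_⟩
    intro x hx
    rw [inner_smul_right, inner_smul_right]
    apply mul_lt_mul_of_pos_left _ (inv_pos.2 hvp)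
    rw [← hfv, ← hfv]
    exact (hf1 x hx).trans hf2
  apply Subset.antisymm
  · intro z hz
    by_contra hcon
    have hz' : z - x0 ∉ K := by
      intro h
      exact hcon ⟨z - x0, h, by simp⟩
    obtain ⟨u, hu, hsu⟩ := hsep (z - x0) hK hKc hKn hz'
    obtain ⟨b, -, ⟨p, hp, hpb⟩, hb3, -⟩ := hsupp u hu
    have h2 := hsu p hp
    rw [hpb, inner_sub_left] at h2
    have h3 := hb3 z hz
    linarith
  · rintro _ ⟨y, hy, rfl⟩
    by_contra hcon
    obtain ⟨u, hu, hsu⟩ := hsep (x0 + y) hL hLc hLn hcon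
    obtain ⟨b, hb1, -, -, ⟨q, hq, hqb⟩⟩ := hsupp u hu
    have h2 := hsu q hq
    rw [hqb, inner_add_left] at h2
    have h3 := hb1 y hy
    linarith

/-- **Equality in Brunn–Minkowski**: the bodies are homothetic. -/
theorem BM_eq (hn : 0 < Module.finrank ℝ V) {K L : Set V} (hK : IsCompact K) (hKc : Convex ℝ K)
    (hKi : (interior K).Nonempty) (hL : IsCompact L) (hLc : Convex ℝ L)
    (hLi : (interior L).Nonempty) (h : rt (K + L) ≤ rt K + rt L) :
    ∃ (c : ℝ) (a : V), 0 < c ∧ L = (fun x => a + c • x) '' K := by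
  have hα : 0 < rt K := rt_pos (volume_real_pos_of_interior hK hKi)
  have hβ : 0 < rt L := rt_pos (volume_real_pos_of_interior hL hLi)
  set α := rt K with hαd
  set β := rt L with hβd
  have hs : 0 < α + β := by positivity
  have hα' : α⁻¹ ≠ 0 := (inv_pos.2 hα).ne'
  have hβ' : β⁻¹ ≠ 0 := (inv_pos.2 hβ).ne'
  have e1 : volume.real (α⁻¹ • K) = 1 := by
    rw [← rt_pow hn, rt_smul hn _ (by positivity), ← hαd, inv_mul_cancel₀ hα.ne', one_pow]
  have e2 : volume.real (β⁻¹ • L) = 1 := by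
    rw [← rt_pow hn, rt_smul hn _ (by positivity), ← hβd, inv_mul_cancel₀ hβ.ne', one_pow]
  have e3 : (α / (α + β)) • α⁻¹ • K + (1 - α / (α + β)) • β⁻¹ • L = (α + β)⁻¹ • (K + L) := by
    rw [smul_add, smul_smul, smul_smul]
    congr 2
    · field_simp
    · field_simp
      ring
  have e4 : volume.real ((α / (α + β)) • α⁻¹ • K + (1 - α / (α + β)) • β⁻¹ • L) ≤ 1 := by
    rw [e3, ← rt_pow hn, rt_smul hn _ (by positivity)]
    apply pow_le_one₀ (mul_nonneg (by positivity) (rt_nonneg _))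
    rw [inv_mul_eq_div]
    exact (div_le_one hs).2 h
  obtain ⟨x0, hx0⟩ := bm_eq_normalized (K := α⁻¹ • K) (L := β⁻¹ • L) (hK.smul _) (hKc.smul _)
    (by rw [interior_smul₀ hα']; exact hKi.smul_set) (hL.smul _) (hLc.smul _)
    (by rw [interior_smul₀ hβ']; exact hLi.smul_set) e1 e2
    (div_pos hα hs) ((div_lt_one hs).2 (by linarith)) e4
  refine ⟨β / α, β • x0, by positivity, ?_⟩
  have h5 : L = β • (β⁻¹ • L) := by rw [smul_smul, mul_inv_cancel₀ hβ.ne', one_smul]
  rw [h5, hx0]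
  ext z
  simp only [mem_smul_set, mem_image]
  constructor
  · rintro ⟨_, ⟨_, ⟨x, hx, rfl⟩, rfl⟩, rfl⟩
    refine ⟨x, hx, ?_⟩
    rw [smul_add, smul_smul, div_eq_mul_inv]
  · rintro ⟨x, hx, rfl⟩
    refine ⟨_, ⟨_, ⟨x, hx, rfl⟩, rfl⟩, ?_⟩
    rw [smul_add, smul_smul, div_eq_mul_inv]

end Crest.Agent.R230
end

-- ▼ part R230/BMEq

/-!
# Brunn–Minkowski with equality, in the form of the skeleton (row 230, task E)
-/

set_option autoImplicit false

open MeasureTheory Set
open scoped Pointwise ENNReal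

namespace Crest.Agent.R230

variable {n : ℕ}

lemma rt_eq_vol (K : Set (E (n + 1))) : rt K = vol K ^ (1 / ((n : ℝ) + 1)) := by
  unfold rt vol
  rw [finrank_euclideanSpace_fin, measureReal_def]
  push_cast
  rfl


theorem brunn_minkowski_eq {K L : Set (E (n + 1))} (hK : CB K) (hL : CB L)
    (h : vol (K + L) ^ (1 / ((n : ℝ) + 1)) ≤ vol K ^ (1 / ((n : ℝ) + 1)) + vol L ^ (1 / ((n : ℝ) + 1))) :
    ∃ (a : E (n + 1)) (r : ℝ), 0 < r ∧ K = a +ᵥ r • L := by
  rw [← rt_eq_vol, ← rt_eq_vol, ← rt_eq_vol] at h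
  obtain ⟨c, a, hc, hKL⟩ := BM_eq (by rw [finrank_euclideanSpace_fin]; omega) hL.isCompact hL.convex
    hL.interior_nonempty hK.isCompact hK.convex hK.interior_nonempty
    (K := L) (L := K) (by rw [add_comm L K, add_comm (rt L)]; exact h)
  refine ⟨a, c, hc, ?_⟩
  rw [hKL]
  ext z
  simp only [mem_vadd_set, mem_smul_set, mem_image, vadd_eq_add]
  constructor
  · rintro ⟨x, hx, rfl⟩
    exact ⟨c • x, ⟨x, hx, rfl⟩, rfl⟩
  · rintro ⟨_, ⟨x, hx, rfl⟩, rfl⟩
    exact ⟨x, hx, rfl⟩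

end Crest.Agent.R230
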