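import Crest.Agent.R230.Bright
import Crest.Agent.R230.SupportPB
import Crest.Agent.R230.Basic
import Crest.Agent.R230.Frame
import Crest.Agent.R230.Mink
import Crest.Agent.R230.PBBasic
import Crest.Agent.R230.Ball

-- ▼ part R230/MixedPB
section

/-!
# Row 230, part G: `V_1(K,Π²K) = |ΠK|`
-/

set_option autoImplicit false

open MeasureTheory Set
open scoped Pointwise ENNReal

namespace Crest.Agent.R230

variable {n : ℕ}

theorem integrable_abs_inner_nu {K L : Set (E n)} (hK : CB K) (h0 : (0 : E n) ∈ interior K)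
    (hL : CB L) (hL0 : (0 : E n) ∈ interior L) :
    Integrable (Function.uncurry fun x y => |inner ℝ (nu L y) (nu K x)|)
      ((volume.restrict K).prod (volume.restrict L)) := by
  obtain ⟨C, hC⟩ := norm_nu_le hK h0
  obtain ⟨D, hD⟩ := norm_nu_le hL hL0
  have hKf : IsFiniteMeasure ((volume : Measure (E n)).restrict K) :=
    ⟨by rw [Measure.restrict_apply_univ]; exact hK.isCompact.measure_lt_top⟩
  have hLf : IsFiniteMeasure ((volume : Measure (E n)).restrict L) :=
    ⟨by rw [Measure.restrict_apply_univ]; exact hL.isCompact.measure_lt_top⟩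
  have hm : Measurable (Function.uncurry fun x y : E n => |inner ℝ (nu L y) (nu K x)|) := by
    have h1 : Measurable (fun p : E n × E n => nu L p.2) := (measurable_nu L).comp measurable_snd
    have h2 : Measurable (fun p : E n × E n => nu K p.1) := (measurable_nu K).comp measurable_fst
    exact (h1.inner h2).abs
  refine Integrable.of_bound hm.aestronglyMeasurable (D * C) (Filter.Eventually.of_forall ?_)
  rintro ⟨x, y⟩
  simp only [Function.uncurry_apply_pair, Real.norm_eq_abs, abs_abs]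
  refine (abs_real_inner_le_norm _ _).trans ?_
  exact mul_le_mul (hD y) (hC x) (norm_nonneg _) ((norm_nonneg _).trans (hD y))

theorem V1_PB_PB {K : Set (E (n + 1))} (hK : CB K) (h0 : (0 : E (n + 1)) ∈ interior K) :
    V1 K (PB (PB K)) = vol (PB K) := by
  have hP := CB_PB hK
  have hP0 := zero_mem_interior_PB hK
  have h1 : V1 K (PB (PB K)) = ∫ x in K, (((n + 1 : ℕ) : ℝ) / 2) *
      ∫ y in PB K, |inner ℝ (nu (PB K) y) (nu K x)| := by
    unfold V1
    refine integral_congr_ae (Filter.Eventually.of_forall fun x => ?_)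
    simp only
    rw [hs_PB hP, sh_eq_integral hP hP0]
  have h2 : vol (PB K) = ∫ y in PB K, (((n + 1 : ℕ) : ℝ) / 2) *
      ∫ x in K, |inner ℝ (nu K x) (nu (PB K) y)| := by
    have h3 : ∫ y in PB K, (((n + 1 : ℕ) : ℝ) / 2) *
        ∫ x in K, |inner ℝ (nu K x) (nu (PB K) y)| = ∫ y in PB K, (1 : ℝ) := by
      refine integral_congr_ae ?_
      filter_upwards [ae_hs_nu hP hP0] with y hy
      rw [← sh_eq_integral hK h0, ← hs_PB hK, hy]
    rw [h3]
    simp [vol, Measure.real]
  rw [h1, h2, integral_const_mul, integral_const_mul]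
  congr 1
  rw [integral_integral_swap (integrable_abs_inner_nu hK h0 hP hP0)]
  simp_rw [real_inner_comm]

end Crest.Agent.R230
end

-- ▼ part R230/SliceCore
section

/-!
# Row 230: the slice inequality (M), with the other modules as hypotheses
-/

set_option autoImplicit false

open MeasureTheory Set
open scoped Pointwise ENNReal

namespace Crest.Agent.R230

variable {n : ℕ}

lemma sl_isCompact_seg (x y : E n) : IsCompact (segment ℝ x y) := by
  rw [segment_eq_image']
  exact isCompact_Icc.image (by fun_prop)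

namespace Frame

variable {e : E (n + 1)} (F : Frame e)

/-- The adjoint of the frame embedding: orthogonal projection in the coordinates of the frame. -/
noncomputable def sl_P : E (n + 1) →L[ℝ] E n := (F.ι.toContinuousLinearMap).adjoint

lemma sl_inner_P (x : E (n + 1)) (v : E n) : inner ℝ (F.sl_P x) v = inner ℝ x (F.ι v) := by
  unfold sl_P
  rw [ContinuousLinearMap.adjoint_inner_left]
  rfl

lemma sl_P_coord (t : ℝ) (y : E n) : F.sl_P (t • e + F.ι y) = y := by
  refine ext_inner_right ℝ fun v => ?_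
  rw [sl_inner_P, inner_add_left, inner_smul_left, F.ι.inner_map_map, real_inner_comm, F.inner_eq]
  simp

lemma sl_P_surjective : Function.Surjective F.sl_P := fun y => ⟨(0 : ℝ) • e + F.ι y, F.sl_P_coord 0 y⟩

lemma sl_shadow_eq_image (K : Set (E (n + 1))) : F.shadow K = F.sl_P '' K := by
  ext y
  constructor
  · rintro ⟨t, ht⟩
    exact ⟨_, ht, F.sl_P_coord t y⟩
  · rintro ⟨x, hx, rfl⟩
    obtain ⟨t, z, rfl⟩ := F.surj x
    refine ⟨t, ?_⟩
    rwa [F.sl_P_coord]

lemma sl_isOpenMap_P : IsOpenMap F.sl_P := F.sl_P.isOpenMap F.sl_P_surjective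

lemma sl_CB_shadow {K : Set (E (n + 1))} (hK : CB K) : CB (F.shadow K) := by
  rw [sl_shadow_eq_image]
  refine ⟨hK.isCompact.image F.sl_P.continuous, hK.convex.linear_image F.sl_P.toLinearMap, ?_⟩
  refine (hK.interior_nonempty.image F.sl_P).mono ?_
  exact F.sl_isOpenMap_P.image_interior_subset K

lemma sl_zero_mem_interior_shadow {K : Set (E (n + 1))} (h0 : (0 : E (n + 1)) ∈ interior K) :
    (0 : E n) ∈ interior (F.shadow K) := by
  rw [sl_shadow_eq_image]
  apply F.sl_isOpenMap_P.image_interior_subset K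
  exact ⟨0, h0, map_zero _⟩

lemma sl_hs_shadow (K : Set (E (n + 1))) (v : E n) : hs (F.shadow K) v = hs K (F.ι v) := by
  unfold hs
  rw [sl_shadow_eq_image, Set.image_image]
  simp_rw [sl_inner_P]

lemma sl_slice_add_segment (K : Set (E (n + 1))) (v : E n) (t : ℝ) :
    F.slice (K + segment ℝ 0 (F.ι v)) t = F.slice K t + segment ℝ 0 v := by
  ext y
  simp only [slice, mem_ofPred_eq, Set.mem_add, segment_eq_image', sub_zero, zero_add, mem_image]
  constructor
  · rintro ⟨k, hk, _, ⟨s, hs, rfl⟩, h⟩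
    refine ⟨y - s • v, ?_, _, ⟨s, hs, rfl⟩, by abel⟩
    have : t • e + F.ι (y - s • v) = k := by
      rw [map_sub, map_smul, ← add_sub_assoc, ← h]; abel
    rwa [this]
  · rintro ⟨z, hz, _, ⟨s, hs, rfl⟩, rfl⟩
    refine ⟨_, hz, _, ⟨s, hs, rfl⟩, ?_⟩
    rw [map_add, map_smul]; abel


lemma sl_isClosed_slice {K : Set (E (n + 1))} (hK : IsClosed K) (t : ℝ) : IsClosed (F.slice K t) := by
  have : F.slice K t = (fun y => t • e + F.ι y) ⁻¹' K := rfl
  rw [this]
  exact hK.preimage (by have := F.ι.continuous; fun_prop)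

lemma sl_slice_subset (K : Set (E (n + 1))) (t : ℝ) : F.slice K t ⊆ F.shadow K := fun _ hy => ⟨t, hy⟩

lemma sl_isCompact_slice {K : Set (E (n + 1))} (hK : IsCompact K) (t : ℝ) :
    IsCompact (F.slice K t) := by
  refine (hK.image F.sl_P.continuous).of_isClosed_subset (F.sl_isClosed_slice hK.isClosed t) ?_
  rw [← sl_shadow_eq_image]
  exact F.sl_slice_subset K t

lemma sl_convex_slice {K : Set (E (n + 1))} (hK : Convex ℝ K) (t : ℝ) : Convex ℝ (F.slice K t) := by
  intro x hx y hy a b ha hb hab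
  have := hK hx hy ha hb hab
  have h2 : a • (t • e + F.ι x) + b • (t • e + F.ι y) = t • e + F.ι (a • x + b • y) := by
    rw [map_add, map_smul, map_smul]
    have : t • e = a • t • e + b • t • e := by rw [← add_smul, hab, one_smul]
    conv_rhs => rw [this]
    simp only [smul_add]; abel
  rw [h2] at this
  exact this

lemma sl_volume_eq_lintegral_slice {K : Set (E (n + 1))} (hK : MeasurableSet K) :
    volume K = ∫⁻ t, volume (F.slice K t) := by
  rw [← F.mp.measure_preimage hK.nullMeasurableSet,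
    Measure.prod_apply (F.mp.measurable hK)]
  rfl


/-- The set `{((t,v),y) : y ∈ slice K t + [0,v]}` is closed. -/
lemma sl_isClosed_sweep {K : Set (E (n + 1))} (hK : IsClosed K) :
    IsClosed {q : (ℝ × E n) × E n | q.2 ∈ F.slice K q.1.1 + segment ℝ 0 q.1.2} := by
  have h1 : IsClosed {r : ((ℝ × E n) × E n) × unitInterval |
      r.1.1.1 • e + F.ι (r.1.2 - (r.2 : ℝ) • r.1.1.2) ∈ K} := by
    refine hK.preimage ?_
    have := F.ι.continuous
    fun_prop
  have h2 := (isClosedMap_fst_of_compactSpace (X := (ℝ × E n) × E n) (Y := unitInterval)) _ h1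
  convert h2 using 1
  ext ⟨⟨t, v⟩, y⟩
  simp only [slice, mem_ofPred_eq, Set.mem_add, segment_eq_image', sub_zero, zero_add, mem_image]
  constructor
  · rintro ⟨z, hz, _, ⟨s, hs, rfl⟩, rfl⟩
    refine ⟨(((t, v), z + s • v), ⟨s, hs⟩), ?_, rfl⟩
    simpa using hz
  · rintro ⟨⟨q, s⟩, hs, rfl⟩
    exact ⟨_, hs, _, ⟨s, s.2, rfl⟩, by simp⟩

lemma sl_measurable_volume_sweep {K : Set (E (n + 1))} (hK : IsClosed K) :
    Measurable fun q : ℝ × E n => volume (F.slice K q.1 + segment ℝ 0 q.2) :=
  measurable_measure_prodMk_left (F.sl_isClosed_sweep hK).measurableSet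

lemma sl_measurable_sh_slice {K : Set (E (n + 1))} (hK : IsClosed K) :
    Measurable fun q : ℝ × E n => sh (F.slice K q.1) q.2 := by
  unfold sh vol
  refine ((F.sl_measurable_volume_sweep hK).ennreal_toReal).sub ?_
  have h := (F.sl_measurable_volume_sweep hK).ennreal_toReal.comp
    (measurable_fst.prodMk (measurable_const (a := (0 : E n))) : Measurable fun q : ℝ × E n => (q.1, (0 : E n)))
  convert h using 2
  simp

/-- The shadow function is additive over the slices. -/
lemma sl_ofReal_sh_iota {K : Set (E (n + 1))} (hK : IsCompact K) (v : E n) :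
    ENNReal.ofReal (sh K (F.ι v)) = ∫⁻ t, ENNReal.ofReal (sh (F.slice K t) v) := by
  have hcs : ∀ t, IsCompact (F.slice K t + segment ℝ 0 v) := fun t =>
    (F.sl_isCompact_slice hK t).add (sl_isCompact_seg 0 v)
  have hKs : IsCompact (K + segment ℝ 0 (F.ι v)) := hK.add (sl_isCompact_seg _ _)
  have key : ∀ t, ENNReal.ofReal (sh (F.slice K t) v)
      = volume (F.slice K t + segment ℝ 0 v) - volume (F.slice K t) := by
    intro t
    unfold sh vol
    rw [ENNReal.ofReal_sub _ ENNReal.toReal_nonneg, ENNReal.ofReal_toReal (hcs t).measure_lt_top.ne,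
      ENNReal.ofReal_toReal (F.sl_isCompact_slice hK t).measure_lt_top.ne]
  have hmeas : Measurable fun t => volume (F.slice K t) := by
    have := (F.sl_measurable_volume_sweep hK.isClosed).comp
      (measurable_id.prodMk (measurable_const (a := (0 : E n))) : Measurable fun t : ℝ => (t, (0 : E n)))
    convert this using 2
    simp
  simp_rw [key]
  have hsub : ∀ t, F.slice K t ⊆ F.slice K t + segment ℝ 0 v := fun t y hy =>
    ⟨y, hy, 0, left_mem_segment ℝ 0 v, by simp⟩
  rw [lintegral_sub hmeas (by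
      rw [← F.sl_volume_eq_lintegral_slice hK.measurableSet]; exact hK.measure_lt_top.ne)
    (Filter.Eventually.of_forall fun t => measure_mono (hsub t))]
  simp_rw [← F.sl_slice_add_segment K v]
  rw [← F.sl_volume_eq_lintegral_slice hK.measurableSet, ← F.sl_volume_eq_lintegral_slice hKs.measurableSet]
  unfold sh vol
  rw [ENNReal.ofReal_sub _ ENNReal.toReal_nonneg, ENNReal.ofReal_toReal hKs.measure_lt_top.ne,
    ENNReal.ofReal_toReal hK.measure_lt_top.ne]

lemma sl_measurable_swap {K : Set (E (n + 1))} (hK : IsCompact K) {ν : E n → E n} (hν : Measurable ν) :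
    Measurable (fun q : E n × ℝ => ENNReal.ofReal (sh (F.slice K q.2) (ν q.1))) := by
  have hg : Measurable fun q : E n × ℝ => (q.2, ν q.1) :=
    measurable_snd.prodMk (hν.comp measurable_fst)
  exact ((F.sl_measurable_sh_slice hK.isClosed).comp hg).ennreal_ofReal

lemma sl_lintegral_swap {K : Set (E (n + 1))} (hK : IsCompact K) {ν : E n → E n} (hν : Measurable ν)
    (Q : Set (E n)) :
    ∫⁻ x in Q, ENNReal.ofReal (sh K (F.ι (ν x)))
      = ∫⁻ t, ∫⁻ x in Q, ENNReal.ofReal (sh (F.slice K t) (ν x)) := by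
  have h1 : ∀ x, ENNReal.ofReal (sh K (F.ι (ν x))) = ∫⁻ t, ENNReal.ofReal (sh (F.slice K t) (ν x)) :=
    fun x => F.sl_ofReal_sh_iota hK (ν x)
  calc ∫⁻ x in Q, ENNReal.ofReal (sh K (F.ι (ν x)))
      = ∫⁻ x in Q, ∫⁻ t, ENNReal.ofReal (sh (F.slice K t) (ν x)) := lintegral_congr h1
    _ = ∫⁻ t, ∫⁻ x in Q, ENNReal.ofReal (sh (F.slice K t) (ν x)) :=
      lintegral_lintegral_swap (F.sl_measurable_swap hK hν).aemeasurable

/-- Almost every slice is a convex body or empty. -/
lemma sl_ae_slice {K : Set (E (n + 1))} (hK : CB K) (he : ‖e‖ = 1) :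
    ∀ᵐ t : ℝ, CB (F.slice K t) ∨ F.slice K t = ∅ := by
  set f : E (n + 1) →L[ℝ] ℝ := innerSL ℝ e with hf
  have hfe : ∀ (t : ℝ) (y : E n), f (t • e + F.ι y) = t := by
    intro t y
    simp only [hf, innerSL_apply_apply, inner_add_right, inner_smul_right]
    rw [real_inner_self_eq_norm_sq, he, real_inner_comm, F.inner_eq]
    simp
  have hfs : Function.Surjective f := fun t => ⟨t • e + F.ι 0, hfe t 0⟩
  have hopen : IsOpenMap f := f.isOpenMap hfs
  have hcI : Convex ℝ (f '' K) := hK.convex.linear_image f.toLinearMap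
  have hfr : volume (frontier (f '' K)) = 0 := hcI.addHaar_frontier volume
  have h1 : ∀ᵐ t : ℝ, t ∉ frontier (f '' K) := by
    rw [ae_iff]; simpa using hfr
  filter_upwards [h1] with t ht
  by_cases hm : t ∈ f '' K
  · left
    have hti : t ∈ interior (f '' K) := by
      by_contra hc
      exact ht ⟨subset_closure hm, hc⟩
    refine ⟨F.sl_isCompact_slice hK.isCompact t, F.sl_convex_slice hK.convex t, ?_⟩
    have h2 : interior (f '' K) ⊆ f '' interior K := by
      have hO : IsOpen (f '' interior K) := hopen _ isOpen_interior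
      have hOc : Convex ℝ (f '' interior K) := hK.convex.interior.linear_image f.toLinearMap
      have h3 : f '' K ⊆ closure (f '' interior K) := by
        have : K ⊆ closure (interior K) := by
          rw [hK.convex.closure_interior_eq_closure_of_nonempty_interior hK.interior_nonempty]
          exact subset_closure
        exact (image_mono this).trans (image_closure_subset_closure_image f.continuous)
      have h4 := interior_mono h3
      rwa [hOc.interior_closure_eq_interior_of_nonempty_interior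
        (by rw [hO.interior_eq]; exact hK.interior_nonempty.image f), hO.interior_eq] at h4
    obtain ⟨x, hx, hxt⟩ := h2 hti
    obtain ⟨s, y, rfl⟩ := F.surj x
    rw [hfe] at hxt
    subst hxt
    refine ⟨y, ?_⟩
    have hO : IsOpen (F.slice (interior K) s) := by
      have : F.slice (interior K) s = (fun y => s • e + F.ι y) ⁻¹' (interior K) := rfl
      rw [this]
      exact isOpen_interior.preimage (by have := F.ι.continuous; fun_prop)
    exact interior_maximal (s := F.slice K s) (fun z hz => interior_subset (s := K) hz) hO hx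
  · right
    ext y
    simp only [mem_empty_iff_false, iff_false]
    intro hy
    exact hm ⟨_, hy, hfe t y⟩

end Frame

lemma sl_ofReal_integral_le {α : Type*} [MeasurableSpace α] {μ : Measure α} (f : α → ℝ) (hf : 0 ≤ f) :
    ENNReal.ofReal (∫ x, f x ∂μ) ≤ ∫⁻ x, ENNReal.ofReal (f x) ∂μ := by
  by_cases h : Integrable f μ
  · rw [ofReal_integral_eq_lintegral_ofReal h (Filter.Eventually.of_forall hf)]
  · rw [integral_undef h]; simp

lemma sl_V1_nonneg {K L : Set (E n)} (h : (0 : E n) ∈ L) : 0 ≤ V1 K L :=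
  integral_nonneg fun _ => hs_nonneg h _

lemma sl_ofReal_V1_PB_le {Q L : Set (E n)} (h0 : (0 : E n) ∈ PB L)
    (hs_PB : ∀ u : E n, hs (PB L) u = sh L u) :
    ENNReal.ofReal (V1 Q (PB L)) ≤ ∫⁻ x in Q, ENNReal.ofReal (sh L (nu Q x)) := by
  have h1 : (fun x => sh L (nu Q x)) = fun x => hs (PB L) (nu Q x) := by
    funext x; rw [hs_PB]
  have h2 := sl_ofReal_integral_le (μ := volume.restrict Q) (fun x => sh L (nu Q x))
    (by rw [h1]; exact fun x => hs_nonneg h0 _)
  have h3 : V1 Q (PB L) = ∫ x in Q, sh L (nu Q x) := by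
    unfold V1; rw [h1]
  rw [h3]
  exact h2

/-- The slice inequality, from the properties of projection bodies, the gauge calculus, and
Minkowski's first inequality (all of them hypotheses here). -/
theorem slice_ineq_core {m : ℕ} (hn2 : 2 ≤ m + 1) {c : ℝ} (hc : 0 ≤ c)
    (hP : ∀ L : Set (E (m + 1)), CB L → c * vol L ^ m ≤ vol (PB L))
    {K : Set (E (m + 1 + 1))} (hK : CB K) {e : E (m + 1 + 1)} (he : ‖e‖ = 1) (F : Frame e)
    (hM : CB (PB K)) (hM0 : (0 : E (m + 1 + 1)) ∈ interior (PB K))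
    (hs_PBK : ∀ u, hs (PB K) u = sh K u)
    (hsh : sh (PB K) e = vol (F.shadow (PB K)))
    (area_eq : ∀ t, area K e t = vol (F.slice K t))
    (CB_PB : ∀ L : Set (E (m + 1)), CB L → CB (PB L))
    (zero_mem_interior_PB : ∀ L : Set (E (m + 1)), CB L → (0 : E (m + 1)) ∈ interior (PB L))
    (hs_PB : ∀ L : Set (E (m + 1)), CB L → ∀ u, hs (PB L) u = sh L u)
    (minkowski_first : ∀ Q L : Set (E (m + 1)), CB Q → (0 : E (m + 1)) ∈ interior Q → CB L →
      vol Q ^ m * vol L ≤ V1 Q L ^ (m + 1))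
    (ae_hs_nu : ∀ Q : Set (E (m + 1)), CB Q → (0 : E (m + 1)) ∈ interior Q →
      ∀ᵐ x ∂(volume.restrict Q), hs Q (nu Q x) = 1)
    (measurable_nu : ∀ Q : Set (E (m + 1)), Measurable (nu Q)) :
    c * NK K e ≤ sh (PB K) e := by
  set Q := F.shadow (PB K) with hQdef
  have hQ : CB Q := F.sl_CB_shadow hM
  have hQ0 : (0 : E (m + 1)) ∈ interior Q := F.sl_zero_mem_interior_shadow hM0
  have hQv : 0 < vol Q := hQ.vol_pos
  rw [hsh]
  set p : ℝ := (((m + 1 : ℕ) : ℝ) - 1) / ((m + 1 : ℕ) : ℝ) with hp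
  have hm1 : (0 : ℝ) < ((m + 1 : ℕ) : ℝ) := by positivity
  have hp0 : 0 < p := by
    rw [hp]
    apply div_pos _ hm1
    have : (2 : ℝ) ≤ ((m + 1 : ℕ) : ℝ) := by exact_mod_cast hn2
    linarith
  set a : ℝ := vol Q ^ p * c ^ (1 / ((m + 1 : ℕ) : ℝ)) with ha
  have ha0 : 0 ≤ a := by positivity
  -- lower bound for the mixed volume of a slice
  have hslice : ∀ L : Set (E (m + 1)), CB L → a * vol L ^ p ≤ V1 Q (PB L) := by
    intro L hL
    have hPL := CB_PB L hL
    have hV0 : 0 ≤ V1 Q (PB L) := sl_V1_nonneg (interior_subset (zero_mem_interior_PB L hL))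
    have h1 := minkowski_first Q _ hQ hQ0 hPL
    have h2 := hP L hL
    have h3 : (a * vol L ^ p) ^ (m + 1) ≤ V1 Q (PB L) ^ (m + 1) := by
      refine le_trans (le_of_eq ?_) ((mul_le_mul_of_nonneg_left h2 (pow_nonneg hQv.le m)).trans h1)
      have hL0 : 0 ≤ vol L := vol_nonneg L
      have hpp : ∀ x : ℝ, 0 ≤ x → (x ^ p) ^ (m + 1) = x ^ m := by
        intro x hx
        rw [← Real.rpow_natCast, ← Real.rpow_mul hx, hp, div_mul_cancel₀ _ hm1.ne']
        rw [← Real.rpow_natCast]
        congr 1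
        push_cast; ring
      rw [ha, mul_pow, mul_pow, hpp _ hQv.le, hpp _ hL0, ← Real.rpow_natCast (c ^ _),
        ← Real.rpow_mul hc, one_div, inv_mul_cancel₀ hm1.ne', Real.rpow_one]
      ring
    exact le_of_pow_le_pow_left₀ (Nat.succ_ne_zero m) hV0 h3
  -- the main chain
  have hchain : ENNReal.ofReal (∫ t, a * area K e t ^ p) ≤ volume Q := by
    refine (sl_ofReal_integral_le _ fun t => mul_nonneg ha0 (Real.rpow_nonneg
      (by unfold area; exact ENNReal.toReal_nonneg) _)).trans ?_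
    have hswap : volume Q = ∫⁻ t, ∫⁻ x in Q, ENNReal.ofReal (sh (F.slice K t) (nu Q x)) := by
      have h1 : volume Q = ∫⁻ x in Q, ENNReal.ofReal (sh K (F.ι (nu Q x))) := by
        have : ∫⁻ x in Q, ENNReal.ofReal (sh K (F.ι (nu Q x))) = ∫⁻ x in Q, 1 := by
          apply lintegral_congr_ae
          filter_upwards [ae_hs_nu Q hQ hQ0] with x hx
          rw [← hs_PBK, ← F.sl_hs_shadow, hx, ENNReal.ofReal_one]
        rw [this]; simp
      exact h1.trans (F.sl_lintegral_swap hK.isCompact (measurable_nu Q) Q)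
    rw [hswap]
    apply lintegral_mono_ae
    filter_upwards [F.sl_ae_slice hK he] with t ht
    rw [area_eq t]
    rcases ht with ht | ht
    · exact (ENNReal.ofReal_le_ofReal (hslice _ ht)).trans
        (sl_ofReal_V1_PB_le (interior_subset (zero_mem_interior_PB _ ht)) (hs_PB _ ht))
    · rw [ht]
      have : vol (∅ : Set (E (m + 1))) = 0 := by simp [vol]
      rw [this, Real.zero_rpow hp0.ne']
      simp
  rw [integral_const_mul] at hchain
  set I := ∫ t, area K e t ^ p with hI
  have hI0 : 0 ≤ I := integral_nonneg fun t => Real.rpow_nonneg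
      (by unfold area; exact ENNReal.toReal_nonneg) _
  have h1 : a * I ≤ vol Q := (ENNReal.ofReal_le_iff_le_toReal hQ.isCompact.measure_lt_top.ne).1 hchain
  have hNK : NK K e = I ^ (m + 1) := rfl
  rw [hNK]
  have h2 : (a * I) ^ (m + 1) ≤ vol Q ^ (m + 1) := pow_le_pow_left₀ (mul_nonneg ha0 hI0) h1 _
  have h3 : (a * I) ^ (m + 1) = vol Q ^ m * (c * I ^ (m + 1)) := by
    rw [ha, mul_pow, mul_pow, ← Real.rpow_natCast (vol Q ^ p), ← Real.rpow_mul hQv.le, hp,
      div_mul_cancel₀ _ hm1.ne', ← Real.rpow_natCast (c ^ _),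
      ← Real.rpow_mul hc, one_div, inv_mul_cancel₀ hm1.ne', Real.rpow_one]
    have : ((m + 1 : ℕ) : ℝ) - 1 = (m : ℝ) := by push_cast; ring
    rw [this, Real.rpow_natCast]
    ring
  rw [h3, pow_succ] at h2
  exact le_of_mul_le_mul_left h2 (pow_pos hQv m)

end Crest.Agent.R230
end

-- ▼ part R230/SliceM
section

/-!
# Row 230: the slice inequality (M)
-/

set_option autoImplicit false

open MeasureTheory Set
open scoped Pointwise ENNReal

namespace Crest.Agent.R230

variable {n : ℕ}

/-! ### H: the slice inequality (M) (SliceM.lean) -/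

theorem slice_ineq (hn : 1 ≤ n) {c : ℝ} (hc : 0 ≤ c)
    (hP : ∀ L : Set (E n), CB L → c * vol L ^ (n - 1) ≤ vol (PB L))
    {K : Set (E (n + 1))} (hK : CB K) {e : E (n + 1)} (he : ‖e‖ = 1) (hn2 : 2 ≤ n) :
    c * NK K e ≤ sh (PB K) e := by
  obtain ⟨m, rfl⟩ : ∃ m, n = m + 1 := ⟨n - 1, by omega⟩
  obtain ⟨F⟩ := exists_frame e he
  have hM : CB (PB K) := CB_PB hK
  have hsh : sh (PB K) e = vol (F.shadow (PB K)) := by
    have := sh_eq_shadow hM.isCompact hM.convex he F (c := 1) zero_le_one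
    simpa using this
  exact slice_ineq_core hn2 hc (by simpa using hP) hK he F hM (zero_mem_interior_PB hK)
    (hs_PB hK) hsh (area_eq he F) (fun _ hL => CB_PB hL) (fun _ hL => zero_mem_interior_PB hL)
    (fun _ hL => hs_PB hL) (fun _ _ hQ hQ0 hL => minkowski_first hQ hQ0 hL)
    (fun _ hQ hQ0 => ae_hs_nu hQ hQ0) measurable_nu

end Crest.Agent.R230
end

-- ▼ part R230/Minimiser
section

/-!
# Row 230: existence of a minimiser of `|ΠK| / |K|^n` over the convex bodies of dimension `n + 1`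
-/

set_option autoImplicit false

open MeasureTheory Set TopologicalSpace
open scoped Pointwise ENNReal Topology

namespace Crest.Agent.R230

variable {n : ℕ}

/-- sandwich: if every point of `L` is at distance at most `d` of `K ⊇ B(c,r)` then `L` is contained
in a translate of `(1+d/r) K`. -/
lemma subset_of_near {K L : Set (E n)} (hKc : Convex ℝ K) {c : E n} {r d : ℝ}
    (hr : 0 < r) (hc : Metric.closedBall c r ⊆ K) (hd : 0 ≤ d)
    (h : ∀ x ∈ L, ∃ y ∈ K, dist x y ≤ d) :
    L ⊆ (-((d / r) • c)) +ᵥ ((1 + d / r) • K) := by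
  intro x hx
  obtain ⟨y, hy, hxy⟩ := h x hx
  rw [dist_eq_norm] at hxy
  set w : E n := c + (r / d) • (x - y) with hw
  have hwK : w ∈ K := by
    apply hc
    rw [Metric.mem_closedBall, dist_eq_norm, hw, add_sub_cancel_left, norm_smul, Real.norm_eq_abs,
      abs_of_nonneg (by positivity)]
    rcases eq_or_lt_of_le hd with h0 | h0
    · rw [← h0]; simp [hr.le]
    · rw [div_mul_eq_mul_div, div_le_iff₀ h0]
      gcongr
  have hpos : 0 < 1 + d / r := by positivity
  have hz : (1 / (1 + d / r)) • y + ((d / r) / (1 + d / r)) • w ∈ K :=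
    hKc hy hwK (by positivity) (by positivity) (by field_simp)
  refine ⟨(1 + d / r) • ((1 / (1 + d / r)) • y + ((d / r) / (1 + d / r)) • w), ⟨_, hz, rfl⟩, ?_⟩
  have e1 : (1 + d / r) * (1 / (1 + d / r)) = 1 := by field_simp
  have e2 : (1 + d / r) * ((d / r) / (1 + d / r)) = d / r := by field_simp
  simp only [vadd_eq_add, smul_add, smul_smul]
  rw [e1, e2, one_smul, hw, smul_add, smul_smul]
  have e3 : (d / r * (r / d)) • (x - y) = x - y := by
    rcases eq_or_lt_of_le hd with h0 | h0
    · have : x - y = 0 := by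
        rw [← norm_le_zero_iff, h0]; exact hxy
      rw [this]; simp
    · have : d / r * (r / d) = 1 := by field_simp
      rw [this, one_smul]
  rw [e3]
  abel

/-- The functional to be minimised -/
noncomputable def FP {n : ℕ} (K : Set (E (n + 1))) : ℝ := vol (PB K) / vol K ^ n

lemma FP_le {K L : Set (E (n + 1))} (hK : CB K) (hL : CB L) {c : E (n + 1)} {r d : ℝ} (hr : 0 < r)
    (hcK : Metric.closedBall c r ⊆ K) (hcL : Metric.closedBall c r ⊆ L) (hd : 0 ≤ d)
    (h1 : ∀ x ∈ L, ∃ y ∈ K, dist x y ≤ d) (h2 : ∀ x ∈ K, ∃ y ∈ L, dist x y ≤ d) :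
    FP K ≤ ((1 + d / r) ^ (n * (n + 1))) ^ 2 * FP L := by
  have hpos : 0 < 1 + d / r := by positivity
  have hvK := hK.vol_pos
  have hvL := hL.vol_pos
  have s1 := subset_of_near hK.convex hr hcK hd h1
  have s2 := subset_of_near hL.convex hr hcL hd h2
  have b1 : vol L ≤ (1 + d / r) ^ (n + 1) * vol K := by
    have hc : CB ((-((d / r) • c)) +ᵥ ((1 + d / r) • K)) := (hK.smul hpos.ne').vadd _
    have := vol_mono hc.isCompact s1
    rwa [vol_vadd, vol_smul, abs_of_pos hpos] at this
  have b2 : vol (PB K) ≤ (1 + d / r) ^ (n * (n + 1)) * vol (PB L) := by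
    have hc' : CB ((1 + d / r) • L) := hL.smul hpos.ne'
    have hc : CB ((-((d / r) • c)) +ᵥ ((1 + d / r) • L)) := hc'.vadd _
    have := vol_mono (CB_PB hc).isCompact
      (PB_mono hK.isCompact hK.convex hc.isCompact hc.convex s2)
    rw [PB_vadd, PB_smul hL.isCompact hL.convex hpos, vol_smul, abs_of_pos (by positivity),
      ← pow_mul] at this
    exact this
  have b3 : vol L ^ n ≤ (1 + d / r) ^ (n * (n + 1)) * vol K ^ n := by
    calc vol L ^ n ≤ ((1 + d / r) ^ (n + 1) * vol K) ^ n := by gcongr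
      _ = (1 + d / r) ^ (n * (n + 1)) * vol K ^ n := by rw [mul_pow, ← pow_mul, mul_comm (n + 1) n]
  unfold FP
  rw [div_le_iff₀ (by positivity)]
  have hP : 0 ≤ vol (PB L) := vol_nonneg _
  set ρ := (1 + d / r) ^ (n * (n + 1)) with hρ
  have hρ0 : 0 < ρ := by positivity
  calc vol (PB K) ≤ ρ * vol (PB L) := b2
    _ = ρ * (vol (PB L) / vol L ^ n) * vol L ^ n := by field_simp
    _ ≤ ρ * (vol (PB L) / vol L ^ n) * (ρ * vol K ^ n) := by gcongr
    _ = ρ ^ 2 * (vol (PB L) / vol L ^ n) * vol K ^ n := by ring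

/-- the normalised class -/
def NC (c : E n) (r R : ℝ) : Set (NonemptyCompacts (E n)) :=
  {K | (K : Set (E n)) ⊆ Metric.closedBall 0 R} ∩
    ({K | Convex ℝ (K : Set (E n))} ∩ {K | Metric.closedBall c r ⊆ (K : Set (E n))})

lemma isClosed_convex : IsClosed {K : NonemptyCompacts (E n) | Convex ℝ (K : Set (E n))} := by
  rw [← isOpen_compl_iff, isOpen_iff_mem_nhds]
  intro K hK
  simp only [mem_compl_iff, mem_ofPred_eq, Convex, StarConvex, not_forall] at hK
  obtain ⟨x, hx, y, hy, a, b, ha, hb, hab, hxy⟩ := hK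
  have hcl : IsClosed (K : Set (E n)) := K.isCompact.isClosed
  -- separate the point `a x + b y` from `K`
  obtain ⟨ε, hε, hball⟩ : ∃ ε > 0, Metric.closedBall (a • x + b • y) ε ⊆ (K : Set (E n))ᶜ := by
    have := hcl.isOpen_compl.mem_nhds (show a • x + b • y ∈ (K : Set (E n))ᶜ from hxy)
    exact Metric.nhds_basis_closedBall.mem_iff.1 this
  have o1 : IsOpen {L : NonemptyCompacts (E n) | (L : Set (E n)) ⊆ (Metric.closedBall (a • x + b • y) ε)ᶜ} :=
    NonemptyCompacts.isOpen_subsets_of_isOpen Metric.isClosed_closedBall.isOpen_compl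
  have o2 : IsOpen {L : NonemptyCompacts (E n) | ((L : Set (E n)) ∩ Metric.ball x ε).Nonempty} :=
    NonemptyCompacts.isOpen_inter_nonempty_of_isOpen Metric.isOpen_ball
  have o3 : IsOpen {L : NonemptyCompacts (E n) | ((L : Set (E n)) ∩ Metric.ball y ε).Nonempty} :=
    NonemptyCompacts.isOpen_inter_nonempty_of_isOpen Metric.isOpen_ball
  have m1 := o1.mem_nhds (show K ∈ _ from fun z hz hz' => hball hz' hz)
  have m2 := o2.mem_nhds (show K ∈ _ from ⟨x, hx, Metric.mem_ball_self hε⟩)
  have m3 := o3.mem_nhds (show K ∈ _ from ⟨y, hy, Metric.mem_ball_self hε⟩)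
  filter_upwards [m1, m2, m3] with L h1 h2 h3 hconv
  obtain ⟨x', hx', hxx⟩ := h2
  obtain ⟨y', hy', hyy⟩ := h3
  refine h1 (hconv hx' hy' ha hb hab) ?_
  rw [Metric.mem_ball, dist_eq_norm] at hxx hyy
  rw [Metric.mem_closedBall, dist_eq_norm]
  have : a • x' + b • y' - (a • x + b • y) = a • (x' - x) + b • (y' - y) := by
    simp only [smul_sub]; abel
  rw [this]
  calc ‖a • (x' - x) + b • (y' - y)‖ ≤ ‖a • (x' - x)‖ + ‖b • (y' - y)‖ := norm_add_le _ _
    _ = a * ‖x' - x‖ + b * ‖y' - y‖ := by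
      rw [norm_smul, norm_smul, Real.norm_eq_abs, Real.norm_eq_abs, abs_of_nonneg ha, abs_of_nonneg hb]
    _ ≤ a * ε + b * ε := by gcongr
    _ = ε := by rw [← add_mul, hab, one_mul]

lemma isCompact_NC (c : E n) (r R : ℝ) : IsCompact (NC c r R) := by
  refine (NonemptyCompacts.isCompact_subsets_of_isCompact (isCompact_closedBall 0 R)).inter_right
    (isClosed_convex.inter ?_)
  have : {K : NonemptyCompacts (E n) | Metric.closedBall c r ⊆ (K : Set (E n))}
      = ⋂ x ∈ Metric.closedBall c r,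
        {K : NonemptyCompacts (E n) | ((K : Set (E n)) ∩ {x}).Nonempty} := by
    ext K
    simp only [mem_ofPred_eq, mem_iInter, inter_singleton_nonempty]
    rfl
  rw [this]
  exact isClosed_biInter fun x _ => NonemptyCompacts.isClosed_inter_nonempty_of_isClosed isClosed_singleton

lemma NC.CB {c : E n} {r R : ℝ} (hr : 0 < r) {K : NonemptyCompacts (E n)} (hK : K ∈ NC c r R) :
    CB (K : Set (E n)) :=
  ⟨K.isCompact, hK.2.1, ⟨c, interior_mono hK.2.2 (by
    rw [interior_closedBall c hr.ne']; exact Metric.mem_ball_self hr)⟩⟩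

lemma exists_near {K L : NonemptyCompacts (E n)} :
    ∀ x ∈ (K : Set (E n)), ∃ y ∈ (L : Set (E n)), dist x y ≤ dist K L := by
  intro x hx
  obtain ⟨y, hy, h⟩ := L.isCompact.exists_infDist_eq_dist L.nonempty x
  refine ⟨y, hy, ?_⟩
  rw [← h]
  exact Metric.infDist_le_hausdorffDist_of_mem hx (Metric.hausdorffEDist_ne_top_of_nonempty_of_bounded
    K.nonempty L.nonempty K.isCompact.isBounded L.isCompact.isBounded)


lemma continuousOn_FP {c : E (n + 1)} {r R : ℝ} (hr : 0 < r) :
    ContinuousOn (fun K : NonemptyCompacts (E (n + 1)) => FP (K : Set (E (n + 1)))) (NC c r R) := by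
  intro K hK
  have key : ∀ L ∈ NC c r R, FP (K : Set (E (n + 1))) ≤
      ((1 + dist L K / r) ^ (n * (n + 1))) ^ 2 * FP (L : Set (E (n + 1))) := by
    intro L hL
    exact FP_le (NC.CB hr hK) (NC.CB hr hL) hr hK.2.2 hL.2.2 dist_nonneg exists_near
      (by rw [dist_comm]; exact exists_near)
  have key2 : ∀ L ∈ NC c r R, FP (L : Set (E (n + 1))) ≤
      ((1 + dist L K / r) ^ (n * (n + 1))) ^ 2 * FP (K : Set (E (n + 1))) := by
    intro L hL
    exact FP_le (NC.CB hr hL) (NC.CB hr hK) hr hL.2.2 hK.2.2 dist_nonneg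
      (by rw [dist_comm]; exact exists_near) exists_near
  have hd : Filter.Tendsto (fun L : NonemptyCompacts (E (n + 1)) =>
      ((1 + dist L K / r) ^ (n * (n + 1))) ^ 2) (𝓝[NC c r R] K) (𝓝 1) := by
    have hc : Continuous (fun L : NonemptyCompacts (E (n + 1)) =>
      ((1 + dist L K / r) ^ (n * (n + 1))) ^ 2) := by fun_prop
    have := (hc.tendsto K).mono_left (nhdsWithin_le_nhds (s := NC c r R))
    simpa using this
  have l1 : Filter.Tendsto (fun L : NonemptyCompacts (E (n + 1)) =>
      FP (K : Set (E (n + 1))) / ((1 + dist L K / r) ^ (n * (n + 1))) ^ 2) (𝓝[NC c r R] K)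
      (𝓝 (FP (K : Set (E (n + 1))))) := by
    have h := (tendsto_const_nhds (x := FP (K : Set (E (n + 1))))).div hd one_ne_zero
    rw [div_one] at h
    exact h
  have l2 : Filter.Tendsto (fun L : NonemptyCompacts (E (n + 1)) =>
      ((1 + dist L K / r) ^ (n * (n + 1))) ^ 2 * FP (K : Set (E (n + 1)))) (𝓝[NC c r R] K)
      (𝓝 (FP (K : Set (E (n + 1))))) := by
    simpa using hd.mul_const (FP (K : Set (E (n + 1))))
  refine tendsto_of_tendsto_of_tendsto_of_le_of_le' l1 l2 ?_ ?_
  · filter_upwards [self_mem_nhdsWithin] with L hL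
    rw [div_le_iff₀ (by positivity), mul_comm]
    exact key L hL
  · filter_upwards [self_mem_nhdsWithin] with L hL
    exact key2 L hL

/-- every set which contains the origin and spans has a "maximal" basis in it -/
lemma exists_max_basis {L : Set (E n)} (hL : CB L) :
    ∃ b : Module.Basis (Fin n) ℝ (E n), (∀ i, b i ∈ L) ∧ ∀ x ∈ L, ∀ i, |b.coord i x| ≤ 1 := by
  classical
  set e : Module.Basis (Fin n) ℝ (E n) := (EuclideanSpace.basisFun (Fin n) ℝ).toBasis with he
  have hspan : Submodule.span ℝ L = ⊤ := by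
    have := hL.interior_nonempty
    refine Submodule.eq_top_of_nonempty_interior' _ ?_
    exact this.mono (interior_mono Submodule.subset_span)
  obtain ⟨s, hsL, hss, hsli⟩ := exists_linearIndependent ℝ L
  have hsb : Submodule.span ℝ (range ((↑) : s → E n)) = ⊤ := by
    rw [Subtype.range_coe, hss, hspan]
  set b0 : Module.Basis s ℝ (E n) := Module.Basis.mk hsli hsb.ge with hb0
  have : Fintype s := FiniteDimensional.fintypeBasisIndex b0
  have hcard : Fintype.card s = n := by
    rw [← Module.finrank_eq_card_basis b0]; simp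
  set b1 : Module.Basis (Fin n) ℝ (E n) := b0.reindex (Fintype.equivFinOfCardEq hcard) with hb1
  have hb1L : ∀ i, b1 i ∈ L := by
    intro i
    rw [hb1, Module.Basis.reindex_apply, hb0, Module.Basis.mk_apply]
    exact hsL (Subtype.coe_prop _)
  have hdet1 : e.det b1 ≠ 0 := (e.isUnit_det b1).ne_zero
  have hcomp : IsCompact (Set.univ.pi (fun _ : Fin n => L)) := isCompact_univ_pi fun _ => hL.isCompact
  have hcont : Continuous (fun v : Fin n → E n => |e.det v|) := by
    have hdet : (fun v : Fin n → E n => |e.det v|) = fun v => |(e.toMatrix v).det| :=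
      funext fun v => by rw [Module.Basis.det_apply]
    rw [hdet]
    apply Continuous.abs
    apply Continuous.matrix_det
    apply continuous_matrix
    intro i j
    have : ∀ v : Fin n → E n, e.toMatrix v i j = (v j) i := by
      intro v
      rw [Module.Basis.toMatrix_apply, he, OrthonormalBasis.coe_toBasis_repr_apply,
        EuclideanSpace.basisFun_repr]
    simp only [this]
    fun_prop
  obtain ⟨v, hv, hmax⟩ := hcomp.exists_isMaxOn ⟨b1, fun i _ => hb1L i⟩ hcont.continuousOn
  have hvdet : 0 < |e.det v| := lt_of_lt_of_le (abs_pos.2 hdet1) (hmax (fun i _ => hb1L i))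
  have hbas := (e.is_basis_iff_det (v := v)).2 (isUnit_iff_ne_zero.2 (abs_pos.1 hvdet))
  refine ⟨Module.Basis.mk hbas.1 hbas.2.ge, fun i => ?_, fun x hx i => ?_⟩
  · rw [Module.Basis.mk_apply]; exact hv i (mem_univ _)
  · have h := congrArg (fun f => f x) (e.det_smul_mk_coord_eq_det_update hbas.1 hbas.2.ge i)
    simp only [LinearMap.smul_apply, smul_eq_mul, MultilinearMap.toLinearMap_apply] at h
    have h2 : |e.det (Function.update v i x)| ≤ |e.det v| := by
      refine hmax (fun j _ => ?_)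
      rcases eq_or_ne j i with rfl | hj
      · simpa using hx
      · simpa [Function.update_of_ne hj] using hv j (mem_univ _)
    have h3 : |e.det v| * |(Module.Basis.mk hbas.1 hbas.2.ge).coord i x| ≤ |e.det v| * 1 := by
      rw [← abs_mul, h, mul_one]; exact h2
    exact le_of_mul_le_mul_left h3 hvdet

/-- normalisation: every convex body is an affine image of one in `NC` -/
lemma exists_normal (n : ℕ) : ∃ (c : E n) (r R : ℝ), 0 < r ∧ (NC c r R).Nonempty ∧
    ∀ L : Set (E n), CB L → ∃ (a : E n) (T : E n ≃ₗ[ℝ] E n) (K : NonemptyCompacts (E n)),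
      K ∈ NC c r R ∧ L = a +ᵥ T '' (K : Set (E n)) := by
  classical
  set e : Module.Basis (Fin n) ℝ (E n) := (EuclideanSpace.basisFun (Fin n) ℝ).toBasis with he
  have hep : ∀ i, e i = EuclideanSpace.basisFun (Fin n) ℝ i := fun i => by
    rw [he, OrthonormalBasis.coe_toBasis]
  -- the simplex
  set Δ : Set (E n) := convexHull ℝ (insert 0 (range e)) with hΔ
  have hint : (interior Δ).Nonempty := by
    rw [hΔ, interior_convexHull_nonempty_iff_affineSpan_eq_top]
    rw [AffineSubspace.affineSpan_eq_top_iff_vectorSpan_eq_top_of_nonempty _ _ _ ⟨0, mem_insert _ _⟩]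
    rw [eq_top_iff, ← e.span_eq, Submodule.span_le]
    rintro _ ⟨i, rfl⟩
    have := vsub_mem_vectorSpan ℝ (s := insert 0 (range e)) (mem_insert_of_mem _ (mem_range_self i))
      (mem_insert _ _)
    simpa using this
  obtain ⟨c, hc⟩ := hint
  obtain ⟨r, hr, hcr⟩ := Metric.nhds_basis_closedBall.mem_iff.1 (mem_interior_iff_mem_nhds.1 hc)
  have main : ∀ L : Set (E n), CB L → ∃ (a : E n) (T : E n ≃ₗ[ℝ] E n) (K : NonemptyCompacts (E n)),
      K ∈ NC c r n ∧ L = a +ᵥ T '' (K : Set (E n)) := by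
    intro L hL
    obtain ⟨a, ha⟩ := hL.interior_nonempty
    have haL : a ∈ L := interior_subset ha
    have hL' : CB ((-a) +ᵥ L) := hL.vadd _
    have h0 : (0 : E n) ∈ (-a) +ᵥ L := ⟨a, haL, by simp⟩
    obtain ⟨b, hb1, hb2⟩ := exists_max_basis hL'
    set T : E n ≃ₗ[ℝ] E n := e.equiv b (Equiv.refl _) with hT
    have hTe : ∀ i, T (e i) = b i := fun i => by rw [hT, Module.Basis.equiv_apply]; rfl
    have hCB : CB (T.symm '' ((-a) +ᵥ L)) := hL'.image T.symm
    refine ⟨a, T, ⟨⟨T.symm '' ((-a) +ᵥ L), hCB.isCompact⟩, hCB.nonempty⟩, ⟨?_, hCB.convex, ?_⟩, ?_⟩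
    · rintro _ ⟨x, hx, rfl⟩
      have h1 : T.symm x = ∑ i, b.coord i x • e i := by
        apply T.injective
        rw [LinearEquiv.apply_symm_apply, map_sum]
        simp only [map_smul, hTe, Module.Basis.coord_apply]
        exact (b.sum_repr x).symm
      rw [Metric.mem_closedBall, dist_zero_right, h1]
      calc ‖∑ i, b.coord i x • e i‖ ≤ ∑ i, ‖b.coord i x • e i‖ := norm_sum_le _ _
        _ ≤ ∑ i : Fin n, (1 : ℝ) := by
          apply Finset.sum_le_sum
          intro i _
          rw [norm_smul, hep, OrthonormalBasis.norm_eq_one, mul_one]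
          exact hb2 x hx i
        _ = n := by simp
    · refine hcr.trans ?_
      rw [hΔ]
      refine convexHull_min ?_ hCB.convex
      rintro y (rfl | ⟨i, rfl⟩)
      · exact ⟨0, h0, by simp⟩
      · exact ⟨b i, hb1 i, by rw [← hTe, LinearEquiv.symm_apply_apply]⟩
    · have : T '' (T.symm '' ((-a) +ᵥ L)) = (-a) +ᵥ L := by
        rw [← image_comp]; simp
      change L = a +ᵥ T '' (T.symm '' ((-a) +ᵥ L))
      rw [this, vadd_vadd]; simp
  refine ⟨c, r, n, hr, ?_, main⟩
  obtain ⟨a, T, K, hK, -⟩ := main _ (CB_ball n)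
  exact ⟨K, hK⟩

lemma FP_affine (a : E (n + 1)) (T : E (n + 1) ≃ₗ[ℝ] E (n + 1)) (K : Set (E (n + 1))) :
    FP (a +ᵥ T '' K) = FP K := by
  unfold FP
  rw [PB_vadd, vol_vadd, vol_PB_image, vol_image, mul_pow]
  have := det_pos' T
  exact mul_div_mul_left _ _ (by positivity)

theorem exists_minimiser (n : ℕ) : ∃ K : Set (E (n + 1)), CB K ∧ ∀ L : Set (E (n + 1)), CB L →
    vol (PB K) * vol L ^ n ≤ vol (PB L) * vol K ^ n := by
  obtain ⟨c, r, R, hr, hne, hnorm⟩ := exists_normal (n + 1)
  obtain ⟨K, hK, hmin⟩ := (isCompact_NC c r R).exists_isMinOn hne (continuousOn_FP hr)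
  have hKC := NC.CB hr hK
  refine ⟨K, hKC, fun L hL => ?_⟩
  obtain ⟨a, T, L', hL', rfl⟩ := hnorm L hL
  have h : FP (K : Set (E (n + 1))) ≤ FP (a +ᵥ T '' (L' : Set (E (n + 1)))) := by
    rw [FP_affine]; exact hmin hL'
  have hvK := hKC.vol_pos
  have hvL := hL.vol_pos
  unfold FP at h
  rwa [div_le_div_iff₀ (by positivity) (by positivity)] at h

end Crest.Agent.R230
end

-- ▼ part R230/BallPB

/-!
# Row 230, part J: the projection body of the ball
-/

set_option autoImplicit false

open MeasureTheory Set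
open scoped Pointwise ENNReal

namespace Crest.Agent.R230

variable {n : ℕ}

theorem Frame.norm_sq {e : E (n + 1)} (he : ‖e‖ = 1) (F : Frame e) (t : ℝ) (y : E n) :
    ‖t • e + F.ι y‖ ^ 2 = t ^ 2 + ‖y‖ ^ 2 := by
  rw [norm_add_sq_real, inner_smul_left, real_inner_comm, F.inner_eq, norm_smul, he, F.ι.norm_map]
  simp

theorem Frame.shadow_ball {e : E (n + 1)} (he : ‖e‖ = 1) (F : Frame e) :
    F.shadow (Metric.closedBall (0 : E (n + 1)) 1) = Metric.closedBall (0 : E n) 1 := by
  ext y
  simp only [Frame.shadow, Set.mem_ofPred_eq, mem_closedBall_zero_iff]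
  constructor
  · rintro ⟨t, ht⟩
    have h := F.norm_sq he t y
    have h1 : ‖t • e + F.ι y‖ ^ 2 ≤ 1 := by
      have := pow_le_pow_left₀ (norm_nonneg _) ht 2
      simpa using this
    have h2 : ‖y‖ ^ 2 ≤ 1 := by nlinarith [sq_nonneg t]
    exact (sq_le_one_iff₀ (norm_nonneg _)).1 h2
  · intro hy
    refine ⟨0, ?_⟩
    rw [zero_smul, zero_add, F.ι.norm_map]
    exact hy

theorem sh_ball (u : E (n + 1)) :
    sh (Metric.closedBall (0 : E (n + 1)) 1) u = κ n * ‖u‖ := by
  by_cases hu : u = 0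
  · subst hu
    obtain ⟨e, he⟩ := exists_norm_eq (E (n + 1)) (zero_le_one)
    obtain ⟨F⟩ := exists_frame e he
    have h := sh_eq_shadow (isCompact_closedBall _ _) (convex_closedBall (0 : E (n + 1)) 1) he F
      (le_refl (0 : ℝ))
    rw [zero_smul, zero_mul] at h
    rw [h, norm_zero, mul_zero]
  · have hu' : ‖u‖ ≠ 0 := norm_ne_zero_iff.2 hu
    set e : E (n + 1) := ‖u‖⁻¹ • u with hedef
    have he : ‖e‖ = 1 := by
      rw [hedef, norm_smul, norm_inv, norm_norm, inv_mul_cancel₀ hu']
    obtain ⟨F⟩ := exists_frame e he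
    have h := sh_eq_shadow (isCompact_closedBall _ _) (convex_closedBall (0 : E (n + 1)) 1) he F
      (norm_nonneg u)
    have hue : ‖u‖ • e = u := by rw [hedef, smul_inv_smul₀ hu']
    rw [hue, F.shadow_ball he, vol_closedBall] at h
    rw [h, mul_comm]

theorem PB_ball : PB (Metric.closedBall (0 : E (n + 1)) 1) = Metric.closedBall 0 (κ n) := by
  have hκ : 0 < κ n := κ_pos n
  ext x
  simp only [PB, Set.mem_ofPred_eq, sh_ball, mem_closedBall_zero_iff]
  constructor
  · intro h
    by_cases hx : x = 0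
    · rw [hx, norm_zero]; exact hκ.le
    · have h1 := h x
      rw [real_inner_self_eq_norm_mul_norm] at h1
      exact le_of_mul_le_mul_right h1 (norm_pos_iff.2 hx)
  · intro h u
    calc inner ℝ x u ≤ ‖x‖ * ‖u‖ := real_inner_le_norm _ _
      _ ≤ κ n * ‖u‖ := by gcongr

theorem vol_PB_ball (n : ℕ) : vol (PB (Metric.closedBall (0 : E (n + 1)) 1)) = κ n ^ (n + 1) * κ (n + 1) := by
  have hκ : 0 < κ n := κ_pos n
  rw [PB_ball]
  have h : Metric.closedBall (0 : E (n + 1)) (κ n) = κ n • Metric.closedBall (0 : E (n + 1)) 1 := by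
    rw [smul_unitClosedBall_of_nonneg hκ.le]
  rw [h, vol_smul, abs_of_pos hκ, vol_closedBall]

end Crest.Agent.R230
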