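import Mathlib
import Crest.Agent.R230.Shadow
import Crest.Agent.R230.SimplexVol

-- ▼ part R230/RangeVol
section

/-! Row 230: the body `{x | max(0,x) + max(0,-x) ≤ r}` in `Fin n → ℝ` has volume `(n+1) r^n`. -/

set_option autoImplicit false
open MeasureTheory Set
open scoped ENNReal Pointwise

namespace Crest.Agent.R230.Simp

/-- `max (0, x_1, …, x_n)`. -/
noncomputable def mx {n : ℕ} (x : Fin n → ℝ) : ℝ :=
  (Finset.univ : Finset (Option (Fin n))).sup' Finset.univ_nonempty (fun o => o.elim 0 x)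

theorem mx_le_iff {n : ℕ} {x : Fin n → ℝ} {c : ℝ} : mx x ≤ c ↔ 0 ≤ c ∧ ∀ i, x i ≤ c := by
  unfold mx
  rw [Finset.sup'_le_iff]
  constructor
  · intro h
    exact ⟨h none (Finset.mem_univ _), fun i => h (some i) (Finset.mem_univ _)⟩
  · rintro ⟨h0, h1⟩ o _
    cases o with
    | none => exact h0
    | some i => exact h1 i

theorem mx_nonneg {n : ℕ} (x : Fin n → ℝ) : 0 ≤ mx x := (mx_le_iff.1 le_rfl).1

theorem le_mx {n : ℕ} (x : Fin n → ℝ) (i : Fin n) : x i ≤ mx x := (mx_le_iff.1 le_rfl).2 i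

theorem mx_smul {n : ℕ} {r : ℝ} (hr : 0 < r) (x : Fin n → ℝ) : mx (r • x) = r * mx x := by
  apply le_antisymm
  · rw [mx_le_iff]
    refine ⟨mul_nonneg hr.le (mx_nonneg x), fun i => ?_⟩
    simp only [Pi.smul_apply, smul_eq_mul]
    exact mul_le_mul_of_nonneg_left (le_mx x i) hr.le
  · rw [← le_div_iff₀' hr, mx_le_iff]
    refine ⟨div_nonneg (mx_nonneg _) hr.le, fun i => ?_⟩
    rw [le_div_iff₀' hr]
    exact le_mx (r • x) i

theorem continuous_mx {n : ℕ} : Continuous (fun x : Fin n → ℝ => mx x) := by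
  unfold mx
  apply Continuous.finset_sup'_apply
  intro o _
  cases o with
  | none => exact continuous_const
  | some i => exact continuous_apply i

/-- The range body of size `r`. -/
def rng (n : ℕ) (r : ℝ) : Set (Fin n → ℝ) := {x | mx x + mx (-x) ≤ r}


theorem rng_of_neg {n : ℕ} {r : ℝ} (hr : r < 0) : rng n r = ∅ := by
  ext x
  simp only [rng, mem_ofPred_eq, mem_empty_iff_false, iff_false, not_le]
  linarith [mx_nonneg x, mx_nonneg (-x)]

theorem rng_smul {n : ℕ} {r c : ℝ} (hr : 0 < r) : rng n (r * c) = r • rng n c := by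
  ext x
  rw [Set.mem_smul_set_iff_inv_smul_mem₀ hr.ne']
  simp only [rng, mem_ofPred_eq]
  rw [← smul_neg, mx_smul (inv_pos.2 hr), mx_smul (inv_pos.2 hr), ← mul_add, inv_mul_le_iff₀ hr]

theorem volume_rng_smul {n : ℕ} {r c : ℝ} (hr : 0 < r) :
    volume (rng n (r * c)) = ENNReal.ofReal (r ^ n) * volume (rng n c) := by
  rw [rng_smul hr, Measure.addHaar_smul]
  simp [abs_of_pos hr]

theorem volume_rng_one (n : ℕ) : volume (rng n 1) = (n + 1 : ℕ) := by
  -- the auxiliary set
  have hA : MeasurableSet {p : ℝ × (Fin n → ℝ) | mx (-p.2) ≤ p.1 ∧ mx p.2 ≤ 1 - p.1} := by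
    apply IsClosed.measurableSet
    exact (isClosed_le ((continuous_mx.comp continuous_neg).comp continuous_snd)
      continuous_fst).inter (isClosed_le (continuous_mx.comp continuous_snd)
        (continuous_const.sub continuous_fst))
  have hB : MeasurableSet {p : ℝ × (Fin n → ℝ) | p.1 ≤ 1 ∧ p.2 ∈ rng n p.1} := by
    apply IsClosed.measurableSet
    exact (isClosed_le continuous_fst continuous_const).inter
      (isClosed_le ((continuous_mx.comp continuous_snd).add
        ((continuous_mx.comp continuous_neg).comp continuous_snd)) continuous_fst)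
  have e1 : (volume.prod volume : Measure (ℝ × (Fin n → ℝ)))
      {p : ℝ × (Fin n → ℝ) | mx (-p.2) ≤ p.1 ∧ mx p.2 ≤ 1 - p.1} = 1 := by
    rw [Measure.prod_apply hA]
    have : ∀ s : ℝ, volume (Prod.mk s ⁻¹' {p : ℝ × (Fin n → ℝ) | mx (-p.2) ≤ p.1 ∧
        mx p.2 ≤ 1 - p.1}) = (Set.Icc (0 : ℝ) 1).indicator (fun _ => 1) s := by
      intro s
      by_cases hs : s ∈ Set.Icc (0 : ℝ) 1
      · rw [Set.indicator_of_mem hs]
        have : (Prod.mk s ⁻¹' {p : ℝ × (Fin n → ℝ) | mx (-p.2) ≤ p.1 ∧ mx p.2 ≤ 1 - p.1}) =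
            Set.Icc (fun _ => -s) (fun _ => 1 - s) := by
          ext x
          simp only [mem_preimage, mem_ofPred_eq, mx_le_iff, Set.mem_Icc, Pi.le_def, Pi.neg_apply]
          constructor
          · rintro ⟨⟨_, h1⟩, _, h2⟩
            exact ⟨fun i => by linarith [h1 i], h2⟩
          · rintro ⟨h1, h2⟩
            exact ⟨⟨hs.1, fun i => by linarith [h1 i]⟩, by linarith [hs.2], h2⟩
        rw [this, Real.volume_Icc_pi]
        simp
      · rw [Set.indicator_of_notMem hs]
        have : (Prod.mk s ⁻¹' {p : ℝ × (Fin n → ℝ) | mx (-p.2) ≤ p.1 ∧ mx p.2 ≤ 1 - p.1}) = ∅ := by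
          ext x
          simp only [mem_preimage, mem_ofPred_eq, mem_empty_iff_false, iff_false, not_and]
          intro h1 h2
          exact hs ⟨(mx_nonneg _).trans h1, by linarith [mx_nonneg x]⟩
        rw [this, measure_empty]
    simp_rw [this]
    rw [lintegral_indicator measurableSet_Icc]
    simp
  have e2 : (volume.prod volume : Measure (ℝ × (Fin n → ℝ)))
      {p : ℝ × (Fin n → ℝ) | mx (-p.2) ≤ p.1 ∧ mx p.2 ≤ 1 - p.1} =
      (volume.prod volume : Measure (ℝ × (Fin n → ℝ)))
        {p : ℝ × (Fin n → ℝ) | p.1 ≤ 1 ∧ p.2 ∈ rng n p.1} := by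
    rw [Measure.prod_apply_symm hA, Measure.prod_apply_symm hB]
    congr 1
    ext x
    have h1 : ((fun s : ℝ => (s, x)) ⁻¹' {p : ℝ × (Fin n → ℝ) | mx (-p.2) ≤ p.1 ∧
        mx p.2 ≤ 1 - p.1}) = Set.Icc (mx (-x)) (1 - mx x) := by
      ext s
      simp only [mem_preimage, mem_ofPred_eq, Set.mem_Icc]
      constructor
      · rintro ⟨h1, h2⟩; exact ⟨h1, by linarith⟩
      · rintro ⟨h1, h2⟩; exact ⟨h1, by linarith⟩
    have h2 : ((fun s : ℝ => (s, x)) ⁻¹' {p : ℝ × (Fin n → ℝ) | p.1 ≤ 1 ∧ p.2 ∈ rng n p.1}) =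
        Set.Icc (mx x + mx (-x)) 1 := by
      ext s
      simp only [mem_preimage, mem_ofPred_eq, Set.mem_Icc, rng]
      tauto
    rw [h1, h2, Real.volume_Icc, Real.volume_Icc]
    congr 1
    ring
  have e3 : (volume.prod volume : Measure (ℝ × (Fin n → ℝ)))
        {p : ℝ × (Fin n → ℝ) | p.1 ≤ 1 ∧ p.2 ∈ rng n p.1} =
      ENNReal.ofReal (1 / (n + 1)) * volume (rng n 1) := by
    rw [Measure.prod_apply hB]
    have hae : (fun r : ℝ => volume (Prod.mk r ⁻¹' {p : ℝ × (Fin n → ℝ) | p.1 ≤ 1 ∧
        p.2 ∈ rng n p.1})) =ᵐ[volume]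
        (Set.Ioc (0 : ℝ) 1).indicator (fun r => ENNReal.ofReal (r ^ n) * volume (rng n 1)) := by
      have : ∀ᵐ t : ℝ, t ≠ 0 := by
        simp [ae_iff, measure_singleton]
      filter_upwards [this] with r hr
      by_cases h1 : r ≤ 1
      · have hs : (Prod.mk r ⁻¹' {p : ℝ × (Fin n → ℝ) | p.1 ≤ 1 ∧ p.2 ∈ rng n p.1}) = rng n r := by
          ext y; simp [h1]
        rw [hs]
        rcases lt_or_gt_of_ne hr with h0 | h0
        · rw [rng_of_neg h0, Set.indicator_of_notMem (by simp [h0.le]), measure_empty]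
        · have := volume_rng_smul (n := n) (c := 1) (r := r) h0
          rw [mul_one] at this
          rw [this, Set.indicator_of_mem (show r ∈ Set.Ioc (0:ℝ) 1 from ⟨h0, h1⟩)]
      · have hs : (Prod.mk r ⁻¹' {p : ℝ × (Fin n → ℝ) | p.1 ≤ 1 ∧ p.2 ∈ rng n p.1}) = ∅ := by
          ext y; simp [h1]
        rw [hs, Set.indicator_of_notMem (by simp [h1]), measure_empty]
    rw [lintegral_congr_ae hae, lintegral_indicator measurableSet_Ioc,
      lintegral_mul_const'' _ (by fun_prop)]
    congr 1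
    rw [← ofReal_integral_eq_lintegral_ofReal]
    · congr 1
      rw [← intervalIntegral.integral_of_le zero_le_one]
      simp
    · apply IntegrableOn.mono_set (t := Set.Icc (0:ℝ) 1) _ Ioc_subset_Icc_self
      exact ContinuousOn.integrableOn_compact isCompact_Icc (by fun_prop)
    · filter_upwards [self_mem_ae_restrict (measurableSet_Ioc (a := (0:ℝ)) (b := 1))] with x hx
      exact pow_nonneg hx.1.le _
  rw [e1, e3] at e2
  have hpos : (0 : ℝ) < n + 1 := by positivity
  have h3 : (ENNReal.ofReal (n + 1)) * 1 = ENNReal.ofReal (n + 1) *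
      (ENNReal.ofReal (1 / (n + 1)) * volume (rng n 1)) := by rw [e2]
  rw [← mul_assoc, ← ENNReal.ofReal_mul hpos.le, mul_one_div_cancel hpos.ne', ENNReal.ofReal_one,
    one_mul, mul_one] at h3
  rw [← h3]
  rw [show ((n : ℝ) + 1) = ((n + 1 : ℕ) : ℝ) by push_cast; ring, ENNReal.ofReal_natCast]

end Crest.Agent.R230.Simp
end

-- ▼ part R230/Prod
section

/-! Row 230: shadows and projection bodies in coordinates `Fin n → ℝ`; simplices and products. -/

set_option autoImplicit false
open MeasureTheory Set Filter Topology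
open scoped ENNReal Pointwise

namespace Crest.Agent.R230.Simp

/-- `K ∩ (K + t u)` in coordinates. -/
def plap {n : ℕ} (K : Set (Fin n → ℝ)) (u : Fin n → ℝ) (t : ℝ) : Set (Fin n → ℝ) :=
  K ∩ {x | x - t • u ∈ K}

/-- `h` is the (one-homogeneous) shadow function of `K`. -/
def IsSh {n : ℕ} (K : Set (Fin n → ℝ)) (h : (Fin n → ℝ) → ℝ) : Prop :=
  ∀ u, Tendsto (fun t : ℝ => ((volume K).toReal - (volume (plap K u t)).toReal) / t) (𝓝[>] 0)
    (𝓝 (h u))

/-- The body with support bound `h`. -/
def PB {n : ℕ} (h : (Fin n → ℝ) → ℝ) : Set (Fin n → ℝ) := {x | ∀ u, ∑ i, x i * u i ≤ h u}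

theorem IsSh.zero {n : ℕ} {K : Set (Fin n → ℝ)} {h : (Fin n → ℝ) → ℝ} (hs : IsSh K h) :
    h 0 = 0 := by
  have h1 := hs 0
  have h2 : (fun t : ℝ => ((volume K).toReal - (volume (plap K 0 t)).toReal) / t) = fun _ => 0 := by
    funext t
    simp [plap]
  rw [h2] at h1
  exact tendsto_nhds_unique h1 tendsto_const_nhds

theorem IsSh.smul {n : ℕ} {K : Set (Fin n → ℝ)} {h : (Fin n → ℝ) → ℝ} (hs : IsSh K h) {c : ℝ}
    (hc : 0 < c) (u : Fin n → ℝ) : h (c • u) = c * h u := by
  have h1 := hs (c • u)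
  have h2 : Tendsto (fun t : ℝ => c * t) (𝓝[>] 0) (𝓝[>] 0) := by
    apply tendsto_nhdsWithin_of_tendsto_nhds_of_eventually_within
    · have : Tendsto (fun t : ℝ => c * t) (𝓝 0) (𝓝 (c * 0)) := Continuous.tendsto (by fun_prop) _
      rw [mul_zero] at this
      exact this.mono_left nhdsWithin_le_nhds
    · filter_upwards [self_mem_nhdsWithin] with t ht
      exact mul_pos hc ht
  have h3 := ((hs u).comp h2).const_mul c
  refine tendsto_nhds_unique h1 (h3.congr' ?_)
  filter_upwards [self_mem_nhdsWithin] with t ht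
  have ht0 : (0 : ℝ) < t := ht
  have : plap K (c • u) t = plap K u (c * t) := by
    ext x
    simp [plap, smul_smul, mul_comm]
  rw [this]
  simp only [Function.comp_apply]
  field_simp

/-- Coordinates splitting. -/
def splt (a b : ℕ) (x : Fin (a + b) → ℝ) : (Fin a → ℝ) × (Fin b → ℝ) :=
  (fun i => x (Fin.castAdd b i), fun j => x (Fin.natAdd a j))

theorem measurePreserving_splt (a b : ℕ) :
    MeasurePreserving (splt a b) volume (volume.prod volume) := by
  have h1 := (volume_measurePreserving_piCongrLeft (fun _ : Fin (a + b) => ℝ)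
    (finSumFinEquiv (m := a) (n := b))).symm
  have h2 := volume_measurePreserving_sumPiEquivProdPi (fun _ : Fin a ⊕ Fin b => ℝ)
  have h3 := h2.comp h1
  have h4 : splt a b = ⇑(MeasurableEquiv.sumPiEquivProdPi (fun _ : Fin a ⊕ Fin b => ℝ)) ∘
      ⇑(MeasurableEquiv.piCongrLeft (fun _ : Fin (a + b) => ℝ)
        (finSumFinEquiv (m := a) (n := b))).symm := by
    funext x
    rfl
  rw [h4]
  exact h3

theorem sum_splt {a b : ℕ} (x u : Fin (a + b) → ℝ) :
    ∑ i, x i * u i = ∑ i, (splt a b x).1 i * (splt a b u).1 i +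
      ∑ i, (splt a b x).2 i * (splt a b u).2 i := by
  rw [Fin.sum_univ_add]; rfl

/-! ### The standard simplex -/

/-- `∑ u_i⁺ + (∑ u_i)⁻`. -/
noncomputable def ms {n : ℕ} (u : Fin n → ℝ) : ℝ := ∑ i, max (u i) 0 + max (-∑ i, u i) 0

theorem ms_nonneg {n : ℕ} (u : Fin n → ℝ) : 0 ≤ ms u :=
  add_nonneg (Finset.sum_nonneg fun _ _ => le_max_right _ _) (le_max_right _ _)

theorem plap_corner {n : ℕ} (u : Fin n → ℝ) {t : ℝ} (ht : 0 < t) :
    plap (corner n 1) u t = (fun x => (t • fun i => max (u i) 0) + x) '' corner n (1 - t * ms u) := by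
  rw [Set.image_add_left]
  ext x
  simp only [plap, corner, mem_inter_iff, mem_ofPred_eq, mem_preimage, Pi.add_apply, Pi.neg_apply,
    Pi.smul_apply, smul_eq_mul, Pi.sub_apply, Finset.sum_add_distrib, Finset.sum_neg_distrib,
    Finset.sum_sub_distrib, ← Finset.mul_sum, ms]
  have key : t * max (-∑ i, u i) 0 = max (-(t * ∑ i, u i)) 0 := by
    rw [mul_max_of_nonneg _ _ ht.le, mul_zero, mul_neg]
  constructor
  · rintro ⟨⟨h1, h2⟩, h3, h4⟩
    refine ⟨fun i => ?_, ?_⟩
    · have : t * max (u i) 0 ≤ x i := by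
        rw [mul_max_of_nonneg _ _ ht.le, mul_zero]
        exact max_le (by linarith [h3 i]) (h1 i)
      linarith
    · have : t * max (-∑ i, u i) 0 ≤ 1 - ∑ i, x i := by
        rw [key]
        exact max_le (by linarith) (by linarith)
      linarith
  · rintro ⟨h1, h2⟩
    have h5 : t * max (-∑ i, u i) 0 ≤ 1 - ∑ i, x i := by linarith
    rw [key, max_le_iff] at h5
    have h6 : ∀ i, t * u i ≤ x i ∧ 0 ≤ x i := by
      intro i
      have : t * max (u i) 0 ≤ x i := by linarith [h1 i]
      rw [mul_max_of_nonneg _ _ ht.le, mul_zero] at this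
      exact max_le_iff.1 this
    exact ⟨⟨fun i => (h6 i).2, by linarith⟩, fun i => by linarith [(h6 i).1], by linarith⟩

theorem isSh_corner (n : ℕ) : IsSh (corner n 1) (fun u => n / n.factorial * ms u) := by
  intro u
  have hv : ∀ᶠ t : ℝ in 𝓝[>] 0, (volume (plap (corner n 1) u t)).toReal =
      (1 - t * ms u) ^ n / n.factorial := by
    have h1 : ∀ᶠ t : ℝ in 𝓝[>] 0, 0 < 1 - t * ms u := by
      have : Tendsto (fun t : ℝ => 1 - t * ms u) (𝓝 0) (𝓝 (1 - 0 * ms u)) :=
        Continuous.tendsto (by fun_prop) _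
      rw [zero_mul, sub_zero] at this
      exact (this.eventually (eventually_gt_nhds one_pos)).filter_mono nhdsWithin_le_nhds
    filter_upwards [self_mem_nhdsWithin, h1] with t ht ht1
    have ht0 : (0 : ℝ) < t := ht
    rw [plap_corner u ht0, Set.image_add_left, measure_preimage_add]
    have := volume_corner_smul (n := n) (c := 1) (r := 1 - t * ms u) ht1
    rw [mul_one] at this
    rw [this, volume_corner_one, ENNReal.toReal_mul, ENNReal.toReal_ofReal (by positivity),
      ENNReal.toReal_ofReal (by positivity)]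
    ring
  have hd : HasDerivAt (fun t : ℝ => (1 - t * ms u) ^ n / n.factorial)
      (n * (1 - 0 * ms u) ^ (n - 1) * (-(1 * ms u)) / n.factorial) 0 := by
    have h1 : HasDerivAt (fun t : ℝ => 1 - t * ms u) (-(1 * ms u)) 0 :=
      ((hasDerivAt_id (0 : ℝ)).mul_const (ms u)).const_sub 1
    exact (h1.pow n).div_const _
  have hsl := hd.tendsto_slope_zero_right
  simp only [zero_add, zero_mul, sub_zero, one_pow, mul_one, one_mul] at hsl
  have hsl2 := hsl.neg
  have e1 : -((n : ℝ) * -ms u / n.factorial) = n / n.factorial * ms u := by ring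
  rw [e1] at hsl2
  refine hsl2.congr' ?_
  filter_upwards [hv, self_mem_nhdsWithin] with t ht ht2
  have ht0 : (0 : ℝ) < t := ht2
  rw [ht, volume_corner_one, ENNReal.toReal_ofReal (by positivity), smul_eq_mul]
  field_simp
  ring

theorem PB_smul {n : ℕ} {h : (Fin n → ℝ) → ℝ} {c : ℝ} (hc : 0 < c) :
    PB (fun u => c * h u) = c • PB h := by
  ext x
  rw [Set.mem_smul_set_iff_inv_smul_mem₀ hc.ne']
  simp only [PB, mem_ofPred_eq, Pi.smul_apply, smul_eq_mul, mul_assoc, ← Finset.mul_sum]
  constructor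
  · intro hx u
    rw [inv_mul_le_iff₀ hc]; exact hx u
  · intro hx u
    have := hx u
    rwa [inv_mul_le_iff₀ hc] at this

theorem volume_PB_smul {n : ℕ} {h : (Fin n → ℝ) → ℝ} {c : ℝ} (hc : 0 < c) :
    volume (PB (fun u => c * h u)) = ENNReal.ofReal (c ^ n) * volume (PB h) := by
  rw [PB_smul hc, Measure.addHaar_smul]
  simp [abs_of_pos hc]

theorem sum_pos_neg {n : ℕ} (u : Fin n → ℝ) :
    ∑ i, max (-u i) 0 = ∑ i, max (u i) 0 - ∑ i, u i := by
  rw [← Finset.sum_sub_distrib]
  apply Finset.sum_congr rfl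
  intro i _
  rcases le_total (u i) 0 with h | h
  · rw [max_eq_left (by linarith), max_eq_right h]; ring
  · rw [max_eq_right (by linarith), max_eq_left h]; ring

theorem PB_ms {n : ℕ} : PB (ms : (Fin n → ℝ) → ℝ) = rng n 1 := by
  ext x
  simp only [PB, rng, mem_ofPred_eq]
  constructor
  · intro hx
    have h1 : ∀ i, x i ≤ 1 := by
      intro i
      have := hx (Pi.single i 1)
      simp only [ms, Pi.single_apply, mul_ite, mul_one, mul_zero, Finset.sum_ite_eq',
        Finset.mem_univ, if_true] at this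
      have e : ∑ j, max (if j = i then (1:ℝ) else 0) 0 = 1 := by
        rw [Finset.sum_eq_single i] <;> simp +contextual
      rw [e] at this
      norm_num at this
      exact this
    have h2 : ∀ i, -x i ≤ 1 := by
      intro i
      have := hx (Pi.single i (-1))
      simp only [ms, Pi.single_apply, mul_ite, mul_neg, mul_one, mul_zero, Finset.sum_ite_eq',
        Finset.mem_univ, if_true] at this
      have e : ∑ j, max (if j = i then (-1:ℝ) else 0) 0 = 0 := by
        apply Finset.sum_eq_zero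
        intro j _
        split_ifs <;> norm_num
      rw [e] at this
      norm_num at this
      linarith
    have h3 : ∀ i j, x i - x j ≤ 1 := by
      intro i j
      by_cases hij : i = j
      · subst hij; norm_num
      have := hx (Pi.single i 1 + Pi.single j (-1))
      have e0 : ∑ k, x k * ((Pi.single i 1 + Pi.single j (-1) : Fin n → ℝ) k) = x i - x j := by
        simp only [Pi.add_apply, mul_add, Finset.sum_add_distrib, Pi.single_apply, mul_ite,
          mul_neg, mul_one, mul_zero, Finset.sum_ite_eq', Finset.mem_univ, if_true]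
        ring
      have e1 : ∑ k, max ((Pi.single i 1 + Pi.single j (-1) : Fin n → ℝ) k) 0 = 1 := by
        rw [Finset.sum_eq_single i]
        · simp [hij]
        · intro k _ hk
          by_cases hkj : k = j
          · subst hkj; simp [hk]
          · simp [hk, hkj]
        · simp
      have e2 : ∑ k, ((Pi.single i 1 + Pi.single j (-1) : Fin n → ℝ) k) = 0 := by
        simp [Finset.sum_add_distrib]
      rw [e0, ms, e1, e2] at this
      simpa using this
    have h4 : mx x ≤ 1 - mx (-x) := by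
      have h5 : ∀ i, mx (-x) ≤ 1 - x i := by
        intro i
        rw [mx_le_iff]
        exact ⟨by linarith [h1 i], fun j => by simp only [Pi.neg_apply]; linarith [h3 i j]⟩
      have h6 : mx (-x) ≤ 1 := by
        rw [mx_le_iff]
        exact ⟨zero_le_one, fun j => by simpa using h2 j⟩
      rw [mx_le_iff]
      exact ⟨by linarith, fun i => by linarith [h5 i]⟩
    linarith
  · intro hx u
    have hM := mx_nonneg x
    have hM' := mx_nonneg (-x)
    have hP : 0 ≤ ∑ i, max (u i) 0 := Finset.sum_nonneg fun _ _ => le_max_right _ _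
    have hQ : 0 ≤ ∑ i, max (-u i) 0 := Finset.sum_nonneg fun _ _ => le_max_right _ _
    have h1 : ∑ i, x i * u i ≤ mx x * ∑ i, max (u i) 0 + mx (-x) * ∑ i, max (-u i) 0 := by
      rw [Finset.mul_sum, Finset.mul_sum, ← Finset.sum_add_distrib]
      apply Finset.sum_le_sum
      intro i _
      have ha := le_mx x i
      have hb := le_mx (-x) i
      simp only [Pi.neg_apply] at hb
      rcases le_total (u i) 0 with h | h
      · rw [max_eq_right h, max_eq_left (by linarith : (0:ℝ) ≤ -u i)]
        nlinarith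
      · rw [max_eq_left h, max_eq_right (by linarith : -u i ≤ (0:ℝ))]
        nlinarith
    have h2 := sum_pos_neg u
    have h3 : ∑ i, max (u i) 0 ≤ ms u := by unfold ms; linarith [le_max_right (-∑ i, u i) 0]
    have h4 : ∑ i, max (-u i) 0 ≤ ms u := by unfold ms; linarith [le_max_left (-∑ i, u i) 0]
    calc ∑ i, x i * u i ≤ mx x * ∑ i, max (u i) 0 + mx (-x) * ∑ i, max (-u i) 0 := h1
      _ ≤ mx x * ms u + mx (-x) * ms u := by gcongr
      _ = (mx x + mx (-x)) * ms u := by ring
      _ ≤ 1 * ms u := by gcongr; exact ms_nonneg u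
      _ = ms u := one_mul _

theorem volume_PB_corner {n : ℕ} (hn : 0 < n) :
    (volume (PB (fun u : Fin n → ℝ => (n : ℝ) / n.factorial * ms u))).toReal =
      ((n : ℝ) / n.factorial) ^ n * (n + 1) := by
  rw [volume_PB_smul (by positivity), PB_ms, volume_rng_one, ENNReal.toReal_mul,
    ENNReal.toReal_ofReal (by positivity), ENNReal.toReal_natCast]
  push_cast
  ring

/-! ### Products -/

theorem splt_surj {a b : ℕ} (p : (Fin a → ℝ) × (Fin b → ℝ)) : splt a b (Fin.append p.1 p.2) = p := by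
  apply Prod.ext
  · funext i; simp [splt]
  · funext i; simp [splt]

theorem volume_splt {a b : ℕ} {K1 : Set (Fin a → ℝ)} {K2 : Set (Fin b → ℝ)}
    (h1 : MeasurableSet K1) (h2 : MeasurableSet K2) :
    volume (splt a b ⁻¹' (K1 ×ˢ K2)) = volume K1 * volume K2 := by
  rw [(measurePreserving_splt a b).measure_preimage (h1.prod h2).nullMeasurableSet,
    Measure.prod_prod]

theorem plap_splt {a b : ℕ} (K1 : Set (Fin a → ℝ)) (K2 : Set (Fin b → ℝ))
    (u : Fin (a + b) → ℝ) (t : ℝ) :
    plap (splt a b ⁻¹' (K1 ×ˢ K2)) u t =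
      splt a b ⁻¹' (plap K1 (splt a b u).1 t ×ˢ plap K2 (splt a b u).2 t) := by
  ext x
  simp only [plap, mem_inter_iff, mem_preimage, mem_prod, mem_ofPred_eq]
  have e1 : (splt a b (x - t • u)).1 = (splt a b x).1 - t • (splt a b u).1 := rfl
  have e2 : (splt a b (x - t • u)).2 = (splt a b x).2 - t • (splt a b u).2 := rfl
  rw [e1, e2]
  tauto

theorem isCompact_plap {n : ℕ} {K : Set (Fin n → ℝ)} (hK : IsCompact K) (u : Fin n → ℝ) (t : ℝ) :
    IsCompact (plap K u t) :=
  hK.inter_right (hK.isClosed.preimage (continuous_id.sub continuous_const))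

theorem IsSh.prod {a b : ℕ} {K1 : Set (Fin a → ℝ)} {K2 : Set (Fin b → ℝ)}
    {h1 : (Fin a → ℝ) → ℝ} {h2 : (Fin b → ℝ) → ℝ} (hc1 : IsCompact K1) (hc2 : IsCompact K2)
    (hs1 : IsSh K1 h1) (hs2 : IsSh K2 h2) :
    IsSh (splt a b ⁻¹' (K1 ×ˢ K2)) (fun u => (volume K2).toReal * h1 (splt a b u).1 +
      (volume K1).toReal * h2 (splt a b u).2) := by
  intro u
  have t1 := hs1 (splt a b u).1
  have t2 := hs2 (splt a b u).2
  have tid : Tendsto (fun t : ℝ => t) (𝓝[>] 0) (𝓝 0) := tendsto_id.mono_left nhdsWithin_le_nhds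
  have tA : Tendsto (fun t : ℝ => (volume (plap K1 (splt a b u).1 t)).toReal) (𝓝[>] 0)
      (𝓝 (volume K1).toReal) := by
    have h3 := (t1.mul tid).const_sub (volume K1).toReal
    rw [mul_zero, sub_zero] at h3
    refine h3.congr' ?_
    filter_upwards [self_mem_nhdsWithin] with t ht
    have ht0 : (0 : ℝ) < t := ht
    field_simp
    ring
  have t3 := (t1.const_mul (volume K2).toReal).add (tA.mul t2)
  refine t3.congr' ?_
  filter_upwards [self_mem_nhdsWithin] with t ht
  have ht0 : (0 : ℝ) < t := ht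
  rw [plap_splt, volume_splt hc1.measurableSet hc2.measurableSet,
    volume_splt (isCompact_plap hc1 _ _).measurableSet (isCompact_plap hc2 _ _).measurableSet,
    ENNReal.toReal_mul, ENNReal.toReal_mul]
  field_simp
  ring

theorem PB_prod {a b : ℕ} {h1 : (Fin a → ℝ) → ℝ} {h2 : (Fin b → ℝ) → ℝ} (z1 : h1 0 = 0)
    (z2 : h2 0 = 0) :
    PB (fun u => h1 (splt a b u).1 + h2 (splt a b u).2) = splt a b ⁻¹' (PB h1 ×ˢ PB h2) := by
  ext x
  simp only [PB, mem_ofPred_eq, mem_preimage, mem_prod, sum_splt]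
  constructor
  · intro hx
    constructor
    · intro u
      have := hx (Fin.append u 0)
      rw [splt_surj (u, 0)] at this
      simpa [z2] using this
    · intro u
      have := hx (Fin.append 0 u)
      rw [splt_surj (0, u)] at this
      simpa [z1] using this
  · rintro ⟨hx1, hx2⟩ u
    exact add_le_add (hx1 _) (hx2 _)

theorem isClosed_PB {n : ℕ} (h : (Fin n → ℝ) → ℝ) : IsClosed (PB h) := by
  unfold PB
  rw [Set.ofPred_forall]
  refine isClosed_iInter fun u => isClosed_le ?_ continuous_const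
  fun_prop

/-- All the data of a polytope we need. -/
structure Good (n : ℕ) (v p : ℝ) : Prop where
  ex : ∃ (S : Finset (Fin n → ℝ)) (h : (Fin n → ℝ) → ℝ),
    (interior (convexHull ℝ (S : Set (Fin n → ℝ)))).Nonempty ∧
    IsSh (convexHull ℝ (S : Set (Fin n → ℝ))) h ∧
    (volume (convexHull ℝ (S : Set (Fin n → ℝ)))).toReal = v ∧ 0 < v ∧
    (volume (PB h)).toReal = p

/-- Linear coordinates splitting. -/
def spltL (a b : ℕ) : (Fin (a + b) → ℝ) ≃L[ℝ] (Fin a → ℝ) × (Fin b → ℝ) :=
  { toFun := splt a b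
    map_add' := fun _ _ => rfl
    map_smul' := fun _ _ => rfl
    invFun := fun p => Fin.append p.1 p.2
    left_inv := fun x => by
      funext i
      refine Fin.addCases (fun i => ?_) (fun i => ?_) i <;> simp [splt]
    right_inv := fun p => splt_surj p
    continuous_toFun := by unfold splt; fun_prop
    continuous_invFun := by
      refine continuous_pi fun i => ?_
      refine Fin.addCases (fun i => ?_) (fun i => ?_) i
      · simp only [Fin.append_left]; fun_prop
      · simp only [Fin.append_right]; fun_prop }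

theorem Good.mul {a b : ℕ} {v1 p1 v2 p2 : ℝ} (g1 : Good a v1 p1) (g2 : Good b v2 p2) :
    Good (a + b) (v1 * v2) (v2 ^ a * p1 * (v1 ^ b * p2)) := by
  obtain ⟨S1, h1, hi1, hs1, hv1, hp1, hq1⟩ := g1.ex
  obtain ⟨S2, h2, hi2, hs2, hv2, hp2, hq2⟩ := g2.ex
  classical
  have hc1 : IsCompact (convexHull ℝ (S1 : Set (Fin a → ℝ))) := S1.finite_toSet.isCompact_convexHull ℝ
  have hc2 : IsCompact (convexHull ℝ (S2 : Set (Fin b → ℝ))) := S2.finite_toSet.isCompact_convexHull ℝ
  have hset : convexHull ℝ (((S1 ×ˢ S2).image (spltL a b).symm : Finset _) :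
      Set (Fin (a + b) → ℝ)) = splt a b ⁻¹' (convexHull ℝ (S1 : Set (Fin a → ℝ)) ×ˢ
        convexHull ℝ (S2 : Set (Fin b → ℝ))) := by
    rw [Finset.coe_image, Finset.coe_product, ← convexHull_prod]
    have e := (spltL a b).symm.toLinearEquiv.toLinearMap.image_convexHull
      ((S1 : Set (Fin a → ℝ)) ×ˢ (S2 : Set (Fin b → ℝ)))
    have e2 := (spltL a b).symm.image_eq_preimage_symm (convexHull ℝ
      ((S1 : Set (Fin a → ℝ)) ×ˢ (S2 : Set (Fin b → ℝ))))
    exact e.symm.trans e2
  refine ⟨⟨(S1 ×ˢ S2).image (spltL a b).symm, fun u =>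
    (volume (convexHull ℝ (S2 : Set (Fin b → ℝ)))).toReal * h1 (splt a b u).1 +
      (volume (convexHull ℝ (S1 : Set (Fin a → ℝ)))).toReal * h2 (splt a b u).2,
      ?_, ?_, ?_, mul_pos hp1 hp2, ?_⟩⟩
  rotate_left
  · rw [hset]; exact hs1.prod hc1 hc2 hs2
  · rw [hset, volume_splt hc1.measurableSet hc2.measurableSet, ENNReal.toReal_mul, hv1, hv2]
  · rw [hv1, hv2, PB_prod (h1 := fun u => v2 * h1 u) (h2 := fun u => v1 * h2 u)
      (by simp [hs1.zero]) (by simp [hs2.zero]),
      volume_splt (isClosed_PB _).measurableSet (isClosed_PB _).measurableSet,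
      volume_PB_smul hp2, volume_PB_smul hp1]
    simp only [ENNReal.toReal_mul, hq1, hq2]
    rw [ENNReal.toReal_ofReal (by positivity), ENNReal.toReal_ofReal (by positivity)]
  · rw [hset]
    have : splt a b ⁻¹' (interior (convexHull ℝ (S1 : Set (Fin a → ℝ))) ×ˢ
        interior (convexHull ℝ (S2 : Set (Fin b → ℝ)))) ⊆ interior (splt a b ⁻¹'
          (convexHull ℝ (S1 : Set (Fin a → ℝ)) ×ˢ convexHull ℝ (S2 : Set (Fin b → ℝ)))) := by
      apply interior_maximal
      · exact preimage_mono (Set.prod_mono interior_subset interior_subset)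
      · exact (isOpen_interior.prod isOpen_interior).preimage (spltL a b).continuous
    refine Set.Nonempty.mono this ?_
    obtain ⟨x1, hx1⟩ := hi1
    obtain ⟨x2, hx2⟩ := hi2
    exact ⟨Fin.append x1 x2, by rw [mem_preimage, splt_surj (x1, x2)]; exact ⟨hx1, hx2⟩⟩

end Crest.Agent.R230.Simp
end

-- ▼ part R230/Bridge

/-! Row 230: from coordinates to `EuclideanSpace`, the simplex as a polytope. -/

set_option autoImplicit false
open MeasureTheory Set Filter Topology
open scoped ENNReal Pointwise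

namespace Crest.Agent.R230.Simp

theorem proj_set_eq {m : ℕ} {K : Set (Fin (m + 1) → ℝ)} {h : (Fin (m + 1) → ℝ) → ℝ}
    (hK : IsCompact K) (hc : Convex ℝ K) (hi : (interior K).Nonempty) (hs : IsSh K h) :
    (⋂ u ∈ Metric.sphere (0 : EuclideanSpace ℝ (Fin (m + 1))) 1,
      {x : EuclideanSpace ℝ (Fin (m + 1)) | inner ℝ x u ≤
        ((μHE[m + 1 - 1] : Measure (EuclideanSpace ℝ (Fin (m + 1))))
          ((fun y => y - inner ℝ y u • u) '' (WithLp.ofLp ⁻¹' K))).toReal}) =
      WithLp.ofLp ⁻¹' (PB h) := by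
  set e := EuclideanSpace.equiv (Fin (m + 1)) ℝ with he
  have hmp := PiLp.volume_preserving_ofLp (Fin (m + 1))
  have hK' : IsCompact (WithLp.ofLp ⁻¹' K : Set (EuclideanSpace ℝ (Fin (m + 1)))) := by
    have : (WithLp.ofLp ⁻¹' K : Set (EuclideanSpace ℝ (Fin (m + 1)))) = e.symm '' K := by
      rw [e.symm.image_eq_preimage_symm]; rfl
    rw [this]
    exact hK.image e.symm.continuous
  have hc' : Convex ℝ (WithLp.ofLp ⁻¹' K : Set (EuclideanSpace ℝ (Fin (m + 1)))) :=
    hc.linear_preimage e.toLinearEquiv.toLinearMap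
  have hi' : (interior (WithLp.ofLp ⁻¹' K : Set (EuclideanSpace ℝ (Fin (m + 1))))).Nonempty := by
    obtain ⟨x, hx⟩ := hi
    refine ⟨e.symm x, ?_⟩
    have h2 : (WithLp.ofLp ⁻¹' (interior K) : Set (EuclideanSpace ℝ (Fin (m + 1)))) ⊆
        interior (WithLp.ofLp ⁻¹' K) :=
      interior_maximal (preimage_mono interior_subset) (isOpen_interior.preimage e.continuous)
    exact h2 hx
  have hvol : ∀ t u, volume (lap (WithLp.ofLp ⁻¹' K : Set (EuclideanSpace ℝ (Fin (m + 1)))) u t) =
      volume (plap K (WithLp.ofLp u) t) := by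
    intro t u
    rw [← hmp.measure_preimage (isCompact_plap hK _ t).measurableSet.nullMeasurableSet]
    rfl
  have hvolK : volume (WithLp.ofLp ⁻¹' K : Set (EuclideanSpace ℝ (Fin (m + 1)))) = volume K :=
    hmp.measure_preimage hK.measurableSet.nullMeasurableSet
  have hsh : ∀ u : EuclideanSpace ℝ (Fin (m + 1)), ‖u‖ = 1 →
      ((μHE[m + 1 - 1] : Measure (EuclideanSpace ℝ (Fin (m + 1))))
          ((fun y => y - inner ℝ y u • u) '' (WithLp.ofLp ⁻¹' K))).toReal = h (WithLp.ofLp u) := by
    intro u hu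
    have h1 := tendsto_shadow (V := EuclideanSpace ℝ (Fin (m + 1))) (m := m) (by simp) hK' hc' hi' hu
    have h2 := hs (WithLp.ofLp u)
    simp_rw [hvol, hvolK] at h1
    exact tendsto_nhds_unique h1 h2
  have hinner : ∀ x u : EuclideanSpace ℝ (Fin (m + 1)), inner ℝ x u =
      ∑ i, (WithLp.ofLp x) i * (WithLp.ofLp u) i := by
    intro x u
    rw [PiLp.inner_apply]
    apply Finset.sum_congr rfl
    intro i _
    simp [mul_comm]
  ext x
  simp only [mem_iInter, mem_sphere_iff_norm, sub_zero, mem_ofPred_eq, mem_preimage, PB]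
  constructor
  · intro hx u
    by_cases hu : u = 0
    · subst hu
      rw [hs.zero]
      simp
    · set w : EuclideanSpace ℝ (Fin (m + 1)) := WithLp.toLp 2 u with hw
      have hw0 : w ≠ 0 := by
        intro h0
        apply hu
        have := congrArg WithLp.ofLp h0
        simpa [hw] using this
      have hn : 0 < ‖w‖ := norm_pos_iff.2 hw0
      have h1 : ‖‖w‖⁻¹ • w‖ = 1 := by
        rw [norm_smul, norm_inv, norm_norm, inv_mul_cancel₀ hn.ne']
      have h2 := hx (‖w‖⁻¹ • w) h1
      rw [hsh _ h1, hinner] at h2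
      have h3 : (WithLp.ofLp (‖w‖⁻¹ • w)) = ‖w‖⁻¹ • u := rfl
      rw [h3, hs.smul (inv_pos.2 hn)] at h2
      simp only [Pi.smul_apply, smul_eq_mul] at h2
      have h4 : ∑ i, (WithLp.ofLp x) i * (‖w‖⁻¹ * u i) = ‖w‖⁻¹ * ∑ i, (WithLp.ofLp x) i * u i := by
        rw [Finset.mul_sum]
        apply Finset.sum_congr rfl
        intro i _; ring
      rw [h4] at h2
      exact le_of_mul_le_mul_left h2 (inv_pos.2 hn)
  · intro hx u hu
    rw [hsh u hu, hinner]
    exact hx _

theorem volume_proj_set {m : ℕ} {K : Set (Fin (m + 1) → ℝ)} {h : (Fin (m + 1) → ℝ) → ℝ}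
    (hK : IsCompact K) (hc : Convex ℝ K) (hi : (interior K).Nonempty) (hs : IsSh K h) :
    volume (⋂ u ∈ Metric.sphere (0 : EuclideanSpace ℝ (Fin (m + 1))) 1,
      {x : EuclideanSpace ℝ (Fin (m + 1)) | inner ℝ x u ≤
        ((μHE[m + 1 - 1] : Measure (EuclideanSpace ℝ (Fin (m + 1))))
          ((fun y => y - inner ℝ y u • u) '' (WithLp.ofLp ⁻¹' K))).toReal}) =
      volume (PB h) := by
  rw [proj_set_eq hK hc hi hs]
  exact (PiLp.volume_preserving_ofLp (Fin (m + 1))).measure_preimage
    (isClosed_PB h).measurableSet.nullMeasurableSet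

/-! ### The simplex as a polytope -/

theorem convex_corner (n : ℕ) (c : ℝ) : Convex ℝ (corner n c) := by
  intro x hx y hy a b ha hb hab
  refine ⟨fun i => ?_, ?_⟩
  · exact add_nonneg (mul_nonneg ha (hx.1 i)) (mul_nonneg hb (hy.1 i))
  · have : ∑ i, (a • x + b • y) i = a * ∑ i, x i + b * ∑ i, y i := by
      simp [Finset.sum_add_distrib, Finset.mul_sum]
    rw [this]
    calc a * ∑ i, x i + b * ∑ i, y i ≤ a * c + b * c :=
          add_le_add (mul_le_mul_of_nonneg_left hx.2 ha) (mul_le_mul_of_nonneg_left hy.2 hb)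
      _ = c := by rw [← add_mul, hab, one_mul]

/-- Vertices of the standard simplex. -/
noncomputable def verts (n : ℕ) : Finset (Fin n → ℝ) := by
  classical exact insert 0 (Finset.univ.image fun i => Pi.single i 1)

theorem convexHull_verts (n : ℕ) : convexHull ℝ (verts n : Set (Fin n → ℝ)) = corner n 1 := by
  classical
  apply Subset.antisymm
  · apply convexHull_min _ (convex_corner n 1)
    intro x hx
    simp only [verts, Finset.coe_insert, Finset.coe_image, Finset.coe_univ, image_univ,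
      Set.mem_insert_iff, mem_range] at hx
    rcases hx with rfl | ⟨i, rfl⟩
    · exact ⟨fun i => le_rfl, by simp⟩
    · refine ⟨fun j => ?_, by simp⟩
      by_cases hj : j = i
      · subst hj; simp
      · simp [hj]
  · intro x hx
    have h1 : x = ∑ o : Option (Fin n), (o.elim (1 - ∑ i, x i) x : ℝ) •
        (o.elim 0 (fun i => Pi.single i 1) : Fin n → ℝ) := by
      rw [Fintype.sum_option]
      funext j
      simp [Finset.sum_apply, Pi.single_apply]
    rw [h1]
    apply (convex_convexHull ℝ _).sum_mem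
    · intro o _
      cases o with
      | none => simpa using hx.2
      | some i => exact hx.1 i
    · rw [Fintype.sum_option]
      simp
    · intro o _
      apply subset_convexHull
      cases o with
      | none => simp [verts]
      | some i => simp [verts]

theorem interior_corner_nonempty (n : ℕ) : (interior (corner n 1)).Nonempty := by
  have hopen : IsOpen {x : Fin n → ℝ | (∀ i, 0 < x i) ∧ ∑ i, x i < 1} := by
    apply IsOpen.inter
    · have : {x : Fin n → ℝ | ∀ i, 0 < x i} = ⋂ i, {x : Fin n → ℝ | 0 < x i} := by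
        ext x; simp
      show IsOpen {x : Fin n → ℝ | ∀ i, 0 < x i}
      rw [this]
      exact isOpen_iInter_of_finite fun i => isOpen_lt continuous_const (continuous_apply i)
    · exact isOpen_lt (continuous_finsetSum _ fun i _ => continuous_apply i) continuous_const
  refine ⟨fun _ => 1 / (n + 1), ?_⟩
  apply interior_maximal _ hopen
  · refine ⟨fun i => by positivity, ?_⟩
    simp only [Finset.sum_const, Finset.card_univ, Fintype.card_fin, nsmul_eq_mul]
    rw [mul_one_div, div_lt_one (by positivity)]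
    linarith
  · rintro x ⟨h1, h2⟩
    exact ⟨fun i => (h1 i).le, h2.le⟩

theorem isCompact_corner (n : ℕ) : IsCompact (corner n 1) := by
  rw [← convexHull_verts]
  exact (verts n).finite_toSet.isCompact_convexHull ℝ

theorem good_corner {n : ℕ} (hn : 0 < n) :
    Good n (1 / n.factorial) (((n : ℝ) / n.factorial) ^ n * (n + 1)) := by
  refine ⟨⟨verts n, fun u => n / n.factorial * ms u, ?_, ?_, ?_, by positivity, ?_⟩⟩
  · rw [convexHull_verts]; exact interior_corner_nonempty n
  · rw [convexHull_verts]; exact isSh_corner n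
  · rw [convexHull_verts, volume_corner_one, ENNReal.toReal_ofReal (by positivity)]
  · exact volume_PB_corner hn

end Crest.Agent.R230.Simp
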