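import Crest.Agent.R230.TransProf
import Crest.Agent.R230.ProfCalc
import Crest.Agent.R230.Apriori

-- ▼ part R230/EPHalf

/-!
# Row 230: `EP` on the half interval, transport form

`EP_half_trans`: for even `η` with supporting lines `a s + b s p ≤ η (τ s) p` (`s ∈ (0,1)`, `p ∈ [0,1]`)
and `u s = τ s a s + b s` continuous on `[0,1]`, `u 0 = 0`, `u 1 ≤ η 1 1`:
`2 ∫_0^1 c^n (n a + u'/τ') ≤ w n (n+1) E_P η`.  (Right derivatives of `u` suffice; `a`, `b` may blow up at `1`.)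
-/

set_option autoImplicit false

open MeasureTheory Set Filter Topology
open scoped Pointwise ENNReal

namespace Crest.Agent.R230

lemma half_int {f : ℝ → ℝ} (hi : IntervalIntegrable f volume (-1) 1)
    (he : ∀ s ∈ Ioo (0 : ℝ) 1, f (-s) = f s) :
    ∫ s in (-1 : ℝ)..1, f s = 2 * ∫ s in (0 : ℝ)..1, f s := by
  have i1 : IntervalIntegrable f volume (-1) 0 := hi.mono_set (by
    rw [uIcc_of_le (by norm_num), uIcc_of_le (by norm_num)]; exact Icc_subset_Icc_right (by norm_num))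
  have i2 : IntervalIntegrable f volume 0 1 := hi.mono_set (by
    rw [uIcc_of_le (by norm_num), uIcc_of_le (by norm_num)]; exact Icc_subset_Icc_left (by norm_num))
  rw [← intervalIntegral.integral_add_adjacent_intervals i1 i2]
  have h1 : ∫ s in (-1 : ℝ)..0, f s = ∫ s in (0 : ℝ)..1, f (-s) := by
    rw [intervalIntegral.integral_comp_neg (fun s => f s)]; simp
  have h2 : ∫ s in (0 : ℝ)..1, f (-s) = ∫ s in (0 : ℝ)..1, f s := by
    rw [intervalIntegral.integral_of_le (by norm_num), intervalIntegral.integral_of_le (by norm_num),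
      integral_Ioc_eq_integral_Ioo, integral_Ioc_eq_integral_Ioo]
    exact setIntegral_congr_fun measurableSet_Ioo fun s hs => he s hs
  rw [h1, h2]; ring

section

variable {r : ℝ → ℝ} (hr : Prof r)
include hr

lemma Prof.deriv_neg' {s : ℝ} (hs : s ∈ Ioo (0 : ℝ) 1) : deriv r (-s) = -deriv r s := by
  have h1 : (fun x => r (-x)) =ᶠ[𝓝 s] r := by
    filter_upwards [Ioo_mem_nhds hs.1 hs.2] with x hx
    exact hr.even x ⟨by linarith [hx.1], hx.2.le⟩
  have h2 := h1.deriv_eq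
  rw [deriv_comp_neg] at h2
  linarith

lemma Prof.pp_neg {s : ℝ} (hs : s ∈ Ioo (0 : ℝ) 1) : pp r (-s) = -pp r s := by
  unfold pp
  rw [hr.deriv_neg' hs, hr.even s ⟨by linarith [hs.1], hs.2.le⟩]
  rw [show r s - -s * -deriv r s = r s - s * deriv r s by ring]
  ring

lemma Prof.deriv_nonpos {s : ℝ} (hs : s ∈ Ioo (0 : ℝ) 1) : deriv r s ≤ 0 := by
  by_cases hd : DifferentiableAt ℝ r s
  · have h3 := hd.hasDerivAt.hasDerivWithinAt (s := Ioi s)
    have := (uniqueDiffWithinAt_Ioi s).eq_deriv _ h3 (hr.hasRightDeriv ⟨by linarith [hs.1], hs.2⟩)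
    rw [this]
    exact hr.rd_nonpos hs
  · rw [deriv_zero_of_not_differentiableAt hd]

lemma Prof.pp_mem_half {s : ℝ} (hs : s ∈ Ioo (0 : ℝ) 1) : pp r s ∈ Icc (0 : ℝ) 1 := by
  obtain ⟨h1, h2⟩ := prof_pp_mem hr (s := s) ⟨by linarith [hs.1], hs.2⟩
  refine ⟨?_, h2.2⟩
  unfold pp
  exact div_nonneg (by linarith [hr.deriv_nonpos hs]) h1.le

/-- integration by parts on `[0,1]`, right derivatives -/
theorem Prof.ibp_half {n : ℕ} {u u' : ℝ → ℝ} (hu : ContinuousOn u (Icc 0 1))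
    (hu' : ∀ t ∈ Ioo (0 : ℝ) 1, HasDerivWithinAt u (u' t) (Ioi t) t)
    (hi : IntervalIntegrable (fun t => r t ^ n * u' t) volume 0 1) :
    n * (∫ s in (0 : ℝ)..1, (r s ^ (n - 1) * u s) * deriv r s) + ∫ s in (0 : ℝ)..1, r s ^ n * u' s
      = u 1 * r 1 ^ n - u 0 * r 0 ^ n := by
  have hrc : ContinuousOn r (Icc 0 1) := hr.cont.mono (Icc_subset_Icc_left (by norm_num))
  have hird : IntervalIntegrable (rd r) volume 0 1 := hr.intervalIntegrable_rd.mono_set (by
    rw [uIcc_of_le (by norm_num), uIcc_of_le (by norm_num)]; exact Icc_subset_Icc_left (by norm_num))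
  have hi1 : IntervalIntegrable (fun s => (r s ^ (n - 1) * u s) * rd r s) volume 0 1 := by
    refine hird.continuousOn_mul ?_
    rw [uIcc_of_le (by norm_num)]
    exact (hrc.pow _).mul hu
  have e1 : ∫ s in (0 : ℝ)..1, (r s ^ (n - 1) * u s) * deriv r s =
      ∫ s in (0 : ℝ)..1, (r s ^ (n - 1) * u s) * rd r s := by
    rw [intervalIntegral.integral_of_le (by norm_num), intervalIntegral.integral_of_le (by norm_num),
      integral_Ioc_eq_integral_Ioo, integral_Ioc_eq_integral_Ioo]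
    refine setIntegral_congr_ae measurableSet_Ioo ?_
    filter_upwards [hr.ae_deriv_eq] with s h1 h2
    rw [h1 ⟨by linarith [h2.1], h2.2⟩]
  rw [e1, ← intervalIntegral.integral_const_mul]
  rw [← intervalIntegral.integral_add (hi1.const_mul _) hi]
  have h := intervalIntegral.integral_eq_sub_of_hasDeriv_right_of_le (a := 0) (b := 1)
    (f := fun s => r s ^ n * u s) (f' := fun s => (n : ℝ) * (r s ^ (n - 1) * u s * rd r s) + r s ^ n * u' s)
    (by norm_num) ((hrc.pow _).mul hu) ?_ ((hi1.const_mul _).add hi)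
  · rw [h]
    ring
  · intro s hs
    have h1 := (hr.hasRightDeriv (s := s) ⟨by linarith [hs.1], hs.2⟩).fun_pow n
    have h2 := h1.fun_mul (hu' s hs)
    exact h2.congr_deriv (by ring)

lemma Prof.intervalIntegrable_mul_deriv_half {u : ℝ → ℝ} (hu : ContinuousOn u (Icc 0 1)) :
    IntervalIntegrable (fun s => u s * deriv r s) volume 0 1 := by
  have hird : IntervalIntegrable (rd r) volume 0 1 := hr.intervalIntegrable_rd.mono_set (by
    rw [uIcc_of_le (by norm_num), uIcc_of_le (by norm_num)]; exact Icc_subset_Icc_left (by norm_num))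
  have h1 : IntervalIntegrable (fun s => u s * rd r s) volume 0 1 := by
    refine hird.continuousOn_mul ?_
    rwa [uIcc_of_le (by norm_num)]
  refine h1.congr_ae ?_
  rw [uIoc_of_le (by norm_num), ← restrict_Ioo_eq_restrict_Ioc, EventuallyEq,
    ae_restrict_iff' measurableSet_Ioo]
  filter_upwards [hr.ae_deriv_eq] with s h1 h2
  rw [h1 ⟨by linarith [h2.1], h2.2⟩]

/-- `EP` of an even function through the half interval -/
theorem EP_half {n : ℕ} (hn : 1 ≤ n) {η : ℝ → ℝ → ℝ}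
    (hη : ContinuousOn (fun q : ℝ × ℝ => η q.1 q.2) (Icc (-1) 1 ×ˢ Icc (-1) 1))
    (hev : ∀ t ∈ Icc (-1 : ℝ) 1, ∀ p ∈ Icc (-1 : ℝ) 1, η (-t) (-p) = η t p) :
    ((n : ℝ) + 1) * mom n r * EP n r η =
      2 * (n * (∫ s in (0 : ℝ)..1, r s ^ (n - 1) * (r s - s * deriv r s) * η s (pp r s)) +
        η 1 1 * r 1 ^ n) := by
  have hm := hr.mom_pos' n
  have hn1 : (n : ℝ) + 1 ≠ 0 := by positivity
  have hi := prof_integrable_mul hn hr η hη
  have h1 := half_int hi (fun s hs => by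
    have hs' : s ∈ Icc (-1 : ℝ) 1 := ⟨by linarith [hs.1], hs.2.le⟩
    have hpp := (prof_pp_mem hr (s := s) ⟨by linarith [hs.1], hs.2⟩).2
    rw [hr.pp_neg hs, hr.deriv_neg' hs, hr.even s hs', hev s hs' _ hpp]
    ring)
  have h2 : η (-1) (-1) = η 1 1 := hev 1 ⟨by norm_num, le_rfl⟩ 1 ⟨by norm_num, le_rfl⟩
  unfold EP
  rw [h1, h2]
  field_simp
  ring

/-- lower bound of `EP` by a line family, half interval -/
theorem EP_half_ge {n : ℕ} (hn : 1 ≤ n) {η : ℝ → ℝ → ℝ}
    (hη : ContinuousOn (fun q : ℝ × ℝ => η q.1 q.2) (Icc (-1) 1 ×ˢ Icc (-1) 1))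
    (hev : ∀ t ∈ Icc (-1 : ℝ) 1, ∀ p ∈ Icc (-1 : ℝ) 1, η (-t) (-p) = η t p)
    {A u u' : ℝ → ℝ} (hu : ContinuousOn u (Icc 0 1)) (hu0 : u 0 = 0) (hu1 : u 1 ≤ η 1 1)
    (hu' : ∀ t ∈ Ioo (0 : ℝ) 1, HasDerivWithinAt u (u' t) (Ioi t) t)
    (hiA : IntervalIntegrable (fun t => r t ^ n * A t) volume 0 1)
    (hi : IntervalIntegrable (fun t => r t ^ n * u' t) volume 0 1)
    (hline : ∀ t ∈ Ioo (0 : ℝ) 1, ∀ p ∈ Icc (0 : ℝ) 1, A t + (u t - t * A t) * p ≤ η t p) :
    2 * (∫ t in (0 : ℝ)..1, r t ^ n * (n * A t + u' t)) ≤ ((n : ℝ) + 1) * mom n r * EP n r η := by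
  rw [EP_half hr hn hη hev]
  have hrc : ContinuousOn r (Icc 0 1) := hr.cont.mono (Icc_subset_Icc_left (by norm_num))
  have hibp := hr.ibp_half hu hu' hi
  rw [hu0] at hibp
  have hi3 : IntervalIntegrable (fun s => (r s ^ (n - 1) * u s) * deriv r s) volume 0 1 :=
    hr.intervalIntegrable_mul_deriv_half ((hrc.pow _).mul hu)
  have hi4 : IntervalIntegrable (fun s => r s ^ (n - 1) * (r s - s * deriv r s) * η s (pp r s))
      volume 0 1 := (prof_integrable_mul hn hr η hη).mono_set (by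
    rw [uIcc_of_le (by norm_num), uIcc_of_le (by norm_num)]; exact Icc_subset_Icc_left (by norm_num))
  have hmain : (∫ s in (0 : ℝ)..1, r s ^ n * A s) - ∫ s in (0 : ℝ)..1, (r s ^ (n - 1) * u s) * deriv r s ≤
      ∫ s in (0 : ℝ)..1, r s ^ (n - 1) * (r s - s * deriv r s) * η s (pp r s) := by
    rw [← intervalIntegral.integral_sub hiA hi3]
    refine intervalIntegral.integral_mono_on_of_le_Ioo (by norm_num) (hiA.sub hi3) hi4 ?_
    intro s hs
    obtain ⟨hp, -⟩ := prof_pp_mem hr (s := s) ⟨by linarith [hs.1], hs.2⟩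
    have hpp := hr.pp_mem_half hs
    have hrs := hr.pos s ⟨by linarith [hs.1], hs.2⟩
    have hl := hline s hs _ hpp
    have h2 : r s ^ (n - 1) * (r s - s * deriv r s) * (A s + (u s - s * A s) * pp r s) =
        r s ^ n * A s - (r s ^ (n - 1) * u s) * deriv r s := by
      have hpow : r s ^ n = r s ^ (n - 1) * r s := by
        rw [← pow_succ, Nat.sub_add_cancel hn]
      rw [hpow]
      unfold pp
      field_simp
      ring
    rw [← h2]
    exact mul_le_mul_of_nonneg_left hl (mul_nonneg (pow_nonneg hrs.le _) hp.le)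
  have hsum : ∫ t in (0 : ℝ)..1, r t ^ n * (n * A t + u' t) =
      n * (∫ s in (0 : ℝ)..1, r s ^ n * A s) + ∫ t in (0 : ℝ)..1, r t ^ n * u' t := by
    rw [← intervalIntegral.integral_const_mul, ← intervalIntegral.integral_add (hiA.const_mul _) hi]
    congr 1; ext t; ring
  rw [hsum]
  have hr1 : 0 ≤ r 1 ^ n := pow_nonneg (hr.nonneg' ⟨by norm_num, le_rfl⟩) n
  have h5 := mul_le_mul_of_nonneg_right hu1 hr1
  have h6 := mul_le_mul_of_nonneg_left hmain (Nat.cast_nonneg (α := ℝ) n)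
  linarith

variable (n : ℕ)

lemma tau_mem_half {s : ℝ} (hs : s ∈ Ioo (0 : ℝ) 1) : tau n r s ∈ Ioo (0 : ℝ) 1 :=
  ⟨tau_pos hr n ⟨hs.1, hs.2.le⟩, (tau_mem hr n ⟨by linarith [hs.1], hs.2⟩).2⟩

lemma tau_mem_half' {s : ℝ} (hs : s ∈ Icc (0 : ℝ) 1) : tau n r s ∈ Icc (0 : ℝ) 1 := by
  refine ⟨?_, (tau_mem_Icc hr n ⟨by linarith [hs.1], hs.2⟩).2⟩
  rcases hs.1.eq_or_lt with h | h
  · rw [← h, tau_zero hr n]
  · exact (tau_pos hr n ⟨h, hs.2⟩).le

lemma sig_mem_half {t : ℝ} (ht : t ∈ Ioo (0 : ℝ) 1) : sig n r t ∈ Ioo (0 : ℝ) 1 := by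
  have h1 := sig_mem hr n (t := t) ⟨by linarith [ht.1], ht.2⟩
  refine ⟨?_, h1.2⟩
  by_contra hc
  push Not at hc
  have h2 := (tau_strictMonoOn hr n).monotoneOn (a := sig n r t) (b := 0) ⟨h1.1.le, h1.2.le⟩
    ⟨by norm_num, by norm_num⟩ hc
  rw [tau_sig hr n ⟨by linarith [ht.1], ht.2.le⟩, tau_zero hr n] at h2
  linarith [ht.1]

lemma sig_zero : sig n r 0 = 0 := by
  have := sig_tau hr n (s := 0) ⟨by norm_num, by norm_num⟩
  rwa [tau_zero hr n] at this

lemma image_tau_half : tau n r '' Ioo 0 1 = Ioo (0 : ℝ) 1 := by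
  ext y
  constructor
  · rintro ⟨s, hs, rfl⟩
    exact tau_mem_half hr n hs
  · intro hy
    exact ⟨sig n r y, sig_mem_half hr n hy, tau_sig hr n ⟨by linarith [hy.1], hy.2.le⟩⟩

lemma pow_mul_dtau {s : ℝ} (hs : s ∈ Ioo (-1 : ℝ) 1) :
    dtau n r s * r (tau n r s) ^ n = mom n r / w n * Real.sqrt (1 - s ^ 2) ^ n := by
  have hm := (hr.mom_pos' n).ne'
  have hw := (w_pos' n).ne'
  have hrt := (pow_pos (hr.pos _ (tau_mem hr n hs)) n).ne'
  unfold dtau dB dP
  field_simp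

/-- change of variables `t = τ(s)` on the half interval -/
theorem half_pow_eq (φ : ℝ → ℝ) :
    ∫ t in (0 : ℝ)..1, r t ^ n * φ t =
      mom n r / w n * ∫ s in (0 : ℝ)..1, Real.sqrt (1 - s ^ 2) ^ n * φ (tau n r s) := by
  rw [← intervalIntegral.integral_const_mul]
  rw [intervalIntegral.integral_of_le (by norm_num), intervalIntegral.integral_of_le (by norm_num),
    integral_Ioc_eq_integral_Ioo, integral_Ioc_eq_integral_Ioo]
  have hsub : Ioo (0 : ℝ) 1 ⊆ Icc (-1) 1 := fun x hx => ⟨by linarith [hx.1], hx.2.le⟩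
  have h := integral_image_eq_integral_abs_deriv_smul (f := tau n r)
    (f' := fun s => dtau n r s) measurableSet_Ioo
    (fun s (hs : s ∈ Ioo (0 : ℝ) 1) =>
      (hasDerivAt_tau hr n ⟨by linarith [hs.1], hs.2⟩).hasDerivWithinAt)
    ((tau_strictMonoOn hr n).injOn.mono hsub) (fun t => r t ^ n * φ t)
  rw [image_tau_half hr n] at h
  rw [h]
  refine setIntegral_congr_fun measurableSet_Ioo fun s hs => ?_
  have hs' : s ∈ Ioo (-1 : ℝ) 1 := ⟨by linarith [hs.1], hs.2⟩
  simp only [smul_eq_mul]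
  rw [abs_of_pos (dtau_pos hr n hs'), ← mul_assoc, pow_mul_dtau hr n hs']
  ring

theorem half_integrable_iff (φ : ℝ → ℝ) :
    IntervalIntegrable (fun t => r t ^ n * φ t) volume 0 1 ↔
      IntervalIntegrable (fun s => Real.sqrt (1 - s ^ 2) ^ n * φ (tau n r s)) volume 0 1 := by
  rw [intervalIntegrable_iff_integrableOn_Ioo_of_le (by norm_num),
    intervalIntegrable_iff_integrableOn_Ioo_of_le (by norm_num)]
  have hsub : Ioo (0 : ℝ) 1 ⊆ Icc (-1) 1 := fun x hx => ⟨by linarith [hx.1], hx.2.le⟩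
  have h := integrableOn_image_iff_integrableOn_abs_deriv_smul (f := tau n r)
    (f' := fun s => dtau n r s) measurableSet_Ioo
    (fun s (hs : s ∈ Ioo (0 : ℝ) 1) =>
      (hasDerivAt_tau hr n ⟨by linarith [hs.1], hs.2⟩).hasDerivWithinAt)
    ((tau_strictMonoOn hr n).injOn.mono hsub) (fun t => r t ^ n * φ t)
  rw [image_tau_half hr n] at h
  rw [h]
  have hm := (hr.mom_pos' n).ne'
  have hw := (w_pos' n).ne'
  have h3 : IntegrableOn (fun s => |dtau n r s| • (r (tau n r s) ^ n * φ (tau n r s))) (Ioo 0 1) ↔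
      IntegrableOn (fun s => mom n r / w n * (Real.sqrt (1 - s ^ 2) ^ n * φ (tau n r s))) (Ioo 0 1) := by
    refine integrableOn_congr_fun (fun s hs => ?_) measurableSet_Ioo
    have hs' : s ∈ Ioo (-1 : ℝ) 1 := ⟨by linarith [hs.1], hs.2⟩
    simp only [smul_eq_mul]
    rw [abs_of_pos (dtau_pos hr n hs'), ← mul_assoc, pow_mul_dtau hr n hs']
    ring
  rw [h3]
  constructor
  · intro h4
    have h5 := h4.const_mul (mom n r / w n)⁻¹
    simp only [inv_mul_cancel_left₀ (div_ne_zero hm hw)] at h5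
    exact h5
  · intro h4
    exact h4.const_mul _

/-- lower bound of `(n+1) EP η` by a line family in the transport coordinate -/
theorem EP_half_trans (hn : 1 ≤ n) {η : ℝ → ℝ → ℝ}
    (hη : ContinuousOn (fun q : ℝ × ℝ => η q.1 q.2) (Icc (-1) 1 ×ˢ Icc (-1) 1))
    (hev : ∀ t ∈ Icc (-1 : ℝ) 1, ∀ p ∈ Icc (-1 : ℝ) 1, η (-t) (-p) = η t p)
    {a v v' : ℝ → ℝ} (hv : ContinuousOn v (Icc 0 1)) (hv0 : v 0 = 0) (hv1 : v 1 ≤ η 1 1)
    (hv' : ∀ s ∈ Ioo (0 : ℝ) 1, HasDerivWithinAt v (v' s) (Ioi s) s)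
    (hia : IntervalIntegrable (fun s => Real.sqrt (1 - s ^ 2) ^ n * a s) volume 0 1)
    (hi : IntervalIntegrable (fun s => Real.sqrt (1 - s ^ 2) ^ n * (v' s / dtau n r s)) volume 0 1)
    (hline : ∀ s ∈ Ioo (0 : ℝ) 1, ∀ p ∈ Icc (0 : ℝ) 1,
      a s + (v s - tau n r s * a s) * p ≤ η (tau n r s) p) :
    2 * (∫ s in (0 : ℝ)..1, Real.sqrt (1 - s ^ 2) ^ n * (n * a s + v' s / dtau n r s)) ≤
      w n * (((n : ℝ) + 1) * EP n r η) := by
  have hm := hr.mom_pos' n
  have hw := w_pos' n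
  have hval : ∀ s ∈ Ioo (0 : ℝ) 1, sig n r (tau n r s) = s := fun s hs =>
    sig_tau hr n ⟨by linarith [hs.1], hs.2.le⟩
  have hmaps : MapsTo (sig n r) (Icc 0 1) (Icc 0 1) := by
    intro t ht
    have h1 := sig_mem_Icc hr n (t := t) ⟨by linarith [ht.1], ht.2⟩
    refine ⟨?_, h1.2⟩
    rcases ht.1.eq_or_lt with h | h
    · rw [← h, sig_zero hr n]
    · rcases ht.2.eq_or_lt with h' | h'
      · rw [h', sig_one hr n]; norm_num
      · exact (sig_mem_half hr n ⟨h, h'⟩).1.le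
  have key := EP_half_ge hr hn hη hev (A := fun t => a (sig n r t)) (u := fun t => v (sig n r t))
    (u' := fun t => v' (sig n r t) * (dtau n r (sig n r t))⁻¹)
    (hv.comp (sig_continuous hr n).continuousOn hmaps) (by simp only [sig_zero hr n]; exact hv0)
    (by simp only [sig_one hr n]; exact hv1) ?_ ?_ ?_ ?_
  · rw [half_pow_eq hr n] at key
    have h2 : ∫ s in (0 : ℝ)..1, Real.sqrt (1 - s ^ 2) ^ n *
        (n * a (sig n r (tau n r s)) + v' (sig n r (tau n r s)) *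
          (dtau n r (sig n r (tau n r s)))⁻¹) = ∫ s in (0 : ℝ)..1, Real.sqrt (1 - s ^ 2) ^ n *
        (n * a s + v' s / dtau n r s) := by
      rw [intervalIntegral.integral_of_le (by norm_num), intervalIntegral.integral_of_le (by norm_num),
        integral_Ioc_eq_integral_Ioo, integral_Ioc_eq_integral_Ioo]
      refine setIntegral_congr_fun measurableSet_Ioo fun s hs => ?_
      simp only [hval s hs, div_eq_mul_inv]
    rw [h2] at key
    have h3 : 2 * (mom n r / w n * ∫ s in (0 : ℝ)..1, Real.sqrt (1 - s ^ 2) ^ n *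
        (n * a s + v' s / dtau n r s)) * (w n / mom n r) ≤
        ((n : ℝ) + 1) * mom n r * EP n r η * (w n / mom n r) :=
      mul_le_mul_of_nonneg_right key (by positivity)
    refine le_trans (le_of_eq ?_) (le_trans h3 (le_of_eq ?_))
    · field_simp
    · field_simp
  · intro t ht
    have h1 := hasDerivAt_sig hr n (t := t) ⟨by linarith [ht.1], ht.2⟩
    have h2 := hv' _ (sig_mem_half hr n ht)
    have hmt : MapsTo (sig n r) (Ioi t ∩ Ioo 0 1) (Ioi (sig n r t)) := by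
      intro x hx
      by_contra hc
      rw [mem_Ioi, not_lt] at hc
      have h4 := (tau_strictMonoOn hr n).monotoneOn (sig_mem_Icc hr n (t := x)
        ⟨by linarith [hx.2.1], hx.2.2.le⟩) (sig_mem_Icc hr n (t := t) ⟨by linarith [ht.1], ht.2.le⟩) hc
      rw [tau_sig hr n ⟨by linarith [hx.2.1], hx.2.2.le⟩, tau_sig hr n ⟨by linarith [ht.1], ht.2.le⟩] at h4
      exact absurd h4 (not_le.2 hx.1)
    have h3 := HasDerivWithinAt.comp t h2 (h1.hasDerivWithinAt (s := Ioi t ∩ Ioo 0 1)) hmt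
    exact (hasDerivWithinAt_inter (Ioo_mem_nhds ht.1 ht.2)).1 h3
  · rw [half_integrable_iff hr n]
    refine hia.congr_ae ?_
    rw [uIoc_of_le (by norm_num), ← restrict_Ioo_eq_restrict_Ioc, EventuallyEq,
      ae_restrict_iff' measurableSet_Ioo]
    exact Eventually.of_forall fun s hs => by simp only [hval s hs]
  · rw [half_integrable_iff hr n]
    refine hi.congr_ae ?_
    rw [uIoc_of_le (by norm_num), ← restrict_Ioo_eq_restrict_Ioc, EventuallyEq,
      ae_restrict_iff' measurableSet_Ioo]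
    exact Eventually.of_forall fun s hs => by simp only [hval s hs, div_eq_mul_inv]
  · intro t ht p hp
    have := hline (sig n r t) (sig_mem_half hr n ht) p hp
    rwa [tau_sig hr n ⟨by linarith [ht.1], ht.2.le⟩] at this

lemma mom_half : mom n r = 2 * ∫ t in (0 : ℝ)..1, r t ^ n := by
  unfold mom
  refine half_int (hr.cont.pow n |>.intervalIntegrable_of_Icc (by norm_num)) fun s hs => ?_
  simp only [hr.even s ⟨by linarith [hs.1], hs.2.le⟩]

end

lemma w_half (n : ℕ) : w n = 2 * ∫ s in (0 : ℝ)..1, Real.sqrt (1 - s ^ 2) ^ n := by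
  unfold w
  exact half_int (Continuous.intervalIntegrable (by fun_prop) _ _) fun s _ => by simp

/-- the mean of a function of `t` minus the mean for the ball, half interval transport form -/
theorem mean_sub_half {r : ℝ → ℝ} (hr : Prof r) (n : ℕ) {g : ℝ → ℝ} (hg : ContinuousOn g (Icc (-1) 1))
    (hge : ∀ s ∈ Icc (-1 : ℝ) 1, g (-s) = g s) :
    w n * ((∫ t in (-1 : ℝ)..1, r t ^ n * g t) / mom n r -
      (∫ s in (-1 : ℝ)..1, Real.sqrt (1 - s ^ 2) ^ n * g s) / w n) =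
      2 * ∫ s in (0 : ℝ)..1, Real.sqrt (1 - s ^ 2) ^ n * (g (tau n r s) - g s) := by
  have hm := hr.mom_pos' n
  have hw := w_pos' n
  have hsc : Continuous fun s : ℝ => Real.sqrt (1 - s ^ 2) ^ n := by fun_prop
  have e1 := half_int (f := fun t => r t ^ n * g t)
    (((hr.cont.pow n).mul hg).intervalIntegrable_of_Icc (by norm_num)) fun s hs => by
      have hs' : s ∈ Icc (-1 : ℝ) 1 := ⟨by linarith [hs.1], hs.2.le⟩
      simp only [hr.even s hs', hge s hs']
  have e2 := half_int (f := fun s => Real.sqrt (1 - s ^ 2) ^ n * g s)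
    ((hsc.continuousOn.mul hg).intervalIntegrable_of_Icc (by norm_num)) fun s hs => by
      have hs' : s ∈ Icc (-1 : ℝ) 1 := ⟨by linarith [hs.1], hs.2.le⟩
      simp only [hge s hs', neg_sq]
  have hsub : Icc (0 : ℝ) 1 ⊆ Icc (-1) 1 := Icc_subset_Icc_left (by norm_num)
  have i1 : IntervalIntegrable (fun s => Real.sqrt (1 - s ^ 2) ^ n * g (tau n r s)) volume 0 1 := by
    refine ContinuousOn.intervalIntegrable_of_Icc (by norm_num) ?_
    exact hsc.continuousOn.mul (hg.comp (tau_continuous hr n).continuousOn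
      fun s hs => tau_mem_Icc hr n (hsub hs))
  have i2 : IntervalIntegrable (fun s => Real.sqrt (1 - s ^ 2) ^ n * g s) volume 0 1 :=
    (hsc.continuousOn.mul (hg.mono hsub)).intervalIntegrable_of_Icc (by norm_num)
  have e3 : ∫ s in (0 : ℝ)..1, Real.sqrt (1 - s ^ 2) ^ n * (g (tau n r s) - g s) =
      (∫ s in (0 : ℝ)..1, Real.sqrt (1 - s ^ 2) ^ n * g (tau n r s)) -
        ∫ s in (0 : ℝ)..1, Real.sqrt (1 - s ^ 2) ^ n * g s := by
    rw [← intervalIntegral.integral_sub i1 i2]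
    congr 1; ext s; ring
  rw [e1, e2, half_pow_eq hr n, e3]
  field_simp

/-- **the constraint** on the half interval -/
theorem NleB_half {r : ℝ → ℝ} (hr : Prof r) {n : ℕ} (hn : 1 ≤ n) (h : NleB n r)
    (hi : IntervalIntegrable (fun s => Real.sqrt (1 - s ^ 2) ^ (n - 1) * dtau n r s ^ ((1 : ℝ) / n))
      volume (-1) 1) :
    ∫ s in (0 : ℝ)..1, Real.sqrt (1 - s ^ 2) ^ (n - 1) * dtau n r s ^ ((1 : ℝ) / n) ≤
      ∫ s in (0 : ℝ)..1, Real.sqrt (1 - s ^ 2) ^ (n - 1) := by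
  have h1 := NleB_trans hr n hn h
  have h2 := half_int hi fun s hs => by
    have hs' : s ∈ Icc (-1 : ℝ) 1 := ⟨by linarith [hs.1], hs.2.le⟩
    have e : dtau n r (-s) = dtau n r s := by
      unfold dtau
      rw [tau_odd hr n hs', (dens_dB n).even s hs', (hr.dens_dP n).even _ (tau_mem_Icc hr n hs')]
    rw [e, neg_sq]
  rw [h2, w_half] at h1
  linarith

end Crest.Agent.R230
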