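import Crest.Agent.R230.FarBoxF1
import Crest.Agent.R230.FarMu
import Crest.Agent.R230.FarTailC
import Crest.Agent.R230.FarTailD

-- ▼ part R230/FarBoxStar
section

/-!
# Row 230: block F1 (`k ≥ 0`, `l ≤ 9/10`) in the form `PStar` (helper782)
-/

set_option autoImplicit false

open Set

namespace Crest.Agent.R230.FB

open Crest.Agent.R230.IA Crest.Agent.R230.WR

/-- the lower bound of `far_lower` is positive -/
theorem low_pos {n : ℕ} (hn : 23 ≤ n) {s l k Mu : ℝ}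
    (h : FarC n s l k) (hk : 0 ≤ k) (hl : l ≤ 9 / 10)
    (hMu : Mu ≤ (107 / 100 + 186 / 100 / ((n : ℝ) + 1 - 2)) *
      (((n : ℝ) + 1 - 1) / ((n : ℝ) + 1 - 1 - l))) :
    Mu * (k - Real.log (1 + k)) < PF n 0 s l k := by
  have hn' : (23 : ℝ) ≤ n := by exact_mod_cast hn
  obtain ⟨hs, hx2, hT1, hcap, hC1, hC2, hk0, hk1, hk2⟩ := h
  have hs0 := hs.1
  obtain ⟨T, hT⟩ : ∃ T : ℝ, T = s * Real.exp l := ⟨_, rfl⟩
  have hT0 : 0 < T := by rw [hT]; have := Real.exp_pos l; positivity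
  rw [← hT] at hT1 hcap
  have hT81 : T ^ 8 < 1 := pow_lt_one₀ hT0.le hT1 (by norm_num)
  have hcapF : capF T = 43 / 100 - 23 / 200 * T ^ 8 := rfl
  rw [hcapF] at hcap
  have hl315 : 63 / 200 < l := by linarith
  have hs34 : s ≤ 3 / 4 := by
    have h1 := Real.quadratic_le_exp_of_nonneg (show 0 ≤ l by linarith)
    have h2 : 4 / 3 ≤ Real.exp l := by nlinarith
    by_contra hcon
    push Not at hcon
    have : 1 < T := by rw [hT]; nlinarith
    linarith
  obtain ⟨s0, s1, l0, l1, hbox, b1, b2, b3, b4⟩ := cert_all hs0.le hs34 (by linarith) hl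
  obtain ⟨v, hvd⟩ : ∃ v : ℝ, v = l - (43 / 100 - 23 / 200 * T ^ 8) := ⟨_, rfl⟩
  have hv0 : 0 < v := by rw [hvd]; linarith
  obtain ⟨u, hud⟩ : ∃ u : ℝ, u = Uf s l := ⟨_, rfl⟩
  have huv : u = v * (v / (v + 7 / 100)) := by
    rw [hud]; unfold Uf
    rw [← hT, hcapF, ← hvd, Vq_of_nonneg hv0.le]
    ring
  obtain ⟨V1, hV1d⟩ : ∃ u : ℝ, u = Vq' (7 / 100) (l - capF T) := ⟨_, rfl⟩
  have hV1 : V1 = 1 - (1 - v / (v + 7 / 100)) * (1 - v / (v + 7 / 100)) := by
    rw [hV1d, hcapF, ← hvd, Vq'_of_nonneg hv0.le]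
    have : v + 7 / 100 ≠ 0 := by positivity
    field_simp
    ring
  have hul : u < l := by
    have h1 : v / (v + 7 / 100) < 1 := by rw [div_lt_one (by positivity)]; linarith
    have h2 : u < v := by rw [huv]; nlinarith
    have : 0 < T ^ 8 := by positivity
    have : v < l := by rw [hvd]; linarith
    linarith
  have hsu : s * Real.exp u < 1 := by
    have : s * Real.exp u < s * Real.exp l := mul_lt_mul_of_pos_left (Real.exp_lt_exp.2 hul) hs0
    rw [← hT] at this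
    linarith
  have hsE : s * s * Real.exp (2 * u) = (s * Real.exp u) ^ 2 := by
    rw [mul_pow, ← Real.exp_nat_mul]; push_cast; ring
  have hzE : s * s * Real.exp (2 * u) < 1 := by
    rw [hsE]
    have : 0 < s * Real.exp u := by have := Real.exp_pos u; positivity
    nlinarith
  have hlow := far_lower (n := n) (by omega) (Mu := 0) (μ := 0) (lm := 0) (l := l) (V1 := V1)
    (tp := 23 / 25 * T ^ 8) hs hsu hk le_rfl (by simp)
  have hPF : PF n 0 s l k = PQ n 0 0 (7 / 50) 1 0 0 s l k + (lineC n s l k u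
      (V1 * (k + 23 / 25 * T ^ 8 * (1 + k))) + softG n (((n : ℝ) - 4) / ((n : ℝ) + 1) + 1 / 1000) 0 s u
      (V1 * (k + 23 / 25 * T ^ 8 * (1 + k)))) := by
    unfold PF SUf
    rw [SU_eq, ← hT, ← hud, ← hV1d]
    rfl
  rw [hPF]
  refine lt_of_lt_of_le ?_ hlow
  rw [← sub_pos]
  have hx : s * Real.sqrt ((n : ℝ) + 1) * (s * Real.sqrt ((n : ℝ) + 1)) = ((n : ℝ) + 1) * (s * s) := by
    have := Real.mul_self_sqrt (show 0 ≤ (n : ℝ) + 1 by positivity)
    calc _ = s * s * (Real.sqrt ((n : ℝ) + 1) * Real.sqrt ((n : ℝ) + 1)) := by ring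
      _ = _ := by rw [this]; ring
  have hss : s ^ 2 = s * s := by ring
  have hcc : cc s = Real.sqrt (1 - s * s) := by unfold cc; rw [hss]
  have hcu : cc (s * Real.exp u) = Real.sqrt (1 - s * s * Real.exp (2 * u)) := by
    unfold cc; rw [hsE]
  have hcT : cc (s * Real.exp l) = Real.sqrt (1 - T * T) := by
    unfold cc; rw [← hT]; ring_nf
  have hk2' : (1 + k) * (s * cc s ^ 2) ≤ (1 + ((n : ℝ) + 1) * (s * s)) * (Real.exp (-l) - s) := by
    rw [← hss]; exact hk2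
  have := box_real hbox (N := (n : ℝ) + 1) (z := s * s) (T := T) (u := u) (V := V1)
    (cap := 43 / 100 - 23 / 200 * T ^ 8) (y := v / (v + 7 / 100)) (c := cc s)
    (ch := cc (s * Real.exp u)) (cT := cc (s * Real.exp l)) (E := Real.exp (2 * u))
    (x := s * Real.sqrt ((n : ℝ) + 1)) (by linarith) hs0 hs.2 rfl b1 b2 b3 b4
    (by linarith) hT hT1 rfl hcap (by rw [hvd]) (by rw [huv, hvd]) hV1 rfl hcc hzE hcu hcT hx hx2
    hC1 hC2 hk hk1 hk2' hMu
  rw [hss]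
  linarith

end Crest.Agent.R230.FB

namespace Crest.Agent.R230.WR

/-- **block F1, `k ≥ 0`, `l ≤ 9/10`**, in the form `PStar` -/
theorem PStar_pos_box {n : ℕ} (hn : 23 ≤ n) {s l k : ℝ} (h : FarC n s l k) (hk : 0 ≤ k)
    (hl : l ≤ 9 / 10) : 0 < PStar n s l k := by
  have hn' : (23 : ℝ) ≤ n := by exact_mod_cast hn
  have hT0 : 0 < s * Real.exp l := mul_pos h.hs.1 (Real.exp_pos _)
  have hT81 : (s * Real.exp l) ^ 8 < 1 := pow_lt_one₀ hT0.le h.hT (by norm_num)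
  have hl0 : 0 ≤ l := by
    have h1 := h.hcap
    unfold capF at h1
    linarith
  have hmu : 0 ≤ muF n := by unfold muF; apply div_nonneg <;> linarith
  have h1 := FB.low_pos hn h hk hl le_rfl
  have h2 := FB.mu_exp_le hn hmu le_rfl hl0 (by linarith)
  have h3 := hm_le_log1 (n := n) (by omega) (show 0 < 1 + k by linarith)
  have h4 : 0 ≤ hm n k := PL.hm_nonneg (by omega) (by linarith)
  have h5 : muF n * (Real.exp (l / n) * hm n k) ≤
      (107 / 100 + 186 / 100 / ((n : ℝ) + 1 - 2)) * (((n : ℝ) + 1 - 1) / ((n : ℝ) + 1 - 1 - l)) *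
        (k - Real.log (1 + k)) := by
    rw [← mul_assoc]
    exact mul_le_mul h2 h3 h4 (le_trans (mul_nonneg hmu (Real.exp_pos _).le) h2)
  unfold PStar
  linarith

end Crest.Agent.R230.WR
end

-- ▼ part R230/FarTailE
section

/-!
# Row 230: far block, tail `l ≥ 9/10` (helper825): `t = T² ≤ 81/100`
-/

set_option autoImplicit false

open Set

namespace Crest.Agent.R230.WR

lemma reg1_poly {t : ℝ} (h0 : 0 ≤ t) (h1 : t ≤ 81 / 100) :
    0 < 5128848 / 1000000 - 27 / 50 * t -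
      37463 / 100000 * (908348 / 100000 + 145015 / 10000 * t ^ 4 - 300933 / 100000 * t - 25 / 16 * t ^ 2) := by
  have h2 : t ^ 4 ≤ 6561 / 10000 * t ^ 2 := by
    have : t ^ 2 ≤ (81 / 100) ^ 2 := by gcongr
    nlinarith [sq_nonneg t]
  nlinarith [mul_nonneg h0 (sub_nonneg.2 h1)]

/-- `ε ≤ 0.37463 (1 + 0.242 y)` -/
lemma reg1_eps {y δ : ℝ} (hy : 0 ≤ y) (hy1 : y ≤ 4305 / 10000) (hδ1 : δ ≤ 908 / 100000)
    (hup : Real.exp (-1 + (1816 / 100000 + 23 / 100 * y)) ≤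
      36788 / 100000 * (1 + (1816 / 100000 + 23 / 100 * y) + (1816 / 100000 + 23 / 100 * y) ^ 2 / 2 +
        (1816 / 100000 + 23 / 100 * y) ^ 3 / 6 + (1816 / 100000 + 23 / 100 * y) ^ 4 * 5 / 96)) :
    Real.exp (-1 + 2 * (23 / 200 * y + δ)) ≤ 37463 / 100000 * (1 + 242 / 1000 * y) := by
  have h1 : Real.exp (-1 + 2 * (23 / 200 * y + δ)) ≤ Real.exp (-1 + (1816 / 100000 + 23 / 100 * y)) := by
    apply Real.exp_le_exp.2; linarith
  refine h1.trans (hup.trans ?_)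
  set x := 1816 / 100000 + 23 / 100 * y with hx
  have hx0 : 1816 / 100000 ≤ x := by linarith
  have hx1 : x ≤ 11718 / 100000 := by linarith
  have hy' : y = 100 / 23 * (x - 1816 / 100000) := by rw [hx]; ring
  rw [hy']
  -- convexity: polynomial in x on [0.01816, 0.11718]
  have h3 : x ^ 2 ≤ 13534 / 100000 * x - 1816 / 100000 * (11718 / 100000) := by nlinarith
  have h4 : x ^ 3 ≤ 11718 / 100000 * x ^ 2 := by nlinarith [sq_nonneg x]
  have h5 : x ^ 4 ≤ 11718 / 100000 * x ^ 3 := by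
    have : 0 ≤ x ^ 3 := by positivity
    nlinarith
  have h6 : 0 ≤ x ^ 2 := sq_nonneg x
  linarith

/-- the `F`-term is harmless -/
lemma reg1_F {t ρ z d L c : ℝ} (ht0 : 0 < t) (ht1 : t ≤ 81 / 100) (hρt : 367879 / 1000000 * t ≤ ρ)
    (hd0 : 0 ≤ d) (hd1 : d ≤ 1 / 4) (hd : (1 + d) ^ 2 * (1 - ρ) = 1)
    (hL : 1 / 2 - (23 / 200 * t ^ 4 + 908 / 100000) ≤ L) (hz : z * (22 / 10) ≤ ρ) (hc0 : 0 ≤ c) (hc1 : c ≤ 1) :
    0 ≤ c * FF d L + (ρ - z) / 2000 := by
  -- `ρ ≤ 2 d`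
  have hρ2 : ρ ≤ 2 * d := by
    have h1 : 0 ≤ (1 + d) ^ 2 * (2 * d - ρ) := by
      have e : (1 + d) ^ 2 * (2 * d - ρ) = (1 + d) ^ 2 * (1 - ρ) - (1 + d) ^ 2 * (1 - 2 * d) := by ring
      rw [e, hd]
      nlinarith [pow_nonneg hd0 3, sq_nonneg d]
    have := nonneg_of_mul_nonneg_right h1 (by positivity)
    linarith
  have htd : t ≤ 54366 / 10000 * d := by linarith
  have hy : t ^ 4 ≤ 28893 / 10000 * d := by
    have h1 : t ^ 3 ≤ (81 / 100) ^ 3 := by gcongr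
    have h2 : t ^ 4 = t ^ 3 * t := by ring
    rw [h2]
    calc t ^ 3 * t ≤ (81 / 100) ^ 3 * (54366 / 10000 * d) := mul_le_mul h1 htd ht0.le (by norm_num)
      _ ≤ 28893 / 10000 * d := by nlinarith
  have hF := FF_ge (η := 23 / 200 * t ^ 4 + 908 / 100000) hd0 (by linarith) hL
  have hη : 23 / 200 * t ^ 4 + 908 / 100000 ≤ 33228 / 100000 * d + 908 / 100000 := by linarith
  have hb : 92 / 100 * d - 296 / 10000 ≤
      5 / 2 * d - 5 / 2 * d ^ 2 + 2 * d ^ 3 - (23 / 200 * t ^ 4 + 908 / 100000) * (3 + d) := by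
    have h1 : (23 / 200 * t ^ 4 + 908 / 100000) * (3 + d) ≤ (33228 / 100000 * d + 908 / 100000) * (13 / 4) := by
      refine mul_le_mul hη (by linarith) (by linarith) (by positivity)
    have h2 : 2 * d ≤ 5 / 2 * d - 5 / 2 * d ^ 2 + 2 * d ^ 3 := by
      have : 0 ≤ d * (1 / 2 - 5 / 2 * d + 2 * d ^ 2) := by
        apply mul_nonneg hd0
        nlinarith
      linarith
    linarith
  have hF2 : d ^ 2 * (92 / 100 * d - 296 / 10000) ≤ FF d L := le_trans (mul_le_mul_of_nonneg_left hb (sq_nonneg d)) hF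
  have hρz : 0 ≤ ρ - z := by
    have : 0 ≤ ρ := by nlinarith
    linarith
  rcases le_or_gt 0 (92 / 100 * d - 296 / 10000) with h | h
  · have h1 : 0 ≤ FF d L := le_trans (by positivity) hF2
    have h2 : 0 ≤ (ρ - z) / 2000 := by positivity
    positivity
  · -- `d` small
    have hd3 : d ≤ 1 / 10 := by linarith
    have h1 : 3 / 2 * d ≤ ρ := by
      have h2 : 0 ≤ (1 + d) ^ 2 * (ρ - 3 / 2 * d) := by
        have e : (1 + d) ^ 2 * (ρ - 3 / 2 * d) = (1 + d) ^ 2 * (1 - 3 / 2 * d) - (1 + d) ^ 2 * (1 - ρ) := by ring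
        rw [e, hd]
        have : 0 ≤ d * (1 / 2 - 2 * d - 3 / 2 * d ^ 2) := by
          apply mul_nonneg hd0
          nlinarith
        nlinarith
      have := nonneg_of_mul_nonneg_right h2 (by positivity)
      linarith
    have h2 : 40 / 100000 * d ≤ (ρ - z) / 2000 := by
      linarith
    have h3 : d ^ 2 * (92 / 100 * d - 296 / 10000) ≤ c * FF d L := by
      have a1 : d ^ 2 * (92 / 100 * d - 296 / 10000) ≤ 0 :=
        mul_nonpos_of_nonneg_of_nonpos (sq_nonneg d) h.le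
      rcases le_or_gt 0 (FF d L) with hp | hp
      · have : 0 ≤ c * FF d L := mul_nonneg hc0 hp
        linarith
      · have : 1 * FF d L ≤ c * FF d L := mul_le_mul_of_nonpos_right hc1 hp.le
        linarith
    have h4 : 0 ≤ d * (d * (92 / 100 * d - 296 / 10000) + 40 / 100000) := by
      apply mul_nonneg hd0
      nlinarith [sq_nonneg (d - 161 / 10000)]
    linarith

/-- `L (4Q³-3Q) ≤ L + 4.3 ρ` for `Q ≤ 5/4` -/
lemma reg1_Q {d ρ L : ℝ} (hd0 : 0 ≤ d) (hd1 : d ≤ 1 / 4) (hd : (1 + d) ^ 2 * (1 - ρ) = 1)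
    (hL : L ≤ 1 / 2) :
    L * (4 * (1 + d) ^ 3 - 3 * (1 + d)) ≤ L + 43 / 10 * ρ := by
  have e : 4 * (1 + d) ^ 3 - 3 * (1 + d) = 1 + d * (3 + 2 * d) ^ 2 := by ring
  rw [e]
  have hρ : (1 + d) ^ 2 * ρ = d * (2 + d) := by nlinarith
  have h1 : L * (d * (3 + 2 * d) ^ 2) ≤ 1 / 2 * (d * (3 + 2 * d) ^ 2) :=
    mul_le_mul_of_nonneg_right hL (by positivity)
  have h2 : (1 + d) ^ 2 * (1 / 2 * (d * (3 + 2 * d) ^ 2)) ≤ (1 + d) ^ 2 * (43 / 10 * ρ) := by
    have e2 : (1 + d) ^ 2 * (43 / 10 * ρ) = 43 / 10 * (d * (2 + d)) := by rw [← hρ]; ring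
    rw [e2]
    have h3 : (1 + d) ^ 2 * (3 + 2 * d) ^ 2 ≤ 86 / 10 * (2 + d) := by
      have a1 : (1 + d) * (3 + 2 * d) ≤ 3 + 11 / 2 * d := by nlinarith
      have a2 : (1 + d) ^ 2 * (3 + 2 * d) ^ 2 ≤ (3 + 11 / 2 * d) ^ 2 := by
        rw [← mul_pow]
        gcongr
      nlinarith
    nlinarith
  have h4 := le_of_mul_le_mul_left h2 (by positivity)
  linarith

/-- region 1: `t ≤ 81/100` (in terms of the reduced quantities) -/
lemma reg1_main {G l L ε t : ℝ} (ht0 : 0 ≤ t) (ht1 : t ≤ 81 / 100) (hε0 : 0 ≤ ε)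
    (hε : ε ≤ 37463 / 100000 * (1 + 242 / 1000 * t ^ 4)) (hG : 60496 / 10000 ≤ G) (hl : 9 / 10 ≤ l)
    (hL : L ≤ 1 / 2) :
    0 < G * (7 / 9 * l ^ 2 + ε * (25 / 12 * t - 3003 / 2000 - 184184 / 100000 * t ^ 4)) +
      25 / 16 * t ^ 2 * ε - 5294 / 1000 * t * ε - 27 / 50 * t + l + 9176 / 10000 -
      (L + 43 / 10 * (ε * t)) := by
  have hy0 : 0 ≤ t ^ 4 := by positivity
  have hy1 : t ^ 4 ≤ 430468 / 1000000 := by
    have : t ^ 4 ≤ (81 / 100) ^ 4 := by gcongr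
    norm_num at this ⊢
    linarith
  have hyt : t ^ 4 ≤ 531441 / 1000000 * t := by
    have h3 : t ^ 3 ≤ (81 / 100) ^ 3 := by gcongr
    have e : t ^ 4 = t ^ 3 * t := by ring
    rw [e]
    have := mul_le_mul_of_nonneg_right h3 ht0
    norm_num at this ⊢
    linarith
  -- bracket
  have hB : 0 ≤ 63 / 100 + ε * (25 / 12 * t - 3003 / 2000 - 184184 / 100000 * t ^ 4) := by
    have h1 : ε * (3003 / 2000 + 184184 / 100000 * t ^ 4 - 25 / 12 * t) ≤ ε * (3003 / 2000 - 11 / 10 * t) :=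
      mul_le_mul_of_nonneg_left (by linarith) hε0
    have h2 : ε * (3003 / 2000 - 11 / 10 * t) ≤
        37463 / 100000 * (1 + 242 / 1000 * t ^ 4) * (3003 / 2000 - 11 / 10 * t) :=
      mul_le_mul_of_nonneg_right hε (by linarith)
    have h3 : 37463 / 100000 * (1 + 242 / 1000 * t ^ 4) * (3003 / 2000 - 11 / 10 * t) ≤
        37463 / 100000 * (1 + 242 / 1000 * (531441 / 1000000 * t)) * (3003 / 2000 - 11 / 10 * t) := by
      refine mul_le_mul_of_nonneg_right ?_ (by linarith)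
      linarith
    have h4 : 37463 / 100000 * (1 + 242 / 1000 * (531441 / 1000000 * t)) * (3003 / 2000 - 11 / 10 * t) ≤ 63 / 100 := by
      nlinarith [sq_nonneg t]
    linarith
  have hl2 : (63 / 100 : ℝ) ≤ 7 / 9 * l ^ 2 := by nlinarith
  have h1 : 60496 / 10000 * (63 / 100 + ε * (25 / 12 * t - 3003 / 2000 - 184184 / 100000 * t ^ 4)) ≤
      G * (7 / 9 * l ^ 2 + ε * (25 / 12 * t - 3003 / 2000 - 184184 / 100000 * t ^ 4)) := by
    refine mul_le_mul hG (by linarith) hB (by linarith)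
  -- remaining one-variable inequality
  set P := 908348 / 100000 + 1114242 / 100000 * t ^ 4 - 300933 / 100000 * t - 25 / 16 * t ^ 2 with hP
  have hP0 : 0 ≤ P := by rw [hP]; nlinarith
  have h2 : ε * P ≤ 37463 / 100000 * (1 + 242 / 1000 * t ^ 4) * P := mul_le_mul_of_nonneg_right hε hP0
  have h3 : (1 + 242 / 1000 * t ^ 4) * P ≤
      908348 / 100000 + 145015 / 10000 * t ^ 4 - 300933 / 100000 * t - 25 / 16 * t ^ 2 := by
    have h4 : P ≤ 138801 / 10000 := by rw [hP]; nlinarith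
    have h5 : 242 / 1000 * t ^ 4 * P ≤ 242 / 1000 * t ^ 4 * (138801 / 10000) :=
      mul_le_mul_of_nonneg_left h4 (by positivity)
    have e : (1 + 242 / 1000 * t ^ 4) * P = P + 242 / 1000 * t ^ 4 * P := by ring
    rw [e, hP] at *
    linarith
  have h4 := reg1_poly ht0 ht1
  have h5 : ε * (25 / 12 * t * (60496 / 10000) - 3003 / 2000 * (60496 / 10000) -
      184184 / 100000 * (60496 / 10000) * t ^ 4 + 25 / 16 * t ^ 2 - 5294 / 1000 * t - 43 / 10 * t) ≥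
      -(ε * P) := by
    have : 0 ≤ ε * (P + (25 / 12 * t * (60496 / 10000) - 3003 / 2000 * (60496 / 10000) -
      184184 / 100000 * (60496 / 10000) * t ^ 4 + 25 / 16 * t ^ 2 - 5294 / 1000 * t - 43 / 10 * t)) := by
      apply mul_nonneg hε0
      rw [hP]
      linarith
    linarith
  linarith

end Crest.Agent.R230.WR
end

-- ▼ part R230/FarTailF
section

/-!
# Row 230: far block, tail `l ≥ 9/10` (helper825): summation of the estimates
-/

set_option autoImplicit false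

open Set

namespace Crest.Agent.R230.WR

/-- the lower bound of `z Lg` -/
noncomputable def Klow (z c h l L : ℝ) : ℝ :=
  z * (7 / 25 * l ^ 2 * (1 + z)) + z ^ 2 * (1 + 2 * z) * l ^ 2 + c * FF (1 / h - 1) L +
    (1 - h ^ 2) * z * (3 / 4 + 9 / 16 * z) - 3 / 4 * z ^ 2 * (1 + 3 / 2 * z) * (1 / 2 + l) +
    ((1 - h ^ 2) - z) / 2000

/-- the lower bound of `LP0` -/
noncomputable def P0low (z c h l L t tp E : ℝ) : ℝ :=
  -(4 * (z / c ^ 2) ^ 2 + 103 / 25 * (z / c ^ 2)) * l ^ 2 +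
    l * (1 + 4 * (z / c ^ 2) + (1 - c) / (1 + c)) - t / 2 -
    L * (4 * (1 / h) ^ 3 - 3 * (1 / h)) - 1001 / 2000 * (E - 1) -
    3501 / 1000 * ((1 - h ^ 2) - z) / c ^ 2 - 1001 / 1000 * (tp * E)

/-- the lower bound of the `k`-part -/
noncomputable def kklow (z c h l tp E : ℝ) : ℝ :=
  -(1001 / 1000 * ((1 + tp) * E)) - 10994 / 10000 * (1 - h ^ 2) - 2 * (z / c ^ 2) * l / c +
    (2 - 2 * c ^ 2 / (1 + c)) / c - 5829 / 10000

lemma tail_sum {z c h l L t G ε E tp : ℝ} (hc : 571 / 625 ≤ c) (hc1 : c < 1) (hz : z = 1 - c ^ 2)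
    (hl : 9 / 10 ≤ l) (hG : 60496 / 10000 ≤ G) (hzG : z * G = t) (hE : E = G * ε)
    (hh : h ^ 2 = 1 - ε * t) (hρ0 : 0 ≤ ε * t) (htp : tp = 23 / 25 * t ^ 4) :
    RR G l L ε t c h ≤ 25 / 9 * (G / z) * Klow z c h l L + P0low z c h l L t tp E +
      kklow z c h l tp E := by
  have hc0 : 0 < c := by linarith
  have hc2 : 0 < c ^ 2 := by positivity
  have hz0 : 0 < z := by rw [hz]; nlinarith
  have hG0 : 0 < G := by linarith
  have hcl : (834664 / 1000000 : ℝ) ≤ c ^ 2 := by nlinarith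
  have hT := tail_z hc hc1 hz hl hG hzG
  have ht0 : 0 < t := by rw [← hzG]; positivity
  have e1 : 25 / 9 * (G / z) * Klow z c h l L =
      G * (7 / 9 * l ^ 2) + 7 / 9 * t * l ^ 2 + 25 / 9 * t * (1 + 2 * z) * l ^ 2 +
      25 / 12 * G * (ε * t) + 25 / 16 * t * (ε * t) -
      25 / 12 * t * (1 + 3 / 2 * z) * (1 / 2 + l) +
      25 / 9 * (G ^ 2 / t) * (c * FF (1 / h - 1) L + (ε * t - t / G) / 2000) := by
    unfold Klow
    rw [hh, ← hzG]
    field_simp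
    ring
  have e2 : 3501 / 1000 * ((1 - h ^ 2) - z) / c ^ 2 = 3501 / 1000 * (ε * t) / c ^ 2 - 3501 / 1000 * (z / c ^ 2) := by
    rw [hh]; ring
  have e3 : 3501 / 1000 * (ε * t) / c ^ 2 ≤ 41946 / 10000 * (ε * t) := by
    rw [div_le_iff₀ hc2]
    have : 41946 / 10000 * (ε * t) * (834664 / 1000000) ≤ 41946 / 10000 * (ε * t) * c ^ 2 :=
      mul_le_mul_of_nonneg_left hcl (by positivity)
    linarith
  unfold RR P0low kklow
  rw [e1, e2, hE, hh, htp]
  have e4 : l * (1 + 4 * (z / c ^ 2) + (1 - c) / (1 + c)) =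
      l + l * (4 * (z / c ^ 2) + (1 - c) / (1 + c)) := by ring
  rw [e4]
  have e5 : (2 - 2 * c ^ 2 / (1 + c)) / c = 1 + ((2 - 2 * c ^ 2 / (1 + c)) / c - 1) := by ring
  rw [e5]
  have e6 : -(4 * (z / c ^ 2) ^ 2 + 103 / 25 * (z / c ^ 2)) * l ^ 2 =
      -((4 * (z / c ^ 2) ^ 2 + 103 / 25 * (z / c ^ 2)) * l ^ 2) := by ring
  rw [e6]
  generalize 2 * (z / c ^ 2) * l / c = w1 at *
  generalize (2 - 2 * c ^ 2 / (1 + c)) / c - 1 = w2 at *
  generalize l * (4 * (z / c ^ 2) + (1 - c) / (1 + c)) = w3 at *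
  generalize (4 * (z / c ^ 2) ^ 2 + 103 / 25 * (z / c ^ 2)) * l ^ 2 = w4 at *
  generalize z / c ^ 2 = w5 at *
  generalize 3501 / 1000 * (ε * t) / c ^ 2 = w6 at *
  generalize 25 / 9 * (G ^ 2 / t) * (c * FF (1 / h - 1) L + (ε * t - t / G) / 2000) = w7 at *
  generalize L * (4 * (1 / h) ^ 3 - 3 * (1 / h)) = w8 at *
  linarith

/-- `Klow ≥ 0` once the `F`-term is -/
lemma Klow_nonneg {z c h l L t G : ℝ} (hz0 : 0 < z) (hl : 9 / 10 ≤ l) (hG : 60496 / 10000 ≤ G) (hzG : z * G = t)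
    (hh : h ^ 2 ≤ 1) (ht1 : t ≤ 1) (hF : 0 ≤ c * FF (1 / h - 1) L + ((1 - h ^ 2) - z) / 2000) :
    0 ≤ Klow z c h l L := by
  have hG0 : 0 < G := by linarith
  have hz1 : z * (60496 / 10000) ≤ 1 := by
    calc z * (60496 / 10000) ≤ z * G := mul_le_mul_of_nonneg_left hG hz0.le
      _ ≤ 1 := by rw [hzG]; exact ht1
  have h1 : 0 ≤ (1 - h ^ 2) * z * (3 / 4 + 9 / 16 * z) := by
    have : 0 ≤ 1 - h ^ 2 := by linarith
    positivity
  have h2 : 0 ≤ 7 / 25 * l ^ 2 + z * (32 / 25 * l ^ 2 + 2 * z * l ^ 2 - 3 / 4 * (1 + 3 / 2 * z) * (1 / 2 + l)) := by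
    have a1 : 0 ≤ 2 * z * l ^ 2 - 9 / 8 * z * (1 / 2 + l) := by
      have : 0 ≤ 2 * l ^ 2 - 9 / 8 * (1 / 2 + l) := by nlinarith
      have := mul_nonneg hz0.le this
      linarith
    have a2 : -(1 / 25) ≤ 32 / 25 * l ^ 2 - 3 / 4 * (1 / 2 + l) := by nlinarith
    have a3 : z * -(1 / 25) ≤ z * (32 / 25 * l ^ 2 + 2 * z * l ^ 2 - 3 / 4 * (1 + 3 / 2 * z) * (1 / 2 + l)) :=
      mul_le_mul_of_nonneg_left (by linarith) hz0.le
    have a4 : (9 / 10 : ℝ) ^ 2 ≤ l ^ 2 := by gcongr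
    linarith
  have h3 := mul_nonneg hz0.le h2
  unfold Klow
  linarith

end Crest.Agent.R230.WR
end

-- ▼ part R230/FarTail

/-!
# Row 230: far block, tail `l ≥ 9/10`, `k ≥ 0` (helper825)
-/

set_option autoImplicit false

open MeasureTheory Set Filter Topology
open scoped Pointwise ENNReal

namespace Crest.Agent.R230.WR

/-- `e^{9/5} ≥ 6.0496` -/
lemma exp_nine_fifths : (60496 : ℝ) / 10000 ≤ Real.exp (9 / 5) := by
  have h1 := Real.exp_one_gt_d9
  have h2 := Real.sum_le_exp_of_nonneg (show (0 : ℝ) ≤ 4 / 5 by norm_num) 8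
  simp only [Finset.sum_range_succ, Finset.sum_range_zero, Nat.factorial] at h2
  norm_num at h2
  have e : Real.exp (9 / 5) = Real.exp 1 * Real.exp (4 / 5) := by
    rw [← Real.exp_add]; norm_num
  rw [e]
  have h3 : (2.7182818283 : ℝ) * (6085451 / 2734375) ≤ Real.exp 1 * Real.exp (4 / 5) := by
    refine mul_le_mul h1.le ?_ (by norm_num) (Real.exp_pos _).le
    linarith
  norm_num at h3 ⊢
  linarith

/-- class facts in the tail -/
lemma tail_class {n : ℕ} (hn : 23 ≤ n) {s l k : ℝ} (h : FarC n s l k) (hl : 9 / 10 ≤ l) :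
    25 / 9 * Real.exp (2 * l) ≤ s ^ 2 * ((n : ℝ) + 1) := by
  have hnR : (23 : ℝ) ≤ n := by exact_mod_cast hn
  set x := s * Real.sqrt ((n : ℝ) + 1) with hx
  have hx0 : 0 ≤ x := by have := h.hx2; linarith
  have hx2 : x ^ 2 = s ^ 2 * ((n : ℝ) + 1) := by
    rw [hx, mul_pow, Real.sq_sqrt (by linarith)]
  have hel : (2305 : ℝ) / 1000 ≤ Real.exp l := by
    have h1 := Real.quadratic_le_exp_of_nonneg (show (0 : ℝ) ≤ 9 / 10 by norm_num)
    have h2 : Real.exp (9 / 10) ≤ Real.exp l := Real.exp_le_exp.2 hl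
    norm_num at h1
    linarith
  have hx72 : 7 / 2 ≤ x := by
    by_contra hlt
    push Not at hlt
    have h1 := h.hC1 hlt.le
    have h2 : 1 / (2 * ((n : ℝ) + 1)) ≤ 1 / 48 := by
      apply one_div_le_one_div_of_le (by norm_num)
      linarith
    have h3 : (73 / 200 + 1 / (2 * ((n : ℝ) + 1))) * x ≤ (73 / 200 + 1 / 48) * (7 / 2) := by
      refine mul_le_mul (by linarith) hlt.le hx0 (by norm_num)
    linarith
  have h1 := h.hC2 hx72
  have h2 : Real.exp l ^ 2 ≤ (3 / 5 * x) ^ 2 := by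
    have := Real.exp_pos l
    gcongr
  have e : Real.exp (2 * l) = Real.exp l ^ 2 := by rw [← Real.exp_nat_mul]; norm_num
  rw [← hx2, e]
  nlinarith

/-- `muF n e^{l/n} ≤ 1.0987` -/
lemma tail_mu {n : ℕ} {l : ℝ} (hl : 9 / 10 ≤ l)
    (hN : 25 / 9 * Real.exp (2 * l) ^ 2 ≤ (n : ℝ) + 1) (hG : 60496 / 10000 ≤ Real.exp (2 * l)) :
    muF n * Real.exp (l / n) ≤ 10987 / 10000 := by
  have hn1 : (10066 : ℝ) / 100 ≤ n := by nlinarith
  have hn0 : (0 : ℝ) < n := by linarith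
  have h1 : muF n ≤ 10887 / 10000 := by
    unfold muF
    rw [div_le_iff₀ (by linarith)]
    linarith
  -- `n ≥ 111.7 l`
  have h2 : 1117 / 10 * l ≤ n := by
    have h3 : 1 + 2 * (2 * l - 9 / 5) ≤ Real.exp (2 * (2 * l - 9 / 5)) := by
      have := Real.add_one_le_exp (2 * (2 * l - 9 / 5))
      linarith
    have e : Real.exp (2 * l) ^ 2 = Real.exp (2 * (2 * l - 9 / 5)) * Real.exp (9 / 5) ^ 2 := by
      rw [← Real.exp_nat_mul, ← Real.exp_nat_mul, ← Real.exp_add]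
      congr 1
      push_cast
      ring
    have h4 : (60496 / 10000 : ℝ) ^ 2 ≤ Real.exp (9 / 5) ^ 2 := by
      have := exp_nine_fifths
      gcongr
    have h5 : (1 + 2 * (2 * l - 9 / 5)) * (60496 / 10000 : ℝ) ^ 2 ≤ Real.exp (2 * l) ^ 2 := by
      rw [e]
      refine mul_le_mul h3 h4 (by positivity) (Real.exp_pos _).le
    norm_num at h5
    linarith
  have h3 : l / n ≤ 896 / 100000 := by
    rw [div_le_iff₀ hn0]
    linarith
  have h4 : Real.exp (l / n) ≤ 100906 / 100000 := by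
    have h5 : Real.exp (l / n) ≤ Real.exp (896 / 100000) := Real.exp_le_exp.2 h3
    have h6 := exp_up4 (show (0 : ℝ) ≤ 896 / 100000 by norm_num) (by norm_num)
    refine h5.trans (h6.trans ?_)
    norm_num
  have h5 : muF n * Real.exp (l / n) ≤ 10887 / 10000 * (100906 / 100000) :=
    mul_le_mul h1 h4 (Real.exp_pos _).le (by norm_num)
  norm_num at h5 ⊢
  linarith

/-- `0.0049/(0.54 + 0.115 y) ≤ 0.1225 - 0.115 y` -/
lemma tail_eta {y : ℝ} (h0 : 0 ≤ y) (h1 : y ≤ 1) :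
    49 / 10000 / (54 / 100 + 23 / 200 * y) ≤ 1225 / 10000 - 23 / 200 * y := by
  rw [div_le_iff₀ (by positivity)]
  nlinarith [mul_nonneg h0 (sub_nonneg.2 h1)]

/-- the reduced density is positive, and the `F`-term is harmless -/
lemma tail_FRR {G l L ε t c h δ z : ℝ} (ht0 : 0 < t) (ht1 : t ≤ 1) (hδ0 : 0 ≤ δ)
    (hδ : δ ≤ 49 / 10000 / (54 / 100 + 23 / 200 * t ^ 4))
    (hL : L = 1 / 2 - (23 / 200 * t ^ 4 + δ)) (hε : ε = Real.exp (-(2 * L))) (hh2 : h ^ 2 = 1 - ε * t)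
    (hh0 : 0 < h) (hh1 : h ≤ 1) (hL0 : 0 ≤ L) (hc : 571 / 625 ≤ c) (hc1 : c ≤ 1) (hG : 60496 / 10000 ≤ G)
    (hl : 9 / 10 ≤ l) (hz0 : 0 < z) (hzG : z * G = t) (hzρ : z * (22 / 10) ≤ ε * t)
    (hεlo : 367879 / 1000000 ≤ ε) (hρ1 : ε * t ≤ 47003 / 100000) (hη1 : 23 / 200 * t ^ 4 + δ ≤ 1225 / 10000) :
    0 < RR G l L ε t c h ∧ 0 ≤ c * FF (1 / h - 1) L + ((1 - h ^ 2) - z) / 2000 := by
  have hG0 : 0 < G := by linarith
  have hc0 : 0 < c := by linarith
  have hε0 : 0 < ε := by linarith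
  have ht4 : 0 ≤ t ^ 4 := by positivity
  have hLh : L ≤ 1 / 2 := by linarith
  have hεe : ε = Real.exp (-1 + 2 * (23 / 200 * t ^ 4 + δ)) := by
    rw [hε, hL]; congr 1; ring
  set d := 1 / h - 1 with hdd
  have hd0 : 0 ≤ d := by
    have : 1 ≤ 1 / h := by rw [le_div_iff₀ hh0]; linarith
    linarith
  have hdd1 : 1 + d = 1 / h := by rw [hdd]; ring
  have hdh : (1 + d) ^ 2 * (1 - ε * t) = 1 := by
    rw [hdd1, ← hh2]
    field_simp
  have hsq : 0 ≤ (1 + d) ^ 2 := sq_nonneg _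
  rcases le_total t (81 / 100) with h81 | h81
  · -- region 1
    have hy1 : t ^ 4 ≤ 4305 / 10000 := by
      have : t ^ 4 ≤ (81 / 100) ^ 4 := by gcongr
      norm_num at this ⊢
      linarith
    have hδ1 : δ ≤ 908 / 100000 := by
      refine hδ.trans ?_
      rw [div_le_iff₀ (by positivity)]
      linarith
    have hε1 : ε ≤ 37463 / 100000 * (1 + 242 / 1000 * t ^ 4) := by
      rw [hεe]
      exact reg1_eps ht4 hy1 hδ1 (exp_m1_add_up (by positivity) (by linarith))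
    have hρ36 : ε * t ≤ 36 / 100 := by
      have h1 : ε ≤ 4138 / 10000 := by
        refine hε1.trans ?_
        linarith
      calc ε * t ≤ 4138 / 10000 * (81 / 100) := mul_le_mul h1 h81 ht0.le (by norm_num)
        _ ≤ 36 / 100 := by norm_num
    have hd1 : d ≤ 1 / 4 := by
      by_contra hlt
      push Not at hlt
      have h1 : (5 / 4 : ℝ) ^ 2 < (1 + d) ^ 2 := by
        have : (5 / 4 : ℝ) < 1 + d := by linarith
        gcongr
      have h2 := mul_le_mul_of_nonneg_left (show 64 / 100 ≤ 1 - ε * t by linarith) hsq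
      rw [hdh] at h2
      norm_num at h1
      linarith
    have hF := reg1_F (t := t) (ρ := ε * t) (z := z) (d := d) (L := L) (c := c) ht0 h81
      (mul_le_mul_of_nonneg_right hεlo ht0.le) hd0 hd1 hdh (by linarith) hzρ hc0.le hc1
    have hm1 := reg1_main (G := G) (l := l) (L := L) (ε := ε) (t := t) ht0.le h81 hε0.le hε1 hG hl hLh
    have hQ1 := reg1_Q (d := d) (ρ := ε * t) (L := L) hd0 hd1 hdh hLh
    rw [hdd1] at hQ1
    constructor
    · unfold RR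
      have h2 : 0 ≤ 25 / 9 * (G ^ 2 / t) * (c * FF (1 / h - 1) L + (ε * t - t / G) / 2000) := by
        have e : t / G = z := by rw [← hzG]; field_simp
        rw [e]
        exact mul_nonneg (by positivity) hF
      linarith only [h2, hm1, hQ1]
    · rw [hh2]
      have e : 1 - (1 - ε * t) - z = ε * t - z := by ring
      rw [e]
      exact hF
  · refine ⟨reg2 h81 ht1 hδ0 hδ hL hε hh2 hh0 hL0 hc hG hl, ?_⟩
    have hd39 : d ≤ 39 / 100 := by
      by_contra hlt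
      push Not at hlt
      have h1 : (139 / 100 : ℝ) ^ 2 < (1 + d) ^ 2 := by
        have : (139 / 100 : ℝ) < 1 + d := by linarith
        gcongr
      have h2 := mul_le_mul_of_nonneg_left (show 52997 / 100000 ≤ 1 - ε * t by linarith) hsq
      rw [hdh] at h2
      norm_num at h1
      linarith
    have hdl : 21 / 100 ≤ d := by
      by_contra hlt
      push Not at hlt
      have h1 : (1 + d) ^ 2 < (121 / 100 : ℝ) ^ 2 := by
        have : 1 + d < (121 / 100 : ℝ) := by linarith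
        gcongr
      have h3 : 1 + 23 / 100 * (43 / 100) ≤ Real.exp (2 * (23 / 200 * t ^ 4 + δ)) := by
        have h4 := Real.add_one_le_exp (2 * (23 / 200 * t ^ 4 + δ))
        have h5 : (81 / 100 : ℝ) ^ 4 ≤ t ^ 4 := by gcongr
        norm_num at h5
        linarith
      have h2 : 367879 / 1000000 * (1 + 23 / 100 * (43 / 100)) ≤ ε := by
        rw [hεe, Real.exp_add]
        exact mul_le_mul exp_m1_lo h3 (by norm_num) (Real.exp_pos _).le
      have h6 : 367879 / 1000000 * (1 + 23 / 100 * (43 / 100)) * (81 / 100) ≤ ε * t :=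
        mul_le_mul h2 h81 (by norm_num) hε0.le
      have h7 : 1 - ε * t ≤ 1 - 367879 / 1000000 * (1 + 23 / 100 * (43 / 100)) * (81 / 100) := by linarith
      have h8 : 0 ≤ 1 - ε * t := by linarith
      have h9 : (1 + d) ^ 2 * (1 - ε * t) ≤
          (121 / 100) ^ 2 * (1 - 367879 / 1000000 * (1 + 23 / 100 * (43 / 100)) * (81 / 100)) :=
        mul_le_mul h1.le h7 h8 (by norm_num)
      rw [hdh] at h9
      norm_num at h9
    have hFF : 0 ≤ FF d L :=
      FF_ge_of (d0 := 21 / 100) (ηb := 1225 / 10000) (by norm_num) hdl hd39 (by norm_num)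
        (by linarith) (by norm_num) (by norm_num)
    have h2 : 0 ≤ ((1 - h ^ 2) - z) / 2000 := by
      rw [hh2]
      apply div_nonneg _ (by norm_num)
      linarith
    have := mul_nonneg hc0.le hFF
    linarith

/-- facts on `u`, `L`, `ε`, `V1` -/
lemma tail_facts {s l t G : ℝ} (hl : 9 / 10 ≤ l) (hGd : G = Real.exp (2 * l))
    (htd : t = (s * Real.exp l) ^ 2) (ht0 : 0 < t) (ht1 : t < 1) :
    ∃ δ, 0 ≤ δ ∧ δ ≤ 49 / 10000 / (54 / 100 + 23 / 200 * t ^ 4) ∧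
      l - Uf s l = 1 / 2 - (23 / 200 * t ^ 4 + δ) ∧ 23 / 200 * t ^ 4 + δ ≤ 1225 / 10000 ∧
      0 ≤ Uf s l ∧ 1 - 169 / 10000 ≤ Vq' (7 / 100) (l - capF (s * Real.exp l)) ∧
      Vq' (7 / 100) (l - capF (s * Real.exp l)) ≤ 1 ∧
      Real.exp (2 * Uf s l) = G * Real.exp (-(2 * (l - Uf s l))) ∧
      367879 / 1000000 ≤ Real.exp (-(2 * (l - Uf s l))) ∧
      Real.exp (-(2 * (l - Uf s l))) ≤ 47003 / 100000 := by
  have hT8 : (s * Real.exp l) ^ 8 = t ^ 4 := by rw [htd]; ring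
  set v := l - capF (s * Real.exp l) with hv
  have hcap : capF (s * Real.exp l) = 43 / 100 - 23 / 200 * t ^ 4 := by
    unfold capF
    rw [hT8]
  have ht4 : 0 ≤ t ^ 4 := by positivity
  have ht41 : t ^ 4 ≤ 1 := pow_le_one₀ ht0.le ht1.le
  have hvb : 47 / 100 + 23 / 200 * t ^ 4 ≤ v := by rw [hv, hcap]; linarith
  have hv0 : 0 ≤ v := by linarith
  have hu : Uf s l = v ^ 2 / (v + 7 / 100) := by
    unfold Uf
    rw [← hv, Vq_of_nonneg hv0]
  have hδ : 49 / 10000 / (v + 7 / 100) ≤ 49 / 10000 / (54 / 100 + 23 / 200 * t ^ 4) := by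
    apply div_le_div_of_nonneg_left (by norm_num) (by positivity)
    linarith
  have hL : l - Uf s l = 1 / 2 - (23 / 200 * t ^ 4 + 49 / 10000 / (v + 7 / 100)) := by
    have e1 : l = v + (43 / 100 - 23 / 200 * t ^ 4) := by rw [hv, hcap]; ring
    rw [hu]
    have e2 : v ^ 2 / (v + 7 / 100) = v - 7 / 100 + 49 / 10000 / (v + 7 / 100) := by
      field_simp
      ring
    rw [e2]
    linarith
  have hη := tail_eta ht4 ht41
  have hδ0 : 0 ≤ 49 / 10000 / (v + 7 / 100) := by positivity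
  have hη1 : 23 / 200 * t ^ 4 + 49 / 10000 / (v + 7 / 100) ≤ 1225 / 10000 := by linarith
  have hεe : Real.exp (-(2 * (l - Uf s l))) =
      Real.exp (-1 + 2 * (23 / 200 * t ^ 4 + 49 / 10000 / (v + 7 / 100))) := by
    rw [hL]; congr 1; ring
  refine ⟨49 / 10000 / (v + 7 / 100), hδ0, hδ, hL, hη1, by rw [hu]; positivity, ?_, ?_, ?_, ?_, ?_⟩
  · rw [Vq'_of_nonneg hv0]
    have h1 : (54 / 100 : ℝ) ^ 2 ≤ (v + 7 / 100) ^ 2 := by
      have : (54 / 100 : ℝ) ≤ v + 7 / 100 := by linarith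
      gcongr
    have : (7 / 100 : ℝ) ^ 2 / (v + 7 / 100) ^ 2 ≤ 169 / 10000 := by
      rw [div_le_iff₀ (by positivity)]
      linarith
    linarith
  · rw [Vq'_of_nonneg hv0]
    have : 0 ≤ (7 / 100 : ℝ) ^ 2 / (v + 7 / 100) ^ 2 := by positivity
    linarith
  · rw [hGd, ← Real.exp_add]
    congr 1
    ring
  · refine exp_m1_lo.trans ?_
    rw [hεe]
    apply Real.exp_le_exp.2
    linarith
  · have h1 : Real.exp (-(2 * (l - Uf s l))) ≤ Real.exp (-1 + 245 / 1000) := by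
      rw [hεe]
      apply Real.exp_le_exp.2
      linarith
    have h2 := exp_m1_add_up (show (0 : ℝ) ≤ 245 / 1000 by norm_num) (by norm_num)
    refine h1.trans (h2.trans ?_)
    norm_num

set_option maxHeartbeats 1600000 in
/-- **the tail `l ≥ 9/10`, `k ≥ 0`** -/
theorem PStar_pos_tail {n : ℕ} (hn : 23 ≤ n) {s l k : ℝ} (h : FarC n s l k) (hk : 0 ≤ k)
    (hl : 9 / 10 ≤ l) : 0 < PStar n s l k := by
  have hnR : (23 : ℝ) ≤ n := by exact_mod_cast hn
  have hs := h.hs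
  have hs0 : 0 < s := hs.1
  have hX := tail_class hn h hl
  -- `G`
  obtain ⟨G, hGd⟩ : ∃ G, G = Real.exp (2 * l) := ⟨_, rfl⟩
  rw [← hGd] at hX
  have hG : 60496 / 10000 ≤ G := by
    refine exp_nine_fifths.trans ?_
    rw [hGd]
    apply Real.exp_le_exp.2
    linarith only [hl]
  have hG0 : 0 < G := by linarith only [hG]
  obtain ⟨t, htd⟩ : ∃ t, t = (s * Real.exp l) ^ 2 := ⟨_, rfl⟩
  have hzG : s ^ 2 * G = t := by
    rw [htd, mul_pow, hGd, ← Real.exp_nat_mul]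
    norm_num
  have hTpos : 0 < s * Real.exp l := mul_pos hs0 (Real.exp_pos _)
  have ht0 : 0 < t := by rw [htd]; exact pow_pos hTpos 2
  have ht1 : t < 1 := by rw [htd]; exact pow_lt_one₀ hTpos.le h.hT (by norm_num)
  have hT8 : (s * Real.exp l) ^ 8 = t ^ 4 := by rw [htd]; ring
  have ht4 : 0 ≤ t ^ 4 := pow_nonneg ht0.le 4
  have ht41 : t ^ 4 ≤ 1 := pow_le_one₀ ht0.le ht1.le
  -- `c`
  have hc0 : 0 < cc s := cc_pos' hs
  have hc2 : cc s ^ 2 = 1 - s ^ 2 := cc_sq' hs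
  have hz : s ^ 2 = 1 - cc s ^ 2 := by rw [hc2]; ring
  have hz0 : 0 < s ^ 2 := pow_pos hs0 2
  have hzb : s ^ 2 ≤ 165301 / 1000000 := by
    have : s ^ 2 * (60496 / 10000) ≤ 1 := by
      calc s ^ 2 * (60496 / 10000) ≤ s ^ 2 * G := mul_le_mul_of_nonneg_left hG hz0.le
        _ ≤ 1 := by rw [hzG]; exact ht1.le
    linarith only [this]
  have hc : 571 / 625 ≤ cc s := by
    have : (571 / 625 : ℝ) ^ 2 ≤ cc s ^ 2 := by rw [hc2]; norm_num; linarith only [hzb]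
    exact abs_le_of_sq_le_sq' this hc0.le |>.2
  have hc1 : cc s < 1 := by
    have : cc s ^ 2 < 1 ^ 2 := by rw [hc2]; linarith only [hz0]
    exact lt_of_pow_lt_pow_left₀ 2 (by norm_num) this
  obtain ⟨δ, hδ0, hδ, hL, hη1, hu0, hV1l, hV1h, hE, hεlo, hεhi⟩ := tail_facts hl hGd htd ht0 ht1
  obtain ⟨u, hud⟩ : ∃ u, u = Uf s l := ⟨_, rfl⟩
  obtain ⟨V1, hV1⟩ : ∃ V1, V1 = Vq' (7 / 100) (l - capF (s * Real.exp l)) := ⟨_, rfl⟩
  rw [← hud] at hL hu0 hE hεlo hεhi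
  rw [← hV1] at hV1l hV1h
  obtain ⟨L, hLd⟩ : ∃ L, L = l - u := ⟨_, rfl⟩
  rw [← hLd] at hL hE hεlo hεhi
  obtain ⟨ε, hεd⟩ : ∃ ε, ε = Real.exp (-(2 * L)) := ⟨_, rfl⟩
  rw [← hεd] at hE hεlo hεhi
  have hL0 : 0 ≤ L := by linarith only [hL, hη1]
  have hLh : L ≤ 1 / 2 := by linarith only [hL, hδ0, ht4]
  have hL0' : 0 ≤ l - u := by rw [← hLd]; exact hL0
  have hLh' : l - u ≤ 1 / 2 := by rw [← hLd]; exact hLh
  have hε0 : 0 < ε := by linarith only [hεlo]
  -- `h = cc (s e^u)`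
  have hsu : s * Real.exp u < 1 := by
    have : Real.exp u ≤ Real.exp l := Real.exp_le_exp.2 (by linarith only [hL0'])
    have h1 : s * Real.exp u ≤ s * Real.exp l := mul_le_mul_of_nonneg_left this hs0.le
    have := h.hT
    linarith only [h1, this]
  have hp : s * Real.exp u ∈ Ioo (0 : ℝ) 1 := ⟨mul_pos hs0 (Real.exp_pos _), hsu⟩
  obtain ⟨hh, hhd⟩ : ∃ hh, hh = cc (s * Real.exp u) := ⟨_, rfl⟩
  have hh0 : 0 < hh := by rw [hhd]; exact cc_pos' hp
  have hzE : s ^ 2 * Real.exp (2 * u) = ε * t := by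
    rw [hE, ← hzG]; ring
  have hh2 : hh ^ 2 = 1 - ε * t := by
    rw [hhd, cc_sq' hp, mul_pow, ← hzE, ← Real.exp_nat_mul]
    norm_num
  have hρ0 : 0 ≤ ε * t := mul_nonneg hε0.le ht0.le
  have hρ1 : ε * t ≤ 47003 / 100000 := by
    calc ε * t ≤ 47003 / 100000 * 1 := mul_le_mul hεhi ht1.le ht0.le (by norm_num)
      _ = _ := mul_one _
  have hhl : 727 / 1000 ≤ hh := by
    have : (727 / 1000 : ℝ) ^ 2 ≤ hh ^ 2 := by rw [hh2]; norm_num; linarith only [hρ1]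
    exact abs_le_of_sq_le_sq' this hh0.le |>.2
  have hh1 : hh ≤ 1 := by rw [hhd]; exact cc_le_one _
  have hE1 : 1 ≤ Real.exp (2 * u) := Real.one_le_exp (by linarith only [hu0])
  have hhc : hh ≤ cc s := by
    have : hh ^ 2 ≤ cc s ^ 2 := by
      rw [hh2, hc2, ← hzE]
      have := mul_le_mul_of_nonneg_left hE1 hz0.le
      linarith only [this]
    exact abs_le_of_sq_le_sq' this hc0.le |>.2
  have hGε : 222 / 100 ≤ G * ε := by
    have : (60496 / 10000 : ℝ) * (367879 / 1000000) ≤ G * ε := mul_le_mul hG hεlo (by norm_num) hG0.le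
    norm_num at this
    linarith only [this]
  have hE2 : 2 ≤ Real.exp (2 * u) := by rw [hE]; linarith only [hGε]
  have hzρ : s ^ 2 * (22 / 10) ≤ ε * t := by
    rw [← hzE]
    refine mul_le_mul_of_nonneg_left ?_ hz0.le
    rw [hE]
    linarith only [hGε]
  have hzE' : s ^ 2 * Real.exp (2 * u) = 1 - hh ^ 2 := by rw [hzE, hh2]; ring
  -- `tp`
  obtain ⟨tp, htp⟩ : ∃ tp, tp = 23 / 25 * t ^ 4 := ⟨_, rfl⟩
  have htp0 : 0 ≤ tp := by rw [htp]; positivity
  have htp1 : tp ≤ 23 / 25 := by rw [htp]; linarith only [ht41]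
  -- `Mu`
  have hN0 : 25 / 9 * G ^ 2 ≤ (n : ℝ) + 1 := by
    have h2 : 25 / 9 * G * G ≤ s ^ 2 * ((n : ℝ) + 1) * G := mul_le_mul_of_nonneg_right hX hG0.le
    have h3 : s ^ 2 * ((n : ℝ) + 1) * G = t * ((n : ℝ) + 1) := by rw [← hzG]; ring
    have h4 : t * ((n : ℝ) + 1) ≤ 1 * ((n : ℝ) + 1) :=
      mul_le_mul_of_nonneg_right ht1.le (by linarith only [hnR])
    linarith only [h2, h3, h4]
  have hMu : muF n * Real.exp (l / n) ≤ 10987 / 10000 := by
    have hN0' := hN0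
    have hG' := hG
    rw [hGd] at hN0' hG'
    exact tail_mu hl hN0' hG'
  have hmu0 : 0 ≤ muF n := by
    unfold muF
    exact div_nonneg (by linarith only [hnR]) (by linarith only [hnR])
  -- the closed form
  have hlow := far_lower (n := n) (by omega) (μ := 0) (Mu := 0) (lm := 0) (V1 := V1) (tp := tp) hs hsu hk
    le_rfl (by simp) (l := l)
  rw [← hhd] at hlow
  have hPF : PF n 0 s l k = PQ n 0 0 (7 / 50) 1 0 0 s l k + (lineC n s l k u (V1 * (k + tp * (1 + k))) +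
      softG n (((n : ℝ) - 4) / ((n : ℝ) + 1) + 1 / 1000) 0 s u (V1 * (k + tp * (1 + k)))) := by
    unfold PF e0F SUf
    rw [SU_eq, hT8, ← hud, ← hV1, htp]
  have hhm : muF n * (Real.exp (l / n) * hm n k) ≤ muF n * Real.exp (l / n) * (k - Real.log (1 + k)) := by
    rw [← mul_assoc]
    exact mul_le_mul_of_nonneg_left (hm_le_log1 (by omega) (by linarith only [hk]))
      (mul_nonneg hmu0 (Real.exp_pos _).le)
  have hLG : 0 ≤ 5 / ((n : ℝ) + 1) * LG2 (s ^ 2) (cc s) (Real.exp (2 * u)) V1 tp k := by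
    have h1 : 0 ≤ V1 := by linarith only [hV1l]
    unfold LG2
    have h2 : 0 ≤ Real.exp (2 * u) - 1 := by linarith only [hE1]
    positivity
  -- estimates
  have hLP0 := tail_LP0 (z := s ^ 2) (c := cc s) (h := hh) (cT := cc (s * Real.exp l)) (t := t)
    (E := Real.exp (2 * u)) (l := l) (u := u) (V1 := V1) (tp := tp) hc0 hc1.le hz hhl hh1 (cc_nonneg _)
    ht0.le (by rw [cc_sq' ⟨hTpos, h.hT⟩, htd]) hzE' (Real.exp_pos _).le hL0' hLh'
    (by linarith only [hV1l]) hV1h htp0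
  have hkp := tail_k (z := s ^ 2) (c := cc s) (h := hh) (E := Real.exp (2 * u)) (l := l) (u := u) (V1 := V1)
    (tp := tp) (k := k) (Mu := muF n * Real.exp (l / n)) hc hc1 hz hhl hh1 hzE' hE2
    hL0' hLh' (by linarith only [hl]) hV1l hV1h htp0 htp1 hk h.hk1
    (mul_nonneg hmu0 (Real.exp_pos _).le) hMu
  have hLg := Lg_ge (c := cc s) (h := hh) (l := l) (u := u) (by linarith only [hc]) hc1 hh0 hhc
    (by linarith only [hl])
  have hEz : (1 - hh ^ 2) / (1 - cc s ^ 2) = Real.exp (2 * u) := by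
    rw [← hz, div_eq_iff hz0.ne', ← hzE', mul_comm]
  rw [hEz, ← hz, ← hLd] at hLg
  obtain ⟨hR, hFn⟩ := tail_FRR (c := cc s) ht0 ht1.le hδ0 hδ hL hεd hh2 hh0 hh1 hL0 hc hc1.le hG hl hz0 hzG
    hzρ hεlo hρ1 hη1
  have hK0 : 0 ≤ Klow (s ^ 2) (cc s) hh l L :=
    Klow_nonneg hz0 hl hG hzG (by linarith only [hh2, hρ0]) ht1.le hFn
  have hKL : Klow (s ^ 2) (cc s) hh l L ≤ s ^ 2 * Lg (s ^ 2) (cc s) hh (Real.exp (2 * u)) l u := by
    unfold Klow
    exact hLg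
  have hN1 : 25 / 9 * (G / s ^ 2) ≤ (n : ℝ) + 1 := by
    have : 25 / 9 * (G / s ^ 2) = (25 / 9 * G) / s ^ 2 := by ring
    rw [this, div_le_iff₀ hz0]
    linarith only [hX]
  have hNK : 25 / 9 * (G / s ^ 2) * Klow (s ^ 2) (cc s) hh l L ≤
      ((n : ℝ) + 1) * (s ^ 2 * Lg (s ^ 2) (cc s) hh (Real.exp (2 * u)) l u) :=
    mul_le_mul hN1 hKL hK0 (by linarith only [hnR])
  have hsum := tail_sum (z := s ^ 2) (c := cc s) (h := hh) (l := l) (L := L) (t := t) (G := G) (ε := ε)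
    (E := Real.exp (2 * u)) (tp := tp) hc hc1 hz hl hG hzG hE hh2 hρ0 htp
  unfold P0low kklow at hsum
  rw [← hLd] at hLP0
  unfold PStar
  rw [hPF]
  linarith only [hsum, hLP0, hkp, hNK, hLG, hlow, hhm, hR]

end Crest.Agent.R230.WR
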