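import Mathlib

/-!
# Row 230: the Poincare inequality for `π₁ ∼ s² (1-s²)^{(N-4)/2}` on `[0,1]`, and null identities

`k = N - 4` (`N` the dimension of the bodies), `c = √(1-s²)`.
* `poincare_pi1` : `2(N+1) ∫ s² c^{N-4} (l-l(s⋆))² ≤ ∫ s² c^{N-2} l'²`, `s⋆² = 3/(N+1)`;
* `poincare_pi1_mean` : the same with any `λ` such that `∫ s² c^{N-4} (l-λ) = 0`;
* `id_constraint` : `∫ c^{N-2} (l + s l') = (N-2) ∫ s² c^{N-4} l`;
* `null_lagrangian` : `∫ (G c^{N-2} s)' = 0`.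
-/

set_option autoImplicit false

open MeasureTheory Set Filter Topology

namespace Crest.Agent.R230.Poinc

lemma cpos {s : ℝ} (h0 : 0 ≤ s) (h1 : s < 1) : 0 < Real.sqrt (1 - s ^ 2) := by
  apply Real.sqrt_pos.2
  nlinarith

lemma csq {s : ℝ} (h0 : 0 ≤ s) (h1 : s ≤ 1) : Real.sqrt (1 - s ^ 2) ^ 2 = 1 - s ^ 2 := by
  apply Real.sq_sqrt
  nlinarith

lemma hasDerivAt_c {s : ℝ} (h0 : 0 ≤ s) (h1 : s < 1) :
    HasDerivAt (fun s => Real.sqrt (1 - s ^ 2)) (-s / Real.sqrt (1 - s ^ 2)) s := by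
  have h : (1 : ℝ) - s ^ 2 ≠ 0 := by nlinarith
  have h2 : HasDerivAt (fun s : ℝ => 1 - s ^ 2) (-(2 * s)) s := by
    simpa using ((hasDerivAt_pow 2 s).const_sub 1)
  have h3 := h2.sqrt h
  refine h3.congr_deriv ?_
  have := (cpos h0 h1).ne'
  field_simp

lemma hasDerivAt_cpow (k : ℕ) {s : ℝ} (h0 : 0 ≤ s) (h1 : s < 1) :
    HasDerivAt (fun s => Real.sqrt (1 - s ^ 2) ^ (k + 2))
      (-((k : ℝ) + 2) * s * Real.sqrt (1 - s ^ 2) ^ k) s := by
  have h := (hasDerivAt_c h0 h1).fun_pow (k + 2)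
  refine h.congr_deriv ?_
  have hc := (cpos h0 h1).ne'
  simp only [Nat.add_succ_sub_one, Nat.cast_add, Nat.cast_ofNat]
  rw [pow_succ]
  field_simp

/-- main piece: on `[a,b] ⊆ [0,1]` with `s² ≠ q` inside, `q = 3/(k+5)` -/
lemma piece (k : ℕ) {l l' : ℝ → ℝ} {lst a b : ℝ} (ha : 0 ≤ a) (hab : a ≤ b) (hb : b ≤ 1)
    (hl' : ∀ s ∈ Ioo a b, HasDerivAt l (l' s) s)
    (hq : ∀ s ∈ Ioo a b, s ^ 2 - 3 / ((k : ℝ) + 5) ≠ 0)
    (hF : ContinuousOn (fun s => 2 * s ^ 3 * Real.sqrt (1 - s ^ 2) ^ (k + 2) * (l s - lst) ^ 2 /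
      (s ^ 2 - 3 / ((k : ℝ) + 5))) (Icc a b))
    (hi : IntegrableOn (fun s => s ^ 2 * Real.sqrt (1 - s ^ 2) ^ (k + 2) * l' s ^ 2) (Icc a b))
    (hi2 : IntegrableOn (fun s => s ^ 2 * Real.sqrt (1 - s ^ 2) ^ k * (l s - lst) ^ 2) (Icc a b)) :
    (2 * b ^ 3 * Real.sqrt (1 - b ^ 2) ^ (k + 2) * (l b - lst) ^ 2 / (b ^ 2 - 3 / ((k : ℝ) + 5))) -
      (2 * a ^ 3 * Real.sqrt (1 - a ^ 2) ^ (k + 2) * (l a - lst) ^ 2 / (a ^ 2 - 3 / ((k : ℝ) + 5))) ≤
      ∫ s in a..b, (s ^ 2 * Real.sqrt (1 - s ^ 2) ^ (k + 2) * l' s ^ 2 -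
        2 * ((k : ℝ) + 5) * (s ^ 2 * Real.sqrt (1 - s ^ 2) ^ k * (l s - lst) ^ 2)) := by
  refine intervalIntegral.sub_le_integral_of_hasDeriv_right_of_le hab hF
    (g' := fun s => -2 * ((k : ℝ) + 5) * s ^ 2 * Real.sqrt (1 - s ^ 2) ^ k * (l s - lst) ^ 2 +
      4 * s ^ 3 * Real.sqrt (1 - s ^ 2) ^ (k + 2) * (l s - lst) * l' s / (s ^ 2 - 3 / ((k : ℝ) + 5)) -
      4 * s ^ 4 * Real.sqrt (1 - s ^ 2) ^ (k + 2) * (l s - lst) ^ 2 / (s ^ 2 - 3 / ((k : ℝ) + 5)) ^ 2)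
    ?_ ?_ ?_
  · intro s hs
    have h0 : 0 ≤ s := ha.trans hs.1.le
    have h1 : s < 1 := hs.2.trans_le hb
    have hq' := hq s hs
    have d1 : HasDerivAt (fun s : ℝ => 2 * s ^ 3) (6 * s ^ 2) s := by
      have := (hasDerivAt_pow 3 s).const_mul 2
      refine this.congr_deriv ?_
      norm_num; ring
    have d2 := hasDerivAt_cpow k h0 h1
    have d3 : HasDerivAt (fun s => (l s - lst) ^ 2) (2 * (l s - lst) * l' s) s := by
      have := ((hl' s hs).sub_const lst).fun_pow 2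
      refine this.congr_deriv ?_
      norm_num
    have d4 : HasDerivAt (fun s : ℝ => s ^ 2 - 3 / ((k : ℝ) + 5)) (2 * s) s := by
      have := (hasDerivAt_pow 2 s).sub_const (3 / ((k : ℝ) + 5))
      refine this.congr_deriv ?_
      norm_num
    have d := ((d1.fun_mul d2).fun_mul d3).fun_div d4 hq'
    refine (d.congr_deriv ?_).hasDerivWithinAt
    have hc2 : Real.sqrt (1 - s ^ 2) ^ (k + 2) = Real.sqrt (1 - s ^ 2) ^ k * (1 - s ^ 2) := by
      rw [pow_add, csq h0 h1.le]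
    rw [hc2]
    have hk : ((k : ℝ) + 5) ≠ 0 := by positivity
    have hq3 : s ^ 2 * ((k : ℝ) + 5) - 3 ≠ 0 := by
      intro h
      apply hq'
      field_simp
      linarith
    field_simp
    ring
  · refine hi.sub ?_
    exact hi2.const_mul _
  · intro s hs
    have h0 : 0 ≤ s := ha.trans hs.1.le
    have h1 : s < 1 := hs.2.trans_le hb
    have hq' := hq s hs
    have hcp : 0 ≤ s ^ 2 * Real.sqrt (1 - s ^ 2) ^ (k + 2) :=
      mul_nonneg (sq_nonneg s) (pow_nonneg (Real.sqrt_nonneg _) _)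
    have key : 0 ≤ s ^ 2 * Real.sqrt (1 - s ^ 2) ^ (k + 2) *
        (l' s - 2 * s * (l s - lst) / (s ^ 2 - 3 / ((k : ℝ) + 5))) ^ 2 :=
      mul_nonneg hcp (sq_nonneg _)
    have e : s ^ 2 * Real.sqrt (1 - s ^ 2) ^ (k + 2) *
        (l' s - 2 * s * (l s - lst) / (s ^ 2 - 3 / ((k : ℝ) + 5))) ^ 2 =
        s ^ 2 * Real.sqrt (1 - s ^ 2) ^ (k + 2) * l' s ^ 2 -
        (4 * s ^ 3 * Real.sqrt (1 - s ^ 2) ^ (k + 2) * (l s - lst) * l' s /
          (s ^ 2 - 3 / ((k : ℝ) + 5)) -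
        4 * s ^ 4 * Real.sqrt (1 - s ^ 2) ^ (k + 2) * (l s - lst) ^ 2 /
          (s ^ 2 - 3 / ((k : ℝ) + 5)) ^ 2) := by
      have hk : ((k : ℝ) + 5) ≠ 0 := by positivity
      have hq3 : s ^ 2 * ((k : ℝ) + 5) - 3 ≠ 0 := by
        intro h
        apply hq'
        field_simp
        linarith
      field_simp
      ring
    rw [e] at key
    linarith

/-- **Poincare inequality for `π₁`**, centred at the value at `s⋆ = √(3/(k+5))`. -/
theorem poincare_pi1 (k : ℕ) {l l' : ℝ → ℝ} (hl : ContinuousOn l (Icc 0 1))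
    (hl' : ∀ s ∈ Ioo (0 : ℝ) 1, HasDerivAt l (l' s) s)
    (hi : IntervalIntegrable (fun s => s ^ 2 * Real.sqrt (1 - s ^ 2) ^ (k + 2) * l' s ^ 2)
      volume 0 1) :
    2 * ((k : ℝ) + 5) * ∫ s in (0 : ℝ)..1, s ^ 2 * Real.sqrt (1 - s ^ 2) ^ k *
        (l s - l (Real.sqrt (3 / ((k : ℝ) + 5)))) ^ 2 ≤
      ∫ s in (0 : ℝ)..1, s ^ 2 * Real.sqrt (1 - s ^ 2) ^ (k + 2) * l' s ^ 2 := by
  set q : ℝ := 3 / ((k : ℝ) + 5) with hqd
  have hk : (0 : ℝ) < (k : ℝ) + 5 := by positivity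
  have hq0 : 0 < q := by positivity
  have hq1 : q < 1 := by
    rw [hqd, div_lt_one hk]
    have : (0 : ℝ) ≤ k := Nat.cast_nonneg k
    linarith
  set st : ℝ := Real.sqrt q with hst
  have hst0 : 0 < st := Real.sqrt_pos.2 hq0
  have hst2 : st ^ 2 = q := Real.sq_sqrt hq0.le
  have hst1 : st < 1 := by nlinarith
  have hstm : st ∈ Ioo (0 : ℝ) 1 := ⟨hst0, hst1⟩
  have hne : ∀ s : ℝ, 0 ≤ s → s ≠ st → s ^ 2 - q ≠ 0 := by
    intro s hs hne h
    apply hne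
    have : s ^ 2 = st ^ 2 := by rw [hst2]; linarith
    nlinarith [sq_nonneg (s - st), hst0]
  -- continuity of F
  have hF : ContinuousOn (fun s => 2 * s ^ 3 * Real.sqrt (1 - s ^ 2) ^ (k + 2) * (l s - l st) ^ 2 /
      (s ^ 2 - q)) (Icc 0 1) := by
    intro s hs
    by_cases h : s = st
    · -- at the singular point
      subst h
      have hd := hl' st hstm
      have hval : 2 * st ^ 3 * Real.sqrt (1 - st ^ 2) ^ (k + 2) * (l st - l st) ^ 2 /
          (st ^ 2 - q) = 0 := by simp [hst2]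
      refine ContinuousAt.continuousWithinAt ?_
      rw [continuousAt_iff_punctured_nhds]
      rw [hval]
      have hslope : Tendsto (slope l st) (𝓝[≠] st) (𝓝 (l' st)) := hasDerivAt_iff_tendsto_slope.1 hd
      have hlc : Tendsto (fun s => l s - l st) (𝓝[≠] st) (𝓝 0) := by
        have h1 : Tendsto l (𝓝[≠] st) (𝓝 (l st)) := hd.continuousAt.tendsto.mono_left nhdsWithin_le_nhds
        simpa using h1.sub_const (l st)
      have hrest : Tendsto (fun s => 2 * s ^ 3 * Real.sqrt (1 - s ^ 2) ^ (k + 2) / (s + st)) (𝓝[≠] st)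
          (𝓝 (2 * st ^ 3 * Real.sqrt (1 - st ^ 2) ^ (k + 2) / (st + st))) := by
        have hc : ContinuousAt (fun s => 2 * s ^ 3 * Real.sqrt (1 - s ^ 2) ^ (k + 2) / (s + st)) st := by
          refine ContinuousAt.div (by fun_prop) (by fun_prop) (by positivity)
        exact hc.tendsto.mono_left nhdsWithin_le_nhds
      have hprod := (hrest.mul hslope).mul hlc
      rw [mul_zero] at hprod
      refine hprod.congr' ?_
      filter_upwards [self_mem_nhdsWithin, mem_nhdsWithin_of_mem_nhds (Ioi_mem_nhds hst0)] with s hs1 hs2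
      have hs1' : s ≠ st := hs1
      have hs2' : 0 < s := hs2
      have h1 : s - st ≠ 0 := sub_ne_zero.2 hs1'
      have h2 : s + st ≠ 0 := by positivity
      have h3 : s ^ 2 - q = (s - st) * (s + st) := by rw [← hst2]; ring
      rw [h3, slope_def_field]
      field_simp
    · have hl1 := hl s hs
      refine ContinuousWithinAt.div ?_ (by fun_prop) (hne s hs.1 h)
      refine ContinuousWithinAt.mul (by fun_prop) ?_
      exact (hl1.sub continuousWithinAt_const).pow 2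
  have hiw : IntervalIntegrable (fun s => s ^ 2 * Real.sqrt (1 - s ^ 2) ^ k * (l s - l st) ^ 2)
      volume 0 1 := by
    refine ContinuousOn.intervalIntegrable ?_
    rw [uIcc_of_le zero_le_one]
    refine ContinuousOn.mul (by fun_prop) ((hl.sub continuousOn_const).pow 2)
  have hI1 : IntegrableOn (fun s => s ^ 2 * Real.sqrt (1 - s ^ 2) ^ (k + 2) * l' s ^ 2) (Icc 0 1) := by
    rw [integrableOn_Icc_iff_integrableOn_Ioc]
    exact (intervalIntegrable_iff_integrableOn_Ioc_of_le zero_le_one).1 hi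
  have hI2 : IntegrableOn (fun s => s ^ 2 * Real.sqrt (1 - s ^ 2) ^ k * (l s - l st) ^ 2) (Icc 0 1) := by
    rw [integrableOn_Icc_iff_integrableOn_Ioc]
    exact (intervalIntegrable_iff_integrableOn_Ioc_of_le zero_le_one).1 hiw
  have p1 := piece k (l := l) (l' := l') (lst := l st) le_rfl hst0.le hst1.le
    (fun s hs => hl' s ⟨hs.1, hs.2.trans hst1⟩)
    (fun s hs => hne s hs.1.le hs.2.ne)
    (hF.mono (Icc_subset_Icc_right hst1.le)) (hI1.mono_set (Icc_subset_Icc_right hst1.le))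
    (hI2.mono_set (Icc_subset_Icc_right hst1.le))
  have p2 := piece k (l := l) (l' := l') (lst := l st) hst0.le hst1.le le_rfl
    (fun s hs => hl' s ⟨hst0.trans hs.1, hs.2⟩)
    (fun s hs => hne s (hst0.trans hs.1).le hs.1.ne')
    (hF.mono (Icc_subset_Icc_left hst0.le)) (hI1.mono_set (Icc_subset_Icc_left hst0.le))
    (hI2.mono_set (Icc_subset_Icc_left hst0.le))
  have hint : IntervalIntegrable (fun s => s ^ 2 * Real.sqrt (1 - s ^ 2) ^ (k + 2) * l' s ^ 2 -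
        2 * ((k : ℝ) + 5) * (s ^ 2 * Real.sqrt (1 - s ^ 2) ^ k * (l s - l st) ^ 2)) volume 0 1 :=
    hi.sub (hiw.const_mul _)
  have hsum : (∫ s in (0 : ℝ)..1, (s ^ 2 * Real.sqrt (1 - s ^ 2) ^ (k + 2) * l' s ^ 2 -
        2 * ((k : ℝ) + 5) * (s ^ 2 * Real.sqrt (1 - s ^ 2) ^ k * (l s - l st) ^ 2))) =
      (∫ s in (0 : ℝ)..1, s ^ 2 * Real.sqrt (1 - s ^ 2) ^ (k + 2) * l' s ^ 2) -
        2 * ((k : ℝ) + 5) * ∫ s in (0 : ℝ)..1, s ^ 2 * Real.sqrt (1 - s ^ 2) ^ k * (l s - l st) ^ 2 := by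
    rw [intervalIntegral.integral_sub hi (hiw.const_mul _), intervalIntegral.integral_const_mul]
  have hadd := intervalIntegral.integral_add_adjacent_intervals
    (hint.mono_set (by
      rw [uIcc_of_le hst0.le, uIcc_of_le zero_le_one]; exact Icc_subset_Icc_right hst1.le))
    (hint.mono_set (by
      rw [uIcc_of_le hst1.le, uIcc_of_le zero_le_one]; exact Icc_subset_Icc_left hst0.le))
    (a := 0) (b := st) (c := 1)
  have z1 : (2 * (1 : ℝ) ^ 3 * Real.sqrt (1 - 1 ^ 2) ^ (k + 2) * (l 1 - l st) ^ 2 / (1 ^ 2 - q)) = 0 := by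
    simp
  have z2 : (2 * st ^ 3 * Real.sqrt (1 - st ^ 2) ^ (k + 2) * (l st - l st) ^ 2 / (st ^ 2 - q)) = 0 := by
    simp
  have z3 : (2 * (0 : ℝ) ^ 3 * Real.sqrt (1 - 0 ^ 2) ^ (k + 2) * (l 0 - l st) ^ 2 / (0 ^ 2 - q)) = 0 := by
    simp
  rw [← hqd] at p1 p2
  rw [z1, z2] at p2
  rw [z2, z3] at p1
  have : 0 ≤ (∫ s in (0 : ℝ)..1, (s ^ 2 * Real.sqrt (1 - s ^ 2) ^ (k + 2) * l' s ^ 2 -
        2 * ((k : ℝ) + 5) * (s ^ 2 * Real.sqrt (1 - s ^ 2) ^ k * (l s - l st) ^ 2))) := by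
    rw [← hadd]; linarith
  rw [hsum] at this
  linarith

/-- **Poincare inequality for `π₁`** with the mean. -/
theorem poincare_pi1_mean (k : ℕ) {l l' : ℝ → ℝ} {lam : ℝ} (hl : ContinuousOn l (Icc 0 1))
    (hl' : ∀ s ∈ Ioo (0 : ℝ) 1, HasDerivAt l (l' s) s)
    (hi : IntervalIntegrable (fun s => s ^ 2 * Real.sqrt (1 - s ^ 2) ^ (k + 2) * l' s ^ 2)
      volume 0 1)
    (hlam : ∫ s in (0 : ℝ)..1, s ^ 2 * Real.sqrt (1 - s ^ 2) ^ k * (l s - lam) = 0) :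
    2 * ((k : ℝ) + 5) * ∫ s in (0 : ℝ)..1, s ^ 2 * Real.sqrt (1 - s ^ 2) ^ k * (l s - lam) ^ 2 ≤
      ∫ s in (0 : ℝ)..1, s ^ 2 * Real.sqrt (1 - s ^ 2) ^ (k + 2) * l' s ^ 2 := by
  refine le_trans ?_ (poincare_pi1 k hl hl' hi)
  set a : ℝ := l (Real.sqrt (3 / ((k : ℝ) + 5))) with ha
  have hk : (0 : ℝ) ≤ 2 * ((k : ℝ) + 5) := by positivity
  refine mul_le_mul_of_nonneg_left ?_ hk
  have hw : ContinuousOn (fun s : ℝ => s ^ 2 * Real.sqrt (1 - s ^ 2) ^ k) (Icc 0 1) := by fun_prop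
  have i1 : ∀ b : ℝ, IntervalIntegrable (fun s => s ^ 2 * Real.sqrt (1 - s ^ 2) ^ k * (l s - b) ^ 2)
      volume 0 1 := fun b => by
    refine ContinuousOn.intervalIntegrable ?_
    rw [uIcc_of_le zero_le_one]
    exact hw.mul ((hl.sub continuousOn_const).pow 2)
  have i2 : IntervalIntegrable (fun s => s ^ 2 * Real.sqrt (1 - s ^ 2) ^ k * (l s - lam))
      volume 0 1 := by
    refine ContinuousOn.intervalIntegrable ?_
    rw [uIcc_of_le zero_le_one]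
    exact hw.mul (hl.sub continuousOn_const)
  have i3 : IntervalIntegrable (fun s : ℝ => s ^ 2 * Real.sqrt (1 - s ^ 2) ^ k) volume 0 1 := by
    refine ContinuousOn.intervalIntegrable ?_
    rw [uIcc_of_le zero_le_one]
    exact hw
  have e : (∫ s in (0 : ℝ)..1, s ^ 2 * Real.sqrt (1 - s ^ 2) ^ k * (l s - a) ^ 2) =
      (∫ s in (0 : ℝ)..1, s ^ 2 * Real.sqrt (1 - s ^ 2) ^ k * (l s - lam) ^ 2) +
        2 * (lam - a) * (∫ s in (0 : ℝ)..1, s ^ 2 * Real.sqrt (1 - s ^ 2) ^ k * (l s - lam)) +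
        (lam - a) ^ 2 * ∫ s in (0 : ℝ)..1, s ^ 2 * Real.sqrt (1 - s ^ 2) ^ k := by
    rw [← intervalIntegral.integral_const_mul, ← intervalIntegral.integral_const_mul,
      ← intervalIntegral.integral_add (i1 lam) (i2.const_mul _),
      ← intervalIntegral.integral_add ((i1 lam).add (i2.const_mul _)) (i3.const_mul _)]
    congr 1
    ext s
    ring
  rw [e, hlam]
  have hpos : 0 ≤ ∫ s in (0 : ℝ)..1, s ^ 2 * Real.sqrt (1 - s ^ 2) ^ k := by
    refine intervalIntegral.integral_nonneg zero_le_one fun s _ => ?_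
    positivity
  have := mul_nonneg (sq_nonneg (lam - a)) hpos
  linarith

/-- integration by parts: null Lagrangians `s c^{N-2} G(s)`. -/
theorem null_lagrangian (k : ℕ) {G G' : ℝ → ℝ} (hG : ContinuousOn G (Icc 0 1))
    (hG' : ∀ s ∈ Ioo (0 : ℝ) 1, HasDerivAt G (G' s) s)
    (hi : IntervalIntegrable (fun s => Real.sqrt (1 - s ^ 2) ^ (k + 2) * (s * G' s)) volume 0 1) :
    ∫ s in (0 : ℝ)..1, (Real.sqrt (1 - s ^ 2) ^ (k + 2) * (G s + s * G' s) -
      ((k : ℝ) + 2) * (s ^ 2 * Real.sqrt (1 - s ^ 2) ^ k * G s)) = 0 := by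
  have hw : ContinuousOn (fun s : ℝ => Real.sqrt (1 - s ^ 2) ^ (k + 2)) (Icc 0 1) := by fun_prop
  have hw2 : ContinuousOn (fun s : ℝ => s ^ 2 * Real.sqrt (1 - s ^ 2) ^ k) (Icc 0 1) := by fun_prop
  have i1 : IntervalIntegrable (fun s => Real.sqrt (1 - s ^ 2) ^ (k + 2) * G s) volume 0 1 := by
    refine ContinuousOn.intervalIntegrable ?_
    rw [uIcc_of_le zero_le_one]
    exact hw.mul hG
  have i2 : IntervalIntegrable (fun s => s ^ 2 * Real.sqrt (1 - s ^ 2) ^ k * G s) volume 0 1 := by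
    refine ContinuousOn.intervalIntegrable ?_
    rw [uIcc_of_le zero_le_one]
    exact hw2.mul hG
  have hmain := intervalIntegral.integral_eq_sub_of_hasDerivAt_of_le (a := (0 : ℝ)) (b := 1)
    zero_le_one (f := fun s => s * Real.sqrt (1 - s ^ 2) ^ (k + 2) * G s)
    (f' := fun s => (Real.sqrt (1 - s ^ 2) ^ (k + 2) * (G s + s * G' s) -
      ((k : ℝ) + 2) * (s ^ 2 * Real.sqrt (1 - s ^ 2) ^ k * G s))) ?_ ?_ ?_
  · rw [hmain]
    simp
  · exact (continuousOn_id.mul hw).mul hG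
  · intro s hs
    have d := ((hasDerivAt_id s).fun_mul (hasDerivAt_cpow k hs.1.le hs.2)).fun_mul (hG' s hs)
    refine d.congr_deriv ?_
    simp only [id]
    ring
  · have := (i1.add hi).sub (i2.const_mul ((k : ℝ) + 2))
    refine this.congr (fun s _ => ?_)
    ring


end Crest.Agent.R230.Poinc
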