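import Crest.Agent.R230.DefsE

-- ▼ part R230/Transport
section

/-!
Monotone transport between even densities on `[-1,1]`.
-/

set_option autoImplicit false

open MeasureTheory Set Filter Topology
open scoped Pointwise ENNReal

namespace Crest.Agent.R230.Tr

/-- admissible (unnormalised) densities -/
structure Dens (g : ℝ → ℝ) : Prop where
  cont : ContinuousOn g (Icc (-1) 1)
  pos : ∀ s ∈ Ioo (-1 : ℝ) 1, 0 < g s
  even : ∀ s ∈ Icc (-1 : ℝ) 1, g (-s) = g s

/-- primitive -/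
noncomputable def prim (g : ℝ → ℝ) (t : ℝ) : ℝ := ∫ s in (-1 : ℝ)..t, g s

namespace Dens

variable {g : ℝ → ℝ} (hg : Dens g)
include hg

lemma nonneg {s : ℝ} (hs : s ∈ Icc (-1 : ℝ) 1) : 0 ≤ g s := by
  have h1 : closure (Ioo (-1 : ℝ) 1) = Icc (-1) 1 := closure_Ioo (by norm_num)
  have h2 : ContinuousWithinAt g (Ioo (-1) 1) s := (hg.cont s hs).mono Ioo_subset_Icc_self
  have h3 : s ∈ closure (Ioo (-1 : ℝ) 1) := by rw [h1]; exact hs
  haveI : (𝓝[Ioo (-1 : ℝ) 1] s).NeBot := mem_closure_iff_nhdsWithin_neBot.1 h3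
  refine ge_of_tendsto h2 ?_
  filter_upwards [self_mem_nhdsWithin] with x hx
  exact (hg.pos x hx).le

lemma intervalIntegrable {a b : ℝ} (ha : a ∈ Icc (-1 : ℝ) 1) (hb : b ∈ Icc (-1 : ℝ) 1) :
    IntervalIntegrable g volume a b := by
  refine ContinuousOn.intervalIntegrable (hg.cont.mono ?_)
  exact (ordConnected_Icc.uIcc_subset ha hb)

lemma prim_neg_one : prim g (-1) = 0 := by simp [prim]

lemma hasDerivAt_prim {t : ℝ} (ht : t ∈ Ioo (-1 : ℝ) 1) : HasDerivAt (prim g) (g t) t := by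
  have hc : ContinuousAt g t := hg.cont.continuousAt (Icc_mem_nhds ht.1 ht.2)
  refine intervalIntegral.integral_hasDerivAt_right
    (hg.intervalIntegrable ⟨le_rfl, by norm_num⟩ ⟨ht.1.le, ht.2.le⟩) ?_ hc
  exact (hg.cont.mono Ioo_subset_Icc_self).stronglyMeasurableAtFilter isOpen_Ioo t ht

lemma continuousOn_prim : ContinuousOn (prim g) (Icc (-1) 1) := by
  have h := intervalIntegral.continuousOn_primitive_interval (f := g) (a := -1) (b := 1)
    (μ := volume) (by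
      rw [uIcc_of_le (by norm_num)]
      exact hg.cont.integrableOn_compact isCompact_Icc)
  rw [uIcc_of_le (by norm_num)] at h
  exact h

lemma strictMonoOn_prim : StrictMonoOn (prim g) (Icc (-1) 1) := by
  refine strictMonoOn_of_deriv_pos (convex_Icc _ _) hg.continuousOn_prim fun x hx => ?_
  rw [interior_Icc] at hx
  rw [(hg.hasDerivAt_prim hx).deriv]
  exact hg.pos x hx

lemma prim_mem {t : ℝ} (ht : t ∈ Icc (-1 : ℝ) 1) : prim g t ∈ Icc 0 (prim g 1) := by
  have h1 := hg.strictMonoOn_prim.monotoneOn ⟨le_rfl, by norm_num⟩ ht ht.1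
  have h2 := hg.strictMonoOn_prim.monotoneOn ht ⟨by norm_num, le_rfl⟩ ht.2
  rw [hg.prim_neg_one] at h1
  exact ⟨h1, h2⟩

lemma exists_prim_eq {y : ℝ} (hy : y ∈ Icc 0 (prim g 1)) : ∃ t ∈ Icc (-1 : ℝ) 1, prim g t = y := by
  have h := intermediate_value_Icc (show (-1 : ℝ) ≤ 1 by norm_num) hg.continuousOn_prim
  rw [hg.prim_neg_one] at h
  exact h hy

lemma prim_pos : 0 < prim g 1 := by
  have := hg.strictMonoOn_prim ⟨le_rfl, by norm_num⟩ ⟨by norm_num, le_rfl⟩ (by norm_num : (-1 : ℝ) < 1)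
  rwa [hg.prim_neg_one] at this

lemma prim_neg {t : ℝ} (ht : t ∈ Icc (-1 : ℝ) 1) : prim g (-t) = prim g 1 - prim g t := by
  have hmt : -t ∈ Icc (-1 : ℝ) 1 := ⟨by linarith [ht.2], by linarith [ht.1]⟩
  have h1 : prim g (-t) = ∫ s in t..1, g s := by
    unfold prim
    have h2 := intervalIntegral.integral_comp_neg (a := t) (b := 1) (fun s => g s)
    rw [← h2]
    refine intervalIntegral.integral_congr fun s hs => ?_
    rw [uIcc_of_le ht.2] at hs
    exact hg.even s ⟨ht.1.trans hs.1, hs.2⟩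
  rw [h1]
  have h3 := intervalIntegral.integral_add_adjacent_intervals
    (hg.intervalIntegrable ⟨le_rfl, by norm_num⟩ ht) (hg.intervalIntegrable ht ⟨by norm_num, le_rfl⟩)
  unfold prim
  linarith

end Dens

section transport

variable {g₀ g₁ : ℝ → ℝ} (h₀ : Dens g₀) (h₁ : Dens g₁) (hM : prim g₀ 1 = prim g₁ 1)

open Classical in
/-- the monotone transport -/
noncomputable def trans (g₀ g₁ : ℝ → ℝ) (s : ℝ) : ℝ :=
  if h : s ∈ Icc (-1 : ℝ) 1 ∧ ∃ t ∈ Icc (-1 : ℝ) 1, prim g₁ t = prim g₀ s then h.2.choose else s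

include h₀ h₁ hM

lemma trans_spec {s : ℝ} (hs : s ∈ Icc (-1 : ℝ) 1) :
    trans g₀ g₁ s ∈ Icc (-1 : ℝ) 1 ∧ prim g₁ (trans g₀ g₁ s) = prim g₀ s := by
  have h : s ∈ Icc (-1 : ℝ) 1 ∧ ∃ t ∈ Icc (-1 : ℝ) 1, prim g₁ t = prim g₀ s := by
    refine ⟨hs, h₁.exists_prim_eq ?_⟩
    rw [← hM]
    exact h₀.prim_mem hs
  unfold trans
  rw [dif_pos h]
  exact h.2.choose_spec

omit h₀ h₁ hM in
lemma trans_of_notMem {s : ℝ} (hs : s ∉ Icc (-1 : ℝ) 1) : trans g₀ g₁ s = s := by
  unfold trans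
  rw [dif_neg]
  exact fun h => hs h.1

lemma trans_unique {s t : ℝ} (hs : s ∈ Icc (-1 : ℝ) 1) (ht : t ∈ Icc (-1 : ℝ) 1)
    (h : prim g₁ t = prim g₀ s) : trans g₀ g₁ s = t := by
  obtain ⟨h1, h2⟩ := trans_spec h₀ h₁ hM hs
  exact h₁.strictMonoOn_prim.injOn h1 ht (h2.trans h.symm)

lemma trans_strictMonoOn : StrictMonoOn (trans g₀ g₁) (Icc (-1) 1) := by
  intro a ha b hb hab
  obtain ⟨a1, a2⟩ := trans_spec h₀ h₁ hM ha
  obtain ⟨b1, b2⟩ := trans_spec h₀ h₁ hM hb
  rw [← h₁.strictMonoOn_prim.lt_iff_lt a1 b1, a2, b2]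
  exact h₀.strictMonoOn_prim ha hb hab

lemma trans_monotone : Monotone (trans g₀ g₁) := by
  intro a b hab
  by_cases ha : a ∈ Icc (-1 : ℝ) 1
  · by_cases hb : b ∈ Icc (-1 : ℝ) 1
    · exact (trans_strictMonoOn h₀ h₁ hM).monotoneOn ha hb hab
    · rw [trans_of_notMem hb]
      have h1 := (trans_spec h₀ h₁ hM ha).1.2
      by_contra hcon
      push Not at hcon
      exact hb ⟨ha.1.trans hab, by linarith⟩
  · rw [trans_of_notMem ha]
    by_cases hb : b ∈ Icc (-1 : ℝ) 1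
    · have h1 := (trans_spec h₀ h₁ hM hb).1.1
      by_contra hcon
      push Not at hcon
      exact ha ⟨by linarith, hab.trans hb.2⟩
    · rw [trans_of_notMem hb]; exact hab

lemma trans_surjective : Function.Surjective (trans g₀ g₁) := by
  intro y
  by_cases hy : y ∈ Icc (-1 : ℝ) 1
  · obtain ⟨s, hs, h⟩ := h₀.exists_prim_eq (y := prim g₁ y) (by rw [hM]; exact h₁.prim_mem hy)
    exact ⟨s, trans_unique h₀ h₁ hM hs hy h.symm⟩
  · exact ⟨y, trans_of_notMem hy⟩

lemma trans_continuous : Continuous (trans g₀ g₁) :=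
  (trans_monotone h₀ h₁ hM).continuous_of_surjective (trans_surjective h₀ h₁ hM)

lemma trans_neg_one : trans g₀ g₁ (-1) = -1 :=
  trans_unique h₀ h₁ hM ⟨le_rfl, by norm_num⟩ ⟨le_rfl, by norm_num⟩
    (by rw [h₀.prim_neg_one, h₁.prim_neg_one])

lemma trans_one : trans g₀ g₁ 1 = 1 :=
  trans_unique h₀ h₁ hM ⟨by norm_num, le_rfl⟩ ⟨by norm_num, le_rfl⟩ hM.symm

lemma trans_odd {s : ℝ} (hs : s ∈ Icc (-1 : ℝ) 1) : trans g₀ g₁ (-s) = -trans g₀ g₁ s := by
  obtain ⟨a1, a2⟩ := trans_spec h₀ h₁ hM hs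
  refine trans_unique h₀ h₁ hM ⟨by linarith [hs.2], by linarith [hs.1]⟩
    ⟨by linarith [a1.2], by linarith [a1.1]⟩ ?_
  rw [h₁.prim_neg a1, h₀.prim_neg hs, a2, hM]

lemma trans_mem_Ioo {s : ℝ} (hs : s ∈ Ioo (-1 : ℝ) 1) : trans g₀ g₁ s ∈ Ioo (-1 : ℝ) 1 := by
  have hm := trans_strictMonoOn h₀ h₁ hM
  have h1 := hm ⟨le_rfl, by norm_num⟩ ⟨hs.1.le, hs.2.le⟩ hs.1
  have h2 := hm ⟨hs.1.le, hs.2.le⟩ ⟨by norm_num, le_rfl⟩ hs.2
  rw [trans_neg_one h₀ h₁ hM] at h1
  rw [trans_one h₀ h₁ hM] at h2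
  exact ⟨h1, h2⟩

lemma trans_zero : trans g₀ g₁ 0 = 0 := by
  have := trans_odd h₀ h₁ hM (s := 0) ⟨by norm_num, by norm_num⟩
  rw [neg_zero] at this
  linarith

lemma hasDerivAt_trans {s : ℝ} (hs : s ∈ Ioo (-1 : ℝ) 1) :
    HasDerivAt (trans g₀ g₁) (g₀ s / g₁ (trans g₀ g₁ s)) s := by
  have hTs := trans_mem_Ioo h₀ h₁ hM hs
  have hd0 := h₀.hasDerivAt_prim hs
  have hd1 := h₁.hasDerivAt_prim hTs
  rw [hasDerivAt_iff_tendsto_slope] at hd0 hd1 ⊢
  have hc : Tendsto (trans g₀ g₁) (𝓝[≠] s) (𝓝[≠] (trans g₀ g₁ s)) := by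
    refine tendsto_nhdsWithin_iff.2 ⟨?_, ?_⟩
    · exact ((trans_continuous h₀ h₁ hM).tendsto s).mono_left nhdsWithin_le_nhds
    · filter_upwards [self_mem_nhdsWithin,
        mem_nhdsWithin_of_mem_nhds (Icc_mem_nhds hs.1 hs.2)] with x hx hx2
      intro h
      exact hx ((trans_strictMonoOn h₀ h₁ hM).injOn hx2 ⟨hs.1.le, hs.2.le⟩ h)
  have h2 := hd0.div (hd1.comp hc) (h₁.pos _ hTs).ne'
  refine h2.congr' ?_
  filter_upwards [self_mem_nhdsWithin,
    mem_nhdsWithin_of_mem_nhds (Icc_mem_nhds hs.1 hs.2)] with x hx hx2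
  have hne : x - s ≠ 0 := sub_ne_zero.2 hx
  have hTne : trans g₀ g₁ x - trans g₀ g₁ s ≠ 0 := by
    rw [sub_ne_zero]
    intro h
    exact hx ((trans_strictMonoOn h₀ h₁ hM).injOn hx2 ⟨hs.1.le, hs.2.le⟩ h)
  have e1 := (trans_spec h₀ h₁ hM hx2).2
  have e2 := (trans_spec h₀ h₁ hM ⟨hs.1.le, hs.2.le⟩).2
  have hpne : prim g₀ x - prim g₀ s ≠ 0 := by
    rw [sub_ne_zero]
    intro h
    exact hx (h₀.strictMonoOn_prim.injOn hx2 ⟨hs.1.le, hs.2.le⟩ h)
  simp only [Function.comp_apply, Pi.div_apply, slope_def_field, e1, e2]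
  field_simp

/-- inverse -/
lemma trans_inv {s : ℝ} (hs : s ∈ Icc (-1 : ℝ) 1) : trans g₁ g₀ (trans g₀ g₁ s) = s := by
  obtain ⟨a1, a2⟩ := trans_spec h₀ h₁ hM hs
  exact trans_unique h₁ h₀ hM.symm a1 hs a2.symm

lemma image_trans : trans g₀ g₁ '' Ioo (-1) 1 = Ioo (-1 : ℝ) 1 := by
  ext y
  constructor
  · rintro ⟨s, hs, rfl⟩
    exact trans_mem_Ioo h₀ h₁ hM hs
  · intro hy
    refine ⟨trans g₁ g₀ y, trans_mem_Ioo h₁ h₀ hM.symm hy, ?_⟩
    exact trans_inv h₁ h₀ hM.symm ⟨hy.1.le, hy.2.le⟩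

/-- change of variables -/
theorem integral_trans (φ : ℝ → ℝ) :
    ∫ t in (-1 : ℝ)..1, g₁ t * φ t = ∫ s in (-1 : ℝ)..1, g₀ s * φ (trans g₀ g₁ s) := by
  rw [intervalIntegral.integral_of_le (by norm_num), intervalIntegral.integral_of_le (by norm_num),
    integral_Ioc_eq_integral_Ioo, integral_Ioc_eq_integral_Ioo]
  have hinj : InjOn (trans g₀ g₁) (Ioo (-1) 1) :=
    (trans_strictMonoOn h₀ h₁ hM).injOn.mono Ioo_subset_Icc_self
  have h := integral_image_eq_integral_abs_deriv_smul (f := trans g₀ g₁)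
    (f' := fun s => g₀ s / g₁ (trans g₀ g₁ s)) measurableSet_Ioo
    (fun s hs => (hasDerivAt_trans h₀ h₁ hM hs).hasDerivWithinAt) hinj (fun t => g₁ t * φ t)
  rw [image_trans h₀ h₁ hM] at h
  rw [h]
  refine setIntegral_congr_fun measurableSet_Ioo fun s hs => ?_
  have hp1 := h₁.pos _ (trans_mem_Ioo h₀ h₁ hM hs)
  have hp0 := h₀.pos _ hs
  simp only [smul_eq_mul]
  rw [abs_of_pos (div_pos hp0 hp1)]
  field_simp


end transport

end Crest.Agent.R230.Tr
end

-- ▼ part R230/ProfIBP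
section

/-!
Integration by parts against `r^n` for concave profiles.
-/

set_option autoImplicit false

open MeasureTheory Set Filter Topology
open scoped Pointwise ENNReal

namespace Crest.Agent.R230

/-- right derivative of a concave profile -/
noncomputable def rd (r : ℝ → ℝ) (s : ℝ) : ℝ := -derivWithin (fun x => -r x) (Ioi s) s

namespace Prof

variable {r : ℝ → ℝ} (hr : Prof r)
include hr

lemma hasRightDeriv {s : ℝ} (hs : s ∈ Ioo (-1 : ℝ) 1) : HasDerivWithinAt r (rd r s) (Ioi s) s := by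
  have hcv : ConvexOn ℝ (Icc (-1) 1) (fun x => -r x) := hr.conc.neg
  have h := hcv.hasDerivWithinAt_rightDeriv_of_mem_interior (x := s) (by rwa [interior_Icc])
  have h2 := h.neg
  unfold rd
  refine h2.congr (fun x _ => by simp) (by simp)

lemma monotoneOn_left : MonotoneOn r (Icc (-1) 0) := by
  intro a ha b hb hab
  rcases ha.2.eq_or_lt with h0 | h0
  · have : b = a := le_antisymm (hb.2.trans h0.ge) hab
    rw [this]
  have ha1 : a ∈ Icc (-1 : ℝ) 1 := ⟨ha.1, by linarith [ha.2]⟩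
  have hma : -a ∈ Icc (-1 : ℝ) 1 := ⟨by linarith, by linarith [ha.1]⟩
  have ha' : 0 < -2 * a := by linarith
  have hane : a ≠ 0 := h0.ne
  have hc' := hr.conc.2
  have hc := hc' ha1 hma (a := (b + a) / (2 * a)) (b := (b - a) / (-2 * a))
    (div_nonneg_of_nonpos (by linarith [hb.2]) (by linarith)) (div_nonneg (by linarith) ha'.le)
    (by field_simp; ring)
  rw [hr.even a ha1] at hc
  simp only [smul_eq_mul] at hc
  have e1 : (b + a) / (2 * a) * a + (b - a) / (-2 * a) * -a = b := by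
    field_simp; ring
  have e2 : (b + a) / (2 * a) * r a + (b - a) / (-2 * a) * r a = r a := by
    field_simp; ring
  rw [e1, e2] at hc
  exact hc

lemma antitoneOn_right : AntitoneOn r (Icc 0 1) := by
  intro a ha b hb hab
  have h := hr.monotoneOn_left (a := -b) (b := -a) ⟨by linarith [hb.2], by linarith [hb.1]⟩
    ⟨by linarith [ha.2], by linarith [ha.1]⟩ (by linarith)
  rwa [hr.even b ⟨by linarith [hb.1], hb.2⟩, hr.even a ⟨by linarith [ha.1], ha.2⟩] at h

lemma nonneg' {s : ℝ} (hs : s ∈ Icc (-1 : ℝ) 1) : 0 ≤ r s := by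
  have h1 : closure (Ioo (-1 : ℝ) 1) = Icc (-1) 1 := closure_Ioo (by norm_num)
  have h2 : ContinuousWithinAt r (Ioo (-1) 1) s := (hr.cont s hs).mono Ioo_subset_Icc_self
  have h3 : s ∈ closure (Ioo (-1 : ℝ) 1) := by rw [h1]; exact hs
  have : (𝓝[Ioo (-1 : ℝ) 1] s).NeBot := mem_closure_iff_nhdsWithin_neBot.1 h3
  refine ge_of_tendsto h2 ?_
  filter_upwards [self_mem_nhdsWithin] with x hx
  exact (hr.pos x hx).le

lemma ae_deriv_eq : ∀ᵐ s, s ∈ Ioo (-1 : ℝ) 1 → deriv r s = rd r s := by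
  have h1 := hr.monotoneOn_left.ae_differentiableWithinAt_of_mem
  have h2 : ∀ᵐ x, x ∈ Icc (0 : ℝ) 1 → DifferentiableWithinAt ℝ r (Icc 0 1) x := by
    have h3 : MonotoneOn (fun x => -r x) (Icc (0 : ℝ) 1) := hr.antitoneOn_right.neg
    filter_upwards [h3.ae_differentiableWithinAt_of_mem] with x hx hx2
    have := (hx hx2).neg
    simpa using this
  filter_upwards [h1, h2, Measure.ae_ne volume (0 : ℝ)] with s h1 h2 h0 hs
  have hd : DifferentiableAt ℝ r s := by
    rcases lt_or_gt_of_ne h0 with h | h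
    · exact (h1 ⟨hs.1.le, h.le⟩).differentiableAt (Icc_mem_nhds hs.1 h)
    · exact (h2 ⟨h.le, hs.2.le⟩).differentiableAt (Icc_mem_nhds h hs.2)
  have h3 := hd.hasDerivAt.hasDerivWithinAt (s := Ioi s)
  exact (uniqueDiffWithinAt_Ioi s).eq_deriv _ h3 (hr.hasRightDeriv hs)

lemma rd_nonneg {s : ℝ} (hs : s ∈ Ioo (-1 : ℝ) 0) : 0 ≤ rd r s := by
  have h := hr.hasRightDeriv (s := s) ⟨hs.1, by linarith [hs.2]⟩
  rw [hasDerivWithinAt_iff_tendsto_slope' (by simp)] at h
  refine ge_of_tendsto h ?_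
  filter_upwards [Ioo_mem_nhdsGT hs.2] with x hx
  rw [slope_def_field]
  refine div_nonneg ?_ (by linarith [hx.1])
  rw [sub_nonneg]
  exact hr.monotoneOn_left ⟨hs.1.le, hs.2.le⟩ ⟨by linarith [hs.1, hx.1], hx.2.le⟩ hx.1.le

lemma rd_nonpos {s : ℝ} (hs : s ∈ Ioo (0 : ℝ) 1) : rd r s ≤ 0 := by
  have h := hr.hasRightDeriv (s := s) ⟨by linarith [hs.1], hs.2⟩
  rw [hasDerivWithinAt_iff_tendsto_slope' (by simp)] at h
  refine le_of_tendsto h ?_
  filter_upwards [Ioo_mem_nhdsGT hs.2] with x hx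
  rw [slope_def_field]
  refine div_nonpos_of_nonpos_of_nonneg ?_ (by linarith [hx.1])
  rw [sub_nonpos]
  exact hr.antitoneOn_right ⟨hs.1.le, hs.2.le⟩ ⟨by linarith [hs.1, hx.1], hx.2.le⟩ hx.1.le

lemma intervalIntegrable_rd : IntervalIntegrable (rd r) volume (-1) 1 := by
  have h1 : IntervalIntegrable (rd r) volume (-1) 0 := by
    rw [intervalIntegrable_iff_integrableOn_Ioc_of_le (by norm_num)]
    exact intervalIntegral.integrableOn_deriv_right_of_nonneg
      (hr.cont.mono (Icc_subset_Icc_right (by norm_num)))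
      (fun x hx => hr.hasRightDeriv ⟨hx.1, by linarith [hx.2]⟩) (fun x hx => hr.rd_nonneg hx)
  have h2 : IntervalIntegrable (rd r) volume 0 1 := by
    rw [intervalIntegrable_iff_integrableOn_Ioc_of_le (by norm_num)]
    have := intervalIntegral.integrableOn_deriv_right_of_nonneg (g := fun x => -r x)
      (g' := fun x => -rd r x) (a := 0) (b := 1)
      (hr.cont.mono (Icc_subset_Icc_left (by norm_num))).neg
      (fun x hx => (hr.hasRightDeriv ⟨by linarith [hx.1], hx.2⟩).neg)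
      (fun x hx => by have := hr.rd_nonpos hx; linarith)
    simpa using this.neg
  exact h1.trans h2

lemma intervalIntegrable_mul_rd {u : ℝ → ℝ} (hu : ContinuousOn u (Icc (-1) 1)) :
    IntervalIntegrable (fun s => u s * rd r s) volume (-1) 1 := by
  refine hr.intervalIntegrable_rd.continuousOn_mul ?_
  rw [uIcc_of_le (by norm_num)]
  exact hu

lemma intervalIntegrable_mul_deriv {u : ℝ → ℝ} (hu : ContinuousOn u (Icc (-1) 1)) :
    IntervalIntegrable (fun s => u s * deriv r s) volume (-1) 1 := by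
  refine (hr.intervalIntegrable_mul_rd hu).congr_ae ?_
  rw [uIoc_of_le (by norm_num), ← restrict_Ioo_eq_restrict_Ioc, EventuallyEq,
    ae_restrict_iff' measurableSet_Ioo]
  filter_upwards [hr.ae_deriv_eq] with s h1 h2
  rw [h1 h2]

lemma integral_deriv_eq (u : ℝ → ℝ) :
    ∫ s in (-1 : ℝ)..1, u s * deriv r s = ∫ s in (-1 : ℝ)..1, u s * rd r s := by
  rw [intervalIntegral.integral_of_le (by norm_num), intervalIntegral.integral_of_le (by norm_num),
    integral_Ioc_eq_integral_Ioo, integral_Ioc_eq_integral_Ioo]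
  refine setIntegral_congr_ae measurableSet_Ioo ?_
  filter_upwards [hr.ae_deriv_eq] with s h1 h2
  rw [h1 h2]

/-- integration by parts -/
theorem ibp {n : ℕ} {u u' : ℝ → ℝ} (hu : ContinuousOn u (Icc (-1) 1))
    (hu' : ∀ t ∈ Ioo (-1 : ℝ) 1, HasDerivAt u (u' t) t)
    (hi : IntervalIntegrable (fun t => r t ^ n * u' t) volume (-1) 1) :
    n * (∫ s in (-1 : ℝ)..1, (r s ^ (n - 1) * u s) * deriv r s) + ∫ s in (-1 : ℝ)..1, r s ^ n * u' s
      = (u 1 - u (-1)) * r 1 ^ n := by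
  rw [hr.integral_deriv_eq, ← intervalIntegral.integral_const_mul]
  have hi1 : IntervalIntegrable (fun s => (r s ^ (n - 1) * u s) * rd r s) volume (-1) 1 :=
    hr.intervalIntegrable_mul_rd ((hr.cont.pow _).mul hu)
  rw [← intervalIntegral.integral_add (hi1.const_mul _) hi]
  have h := intervalIntegral.integral_eq_sub_of_hasDeriv_right_of_le (a := -1) (b := 1)
    (f := fun s => r s ^ n * u s) (f' := fun s => (n : ℝ) * (r s ^ (n - 1) * u s * rd r s) + r s ^ n * u' s)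
    (by norm_num) ((hr.cont.pow _).mul hu) ?_ ((hi1.const_mul _).add hi)
  · rw [h, hr.even 1 ⟨by norm_num, le_rfl⟩]
    ring
  · intro s hs
    have h1 := (hr.hasRightDeriv hs).fun_pow n
    have h2 := h1.fun_mul (hu' s hs).hasDerivWithinAt
    exact h2.congr_deriv (by ring)

end Prof

end Crest.Agent.R230
end

-- ▼ part R230/TransProf

/-!
The transport from the ball marginal to the marginal of a profile, expectation of line families.
-/

set_option autoImplicit false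

open MeasureTheory Set Filter Topology
open scoped Pointwise ENNReal

namespace Crest.Agent.R230

open Tr

/-- the ball density -/
noncomputable def dB (n : ℕ) (s : ℝ) : ℝ := Real.sqrt (1 - s ^ 2) ^ n / w n

/-- the density of a profile -/
noncomputable def dP (n : ℕ) (r : ℝ → ℝ) (t : ℝ) : ℝ := r t ^ n / mom n r

lemma sqrt_pos_of_mem {s : ℝ} (hs : s ∈ Ioo (-1 : ℝ) 1) : 0 < Real.sqrt (1 - s ^ 2) := by
  apply Real.sqrt_pos.2
  nlinarith [hs.1, hs.2]

lemma dens_base (n : ℕ) : Dens (fun s => Real.sqrt (1 - s ^ 2) ^ n) where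
  cont := by fun_prop
  pos := fun s hs => pow_pos (sqrt_pos_of_mem hs) n
  even := fun s _ => by simp

lemma w_pos' (n : ℕ) : 0 < w n := (dens_base n).prim_pos

lemma Prof.dens {r : ℝ → ℝ} (hr : Prof r) (n : ℕ) : Dens (fun s => r s ^ n) where
  cont := hr.cont.pow n
  pos := fun s hs => pow_pos (hr.pos s hs) n
  even := fun s hs => by simp only [hr.even s hs]

lemma Prof.mom_pos' {r : ℝ → ℝ} (hr : Prof r) (n : ℕ) : 0 < mom n r := (hr.dens n).prim_pos

lemma dens_dB (n : ℕ) : Dens (dB n) where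
  cont := by
    unfold dB
    fun_prop
  pos := fun s hs => div_pos (pow_pos (sqrt_pos_of_mem hs) n) (w_pos' n)
  even := fun s _ => by simp [dB]

lemma Prof.dens_dP {r : ℝ → ℝ} (hr : Prof r) (n : ℕ) : Dens (dP n r) where
  cont := (hr.cont.pow n).div_const _
  pos := fun s hs => div_pos (pow_pos (hr.pos s hs) n) (hr.mom_pos' n)
  even := fun s hs => by simp only [dP, hr.even s hs]

lemma prim_dB (n : ℕ) : prim (dB n) 1 = 1 := by
  unfold prim dB
  rw [intervalIntegral.integral_div]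
  exact div_self (w_pos' n).ne'

lemma Prof.prim_dP {r : ℝ → ℝ} (hr : Prof r) (n : ℕ) : prim (dP n r) 1 = 1 := by
  unfold prim dP
  rw [intervalIntegral.integral_div]
  exact div_self (hr.mom_pos' n).ne'

lemma Prof.mass_eq {r : ℝ → ℝ} (hr : Prof r) (n : ℕ) : prim (dB n) 1 = prim (dP n r) 1 := by
  rw [prim_dB, hr.prim_dP]

/-- the transport `ball marginal → marginal of r` -/
noncomputable def tau (n : ℕ) (r : ℝ → ℝ) : ℝ → ℝ := trans (dB n) (dP n r)

/-- the inverse transport -/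
noncomputable def sig (n : ℕ) (r : ℝ → ℝ) : ℝ → ℝ := trans (dP n r) (dB n)

/-- derivative of the transport -/
noncomputable def dtau (n : ℕ) (r : ℝ → ℝ) (s : ℝ) : ℝ := dB n s / dP n r (tau n r s)

section

variable {r : ℝ → ℝ} (hr : Prof r) (n : ℕ)
include hr

lemma hasDerivAt_tau {s : ℝ} (hs : s ∈ Ioo (-1 : ℝ) 1) : HasDerivAt (tau n r) (dtau n r s) s :=
  hasDerivAt_trans (dens_dB n) (hr.dens_dP n) (hr.mass_eq n) hs

lemma tau_mem {s : ℝ} (hs : s ∈ Ioo (-1 : ℝ) 1) : tau n r s ∈ Ioo (-1 : ℝ) 1 :=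
  trans_mem_Ioo (dens_dB n) (hr.dens_dP n) (hr.mass_eq n) hs

lemma tau_mem_Icc {s : ℝ} (hs : s ∈ Icc (-1 : ℝ) 1) : tau n r s ∈ Icc (-1 : ℝ) 1 :=
  (trans_spec (dens_dB n) (hr.dens_dP n) (hr.mass_eq n) hs).1

lemma tau_continuous : Continuous (tau n r) :=
  trans_continuous (dens_dB n) (hr.dens_dP n) (hr.mass_eq n)

lemma tau_strictMonoOn : StrictMonoOn (tau n r) (Icc (-1) 1) :=
  trans_strictMonoOn (dens_dB n) (hr.dens_dP n) (hr.mass_eq n)

lemma tau_odd {s : ℝ} (hs : s ∈ Icc (-1 : ℝ) 1) : tau n r (-s) = -tau n r s :=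
  trans_odd (dens_dB n) (hr.dens_dP n) (hr.mass_eq n) hs

lemma tau_zero : tau n r 0 = 0 := trans_zero (dens_dB n) (hr.dens_dP n) (hr.mass_eq n)

lemma tau_one : tau n r 1 = 1 := trans_one (dens_dB n) (hr.dens_dP n) (hr.mass_eq n)


lemma sig_tau {s : ℝ} (hs : s ∈ Icc (-1 : ℝ) 1) : sig n r (tau n r s) = s :=
  trans_inv (dens_dB n) (hr.dens_dP n) (hr.mass_eq n) hs

lemma tau_sig {t : ℝ} (ht : t ∈ Icc (-1 : ℝ) 1) : tau n r (sig n r t) = t :=
  trans_inv (hr.dens_dP n) (dens_dB n) (hr.mass_eq n).symm ht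

lemma sig_mem {t : ℝ} (ht : t ∈ Ioo (-1 : ℝ) 1) : sig n r t ∈ Ioo (-1 : ℝ) 1 :=
  trans_mem_Ioo (hr.dens_dP n) (dens_dB n) (hr.mass_eq n).symm ht

lemma sig_mem_Icc {t : ℝ} (ht : t ∈ Icc (-1 : ℝ) 1) : sig n r t ∈ Icc (-1 : ℝ) 1 :=
  (trans_spec (hr.dens_dP n) (dens_dB n) (hr.mass_eq n).symm ht).1

lemma sig_continuous : Continuous (sig n r) :=
  trans_continuous (hr.dens_dP n) (dens_dB n) (hr.mass_eq n).symm

lemma sig_one : sig n r 1 = 1 := trans_one (hr.dens_dP n) (dens_dB n) (hr.mass_eq n).symm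


lemma dtau_pos {s : ℝ} (hs : s ∈ Ioo (-1 : ℝ) 1) : 0 < dtau n r s :=
  div_pos ((dens_dB n).pos s hs) ((hr.dens_dP n).pos _ (tau_mem hr n hs))

lemma continuousOn_dtau : ContinuousOn (dtau n r) (Ioo (-1) 1) := by
  unfold dtau
  refine ContinuousOn.div ((dens_dB n).cont.mono Ioo_subset_Icc_self) ?_ ?_
  · exact ((hr.dens_dP n).cont.mono Ioo_subset_Icc_self).comp (tau_continuous hr n).continuousOn
      (fun s hs => tau_mem hr n hs)
  · exact fun s hs => ((hr.dens_dP n).pos _ (tau_mem hr n hs)).ne'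

lemma hasDerivAt_sig {t : ℝ} (ht : t ∈ Ioo (-1 : ℝ) 1) :
    HasDerivAt (sig n r) (dtau n r (sig n r t))⁻¹ t := by
  have h := hasDerivAt_trans (hr.dens_dP n) (dens_dB n) (hr.mass_eq n).symm ht
  have h2 : (dtau n r (sig n r t))⁻¹ = dP n r t / dB n (sig n r t) := by
    unfold dtau
    rw [tau_sig hr n ⟨ht.1.le, ht.2.le⟩, inv_div]
  rw [h2]
  exact h

/-- change of variables `t = τ(s)` -/
theorem integral_pow_eq (φ : ℝ → ℝ) :
    ∫ t in (-1 : ℝ)..1, r t ^ n * φ t =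
      mom n r / w n * ∫ s in (-1 : ℝ)..1, Real.sqrt (1 - s ^ 2) ^ n * φ (tau n r s) := by
  have h := integral_trans (dens_dB n) (hr.dens_dP n) (hr.mass_eq n) φ
  have hm := (hr.mom_pos' n).ne'
  have hw := (w_pos' n).ne'
  have h1 : ∫ t in (-1 : ℝ)..1, r t ^ n * φ t = mom n r * ∫ t in (-1 : ℝ)..1, dP n r t * φ t := by
    rw [← intervalIntegral.integral_const_mul]
    congr 1; ext t
    unfold dP
    field_simp
  have h2 : ∫ s in (-1 : ℝ)..1, Real.sqrt (1 - s ^ 2) ^ n * φ (tau n r s) =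
      w n * ∫ s in (-1 : ℝ)..1, dB n s * φ (tau n r s) := by
    rw [← intervalIntegral.integral_const_mul]
    congr 1; ext t
    unfold dB
    field_simp
  rw [h1, h2, h]
  unfold tau
  field_simp


/-- expectation of a line family -/
theorem EP_lines (hn : 1 ≤ n) {A B A' B' : ℝ → ℝ} (hA : ContinuousOn A (Icc (-1) 1))
    (hB : ContinuousOn B (Icc (-1) 1)) (hA' : ∀ t ∈ Ioo (-1 : ℝ) 1, HasDerivAt A (A' t) t)
    (hB' : ∀ t ∈ Ioo (-1 : ℝ) 1, HasDerivAt B (B' t) t)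
    (hi : IntervalIntegrable (fun t => r t ^ n * (t * A' t + B' t)) volume (-1) 1) :
    ((n : ℝ) + 1) * EP n r (fun t p => A t + B t * p) =
      (∫ t in (-1 : ℝ)..1, r t ^ n * ((n + 1) * A t + (t * A' t + B' t))) / mom n r := by
  have hm := (hr.mom_pos' n).ne'
  have hiA : IntervalIntegrable (fun t => r t ^ n * A t) volume (-1) 1 := by
    refine ContinuousOn.intervalIntegrable ?_
    rw [uIcc_of_le (by norm_num)]
    exact (hr.cont.pow n).mul hA
  set u : ℝ → ℝ := fun t => t * A t + B t with hu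
  have huc : ContinuousOn u (Icc (-1) 1) := (continuousOn_id.mul hA).add hB
  have hu' : ∀ t ∈ Ioo (-1 : ℝ) 1, HasDerivAt u (A t + (t * A' t + B' t)) t := by
    intro t ht
    have h1 := ((hasDerivAt_id t).fun_mul (hA' t ht)).fun_add (hB' t ht)
    exact h1.congr_deriv (by simp; ring)
  have hi2 : IntervalIntegrable (fun t => r t ^ n * (A t + (t * A' t + B' t))) volume (-1) 1 := by
    have := hiA.add hi
    refine this.congr (fun t _ => ?_)
    ring
  have hibp := hr.ibp (n := n) huc hu' hi2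
  have hmain : ∫ s in (-1 : ℝ)..1, r s ^ (n - 1) * (r s - s * deriv r s) * (A s + B s * pp r s) =
      (∫ s in (-1 : ℝ)..1, r s ^ n * A s) - ∫ s in (-1 : ℝ)..1, (r s ^ (n - 1) * u s) * deriv r s := by
    have hi3 : IntervalIntegrable (fun s => (r s ^ (n - 1) * u s) * deriv r s) volume (-1) 1 :=
      hr.intervalIntegrable_mul_deriv ((hr.cont.pow _).mul huc)
    rw [← intervalIntegral.integral_sub hiA hi3]
    rw [intervalIntegral.integral_of_le (by norm_num), intervalIntegral.integral_of_le (by norm_num),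
      integral_Ioc_eq_integral_Ioo, integral_Ioc_eq_integral_Ioo]
    refine setIntegral_congr_ae measurableSet_Ioo ?_
    filter_upwards [hr.ae_deriv_eq, Measure.ae_ne volume (0 : ℝ)] with s h1 h0 hs
    have hrs := hr.pos s hs
    have hpos : 0 < r s - s * deriv r s := by
      rw [h1 hs]
      rcases lt_or_gt_of_ne h0 with h | h
      · have := hr.rd_nonneg ⟨hs.1, h⟩
        nlinarith
      · have := hr.rd_nonpos ⟨h, hs.2⟩
        nlinarith
    have hpow : r s ^ n = r s ^ (n - 1) * r s := by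
      rw [← pow_succ, Nat.sub_add_cancel hn]
    simp only [pp, hu, hpow]
    field_simp
    ring
  unfold EP
  rw [hmain]
  have hsum : ∫ t in (-1 : ℝ)..1, r t ^ n * ((n + 1) * A t + (t * A' t + B' t)) =
      n * (∫ s in (-1 : ℝ)..1, r s ^ n * A s) +
        ∫ t in (-1 : ℝ)..1, r t ^ n * (A t + (t * A' t + B' t)) := by
    rw [← intervalIntegral.integral_const_mul, ← intervalIntegral.integral_add (hiA.const_mul _) hi2]
    congr 1; ext t; ring
  rw [hsum]
  have hn1 : (n : ℝ) + 1 ≠ 0 := by positivity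
  have e1 : u 1 - u (-1) = (A 1 + B 1 * 1) + (A (-1) + B (-1) * -1) := by
    simp only [hu]; ring
  rw [e1] at hibp
  rw [mul_div_assoc']
  rw [div_eq_div_iff (mul_ne_zero hn1 hm) hm]
  linear_combination (-((n : ℝ) + 1) * mom n r) * hibp


/-- **the constraint** in transport form -/
theorem constraint_trans (hn : 1 ≤ n) :
    mom (n - 1) r = (mom n r / w n) ^ (((n : ℝ) - 1) / n) *
      ∫ s in (-1 : ℝ)..1, Real.sqrt (1 - s ^ 2) ^ (n - 1) * dtau n r s ^ ((1 : ℝ) / n) := by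
  have hw := w_pos' n
  have hm := hr.mom_pos' n
  have hn0 : (n : ℝ) ≠ 0 := by exact_mod_cast (by omega : n ≠ 0)
  have hmom : mom (n - 1) r = ∫ t in (-1 : ℝ)..1, r t ^ n * (r t)⁻¹ := by
    unfold mom
    rw [intervalIntegral.integral_of_le (by norm_num), intervalIntegral.integral_of_le (by norm_num),
      integral_Ioc_eq_integral_Ioo, integral_Ioc_eq_integral_Ioo]
    refine setIntegral_congr_fun measurableSet_Ioo fun s hs => ?_
    have hrs := (hr.pos s hs).ne'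
    rw [eq_mul_inv_iff_mul_eq₀ hrs, ← pow_succ, Nat.sub_add_cancel hn]
  rw [hmom, integral_pow_eq hr n (fun t => (r t)⁻¹), ← intervalIntegral.integral_const_mul,
    ← intervalIntegral.integral_const_mul]
  rw [intervalIntegral.integral_of_le (by norm_num), intervalIntegral.integral_of_le (by norm_num),
    integral_Ioc_eq_integral_Ioo, integral_Ioc_eq_integral_Ioo]
  refine setIntegral_congr_fun measurableSet_Ioo fun s hs => ?_
  have hc := sqrt_pos_of_mem hs
  have hrt := hr.pos _ (tau_mem hr n hs)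
  set c := Real.sqrt (1 - s ^ 2) with hcdef
  set ρ := r (tau n r s) with hρ
  have hdt : dtau n r s = (mom n r / w n) * (c / ρ) ^ n := by
    have : dtau n r s = (c ^ n / w n) / (ρ ^ n / mom n r) := rfl
    rw [this, div_pow]
    field_simp
  have hcr : 0 < c / ρ := div_pos hc hrt
  have h1 : dtau n r s ^ ((1 : ℝ) / n) = (mom n r / w n) ^ ((1 : ℝ) / n) * (c / ρ) := by
    rw [hdt, Real.mul_rpow (by positivity) (by positivity), ← Real.rpow_natCast (c / ρ) n,
      ← Real.rpow_mul hcr.le, mul_one_div_cancel hn0, Real.rpow_one]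
  have h2 : (mom n r / w n) ^ (((n : ℝ) - 1) / n) * (mom n r / w n) ^ ((1 : ℝ) / n) = mom n r / w n := by
    rw [← Real.rpow_add (by positivity)]
    have : ((n : ℝ) - 1) / n + 1 / n = 1 := by field_simp; ring
    rw [this, Real.rpow_one]
  rw [h1]
  have hcp : c ^ n = c ^ (n - 1) * c := by rw [← pow_succ, Nat.sub_add_cancel hn]
  calc mom n r / w n * (c ^ n * ρ⁻¹) = (mom n r / w n) * (c ^ (n - 1) * (c / ρ)) := by
        rw [hcp]; ring
    _ = ((mom n r / w n) ^ (((n : ℝ) - 1) / n) * (mom n r / w n) ^ ((1 : ℝ) / n)) *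
        (c ^ (n - 1) * (c / ρ)) := by rw [h2]
    _ = _ := by ring

/-- `NleB` in transport form -/
theorem NleB_trans (hn : 1 ≤ n) (h : NleB n r) :
    ∫ s in (-1 : ℝ)..1, Real.sqrt (1 - s ^ 2) ^ (n - 1) * dtau n r s ^ ((1 : ℝ) / n) ≤ w (n - 1) := by
  set I := ∫ s in (-1 : ℝ)..1, Real.sqrt (1 - s ^ 2) ^ (n - 1) * dtau n r s ^ ((1 : ℝ) / n) with hI
  have hw := w_pos' n
  have hm := hr.mom_pos' n
  have hn0 : (n : ℝ) ≠ 0 := by exact_mod_cast (by omega : n ≠ 0)
  have hc := constraint_trans hr n hn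
  rw [← hI] at hc
  unfold NleB at h
  have hq : 0 < mom n r / w n := by positivity
  have h1 : ((mom n r / w n) ^ (((n : ℝ) - 1) / n)) ^ n = (mom n r / w n) ^ (n - 1) := by
    rw [← Real.rpow_natCast, ← Real.rpow_mul hq.le, div_mul_cancel₀ _ hn0, ← Real.rpow_natCast,
      Nat.cast_sub hn, Nat.cast_one]
  rw [hc, mul_pow, h1, div_pow] at h
  have h2 : 0 < mom n r ^ (n - 1) := pow_pos hm _
  have h3 : mom n r ^ (n - 1) / w n ^ (n - 1) * I ^ n * w n ^ (n - 1) = mom n r ^ (n - 1) * I ^ n := by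
    have : w n ^ (n - 1) ≠ 0 := (pow_pos hw _).ne'
    field_simp
  rw [h3, mul_comm] at h
  have h4 : I ^ n ≤ w (n - 1) ^ n := le_of_mul_le_mul_right h h2
  exact le_of_pow_le_pow_left₀ (by omega) (w_pos' (n - 1)).le h4

end

end Crest.Agent.R230
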