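import Crest.Agent.R230.ProfCalc
import Crest.Agent.R230.TransProf

/-!
# Row 230: the closed form of the one dimensional functional

`U n r = (1/2)(1 - 1/F) + (n+1) E_P[L(p) - L(t)] + E_f Φ - E_{f₀} Φ` with
`L t = -log ((1+C)/2) - t²/4`, `Φ = C/(1+C)`, `C = √(1-t²)`, is of the form `TT n (1/2) η r` with
`η t p = L p - L t + δ t (p - t)`, `(1-t²) δ' - (n+2) t δ = Φ - Φbar`, `δ` nondecreasing.
-/

set_option autoImplicit false

open MeasureTheory Set
open scoped Pointwise ENNReal Topology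

namespace Crest.Agent.R230

variable {n : ℕ}

/-- `C = √(1-t²)` -/
noncomputable def cc (t : ℝ) : ℝ := Real.sqrt (1 - t ^ 2)


noncomputable def Phi (t : ℝ) : ℝ := cc t / (1 + cc t)

noncomputable def Phibar (n : ℕ) : ℝ := (∫ s in (-1 : ℝ)..1, cc s ^ n * Phi s) / w n


lemma cc_nonneg (t : ℝ) : 0 ≤ cc t := Real.sqrt_nonneg _

lemma cc_continuous : Continuous cc := by unfold cc; fun_prop

lemma cc_pos {t : ℝ} (ht : t ∈ Ioo (-1 : ℝ) 1) : 0 < cc t := by
  apply Real.sqrt_pos.2
  nlinarith [ht.1, ht.2]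

lemma cc_sq {t : ℝ} (ht : t ∈ Icc (-1 : ℝ) 1) : cc t ^ 2 = 1 - t ^ 2 := by
  apply Real.sq_sqrt
  nlinarith [ht.1, ht.2]

lemma cc_le_one (t : ℝ) : cc t ≤ 1 := by
  unfold cc
  rw [Real.sqrt_le_left (by norm_num)]
  nlinarith [sq_nonneg t]

lemma cc_neg (t : ℝ) : cc (-t) = cc t := by unfold cc; rw [neg_sq]

lemma cc_anti {s t : ℝ} (hs : 0 ≤ s) (hst : s ≤ t) : cc t ≤ cc s := by
  unfold cc
  apply Real.sqrt_le_sqrt
  nlinarith

lemma Phi_continuous : Continuous Phi := by
  unfold Phi
  exact cc_continuous.div (continuous_const.add cc_continuous) fun t => by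
    have := cc_nonneg t; positivity

lemma Phi_neg (t : ℝ) : Phi (-t) = Phi t := by unfold Phi; rw [cc_neg]

lemma Phi_le (t : ℝ) : Phi t ≤ 1 / 2 := by
  unfold Phi
  have := cc_nonneg t
  have := cc_le_one t
  rw [div_le_div_iff₀ (by positivity) (by norm_num)]
  linarith

lemma Phi_nonneg (t : ℝ) : 0 ≤ Phi t := by
  unfold Phi
  have := cc_nonneg t
  positivity

lemma half_sub_Phi {t : ℝ} (ht : t ∈ Icc (-1 : ℝ) 1) : 1 / 2 - Phi t = t * (t / (2 * (1 + cc t) ^ 2)) := by
  unfold Phi
  have h0 := cc_nonneg t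
  have h2 := cc_sq ht
  have h1 : t ^ 2 = 1 - cc t ^ 2 := by linarith
  field_simp
  nlinarith

lemma psi_mono {s t : ℝ} (hs : 0 ≤ s) (hst : s ≤ t) :
    s / (2 * (1 + cc s) ^ 2) ≤ t / (2 * (1 + cc t) ^ 2) := by
  have h1 := cc_anti hs hst
  have h2 := cc_nonneg t
  have : 0 ≤ t := hs.trans hst
  gcongr

lemma Phi_anti {s t : ℝ} (hs : 0 ≤ s) (hst : s ≤ t) : Phi t ≤ Phi s := by
  unfold Phi
  have h1 := cc_anti hs hst
  have h2 := cc_nonneg t
  have h3 := cc_nonneg s
  rw [div_le_div_iff₀ (by positivity) (by positivity)]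
  nlinarith

lemma w_eq (n : ℕ) : w n = ∫ s in (-1 : ℝ)..1, cc s ^ n := rfl

lemma intInt (n : ℕ) (f : ℝ → ℝ) (hf : Continuous f) (a b : ℝ) :
    IntervalIntegrable (fun s => cc s ^ n * f s) volume a b :=
  ((cc_continuous.pow n).mul hf).intervalIntegrable _ _

lemma Phibar_le (n : ℕ) : Phibar n ≤ 1 / 2 := by
  unfold Phibar
  rw [div_le_iff₀ (w_pos' n), w_eq, ← intervalIntegral.integral_const_mul]
  refine intervalIntegral.integral_mono_on (by norm_num) (intInt n _ Phi_continuous _ _) ?_ fun x _ => ?_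
  · exact ((cc_continuous.pow n).const_mul _).intervalIntegrable _ _
  · rw [mul_comm]
    exact mul_le_mul_of_nonneg_right (Phi_le x) (pow_nonneg (cc_nonneg _) _)

/-- `G t = ∫_0^t C^n (Φ - Φbar)` -/
noncomputable def GG (n : ℕ) (t : ℝ) : ℝ := ∫ x in (0 : ℝ)..t, cc x ^ n * (Phi x - Phibar n)

lemma half_integral (n : ℕ) (f : ℝ → ℝ) (hf : Continuous f) (he : ∀ x, f (-x) = f x) :
    ∫ s in (-1 : ℝ)..1, cc s ^ n * f s = 2 * ∫ s in (0 : ℝ)..1, cc s ^ n * f s := by
  have h1 : ∫ s in (-1 : ℝ)..0, cc s ^ n * f s = ∫ s in (0 : ℝ)..1, cc s ^ n * f s := by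
    have := intervalIntegral.integral_comp_neg (a := 0) (b := 1) (fun s => cc s ^ n * f s)
    simp only [cc_neg, he, neg_zero] at this
    exact this.symm
  rw [← intervalIntegral.integral_add_adjacent_intervals (intInt n f hf (-1) 0) (intInt n f hf 0 1), h1]
  ring

lemma GG_one (n : ℕ) : GG n 1 = 0 := by
  have h1 := half_integral n (fun x => Phi x - Phibar n) (Phi_continuous.sub continuous_const)
    (fun x => by simp only [Phi_neg])
  have h2 : ∫ s in (-1 : ℝ)..1, cc s ^ n * (Phi s - Phibar n) = 0 := by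
    have e : ∀ s, cc s ^ n * (Phi s - Phibar n) = cc s ^ n * Phi s - Phibar n * cc s ^ n := fun s => by ring
    simp only [e]
    have hc2 : Continuous (fun s => Phibar n * cc s ^ n) := continuous_const.mul (cc_continuous.pow n)
    rw [intervalIntegral.integral_sub (intInt n _ Phi_continuous _ _)
      (hc2.intervalIntegrable _ _), intervalIntegral.integral_const_mul, ← w_eq]
    unfold Phibar
    rw [div_mul_cancel₀ _ (w_pos' n).ne', sub_self]
  unfold GG
  rw [h1] at h2
  linarith

lemma GG_neg (n : ℕ) (t : ℝ) : GG n (-t) = -GG n t := by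
  unfold GG
  have := intervalIntegral.integral_comp_neg (a := 0) (b := t) (fun s => cc s ^ n * (Phi s - Phibar n))
  simp only [cc_neg, Phi_neg, neg_zero] at this
  rw [this, intervalIntegral.integral_symm]
  
lemma hasDerivAt_GG (n : ℕ) (t : ℝ) : HasDerivAt (GG n) (cc t ^ n * (Phi t - Phibar n)) t := by
  have hc : Continuous (fun x => cc x ^ n * (Phi x - Phibar n)) :=
    (cc_continuous.pow n).mul (Phi_continuous.sub continuous_const)
  exact intervalIntegral.integral_hasDerivAt_right (hc.intervalIntegrable _ _)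
    (hc.stronglyMeasurableAtFilter _ _) hc.continuousAt

lemma GG_eq (n : ℕ) (t : ℝ) : GG n t = ∫ x in t..1, cc x ^ n * (Phibar n - Phi x) := by
  have h1 := intervalIntegral.integral_add_adjacent_intervals
    (intInt n (fun x => Phi x - Phibar n) (Phi_continuous.sub continuous_const) 0 t)
    (intInt n (fun x => Phi x - Phibar n) (Phi_continuous.sub continuous_const) t 1)
  have h2 : ∫ x in t..1, cc x ^ n * (Phibar n - Phi x) = - ∫ x in t..1, cc x ^ n * (Phi x - Phibar n) := by
    rw [← intervalIntegral.integral_neg]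
    congr 1; ext x; ring
  have h3 := GG_one n
  unfold GG at h3 ⊢
  rw [h2]
  linarith

lemma GG_nonneg (n : ℕ) {t : ℝ} (ht : t ∈ Icc (0 : ℝ) 1) : 0 ≤ GG n t := by
  rcases le_total (Phibar n) (Phi t) with h | h
  · unfold GG
    refine intervalIntegral.integral_nonneg ht.1 fun x hx => ?_
    exact mul_nonneg (pow_nonneg (cc_nonneg _) _) (by linarith [Phi_anti hx.1 hx.2])
  · rw [GG_eq]
    refine intervalIntegral.integral_nonneg ht.2 fun x hx => ?_
    exact mul_nonneg (pow_nonneg (cc_nonneg _) _) (by linarith [Phi_anti ht.1 hx.1])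

/-- `C^{n+2} = (n+2) ∫_t^1 x C^n` -/
lemma cc_pow_eq (n : ℕ) {t : ℝ} (ht : t ∈ Icc (0 : ℝ) 1) :
    cc t ^ (n + 2) = (n + 2) * ∫ x in t..1, cc x ^ n * x := by
  have hd : ∀ x ∈ Ioo t 1, HasDerivAt (fun x => -(cc x ^ (n + 2))) ((n + 2) * (cc x ^ n * x)) x := by
    intro x hx
    have hx' : x ∈ Ioo (-1 : ℝ) 1 := ⟨by linarith [hx.1, ht.1], hx.2⟩
    have hp := cc_pos hx'
    have h1 : HasDerivAt (fun x : ℝ => 1 - x ^ 2) (-(2 * x)) x := by
      have := (hasDerivAt_pow 2 x).const_sub 1
      simpa using this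
    have h2 : HasDerivAt cc (-(2 * x) / (2 * Real.sqrt (1 - x ^ 2))) x :=
      h1.sqrt (by have := Real.sqrt_pos.1 hp; exact this.ne')
    have h3 := (h2.pow (n + 2)).neg
    refine h3.congr_deriv ?_
    change -(((n + 2 : ℕ) : ℝ) * cc x ^ (n + 2 - 1) * (-(2 * x) / (2 * cc x))) = _
    have e : n + 2 - 1 = n + 1 := by omega
    rw [e, pow_succ]
    push_cast
    field_simp
  have h := intervalIntegral.integral_eq_sub_of_hasDerivAt_of_le ht.2
    ((cc_continuous.pow (n + 2)).neg.continuousOn) hd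
    ((((cc_continuous.pow n).mul continuous_id).const_mul _).intervalIntegrable _ _)
  have h1 : cc 1 = 0 := by unfold cc; simp
  rw [← intervalIntegral.integral_const_mul, h]
  simp only [Pi.neg_apply, Pi.pow_apply, h1]
  ring

/-- the slope correction -/
noncomputable def del (n : ℕ) (t : ℝ) : ℝ :=
  if t = 1 then Phibar n / (n + 2) else if t = -1 then -(Phibar n / (n + 2)) else GG n t / cc t ^ (n + 2)

lemma del_of_mem {t : ℝ} (ht : t ∈ Ioo (-1 : ℝ) 1) : del n t = GG n t / cc t ^ (n + 2) := by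
  unfold del
  rw [if_neg ht.2.ne, if_neg (by linarith [ht.1] : t ≠ -1)]

lemma del_neg (t : ℝ) : del n (-t) = -del n t := by
  unfold del
  by_cases h1 : t = 1
  · subst h1; norm_num
  · by_cases h2 : t = -1
    · subst h2; norm_num
    · rw [if_neg (by intro h; exact h2 (by linarith)), if_neg (by intro h; exact h1 (by linarith)),
        if_neg h1, if_neg h2, GG_neg, cc_neg, neg_div]

/-- derivative of `del` -/
noncomputable def ddel (n : ℕ) (t : ℝ) : ℝ := ((n + 2) * t * del n t + (Phi t - Phibar n)) / (1 - t ^ 2)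

lemma hasDerivAt_del {t : ℝ} (ht : t ∈ Ioo (-1 : ℝ) 1) : HasDerivAt (del n) (ddel n t) t := by
  have hp := cc_pos ht
  have h1 : HasDerivAt (fun x : ℝ => 1 - x ^ 2) (-(2 * t)) t := by
    have := (hasDerivAt_pow 2 t).const_sub 1
    simpa using this
  have h2 : HasDerivAt cc (-(2 * t) / (2 * Real.sqrt (1 - t ^ 2))) t :=
    h1.sqrt (by have := Real.sqrt_pos.1 hp; exact this.ne')
  have h3 := (hasDerivAt_GG n t).fun_div (h2.fun_pow (n + 2)) (by positivity)
  have h4 := h3.congr_of_eventuallyEq (f₁ := del n) (by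
    filter_upwards [Ioo_mem_nhds ht.1 ht.2] with x hx
    exact del_of_mem hx)
  refine h4.congr_deriv ?_
  have hsq := cc_sq ⟨ht.1.le, ht.2.le⟩
  unfold ddel
  rw [del_of_mem ht]
  conv_rhs => rw [← hsq]
  change (cc t ^ n * (Phi t - Phibar n) * cc t ^ (n + 2) - GG n t * (((n + 2 : ℕ) : ℝ) * cc t ^ (n + 2 - 1) *
    (-(2 * t) / (2 * cc t)))) / (cc t ^ (n + 2)) ^ 2 = _
  have e : n + 2 - 1 = n + 1 := by omega
  rw [e]
  push_cast
  field_simp
  ring

lemma ode_del {t : ℝ} (ht : t ∈ Ioo (-1 : ℝ) 1) :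
    (1 - t ^ 2) * ddel n t - (n + 2) * t * del n t = Phi t - Phibar n := by
  have : 1 - t ^ 2 ≠ 0 := by
    have h := cc_pos ht
    have hsq := cc_sq ⟨ht.1.le, ht.2.le⟩
    rw [← hsq]; positivity
  unfold ddel
  field_simp
  ring

lemma GG_le {t : ℝ} (ht : t ∈ Ioo (0 : ℝ) 1) : GG n t ≤ Phibar n / ((n + 2) * t) * cc t ^ (n + 2) := by
  have hb : 0 ≤ Phibar n := by
    unfold Phibar
    refine div_nonneg (intervalIntegral.integral_nonneg (by norm_num) fun x _ => ?_) (w_pos' n).le
    exact mul_nonneg (pow_nonneg (cc_nonneg _) _) (Phi_nonneg _)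
  rw [cc_pow_eq n ⟨ht.1.le, ht.2.le⟩, GG_eq]
  have e : Phibar n / ((n + 2) * t) * ((n + 2) * ∫ x in t..1, cc x ^ n * x) =
      ∫ x in t..1, (Phibar n / t) * (cc x ^ n * x) := by
    rw [intervalIntegral.integral_const_mul]
    have := ht.1
    field_simp
  rw [e]
  refine intervalIntegral.integral_mono_on ht.2.le
    (intInt n _ (continuous_const.sub Phi_continuous) _ _)
    ((((cc_continuous.pow n).mul continuous_id).const_mul _).intervalIntegrable _ _) fun x hx => ?_
  have h1 : Phibar n - Phi x ≤ Phibar n / t * x := by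
    have h2 : Phibar n ≤ Phibar n / t * x := by
      rw [div_mul_eq_mul_div, le_div_iff₀ ht.1]
      exact mul_le_mul_of_nonneg_left hx.1 hb
    linarith [Phi_nonneg x]
  calc cc x ^ n * (Phibar n - Phi x) ≤ cc x ^ n * (Phibar n / t * x) :=
        mul_le_mul_of_nonneg_left h1 (pow_nonneg (cc_nonneg _) _)
    _ = _ := by ring

lemma le_GG {t : ℝ} (ht : t ∈ Ioo (0 : ℝ) 1) :
    (Phibar n - Phi t) / ((n + 2) * t) * cc t ^ (n + 2) ≤ GG n t := by
  rw [cc_pow_eq n ⟨ht.1.le, ht.2.le⟩, GG_eq]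
  have e : (Phibar n - Phi t) / ((n + 2) * t) * ((n + 2) * ∫ x in t..1, cc x ^ n * x) =
      ∫ x in t..1, ((Phibar n - Phi t) / t) * (cc x ^ n * x) := by
    rw [intervalIntegral.integral_const_mul]
    have := ht.1
    field_simp
  rw [e]
  refine intervalIntegral.integral_mono_on ht.2.le
    ((((cc_continuous.pow n).mul continuous_id).const_mul _).intervalIntegrable _ _)
    (intInt n _ (continuous_const.sub Phi_continuous) _ _) fun x hx => ?_
  have hx0 : 0 < x := ht.1.trans_le hx.1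
  have hx' : x ∈ Icc (-1 : ℝ) 1 := ⟨by linarith, hx.2⟩
  have ht' : t ∈ Icc (-1 : ℝ) 1 := ⟨by linarith [ht.1], ht.2.le⟩
  have h1 : (Phibar n - Phi t) / t * x ≤ Phibar n - Phi x := by
    rw [div_mul_eq_mul_div, div_le_iff₀ ht.1]
    have a1 := half_sub_Phi hx'
    have a2 := half_sub_Phi ht'
    have a3 := psi_mono ht.1.le hx.1
    have a4 := Phibar_le n
    -- (Phibar - Phi t) x ≤ (Phibar - Phi x) t
    have a5 : x * (1 / 2 - Phi t) ≤ t * (1 / 2 - Phi x) := by
      rw [a1, a2]
      have : 0 ≤ t * x := mul_nonneg ht.1.le hx0.le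
      nlinarith [mul_le_mul_of_nonneg_left a3 this]
    nlinarith [hx.1]
  calc (Phibar n - Phi t) / t * (cc x ^ n * x) = cc x ^ n * ((Phibar n - Phi t) / t * x) := by ring
    _ ≤ cc x ^ n * (Phibar n - Phi x) := mul_le_mul_of_nonneg_left h1 (pow_nonneg (cc_nonneg _) _)

lemma ddel_nonneg {t : ℝ} (ht : t ∈ Ioo (0 : ℝ) 1) : 0 ≤ ddel n t := by
  have ht' : t ∈ Ioo (-1 : ℝ) 1 := ⟨by linarith [ht.1], ht.2⟩
  have hp := cc_pos ht'
  have hsq := cc_sq ⟨ht'.1.le, ht'.2.le⟩
  unfold ddel
  rw [← hsq]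
  apply div_nonneg _ (by positivity)
  rw [del_of_mem ht']
  have hG := GG_nonneg n ⟨ht.1.le, ht.2.le⟩
  rcases le_total (Phibar n) (Phi t) with h | h
  · have : 0 ≤ (n + 2) * t * (GG n t / cc t ^ (n + 2)) := by
      have := ht.1; positivity
    linarith
  · have h1 := le_GG (n := n) ht
    have h2 : (Phibar n - Phi t) / ((n + 2) * t) ≤ GG n t / cc t ^ (n + 2) := by
      rw [le_div_iff₀ (by positivity)]; exact h1
    have h3 : 0 < ((n : ℝ) + 2) * t := by have := ht.1; positivity
    rw [div_le_iff₀ h3] at h2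
    linarith

lemma del_monoOn_pos : MonotoneOn (del n) (Ico (0 : ℝ) 1) := by
  refine monotoneOn_of_deriv_nonneg (convex_Ico 0 1) ?_ ?_ ?_
  · intro t ht
    exact (hasDerivAt_del ⟨by linarith [ht.1], ht.2⟩).continuousAt.continuousWithinAt
  · rw [interior_Ico]
    intro t ht
    exact (hasDerivAt_del ⟨by linarith [ht.1], ht.2⟩).differentiableAt.differentiableWithinAt
  · rw [interior_Ico]
    intro t ht
    rw [(hasDerivAt_del ⟨by linarith [ht.1], ht.2⟩).deriv]
    exact ddel_nonneg ht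

lemma tendsto_del : Filter.Tendsto (del n) (𝓝[<] 1) (𝓝 (Phibar n / (n + 2))) := by
  have hlow : Filter.Tendsto (fun t : ℝ => (Phibar n - Phi t) / ((n + 2) * t)) (𝓝[<] 1)
      (𝓝 (Phibar n / (n + 2))) := by
    have h1 : ContinuousAt (fun t : ℝ => (Phibar n - Phi t) / ((n + 2) * t)) 1 := by
      refine ContinuousAt.div ?_ ?_ (by positivity)
      · exact (continuous_const.sub Phi_continuous).continuousAt
      · fun_prop
    have h2 : Phi 1 = 0 := by unfold Phi cc; simp
    have := h1.tendsto.mono_left (nhdsWithin_le_nhds (s := Iio (1 : ℝ)))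
    simpa [h2] using this
  have hup : Filter.Tendsto (fun t : ℝ => Phibar n / ((n + 2) * t)) (𝓝[<] 1)
      (𝓝 (Phibar n / (n + 2))) := by
    have h1 : ContinuousAt (fun t : ℝ => Phibar n / ((n + 2) * t)) 1 := by
      refine ContinuousAt.div ?_ ?_ (by positivity)
      · exact continuousAt_const
      · fun_prop
    have := h1.tendsto.mono_left (nhdsWithin_le_nhds (s := Iio (1 : ℝ)))
    simpa using this
  refine tendsto_of_tendsto_of_tendsto_of_le_of_le' hlow hup ?_ ?_
  · filter_upwards [Ioo_mem_nhdsLT (show (0 : ℝ) < 1 by norm_num)] with t ht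
    have ht' : t ∈ Ioo (-1 : ℝ) 1 := ⟨by linarith [ht.1], ht.2⟩
    have hp := cc_pos ht'
    rw [del_of_mem ht', le_div_iff₀ (by positivity)]
    rcases le_total (Phi t) (Phibar n) with h | h
    · exact le_GG ht
    · refine le_trans ?_ (GG_nonneg n ⟨ht.1.le, ht.2.le⟩)
      refine mul_nonpos_of_nonpos_of_nonneg ?_ (by positivity)
      have := ht.1
      exact div_nonpos_of_nonpos_of_nonneg (by linarith) (by positivity)
  · filter_upwards [Ioo_mem_nhdsLT (show (0 : ℝ) < 1 by norm_num)] with t ht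
    have ht' : t ∈ Ioo (-1 : ℝ) 1 := ⟨by linarith [ht.1], ht.2⟩
    have hp := cc_pos ht'
    rw [del_of_mem ht', div_le_iff₀ (by positivity)]
    exact GG_le ht

lemma del_one : del n 1 = Phibar n / (n + 2) := by unfold del; simp

lemma del_zero : del n 0 = 0 := by
  rw [del_of_mem (by norm_num)]
  unfold GG
  simp

lemma del_continuousOn : ContinuousOn (del n) (Icc (-1) 1) := by
  intro t ht
  rcases eq_or_lt_of_le ht.2 with h | h
  · subst h
    have : ContinuousWithinAt (del n) (Iic 1) 1 := by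
      rw [continuousWithinAt_Iio_iff_Iic.symm]
      unfold ContinuousWithinAt
      rw [del_one]
      exact tendsto_del
    exact this.mono Icc_subset_Iic_self
  · rcases eq_or_lt_of_le ht.1 with h' | h'
    · subst h'
      have : ContinuousWithinAt (del n) (Ici (-1)) (-1) := by
        rw [continuousWithinAt_Ioi_iff_Ici.symm]
        unfold ContinuousWithinAt
        rw [del_neg, del_one]
        have h1 : Filter.Tendsto (fun t : ℝ => -t) (𝓝[>] (-1)) (𝓝[<] 1) := by
          have := tendsto_neg_nhdsGT (a := (-1 : ℝ))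
          simpa using this
        have h2 := (tendsto_del (n := n)).comp h1
        have h3 := h2.neg
        refine h3.congr fun x => ?_
        simp only [Function.comp, del_neg, neg_neg]
      exact this.mono Icc_subset_Ici_self
    · exact (hasDerivAt_del ⟨h', h⟩).continuousAt.continuousWithinAt

lemma del_mono : MonotoneOn (del n) (Icc (-1) 1) := by
  have h1 : MonotoneOn (del n) (Icc 0 1) := by
    have hcl : closure (Ico (0 : ℝ) 1) = Icc 0 1 := closure_Ico (by norm_num)
    intro x hx y hy hxy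
    rcases eq_or_lt_of_le hy.2 with h | h
    · subst h
      rcases eq_or_lt_of_le hx.2 with h' | h'
      · rw [h']
      · rw [del_one]
        refine ge_of_tendsto (tendsto_del (n := n)) ?_
        filter_upwards [Ioo_mem_nhdsLT h'] with z hz
        exact del_monoOn_pos ⟨hx.1, h'⟩ ⟨hx.1.trans hz.1.le, hz.2⟩ hz.1.le
    · exact del_monoOn_pos ⟨hx.1, hxy.trans_lt h⟩ ⟨hy.1, h⟩ hxy
  intro x hx y hy hxy
  rcases le_total 0 x with h | h
  · exact h1 ⟨h, hx.2⟩ ⟨h.trans hxy, hy.2⟩ hxy
  · rcases le_total 0 y with h' | h'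
    · have a1 : del n x ≤ 0 := by
        have := h1 (show (0 : ℝ) ∈ Icc 0 1 by norm_num) (show -x ∈ Icc (0 : ℝ) 1 from ⟨by linarith, by linarith [hx.1]⟩)
          (by linarith)
        rw [del_zero, del_neg] at this
        linarith
      have a2 : 0 ≤ del n y := by
        have := h1 (show (0 : ℝ) ∈ Icc 0 1 by norm_num) (show y ∈ Icc (0 : ℝ) 1 from ⟨h', hy.2⟩) h'
        rwa [del_zero] at this
      linarith
    · have := h1 (show -y ∈ Icc (0 : ℝ) 1 from ⟨by linarith, by linarith [hy.1]⟩)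
        (show -x ∈ Icc (0 : ℝ) 1 from ⟨by linarith, by linarith [hx.1]⟩) (by linarith)
      rw [del_neg, del_neg] at this
      linarith

/-! ### the convex function `L` -/









lemma EP_add (hn : 1 ≤ n) {r : ℝ → ℝ} (hr : Prof r) (φ ψ : ℝ → ℝ → ℝ)
    (hφ : ContinuousOn (fun q : ℝ × ℝ => φ q.1 q.2) (Icc (-1) 1 ×ˢ Icc (-1) 1))
    (hψ : ContinuousOn (fun q : ℝ × ℝ => ψ q.1 q.2) (Icc (-1) 1 ×ˢ Icc (-1) 1)) :
    EP n r (fun t p => φ t p + ψ t p) = EP n r φ + EP n r ψ := by
  unfold EP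
  rw [← add_div]
  congr 1
  have h1 := prof_integrable_mul hn hr φ hφ
  have h2 := prof_integrable_mul hn hr ψ hψ
  have h3 : ∫ s in (-1 : ℝ)..1, r s ^ (n - 1) * (r s - s * deriv r s) * (φ s (pp r s) + ψ s (pp r s)) =
      (∫ s in (-1 : ℝ)..1, r s ^ (n - 1) * (r s - s * deriv r s) * φ s (pp r s)) +
      ∫ s in (-1 : ℝ)..1, r s ^ (n - 1) * (r s - s * deriv r s) * ψ s (pp r s) := by
    rw [← intervalIntegral.integral_add h1 h2]
    congr 1; ext s; ring
  rw [h3]
  ring

lemma EP_del (hn : 1 ≤ n) {r : ℝ → ℝ} (hr : Prof r) :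
    ((n : ℝ) + 1) * EP n r (fun t p => del n t * (p - t)) =
      (∫ s in (-1 : ℝ)..1, r s ^ n * Phi s) / mom n r - Phibar n := by
  have hkey : ∀ t ∈ Ioc (-1 : ℝ) 1, t * (-(del n t + t * ddel n t)) + ddel n t =
      (n + 1) * t * del n t + (Phi t - Phibar n) := by
    intro t ht
    rcases eq_or_lt_of_le ht.2 with h | h
    · subst h
      have h1 : ddel n 1 = 0 := by unfold ddel; simp
      have h2 : Phi 1 = 0 := by unfold Phi cc; simp
      rw [h1, h2, del_one]
      have : (n : ℝ) + 2 ≠ 0 := by positivity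
      field_simp
      ring
    · have := ode_del (n := n) (t := t) ⟨ht.1, h⟩
      linear_combination this
  have hcont : ContinuousOn (fun t => r t ^ n * ((n + 1) * t * del n t + (Phi t - Phibar n))) (Icc (-1) 1) := by
    refine (hr.cont.pow n).mul (ContinuousOn.add ?_ (Phi_continuous.sub continuous_const).continuousOn)
    exact ContinuousOn.mul (by fun_prop) del_continuousOn
  have hi : IntervalIntegrable (fun t => r t ^ n * (t * (-(del n t + t * ddel n t)) + ddel n t))
      volume (-1) 1 := by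
    refine IntervalIntegrable.congr (f := fun t => r t ^ n * ((n + 1) * t * del n t + (Phi t - Phibar n)))
      ?_ ?_
    · intro t ht
      rw [uIoc_of_le (by norm_num)] at ht
      change _ = r t ^ n * (t * (-(del n t + t * ddel n t)) + ddel n t)
      rw [hkey t ht]
    · refine ContinuousOn.intervalIntegrable ?_
      rw [uIcc_of_le (by norm_num)]
      exact hcont
  have h1 := EP_lines hr n hn (A := fun t => -(t * del n t)) (B := del n)
    (A' := fun t => -(del n t + t * ddel n t)) (B' := ddel n)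
    (continuousOn_id.mul del_continuousOn).neg del_continuousOn
    (fun t ht => by
      have := ((hasDerivAt_id t).fun_mul (hasDerivAt_del (n := n) ht)).fun_neg
      refine this.congr_deriv ?_
      simp)
    (fun t ht => hasDerivAt_del ht) hi
  have h2 : EP n r (fun t p => del n t * (p - t)) = EP n r (fun t p => -(t * del n t) + del n t * p) := by
    congr 1; ext t p; ring
  rw [h2, h1]
  have h3 : ∫ t in (-1 : ℝ)..1, r t ^ n * ((n + 1) * -(t * del n t) +
      (t * (-(del n t + t * ddel n t)) + ddel n t)) = ∫ t in (-1 : ℝ)..1, r t ^ n * (Phi t - Phibar n) := by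
    rw [intervalIntegral.integral_of_le (by norm_num), intervalIntegral.integral_of_le (by norm_num)]
    refine setIntegral_congr_fun measurableSet_Ioc fun t ht => ?_
    rw [hkey t ht]
    ring
  rw [h3]
  have hm := mom_pos hr n
  have h4 : ∫ t in (-1 : ℝ)..1, r t ^ n * (Phi t - Phibar n) =
      (∫ t in (-1 : ℝ)..1, r t ^ n * Phi t) - Phibar n * mom n r := by
    have e : ∀ t, r t ^ n * (Phi t - Phibar n) = r t ^ n * Phi t - Phibar n * r t ^ n := fun t => by ring
    simp only [e]
    rw [intervalIntegral.integral_sub, intervalIntegral.integral_const_mul]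
    · rfl
    · refine ContinuousOn.intervalIntegrable ?_
      rw [uIcc_of_le (by norm_num)]
      exact (hr.cont.pow n).mul Phi_continuous.continuousOn
    · refine ContinuousOn.intervalIntegrable ?_
      rw [uIcc_of_le (by norm_num)]
      exact continuousOn_const.mul (hr.cont.pow n)
  rw [h4, sub_div, mul_div_cancel_right₀ _ hm.ne']



end Crest.Agent.R230
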