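import Crest.Agent.R230.EPHalf
import Crest.Agent.R230.Slope
import Crest.Agent.R230.Poincare1

/-!
# Row 230: the logarithmic path `l = log (τ/s)` of a profile

`ll n r s = log (τ s / s)` (`log τ'(0)` at `0`), `kk n r s = s τ'/τ - 1` (so `1 + kk = κ`, `l' = kk / s`).
Continuity on `[0,1]`, `l/c → 0` at `1`, and all the integrabilities needed for the one dimensional lemma.
-/

set_option autoImplicit false

open MeasureTheory Set Filter Topology
open scoped Pointwise ENNReal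

namespace Crest.Agent.R230

/-- `l = log (τ / s)` -/
noncomputable def ll (n : ℕ) (r : ℝ → ℝ) (s : ℝ) : ℝ :=
  if s = 0 then Real.log (dtau n r 0) else Real.log (tau n r s / s)

/-- `k = s τ'/τ - 1 = s l'` -/
noncomputable def kk (n : ℕ) (r : ℝ → ℝ) (s : ℝ) : ℝ := s * dtau n r s / tau n r s - 1

lemma hB_ge {n : ℕ} (hn : 2 ≤ n) {s : ℝ} (hs : s ∈ Icc (0 : ℝ) 1) :
    cc s ^ n * (1 - s) ≤ (n / 2 + 1) * hB n s := by
  set g : ℝ → ℝ := fun x => (n / 2 + 1) * hB n x - cc x ^ n * (1 - x) with hg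
  obtain ⟨k, rfl⟩ : ∃ k, n = k + 2 := ⟨n - 2, by omega⟩
  have hanti : AntitoneOn g (Icc 0 1) := by
    refine antitoneOn_of_hasDerivWithinAt_nonpos (f' := fun x =>
      -(((k + 2 : ℕ) : ℝ) / 2 * cc x ^ k * (1 - x) ^ 2)) (convex_Icc _ _) ?_ ?_ ?_
    · have h1 : Continuous (hB (k + 2)) :=
        continuous_iff_continuousAt.2 fun x => (hasDerivAt_hB (k + 2) x).continuousAt
      have h2 := cc_continuous
      exact (by fun_prop : Continuous g).continuousOn
    · intro x hx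
      rw [interior_Icc] at hx
      have h1 := (hasDerivAt_hB (k + 2) x).const_mul (((k + 2 : ℕ) : ℝ) / 2 + 1)
      have h2 := (Poinc.hasDerivAt_cpow k hx.1.le hx.2).fun_mul ((hasDerivAt_id x).const_sub 1)
      have h3 := (h1.fun_sub h2).hasDerivWithinAt (s := interior (Icc (0 : ℝ) 1))
      refine h3.congr_deriv ?_
      have hc2 : Real.sqrt (1 - x ^ 2) ^ 2 = 1 - x ^ 2 := Poinc.csq hx.1.le hx.2.le
      simp only [id, cc]
      rw [pow_add, hc2]
      push_cast
      ring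
    · intro x hx
      rw [interior_Icc] at hx
      have := cc_nonneg x
      have : 0 ≤ ((k + 2 : ℕ) : ℝ) / 2 * cc x ^ k * (1 - x) ^ 2 := by positivity
      linarith
  have h1 : g 1 = 0 := by simp only [hg, hB_one]; ring
  have h2 := hanti hs ⟨zero_le_one, le_rfl⟩ hs.2
  rw [h1] at h2
  simp only [hg] at h2
  linarith

lemma hB_le (n : ℕ) {s : ℝ} (hs : s ∈ Icc (0 : ℝ) 1) : hB n s ≤ cc s ^ n * (1 - s) := by
  unfold hB
  have h : ∫ x in s..1, Real.sqrt (1 - x ^ 2) ^ n ≤ ∫ x in s..1, cc s ^ n := by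
    refine intervalIntegral.integral_mono_on hs.2 (intervalIntegrable_cpow n _ _)
      (by simp) fun x hx => ?_
    exact pow_le_pow_left₀ (Real.sqrt_nonneg _) (cc_anti hs.1 hx.1) n
  rw [intervalIntegral.integral_const, smul_eq_mul] at h
  linarith

lemma one_sub_le_cc_sq {s : ℝ} (hs : s ∈ Icc (0 : ℝ) 1) : 1 - s ≤ cc s ^ 2 := by
  rw [cc_sq ⟨by linarith [hs.1], hs.2⟩]
  nlinarith [hs.1, hs.2]

section

variable {r : ℝ → ℝ} (hr : Prof r) (n : ℕ)
include hr

/-- `T' ≤ (n/2+1) (1-T)/(1-s)` -/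
lemma dtau_mul_one_sub_le {n : ℕ} (hn : 2 ≤ n) {s : ℝ} (hs : s ∈ Ico (0 : ℝ) 1) :
    dtau n r s * (1 - s) ≤ (n / 2 + 1) * (1 - tau n r s) := by
  have h1 := dtau_mul_hB_le hr n hs
  have h2 := hB_ge hn (s := s) ⟨hs.1, hs.2.le⟩
  have hd := dtau_pos hr n (s := s) ⟨by linarith [hs.1], hs.2⟩
  have hc : 0 < cc s ^ n := pow_pos (cc_pos ⟨by linarith [hs.1], hs.2⟩) n
  have h3 := mul_le_mul_of_nonneg_left h2 hd.le
  have h4 : dtau n r s * (((n : ℝ) / 2 + 1) * hB n s) ≤ (n / 2 + 1) * ((1 - tau n r s) * cc s ^ n) := by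
    have h5 : (0 : ℝ) ≤ (n : ℝ) / 2 + 1 := by positivity
    have := mul_le_mul_of_nonneg_left h1 h5
    calc dtau n r s * (((n : ℝ) / 2 + 1) * hB n s) = ((n : ℝ) / 2 + 1) * (dtau n r s * hB n s) := by ring
      _ ≤ _ := this
  have h6 : cc s ^ n * (dtau n r s * (1 - s)) ≤ cc s ^ n * ((n / 2 + 1) * (1 - tau n r s)) := by
    linarith
  exact le_of_mul_le_mul_left h6 hc

lemma tau_nonneg {s : ℝ} (hs : s ∈ Icc (0 : ℝ) 1) : 0 ≤ tau n r s := (tau_mem_half' hr n hs).1

lemma r_le_r0 {t : ℝ} (ht : t ∈ Icc (0 : ℝ) 1) : r t ≤ r 0 :=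
  hr.antitoneOn_right ⟨le_rfl, by norm_num⟩ ht ht.1


/-- `r(t)^n (1-t) ≤ (n+1) ∫_t^1 r^n` -/
lemma pow_mul_le_integral {t : ℝ} (ht : t ∈ Icc (0 : ℝ) 1) :
    r t ^ n * (1 - t) ≤ ((n : ℝ) + 1) * ∫ x in t..1, r x ^ n := by
  rcases ht.2.eq_or_lt with h1 | h1
  · rw [h1]; simp
  have hline : ∀ x ∈ Icc t 1, r t * ((1 - x) / (1 - t)) ≤ r x := by
    intro x hx
    have h0 : 0 < 1 - t := by linarith
    have hcc := hr.conc.2
    have h := hcc (show t ∈ Icc (-1 : ℝ) 1 from ⟨by linarith [ht.1], ht.2⟩)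
      (show (1 : ℝ) ∈ Icc (-1 : ℝ) 1 by norm_num)
      (a := (1 - x) / (1 - t)) (b := (x - t) / (1 - t)) (div_nonneg (by linarith [hx.2]) h0.le)
      (div_nonneg (by linarith [hx.1]) h0.le) (by field_simp; ring)
    simp only [smul_eq_mul] at h
    have e : (1 - x) / (1 - t) * t + (x - t) / (1 - t) * 1 = x := by field_simp; ring
    rw [e] at h
    have h2 : 0 ≤ (x - t) / (1 - t) * r 1 :=
      mul_nonneg (div_nonneg (by linarith [hx.1]) h0.le) (hr.nonneg' ⟨by norm_num, le_rfl⟩)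
    linarith
  have hrt : 0 ≤ r t := hr.nonneg' ⟨by linarith [ht.1], ht.2⟩
  have h0 : 0 < 1 - t := by linarith
  have hint : ∫ x in t..1, (r t * ((1 - x) / (1 - t))) ^ n = r t ^ n * (1 - t) / (n + 1) := by
    have e1 : ∀ x : ℝ, (r t * ((1 - x) / (1 - t))) ^ n = r t ^ n / (1 - t) ^ n * (1 - x) ^ n := by
      intro x; rw [mul_pow, div_pow]; ring
    simp only [e1]
    rw [intervalIntegral.integral_const_mul]
    have e2 : ∫ x in t..1, (1 - x) ^ n = (1 - t) ^ (n + 1) / (n + 1) := by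
      rw [intervalIntegral.integral_comp_sub_left (fun x => x ^ n) 1]
      rw [integral_pow]
      simp
    rw [e2, pow_succ]
    field_simp
  have hmono : ∫ x in t..1, (r t * ((1 - x) / (1 - t))) ^ n ≤ ∫ x in t..1, r x ^ n := by
    refine intervalIntegral.integral_mono_on ht.2 (Continuous.intervalIntegrable (by fun_prop) _ _)
      (prof_intervalIntegrable hr n ⟨by linarith [ht.1], ht.2⟩ ⟨by norm_num, le_rfl⟩) fun x hx => ?_
    refine pow_le_pow_left₀ ?_ (hline x hx) n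
    exact mul_nonneg hrt (div_nonneg (by linarith [hx.2]) h0.le)
  rw [hint, div_le_iff₀ (by positivity)] at hmono
  linarith

/-- `r(T)^n (1-T) ≤ C c^{n+2}` -/
lemma pow_tau_mul_le {s : ℝ} (hs : s ∈ Icc (0 : ℝ) 1) :
    r (tau n r s) ^ n * (1 - tau n r s) ≤ (((n : ℝ) + 1) * (mom n r / w n)) * cc s ^ (n + 2) := by
  have h1 := pow_mul_le_integral hr n (tau_mem_half' hr n hs)
  rw [integral_tau_one hr n ⟨by linarith [hs.1], hs.2⟩] at h1
  have h2 := hB_le n hs
  have h3 := one_sub_le_cc_sq hs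
  have hm := hr.mom_pos' n
  have hw := w_pos' n
  have hc : 0 ≤ cc s ^ n := pow_nonneg (cc_nonneg _) _
  have h4 : hB n s ≤ cc s ^ (n + 2) := by
    rw [pow_add]
    exact h2.trans (mul_le_mul_of_nonneg_left h3 hc)
  refine h1.trans ?_
  rw [mul_assoc]
  refine mul_le_mul_of_nonneg_left ?_ (by positivity)
  exact mul_le_mul_of_nonneg_left h4 (by positivity)


/-! ### the path `l` -/

omit hr in
lemma ll_of_ne {s : ℝ} (hs : s ≠ 0) : ll n r s = Real.log (tau n r s / s) := by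
  unfold ll; rw [if_neg hs]

lemma exp_ll {s : ℝ} (hs : s ∈ Ioc (0 : ℝ) 1) : Real.exp (ll n r s) = tau n r s / s := by
  rw [ll_of_ne n hs.1.ne', Real.exp_log (div_pos (tau_pos hr n hs) hs.1)]

lemma tau_eq {s : ℝ} (hs : s ∈ Icc (0 : ℝ) 1) : tau n r s = s * Real.exp (ll n r s) := by
  rcases hs.1.eq_or_lt with h | h
  · rw [← h, tau_zero hr n]; ring
  · rw [exp_ll hr n ⟨h, hs.2⟩]
    field_simp

lemma ll_one : ll n r 1 = 0 := by
  rw [ll_of_ne n one_ne_zero, tau_one hr n]; simp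

lemma hasDerivAt_ll {s : ℝ} (hs : s ∈ Ioo (0 : ℝ) 1) : HasDerivAt (ll n r) (kk n r s / s) s := by
  have hT := tau_pos hr n (s := s) ⟨hs.1, hs.2.le⟩
  have h1 := (hasDerivAt_tau hr n (s := s) ⟨by linarith [hs.1], hs.2⟩).fun_div (hasDerivAt_id s) hs.1.ne'
  have h2 := h1.log (div_pos hT hs.1).ne'
  have h3 : (ll n r) =ᶠ[𝓝 s] fun x => Real.log (tau n r x / x) := by
    filter_upwards [Ioo_mem_nhds hs.1 hs.2] with x hx
    exact ll_of_ne n hx.1.ne'
  have h4 := h2.congr_of_eventuallyEq h3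
  refine h4.congr_deriv ?_
  have hs0 := hs.1.ne'
  unfold kk
  simp only [id]
  field_simp

omit hr in
lemma one_add_kk {s : ℝ} : 1 + kk n r s = s * dtau n r s / tau n r s := by
  unfold kk; ring

lemma one_add_kk_pos {s : ℝ} (hs : s ∈ Ioo (0 : ℝ) 1) : 0 < 1 + kk n r s := by
  rw [one_add_kk n]
  exact div_pos (mul_pos hs.1 (dtau_pos hr n ⟨by linarith [hs.1], hs.2⟩))
    (tau_pos hr n ⟨hs.1, hs.2.le⟩)

lemma dtau_eq {s : ℝ} (hs : s ∈ Ioo (0 : ℝ) 1) :
    dtau n r s = Real.exp (ll n r s) * (1 + kk n r s) := by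
  rw [one_add_kk n, exp_ll hr n ⟨hs.1, hs.2.le⟩]
  have h1 := hs.1.ne'
  have h2 := (tau_pos hr n (s := s) ⟨hs.1, hs.2.le⟩).ne'
  field_simp

lemma continuousOn_ll : ContinuousOn (ll n r) (Icc 0 1) := by
  intro s hs
  rcases hs.1.eq_or_lt with h | h
  · -- at 0
    subst h
    have hd := hasDerivAt_tau hr n (s := 0) ⟨by norm_num, by norm_num⟩
    rw [hasDerivAt_iff_tendsto_slope] at hd
    have hpos := dtau_pos hr n (s := 0) ⟨by norm_num, by norm_num⟩
    have h1 : Tendsto (fun x => Real.log (slope (tau n r) 0 x)) (𝓝[≠] 0) (𝓝 (Real.log (dtau n r 0))) :=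
      (Real.continuousAt_log hpos.ne').tendsto.comp hd
    have h2 : ContinuousAt (ll n r) 0 := by
      rw [continuousAt_iff_punctured_nhds]
      have e : ll n r 0 = Real.log (dtau n r 0) := by unfold ll; rw [if_pos rfl]
      rw [e]
      refine h1.congr' ?_
      filter_upwards [self_mem_nhdsWithin] with x hx
      rw [slope_def_field, tau_zero hr n, sub_zero, sub_zero, ll_of_ne n hx]
    exact h2.continuousWithinAt
  · have h1 : ContinuousAt (fun x => Real.log (tau n r x / x)) s := by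
      refine ContinuousAt.log ?_ (div_pos (tau_pos hr n ⟨h, hs.2⟩) h).ne'
      exact (tau_continuous hr n).continuousAt.div continuousAt_id h.ne'
    have h2 : ContinuousAt (ll n r) s := by
      refine h1.congr ?_
      filter_upwards [Ioi_mem_nhds h] with x hx
      exact (ll_of_ne n (ne_of_gt hx)).symm
    exact h2.continuousWithinAt

lemma exists_ll_bound : ∃ M : ℝ, 0 < M ∧ ∀ s ∈ Icc (0 : ℝ) 1, |ll n r s| ≤ M := by
  obtain ⟨C, hC⟩ := isCompact_Icc.exists_bound_of_continuousOn (continuousOn_ll hr n)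
  refine ⟨max C 1, lt_max_of_lt_right one_pos, fun s hs => ?_⟩
  have := hC s hs
  rw [Real.norm_eq_abs] at this
  exact this.trans (le_max_left _ _)

/-- `s |l| ≤ M' ((1-s) + (1-T))` -/
lemma exists_ll_bound' : ∃ M : ℝ, 0 < M ∧ ∀ s ∈ Icc (0 : ℝ) 1,
    s * |ll n r s| ≤ M * ((1 - s) + (1 - tau n r s)) := by
  obtain ⟨M, hM, h⟩ := exists_ll_bound hr n
  refine ⟨Real.exp M, Real.exp_pos _, fun s hs => ?_⟩
  rcases hs.1.eq_or_lt with h0 | h0
  · subst h0
    rw [zero_mul, tau_zero hr n]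
    positivity
  have hT := tau_pos hr n (s := s) ⟨h0, hs.2⟩
  have hT1 := (tau_mem_half' hr n hs).2
  have hM1 : 1 ≤ Real.exp M := Real.one_le_exp hM.le
  rcases le_total 0 (ll n r s) with hl | hl
  · rw [abs_of_nonneg hl]
    have h1 : ll n r s ≤ tau n r s / s - 1 := by
      rw [ll_of_ne n h0.ne']
      exact Real.log_le_sub_one_of_pos (div_pos hT h0)
    have h2 : s * ll n r s ≤ tau n r s - s := by
      have := mul_le_mul_of_nonneg_left h1 h0.le
      have e : s * (tau n r s / s - 1) = tau n r s - s := by field_simp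
      rwa [e] at this
    have h3 : 1 - s ≤ Real.exp M * (1 - s) := le_mul_of_one_le_left (by linarith [hs.2]) hM1
    have h4 : 0 ≤ Real.exp M * (1 - tau n r s) := mul_nonneg (Real.exp_pos _).le (by linarith)
    linarith
  · rw [abs_of_nonpos hl]
    have h1 : -ll n r s ≤ s / tau n r s - 1 := by
      rw [ll_of_ne n h0.ne', ← Real.log_inv, inv_div]
      exact Real.log_le_sub_one_of_pos (div_pos h0 hT)
    have h2 : s / tau n r s ≤ Real.exp M := by
      have h3 : s / tau n r s = Real.exp (-ll n r s) := by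
        rw [Real.exp_neg, exp_ll hr n ⟨h0, hs.2⟩, inv_div]
      rw [h3]
      apply Real.exp_le_exp.2
      have := (abs_le.1 (h s hs)).1
      linarith
    have h4 : s * -ll n r s ≤ (s / tau n r s) * (s - tau n r s) := by
      have := mul_le_mul_of_nonneg_left h1 h0.le
      have e : s * (s / tau n r s - 1) = (s / tau n r s) * (s - tau n r s) := by field_simp
      rwa [e] at this
    have h5 : s - tau n r s ≤ 1 - tau n r s := by linarith [hs.2]
    have h6 : 0 ≤ s / tau n r s := by positivity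
    have h7 : (s / tau n r s) * (s - tau n r s) ≤ Real.exp M * (1 - tau n r s) :=
      (mul_le_mul_of_nonneg_left h5 h6).trans (mul_le_mul_of_nonneg_right h2 (by linarith))
    have h8 : 0 ≤ Real.exp M * (1 - s) := mul_nonneg (Real.exp_pos _).le (by linarith [hs.2])
    linarith

end

end Crest.Agent.R230
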