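import Crest.Agent.R230.WRed
import Crest.Agent.R230.Apriori2
import Crest.Agent.R230.Apriori3
import Crest.Agent.R230.Apriori4

set_option autoImplicit false

open MeasureTheory Set Filter Topology
open scoped Pointwise ENNReal

namespace Crest.Agent.R230.LamB

open WR

/-!
# Row 230: bounds for `λ = E_{π₁} l`

* `lam_ge : -(2(n+1)/9) ≤ lam n r` (`T ≥ 1-c`, Huygens' inequality);
* `lam_le_quarter : lam n r ≤ 1/4` (strong constraint, cylinder path), all `n ≥ 5` (`dim ≥ 6`).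
-/

/-! ### `h_n` -/

lemma hm_eq {n : ℕ} (hn : n ≠ 0) {k u : ℝ} (hu : 0 ≤ u) (h : u ^ n = 1 + k) :
    hm n k = u ^ n - 1 - n * (u - 1) := by
  unfold hm
  rw [← h, one_div, Real.pow_rpow_inv_natCast hu hn]
  linarith

lemma exists_root {n : ℕ} (hn : n ≠ 0) {k : ℝ} (hk : 0 ≤ 1 + k) : ∃ u : ℝ, 0 ≤ u ∧ u ^ n = 1 + k :=
  ⟨(1 + k) ^ ((n : ℝ)⁻¹), Real.rpow_nonneg hk _, Real.rpow_inv_natCast_pow hk hn⟩

lemma bern {n : ℕ} {u : ℝ} (hu : 0 ≤ u) : 1 + n * (u - 1) ≤ u ^ n := by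
  have := one_add_mul_le_pow (a := u - 1) (by linarith) n
  have e : 1 + (u - 1) = u := by ring
  rwa [e] at this

lemma hm_nonneg {n : ℕ} (hn : n ≠ 0) {k : ℝ} (hk : 0 ≤ 1 + k) : 0 ≤ hm n k := by
  obtain ⟨u, hu, h⟩ := exists_root hn hk
  rw [hm_eq hn hu h]
  have := bern (n := n) hu
  linarith

lemma hm_anti {n : ℕ} (hn : n ≠ 0) {k k' : ℝ} (hk : 0 < 1 + k') (h1 : k' ≤ k) (h2 : k ≤ 0) :
    hm n k ≤ hm n k' := by
  obtain ⟨u, hu, h⟩ := exists_root hn (k := k) (by linarith)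
  obtain ⟨v, hv, h'⟩ := exists_root hn hk.le
  rw [hm_eq hn hu h, hm_eq hn hv h']
  have hu0 : 0 < u := by
    rcases hu.eq_or_lt with h0 | h0
    · rw [← h0, zero_pow hn] at h; linarith
    · exact h0
  have hvu : v ≤ u := by
    by_contra hc
    push Not at hc
    have := pow_lt_pow_left₀ hc hu hn
    linarith
  have hu1 : u ≤ 1 := by
    by_contra hc
    push Not at hc
    have := one_lt_pow₀ hc hn
    linarith
  -- v^n ≥ u^n (1 + n (v/u - 1))
  have h3 := bern (n := n) (u := v / u) (by positivity)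
  have h4 : u ^ n * (1 + n * (v / u - 1)) ≤ v ^ n := by
    have := mul_le_mul_of_nonneg_left h3 (pow_nonneg hu n)
    rwa [div_pow, mul_div_cancel₀ _ (pow_ne_zero n hu0.ne')] at this
  have h5 : u ^ n ≤ u := by
    calc u ^ n ≤ u ^ 1 := pow_le_pow_of_le_one hu hu1 (Nat.one_le_iff_ne_zero.2 hn)
      _ = u := pow_one u
  have h6 : u ^ n * (1 - v / u) ≤ u - v := by
    have h7 : 0 ≤ 1 - v / u := by rw [sub_nonneg, div_le_one hu0]; exact hvu
    calc u ^ n * (1 - v / u) ≤ u * (1 - v / u) := mul_le_mul_of_nonneg_right h5 h7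
      _ = u - v := by field_simp
  have hn0 : (0 : ℝ) ≤ n := Nat.cast_nonneg n
  nlinarith [mul_le_mul_of_nonneg_left h6 hn0]

lemma hm_le_pos {n : ℕ} (hn : n ≠ 0) {k : ℝ} (hk : 0 ≤ k) : hm n k ≤ 1 / 100 + 9 / 25 * k ^ 2 := by
  obtain ⟨u, hu, h⟩ := exists_root hn (k := k) (by linarith)
  rw [hm_eq hn hu h]
  have hu0 : 0 < u := by
    rcases hu.eq_or_lt with h0 | h0
    · rw [← h0, zero_pow hn] at h; linarith
    · exact h0
  have h1 : Real.log (1 + k) ≤ n * (u - 1) := by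
    rw [← h, Real.log_pow]
    exact mul_le_mul_of_nonneg_left (Real.log_le_sub_one_of_pos hu0) (Nat.cast_nonneg n)
  have h2 : 2 * k / (k + 2) ≤ Real.log (1 + k) := Real.le_log_one_add_of_nonneg hk
  have h3 : k - 2 * k / (k + 2) ≤ 1 / 100 + 9 / 25 * k ^ 2 := by
    have hk2 : 0 < k + 2 := by linarith
    have : 0 ≤ (k - 1 / 2) ^ 2 * (9 / 25 * k + 2 / 25) / (k + 2) := by positivity
    have e : (k - 1 / 2) ^ 2 * (9 / 25 * k + 2 / 25) / (k + 2) =
        (1 / 100 + 9 / 25 * k ^ 2) - (k - 2 * k / (k + 2)) := by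
      field_simp; ring
    linarith
  linarith


/-! ### the cylinder path `Q = (∫_0^s c^n) / s` -/

noncomputable def Qc (n : ℕ) : ℝ → ℝ := dslope (lB n) 0

lemma Qc_of_ne (n : ℕ) {s : ℝ} (hs : s ≠ 0) : Qc n s = lB n s / s := by
  unfold Qc
  rw [dslope_of_ne _ hs, slope_def_field, lB_zero, sub_zero, sub_zero]

lemma Qc_zero (n : ℕ) : Qc n 0 = 1 := by
  unfold Qc
  rw [dslope_same, (hasDerivAt_lB n 0).deriv]
  simp

lemma continuous_Qc (n : ℕ) : Continuous (Qc n) := by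
  rw [continuous_iff_continuousAt]
  intro s
  by_cases hs : s = 0
  · subst hs
    exact continuousAt_dslope_same.2 (hasDerivAt_lB n 0).differentiableAt
  · exact (continuousAt_dslope_of_ne hs).2 (hasDerivAt_lB n s).continuousAt

lemma Qc_pos (n : ℕ) {s : ℝ} (hs : s ∈ Icc (0 : ℝ) 1) : 0 < Qc n s := by
  rcases hs.1.eq_or_lt with h | h
  · rw [← h, Qc_zero]; exact one_pos
  · rw [Qc_of_ne n h.ne']
    exact div_pos (lB_pos n ⟨h, hs.2⟩) h


lemma lB_le (n : ℕ) {s : ℝ} (hs : s ∈ Icc (0 : ℝ) 1) : lB n s ≤ s := by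
  unfold lB
  have h : ∫ x in (0 : ℝ)..s, Real.sqrt (1 - x ^ 2) ^ n ≤ ∫ x in (0 : ℝ)..s, (1 : ℝ) := by
    refine intervalIntegral.integral_mono_on hs.1 (intervalIntegrable_cpow n _ _) (by simp) fun x hx => ?_
    exact pow_le_one₀ (Real.sqrt_nonneg _) (by have := cc_le_one x; unfold cc at this; exact this)
  rw [intervalIntegral.integral_const, smul_eq_mul, sub_zero, mul_one] at h
  exact h

lemma Qc_le_one (n : ℕ) {s : ℝ} (hs : s ∈ Icc (0 : ℝ) 1) : Qc n s ≤ 1 := by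
  rcases hs.1.eq_or_lt with h | h
  · rw [← h, Qc_zero]
  · rw [Qc_of_ne n h.ne', div_le_one h]
    exact lB_le n hs


lemma hasDerivAt_Qc (n : ℕ) {s : ℝ} (hs : s ∈ Ioo (0 : ℝ) 1) :
    HasDerivAt (Qc n) ((cc s ^ n - Qc n s) / s) s := by
  have h := (hasDerivAt_lB n s).fun_div (hasDerivAt_id s) hs.1.ne'
  have e : Qc n =ᶠ[𝓝 s] fun x => lB n x / id x := by
    filter_upwards [Ioo_mem_nhds hs.1 hs.2] with x hx
    exact Qc_of_ne n hx.1.ne'
  refine (h.congr_of_eventuallyEq e).congr_deriv ?_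
  rw [Qc_of_ne n hs.1.ne']
  have := hs.1.ne'
  simp only [id, cc]
  field_simp

/-- `kc = c^n / Q - 1` -/
noncomputable def kc (n : ℕ) (s : ℝ) : ℝ := cc s ^ n / Qc n s - 1

noncomputable def Gc (n : ℕ) (s : ℝ) : ℝ := Qc n s ^ ((n : ℝ)⁻¹)

lemma continuousOn_kc (n : ℕ) : ContinuousOn (kc n) (Icc 0 1) := by
  unfold kc
  exact (((cc_continuous.pow n).continuousOn.div (continuous_Qc n).continuousOn
    fun s hs => (Qc_pos n hs).ne')).sub continuousOn_const

lemma continuousOn_Gc (n : ℕ) : ContinuousOn (Gc n) (Icc 0 1) := by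
  unfold Gc
  exact (continuous_Qc n).continuousOn.rpow_const fun s hs => Or.inl (Qc_pos n hs).ne'

lemma Gc_nonneg (n : ℕ) {s : ℝ} (hs : s ∈ Icc (0 : ℝ) 1) : 0 ≤ Gc n s :=
  Real.rpow_nonneg (Qc_pos n hs).le _

lemma Gc_pow {n : ℕ} (hn : n ≠ 0) {s : ℝ} (hs : s ∈ Icc (0 : ℝ) 1) : Gc n s ^ n = Qc n s :=
  Real.rpow_inv_natCast_pow (Qc_pos n hs).le hn

lemma Gc_le_one {n : ℕ} (hn : n ≠ 0) {s : ℝ} (hs : s ∈ Icc (0 : ℝ) 1) : Gc n s ≤ 1 := by
  have h := Gc_pow hn hs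
  have h1 := Qc_le_one n hs
  by_contra hc
  push Not at hc
  have := one_lt_pow₀ hc hn
  linarith


lemma one_add_kc_pos (n : ℕ) {s : ℝ} (hs : s ∈ Ioo (0 : ℝ) 1) : 0 < 1 + kc n s := by
  unfold kc
  have h1 := cc_pos' hs
  have h2 := Qc_pos n (s := s) ⟨hs.1.le, hs.2.le⟩
  have : 0 < cc s ^ n / Qc n s := by positivity
  linarith

lemma hasDerivAt_Gc {n : ℕ} (hn : n ≠ 0) {s : ℝ} (hs : s ∈ Ioo (0 : ℝ) 1) :
    HasDerivAt (Gc n) (Gc n s * (kc n s / s / n)) s := by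
  have hq := Qc_pos n (s := s) ⟨hs.1.le, hs.2.le⟩
  have h := (hasDerivAt_Qc n hs).rpow_const (p := (n : ℝ)⁻¹) (Or.inl hq.ne')
  refine h.congr_deriv ?_
  unfold Gc kc
  rw [Real.rpow_sub_one hq.ne']
  have := hs.1.ne'
  have hn0 : (n : ℝ) ≠ 0 := by exact_mod_cast hn
  field_simp

/-- `G h_n(kc) = G (kc + n) - n c` -/
lemma Gc_mul_hm {n : ℕ} (hn : n ≠ 0) {s : ℝ} (hs : s ∈ Ioo (0 : ℝ) 1) :
    Gc n s * hm n (kc n s) = Gc n s * kc n s + n * Gc n s - n * cc s := by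
  have hs' : s ∈ Icc (0 : ℝ) 1 := ⟨hs.1.le, hs.2.le⟩
  have hq := Qc_pos n hs'
  have hc := cc_pos' hs
  have h1 : (1 + kc n s) ^ ((1 : ℝ) / n) = cc s / Gc n s := by
    unfold kc Gc
    have e : 1 + (cc s ^ n / Qc n s - 1) = cc s ^ n / Qc n s := by ring
    rw [e, Real.div_rpow (pow_nonneg hc.le n) hq.le, one_div, Real.pow_rpow_inv_natCast hc.le hn]
  have hG : Gc n s ≠ 0 := (Real.rpow_pos_of_pos hq _).ne'
  unfold hm
  rw [h1]
  field_simp
  ring

/-! ### integrals -/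

lemma JJ_one (n : ℕ) : JJ n (fun _ => (1 : ℝ)) = w (n - 1) / 2 := by
  unfold JJ
  simp only [mul_one]
  have h1 := w_half (n - 1)
  have h3 : ∫ s in (0 : ℝ)..1, cc s ^ (n - 1) = ∫ s in (0 : ℝ)..1, Real.sqrt (1 - s ^ 2) ^ (n - 1) := rfl
  rw [h3, h1]; ring

lemma JJ_cc {n : ℕ} (hn : 1 ≤ n) : JJ n cc = w n / 2 := by
  unfold JJ
  have h1 := w_half n
  have h3 : ∫ s in (0 : ℝ)..1, cc s ^ (n - 1) * cc s = ∫ s in (0 : ℝ)..1, Real.sqrt (1 - s ^ 2) ^ n := by
    congr 1; ext s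
    rw [← pow_succ, Nat.sub_add_cancel hn]; rfl
  rw [h3, h1]; ring

lemma JJ_ccn {n : ℕ} (hn : 1 ≤ n) : JJ n (fun s => cc s ^ n) = w (2 * n - 1) / 2 := by
  unfold JJ
  have h1 := w_half (2 * n - 1)
  have h3 : ∫ s in (0 : ℝ)..1, cc s ^ (n - 1) * cc s ^ n =
      ∫ s in (0 : ℝ)..1, Real.sqrt (1 - s ^ 2) ^ (2 * n - 1) := by
    congr 1; ext s
    rw [← pow_add]
    have : n - 1 + n = 2 * n - 1 := by omega
    rw [this]; rfl
  rw [h3, h1]; ring

/-- `(n-1) ∫ c^{n-1} Y Q = w_{2n-1}/2` -/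
lemma JJ_YQ {n : ℕ} (hn : 3 ≤ n) : ((n : ℝ) - 1) * JJ n (fun s => Y s * Qc n s) = w (2 * n - 1) / 2 := by
  have hQ := (continuous_Qc n).continuousOn (s := Icc (0 : ℝ) 1)
  have hcn : ContinuousOn (fun s => cc s ^ n) (Icc (0 : ℝ) 1) := (cc_continuous.pow n).continuousOn
  have hi : NI n (fun s => s * ((cc s ^ n - Qc n s) / s)) := by
    refine (NI_cont (n := n) (g := fun s => cc s ^ n - Qc n s) (hcn.sub hQ)).congr fun s hs => ?_
    have := hs.1.ne'
    field_simp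
  have h := null_GL hn hQ (fun s hs => hasDerivAt_Qc n hs) hi
  have e : JJ n (fun s => Qc n s + s * ((cc s ^ n - Qc n s) / s) - ((n : ℝ) - 1) * (Y s * Qc n s)) =
      JJ n (fun s => cc s ^ n) - ((n : ℝ) - 1) * JJ n (fun s => Y s * Qc n s) := by
    rw [← JJ_smul, ← JJ_sub (NI_cont hcn) ((NI_Y hn hQ).smul _)]
    refine JJ_congr fun s hs => ?_
    have := hs.1.ne'
    field_simp
    ring
  rw [e, JJ_ccn (by omega)] at h
  linarith

/-- `∫ c^{n-1} G h_n(kc) = n(n-1) ∫ c^{n-1} Y G - n w_n/2` -/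
lemma JJ_Ghm {n : ℕ} (hn : 3 ≤ n) : JJ n (fun s => Gc n s * hm n (kc n s)) =
    n * (((n : ℝ) - 1) * JJ n (fun s => Y s * Gc n s)) - n * (w n / 2) := by
  have hn0 : n ≠ 0 := by omega
  have hnR : (n : ℝ) ≠ 0 := by exact_mod_cast hn0
  have hG := continuousOn_Gc n
  have hk := continuousOn_kc n
  have hc : ContinuousOn cc (Icc (0 : ℝ) 1) := cc_continuous.continuousOn
  have hi : NI n (fun s => s * (Gc n s * (kc n s / s / n))) := by
    refine ((NI_cont (n := n) (g := fun s => Gc n s * kc n s) (hG.mul hk)).smul (1 / n)).congr fun s hs => ?_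
    have := hs.1.ne'
    field_simp
  have h := null_GL hn hG (fun s hs => hasDerivAt_Gc hn0 hs) hi
  have n1 : NI n (fun s => Gc n s * kc n s) := NI_cont (hG.mul hk)
  have n2 : NI n (fun s => Gc n s) := NI_cont hG
  have n3 : NI n (fun s => Y s * Gc n s) := NI_Y hn hG
  have n4 : NI n cc := NI_cont hc
  have e : JJ n (fun s => Gc n s + s * (Gc n s * (kc n s / s / n)) - ((n : ℝ) - 1) * (Y s * Gc n s)) =
      JJ n (fun s => Gc n s) + (1 / n) * JJ n (fun s => Gc n s * kc n s) -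
        ((n : ℝ) - 1) * JJ n (fun s => Y s * Gc n s) := by
    rw [← JJ_smul, ← JJ_smul, ← JJ_add n2 (n1.smul _), ← JJ_sub (n2.add (n1.smul _)) (n3.smul _)]
    refine JJ_congr fun s hs => ?_
    have := hs.1.ne'
    field_simp
  rw [e] at h
  have e2 : JJ n (fun s => Gc n s * hm n (kc n s)) =
      JJ n (fun s => Gc n s * kc n s) + n * JJ n (fun s => Gc n s) - n * JJ n cc := by
    rw [← JJ_smul, ← JJ_smul, ← JJ_add n1 (n2.smul _), ← JJ_sub (n1.add (n2.smul _)) (n4.smul _)]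
    exact JJ_congr fun s hs => Gc_mul_hm hn0 hs
  rw [e2, JJ_cc (by omega)]
  have h5 : JJ n (fun s => Gc n s * kc n s) + n * JJ n (fun s => Gc n s) =
      n * (JJ n (fun s => Gc n s) + (1 / n) * JJ n (fun s => Gc n s * kc n s)) := by
    field_simp
    ring
  rw [h5]
  have h6 : JJ n (fun s => Gc n s) + (1 / n) * JJ n (fun s => Gc n s * kc n s) =
    ((n : ℝ) - 1) * JJ n (fun s => Y s * Gc n s) := by linarith
  rw [h6]

/-- weighted AM-GM: `n x^{1/n} ≤ (n-1) y + x / y^{n-1}` -/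
lemma amgm {n : ℕ} (hn : 1 ≤ n) {g y : ℝ} (hg : 0 ≤ g) (hy : 0 < y) :
    n * g ≤ ((n : ℝ) - 1) * y + g ^ n / y ^ (n - 1) := by
  have h := bern (n := n) (u := g / y) (by positivity)
  have h2 := mul_le_mul_of_nonneg_left h hy.le
  have e : y * (g / y) ^ n = g ^ n / y ^ (n - 1) := by
    obtain ⟨k, rfl⟩ : ∃ k, n = k + 1 := ⟨n - 1, by omega⟩
    rw [Nat.add_sub_cancel, div_pow]
    field_simp
    ring
  have e2 : y * (1 + n * (g / y - 1)) = y + n * g - n * y := by field_simp; ring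
  rw [e, e2] at h2
  linarith

lemma JJ_mono {n : ℕ} {f g : ℝ → ℝ} (hf : NI n f) (hg : NI n g) (h : ∀ s ∈ Ioo (0 : ℝ) 1, f s ≤ g s) :
    JJ n f ≤ JJ n g := by
  have := JJ_nonneg (hg.sub hf) fun s hs => sub_nonneg.2 (h s hs)
  rw [JJ_sub hg hf] at this
  linarith

lemma JJ_Ghm_le {n : ℕ} (hn : 3 ≤ n) {y : ℝ} (hy : 0 < y) : JJ n (fun s => Gc n s * hm n (kc n s)) ≤
    (((n : ℝ) - 1) * y) * (w (n - 1) / 2) + (w (2 * n - 1) / 2) / y ^ (n - 1) - n * (w n / 2) := by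
  rw [JJ_Ghm hn]
  have hn0 : n ≠ 0 := by omega
  have hG := continuousOn_Gc n
  have hQ := (continuous_Qc n).continuousOn (s := Icc (0 : ℝ) 1)
  have n3 : NI n (fun s => Y s * Gc n s) := NI_Y hn hG
  have n4 : NI n (fun s => Y s * Qc n s) := NI_Y hn hQ
  have n5 : NI n (fun s => Y s * (1 : ℝ)) := NI_Y hn continuousOn_const
  have hyn : 0 < y ^ (n - 1) := pow_pos hy _
  have h1 : JJ n (fun s => n * (Y s * Gc n s)) ≤
      JJ n (fun s => (((n : ℝ) - 1) * y) * (Y s * 1) + (1 / y ^ (n - 1)) * (Y s * Qc n s)) := by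
    refine JJ_mono (n3.smul _) ((n5.smul _).add (n4.smul _)) fun s hs => ?_
    have hs' : s ∈ Icc (0 : ℝ) 1 := ⟨hs.1.le, hs.2.le⟩
    have h := amgm (n := n) (by omega) (Gc_nonneg n hs') hy
    rw [Gc_pow hn0 hs'] at h
    have h2 := mul_le_mul_of_nonneg_left h (Y_nonneg hs)
    calc n * (Y s * Gc n s) = Y s * (n * Gc n s) := by ring
      _ ≤ _ := h2
      _ = _ := by ring
  rw [JJ_smul, JJ_add (n5.smul _) (n4.smul _), JJ_smul, JJ_smul] at h1
  have hn1 : (0 : ℝ) ≤ (n : ℝ) - 1 := by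
    have : (3 : ℝ) ≤ n := by exact_mod_cast hn
    linarith
  have h2 := mul_le_mul_of_nonneg_left h1 hn1
  have h3 := JJ_Y hn
  have h4 := JJ_YQ hn
  have h5 := JJ_one n
  have e : ((n : ℝ) - 1) * ((((n : ℝ) - 1) * y) * JJ n (fun s => Y s * (1 : ℝ)) +
      1 / y ^ (n - 1) * JJ n (fun s => Y s * Qc n s)) =
      (((n : ℝ) - 1) * y) * (w (n - 1) / 2) + (w (2 * n - 1) / 2) / y ^ (n - 1) := by
    rw [← h4, ← h5, ← h3]
    ring
  rw [e] at h2
  linarith


/-! ### the upper bound for `λ` -/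

section path

variable {r : ℝ → ℝ} (hr : Prof r) {n : ℕ}
include hr

lemma exp_le_F (hn : n ≠ 0) {F : ℝ} (hF : 0 < F) (hFw : 2 ≤ F ^ n * w n) {s : ℝ}
    (hs : s ∈ Ioo (0 : ℝ) 1) : Real.exp (ll n r s / n) ≤ F * Gc n s := by
  have hs' : s ∈ Icc (0 : ℝ) 1 := ⟨hs.1.le, hs.2.le⟩
  have h1 := tau_mul_hB_zero_le hr n hs'
  have hH := hB_zero_pos n
  have h2 := w_eq_two_hB n
  have h3 : Real.exp (ll n r s) = tau n r s / s := exp_ll hr n ⟨hs.1, hs.2.le⟩
  have hnR : (n : ℝ) ≠ 0 := by exact_mod_cast hn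
  have h4 : Real.exp (ll n r s / n) ^ n = Real.exp (ll n r s) := by
    rw [← Real.exp_nat_mul]; congr 1; field_simp
  have hG := Gc_nonneg n hs'
  have h5 : Real.exp (ll n r s / n) ^ n ≤ (F * Gc n s) ^ n := by
    rw [h4, h3, mul_pow, Gc_pow hn hs', Qc_of_ne n hs.1.ne', div_le_iff₀ hs.1]
    have e : F ^ n * (lB n s / s) * s = F ^ n * lB n s := by
      have := hs.1.ne'
      field_simp
    rw [e]
    have h6 : 1 ≤ F ^ n * hB n 0 := by rw [h2] at hFw; linarith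
    have h7 := lB_nonneg n hs'
    have hT := tau_nonneg hr n hs'
    calc tau n r s ≤ tau n r s * (F ^ n * hB n 0) := le_mul_of_one_le_right hT h6
      _ = F ^ n * (tau n r s * hB n 0) := by ring
      _ ≤ F ^ n * lB n s := mul_le_mul_of_nonneg_left h1 (pow_nonneg hF.le n)
  exact le_of_pow_le_pow_left₀ hn (mul_nonneg hF.le hG) h5

lemma kc_le_kk {s : ℝ} (hs : s ∈ Ioo (0 : ℝ) 1) : kc n s ≤ kk n r s := by
  have hs' : s ∈ Icc (0 : ℝ) 1 := ⟨hs.1.le, hs.2.le⟩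
  have h1 := tau_mul_le_dtau hr n (s := s) ⟨hs.1.le, hs.2⟩
  have hT := tau_pos hr n (s := s) ⟨hs.1, hs.2.le⟩
  have hL := lB_pos n (s := s) ⟨hs.1, hs.2.le⟩
  unfold kc kk
  rw [Qc_of_ne n hs.1.ne']
  have h2 : cc s ^ n / (lB n s / s) ≤ s * dtau n r s / tau n r s := by
    rw [div_div_eq_mul_div, div_le_div_iff₀ hL hT]
    have h3 := mul_le_mul_of_nonneg_left h1 hs.1.le
    have e : cc s = Real.sqrt (1 - s ^ 2) := rfl
    rw [e]
    linarith
  linarith

lemma kk_le_al {α : ℝ} (hα : 1 ≤ α) (hαn : (n : ℝ) ^ 2 ≤ α ^ 2 * (5 * n + 4)) {s : ℝ}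
    (hs : s ∈ Ioo (0 : ℝ) 1) : kk n r s ≤ α * s / cc s := by
  have h1 := kappa_le' hr n hα hαn hs
  have hT := tau_pos hr n (s := s) ⟨hs.1, hs.2.le⟩
  have hc := cc_pos' hs
  have e : cc s = Real.sqrt (1 - s ^ 2) := rfl
  rw [← e] at h1
  unfold kk
  have h2 : s * dtau n r s / tau n r s ≤ (cc s + α * s) / cc s := by
    rw [div_le_div_iff₀ hT hc]
    exact h1
  have h3 : (cc s + α * s) / cc s = 1 + α * s / cc s := by field_simp
  linarith

lemma ehm_le (hn : n ≠ 0) {F α : ℝ} (hF : 0 < F) (hFw : 2 ≤ F ^ n * w n) (hα : 1 ≤ α)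
    (hαn : (n : ℝ) ^ 2 ≤ α ^ 2 * (5 * n + 4)) {s : ℝ} (hs : s ∈ Ioo (0 : ℝ) 1) :
    Real.exp (ll n r s / n) * hm n (kk n r s) ≤
      F * (1 / 100 + 9 / 25 * α ^ 2 * (Y s * 1) + Gc n s * hm n (kc n s)) := by
  have hs' : s ∈ Icc (0 : ℝ) 1 := ⟨hs.1.le, hs.2.le⟩
  have h1 := exp_le_F hr hn hF hFw hs
  have h2 := kc_le_kk hr (n := n) hs
  have h3 := kk_le_al hr hα hαn hs
  have h4 := hm_nonneg hn (one_add_kk_pos hr n hs).le
  have h5 := hm_nonneg hn (one_add_kc_pos n hs).le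
  have hG := Gc_nonneg n hs'
  have hG1 := Gc_le_one hn hs'
  have hY := Y_nonneg hs
  have hc := cc_pos' hs
  have h6 : Real.exp (ll n r s / n) * hm n (kk n r s) ≤ F * Gc n s * hm n (kk n r s) :=
    mul_le_mul_of_nonneg_right h1 h4
  rcases le_total 0 (kk n r s) with hk | hk
  · have h7 := hm_le_pos hn hk
    have h8 : kk n r s ^ 2 ≤ α ^ 2 * Y s := by
      have := pow_le_pow_left₀ hk h3 2
      have e : (α * s / cc s) ^ 2 = α ^ 2 * Y s := by
        unfold Y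
        rw [div_pow, mul_pow, cc_sq' hs]
        ring
      rwa [e] at this
    have h9 : F * Gc n s * hm n (kk n r s) ≤ F * hm n (kk n r s) := by
      have : F * Gc n s ≤ F := by
        calc F * Gc n s ≤ F * 1 := mul_le_mul_of_nonneg_left hG1 hF.le
          _ = F := mul_one F
      exact mul_le_mul_of_nonneg_right this h4
    have h10 : 0 ≤ Gc n s * hm n (kc n s) := mul_nonneg hG h5
    have h11 : hm n (kk n r s) ≤ 1 / 100 + 9 / 25 * α ^ 2 * (Y s * 1) + Gc n s * hm n (kc n s) := by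
      nlinarith
    have := mul_le_mul_of_nonneg_left h11 hF.le
    linarith
  · have h7 := hm_anti hn (one_add_kc_pos n hs) h2 hk
    have h8 : Gc n s * hm n (kk n r s) ≤ Gc n s * hm n (kc n s) := mul_le_mul_of_nonneg_left h7 hG
    have h9 : 0 ≤ 1 / 100 + 9 / 25 * α ^ 2 * (Y s * 1) := by positivity
    have h10 : Gc n s * hm n (kk n r s) ≤ 1 / 100 + 9 / 25 * α ^ 2 * (Y s * 1) + Gc n s * hm n (kc n s) := by
      linarith
    have := mul_le_mul_of_nonneg_left h10 hF.le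
    calc Real.exp (ll n r s / n) * hm n (kk n r s) ≤ F * Gc n s * hm n (kk n r s) := h6
      _ = F * (Gc n s * hm n (kk n r s)) := by ring
      _ ≤ _ := this

omit hr in
lemma lam_mul {r : ℝ → ℝ} (hn : 3 ≤ n) : lam n r * (w (n - 1) / 2) = ((n : ℝ) - 1) * JJ n (fun s => Y s * ll n r s) := by
  have h := JJ_Y_pos hn
  rw [← JJ_one, ← JJ_Y hn]
  unfold lam
  rw [div_mul_eq_mul_div, div_eq_iff h.ne']
  ring

lemma lam_le_ehm (hn : 3 ≤ n) (hN : NleB n r) : lam n r * (w (n - 1) / 2) ≤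
    JJ n (fun s => Real.exp (ll n r s / n) * hm n (kk n r s)) := by
  rw [lam_mul hn]
  have hl := continuousOn_ll hr n
  have hGl : ContinuousOn (fun s => ll n r s + Gm n (ll n r s)) (Icc 0 1) := by
    unfold Gm
    exact hl.add ((continuousOn_const.mul ((hl.div_const _).rexp.sub continuousOn_const)).sub hl)
  have n1 := NI_ehm hr (n := n) (by omega)
  have n2 : NI n (fun s => Y s * (ll n r s + Gm n (ll n r s))) := NI_Y hn hGl
  have n3 : NI n (fun s => Y s * ll n r s) := NI_Y hn hl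
  have h := strong hr hn hN
  rw [JJ_sub n1 (n2.smul _), JJ_smul] at h
  have hn1 : (0 : ℝ) ≤ (n : ℝ) - 1 := by
    have : (3 : ℝ) ≤ n := by exact_mod_cast hn
    linarith
  have hn0 : (0 : ℝ) < n := by
    have : (3 : ℝ) ≤ n := by exact_mod_cast hn
    linarith
  have h2 : JJ n (fun s => Y s * ll n r s) ≤ JJ n (fun s => Y s * (ll n r s + Gm n (ll n r s))) := by
    refine JJ_mono n3 n2 fun s hs => mul_le_mul_of_nonneg_left ?_ (Y_nonneg hs)
    have h3 := Real.add_one_le_exp (ll n r s / n)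
    have h4 : ll n r s = n * (ll n r s / n) := by field_simp
    have : 0 ≤ Gm n (ll n r s) := by
      unfold Gm
      have h5 := mul_le_mul_of_nonneg_left (show ll n r s / n ≤ Real.exp (ll n r s / n) - 1 by linarith) hn0.le
      linarith
    linarith
  have := mul_le_mul_of_nonneg_left h2 hn1
  linarith

theorem lam_le_aux (hn : 3 ≤ n) (hN : NleB n r) {F α y : ℝ} (hF : 0 < F) (hFw : 2 ≤ F ^ n * w n)
    (hα : 1 ≤ α) (hαn : (n : ℝ) ^ 2 ≤ α ^ 2 * (5 * n + 4)) (hy : 0 < y) :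
    lam n r * w (n - 1) ≤ F * ((1 / 100 + 9 / 25 * (α ^ 2 / (n - 1)) + (n - 1) * y) * w (n - 1) +
      w (2 * n - 1) / y ^ (n - 1) - n * w n) := by
  have hn0 : n ≠ 0 := by omega
  have hn1 : (0 : ℝ) < (n : ℝ) - 1 := by
    have : (3 : ℝ) ≤ n := by exact_mod_cast hn
    linarith
  have hGhm : ContinuousOn (fun s => Gc n s * kc n s + n * Gc n s - n * cc s) (Icc 0 1) :=
    (((continuousOn_Gc n).mul (continuousOn_kc n)).add (continuousOn_const.mul (continuousOn_Gc n))).sub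
      (continuousOn_const.mul cc_continuous.continuousOn)
  have n1 := NI_ehm hr (n := n) (by omega)
  have n2 : NI n (fun s => Gc n s * hm n (kc n s)) :=
    (NI_cont (n := n) hGhm).congr fun s hs => (Gc_mul_hm hn0 hs).symm
  have n3 : NI n (fun s => Y s * (1 : ℝ)) := NI_Y hn continuousOn_const
  have n4 : NI n (fun _ => (1 / 100 : ℝ)) := NI_cont continuousOn_const
  have h1 := lam_le_ehm hr hn hN
  have h2 : JJ n (fun s => Real.exp (ll n r s / n) * hm n (kk n r s)) ≤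
      JJ n (fun s => F * (1 / 100 + 9 / 25 * α ^ 2 * (Y s * 1) + Gc n s * hm n (kc n s))) :=
    JJ_mono n1 (((n4.add (n3.smul _)).add n2).smul F) fun s hs => ehm_le hr hn0 hF hFw hα hαn hs
  rw [JJ_smul, JJ_add (n4.add (n3.smul _)) n2, JJ_add n4 (n3.smul _), JJ_smul] at h2
  have h3 := JJ_Ghm_le (n := n) hn hy
  have h4 : JJ n (fun _ => (1 / 100 : ℝ)) = 1 / 100 * (w (n - 1) / 2) := by
    rw [← JJ_one, ← JJ_smul]
    refine JJ_congr fun s _ => ?_
    ring
  have h5 : JJ n (fun s => Y s * (1 : ℝ)) = (w (n - 1) / 2) / (n - 1) := by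
    rw [eq_div_iff hn1.ne', ← JJ_one, ← JJ_Y hn]; ring
  rw [h4, h5] at h2
  have h6 := mul_le_mul_of_nonneg_left h3 hF.le
  have e : F * (1 / 100 * (w (n - 1) / 2) + 9 / 25 * α ^ 2 * (w (n - 1) / 2 / (n - 1)) +
      ((((n : ℝ) - 1) * y) * (w (n - 1) / 2) + (w (2 * n - 1) / 2) / y ^ (n - 1) - n * (w n / 2))) =
      F * ((1 / 100 + 9 / 25 * (α ^ 2 / (n - 1)) + (n - 1) * y) * w (n - 1) +
      w (2 * n - 1) / y ^ (n - 1) - n * w n) / 2 := by
    ring
  linarith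

end path


/-! ### the constants `w` -/

lemma w_zero : w 0 = 2 := by
  unfold w; simp; norm_num

lemma w_one' : w 1 = Real.pi / 2 := by
  unfold w
  simp only [pow_one]
  exact integral_sqrt_one_sub_sq

lemma w_prod (n : ℕ) : w n * w (n + 1) * (n + 2) = 2 * Real.pi := by
  induction n with
  | zero => rw [w_zero, w_one']; push_cast; ring
  | succ n ih =>
    have h := w_rec n
    push_cast
    calc w (n + 1) * w (n + 1 + 1) * ((n : ℝ) + 1 + 2) = w (n + 1) * (w (n + 2) * (n + 3)) := by ring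
      _ = w n * w (n + 1) * (n + 2) := by rw [h]; ring
      _ = _ := ih

lemma w_succ_le (n : ℕ) : w (n + 1) ≤ w n := by
  unfold w
  refine intervalIntegral.integral_mono_on (by norm_num) (intervalIntegrable_cpow _ _ _)
    (intervalIntegrable_cpow _ _ _) fun x _ => ?_
  have h1 : Real.sqrt (1 - x ^ 2) ≤ 1 := by have := cc_le_one x; unfold cc at this; exact this
  exact pow_le_pow_of_le_one (Real.sqrt_nonneg _) h1 (Nat.le_succ n)

lemma w_sq_ge (n : ℕ) : 2 * 3.14 ≤ w n ^ 2 * (n + 2) := by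
  have h1 := w_prod n
  have h2 := w_succ_le n
  have h3 := w_pos' n
  have h4 := Real.pi_gt_d2
  have h5 : w n * w (n + 1) ≤ w n ^ 2 := by
    rw [sq]; exact mul_le_mul_of_nonneg_left h2 h3.le
  have h6 : (0 : ℝ) ≤ (n : ℝ) + 2 := by positivity
  have := mul_le_mul_of_nonneg_right h5 h6
  linarith

lemma w_sq_anti (n : ℕ) : ((n : ℝ) + 1 + 2) * w (n + 1) ^ 2 ≤ (n + 2) * w n ^ 2 := by
  have h := w_logconv n
  have hr := w_rec n
  have h0 := w_pos' n
  have h3 : (0 : ℝ) ≤ (n : ℝ) + 3 := by positivity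
  have := mul_le_mul_of_nonneg_left h h3
  nlinarith

lemma w_sq_anti' {i j : ℕ} (hij : i ≤ j) : ((j : ℝ) + 2) * w j ^ 2 ≤ (i + 2) * w i ^ 2 := by
  have := antitone_nat_of_succ_le (f := fun k : ℕ => ((k : ℝ) + 2) * w k ^ 2) (fun n => by
    have := w_sq_anti n
    push_cast
    exact this)
  exact this hij

/-- `w_n / w_{n-1} ≥ (4n+3)/(4n+5)` -/
lemma w_ratio_ge (k : ℕ) : (4 * ((k : ℝ) + 2) + 3) * w (k + 1) ≤ (4 * ((k : ℝ) + 2) + 5) * w (k + 2) := by
  set a : ℝ := (2 * ((k : ℝ) + 2) + 1) / (2 * ((k : ℝ) + 2) + 2) with ha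
  have h : 0 ≤ ∫ s in (-1 : ℝ)..1, Real.sqrt (1 - s ^ 2) ^ k * (Real.sqrt (1 - s ^ 2) - a) ^ 4 :=
    intervalIntegral.integral_nonneg (by norm_num) fun s _ => by positivity
  have e : ∫ s in (-1 : ℝ)..1, Real.sqrt (1 - s ^ 2) ^ k * (Real.sqrt (1 - s ^ 2) - a) ^ 4 =
      w (k + 4) - 4 * a * w (k + 3) + 6 * a ^ 2 * w (k + 2) - 4 * a ^ 3 * w (k + 1) + a ^ 4 * w k := by
    unfold w
    have i := fun j : ℕ => intervalIntegrable_cpow j (-1) 1
    rw [← intervalIntegral.integral_const_mul, ← intervalIntegral.integral_const_mul,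
      ← intervalIntegral.integral_const_mul, ← intervalIntegral.integral_const_mul,
      ← intervalIntegral.integral_sub (i _) ((i _).const_mul _),
      ← intervalIntegral.integral_add ((i _).sub ((i _).const_mul _)) ((i _).const_mul _),
      ← intervalIntegral.integral_sub (((i _).sub ((i _).const_mul _)).add ((i _).const_mul _))
        ((i _).const_mul _),
      ← intervalIntegral.integral_add ((((i _).sub ((i _).const_mul _)).add ((i _).const_mul _)).sub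
        ((i _).const_mul _)) ((i _).const_mul _)]
    congr 1; ext s; ring
  rw [e] at h
  have r0 := w_rec k
  have r1 := w_rec (k + 1)
  have r2 := w_rec (k + 2)
  push_cast at r1 r2
  have p1 := w_pos' (k + 1)
  have p2 := w_pos' (k + 2)
  have hk : (0 : ℝ) ≤ k := Nat.cast_nonneg k
  have e0 : w k = w (k + 2) * (k + 3) / (k + 2) := by rw [eq_div_iff (by positivity)]; linarith
  have e1 : w (k + 3) = w (k + 1) * (k + 3) / (k + 4) := by
    rw [eq_div_iff (by positivity)]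
    have : w (k + 1 + 2) = w (k + 3) := rfl
    rw [this] at r1; linarith
  have e2 : w (k + 4) = w (k + 2) * (k + 4) / (k + 5) := by
    rw [eq_div_iff (by positivity)]
    have : w (k + 2 + 2) = w (k + 4) := rfl
    rw [this] at r2; linarith
  rw [e0, e1, e2] at h
  have h2 : w (k + 1) * (4 * a * ((k + 3) / (k + 4)) + 4 * a ^ 3) ≤
      w (k + 2) * ((k + 4) / (k + 5) + 6 * a ^ 2 + a ^ 4 * ((k + 3) / (k + 2))) := by
    have e3 : w (k + 2) * (k + 4) / (k + 5) - 4 * a * (w (k + 1) * (k + 3) / (k + 4)) +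
        6 * a ^ 2 * w (k + 2) - 4 * a ^ 3 * w (k + 1) + a ^ 4 * (w (k + 2) * (k + 3) / (k + 2)) =
        w (k + 2) * ((k + 4) / (k + 5) + 6 * a ^ 2 + a ^ 4 * ((k + 3) / (k + 2))) -
        w (k + 1) * (4 * a * ((k + 3) / (k + 4)) + 4 * a ^ 3) := by ring
    rw [e3] at h
    linarith
  set A : ℝ := 4 * a * ((k + 3) / (k + 4)) + 4 * a ^ 3 with hA
  set B : ℝ := (k + 4) / (k + 5) + 6 * a ^ 2 + a ^ 4 * ((k + 3) / (k + 2)) with hB'
  have hA0 : 0 < A := by rw [hA, ha]; positivity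
  have h3 : (4 * ((k : ℝ) + 2) + 3) * B ≤ (4 * ((k : ℝ) + 2) + 5) * A := by
    rw [hA, hB', ha, ← sub_nonneg]
    have e4 : (4 * ((k : ℝ) + 2) + 5) * (4 * ((2 * ((k : ℝ) + 2) + 1) / (2 * ((k : ℝ) + 2) + 2)) *
        ((k + 3) / (k + 4)) + 4 * ((2 * ((k : ℝ) + 2) + 1) / (2 * ((k : ℝ) + 2) + 2)) ^ 3) -
        (4 * ((k : ℝ) + 2) + 3) * ((k + 4) / (k + 5) + 6 * ((2 * ((k : ℝ) + 2) + 1) /
        (2 * ((k : ℝ) + 2) + 2)) ^ 2 + ((2 * ((k : ℝ) + 2) + 1) / (2 * ((k : ℝ) + 2) + 2)) ^ 4 *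
        ((k + 3) / (k + 2))) = (48 * (k : ℝ) ^ 5 + 516 * k ^ 4 + 2085 * k ^ 3 + 3768 * k ^ 2 + 2619 * k + 108) /
        ((2 * ((k : ℝ) + 2) + 2) ^ 4 * (k + 4) * (k + 5) * (k + 2)) := by
      field_simp
      ring
    rw [e4]
    positivity
  have h4 : A * ((4 * ((k : ℝ) + 2) + 3) * w (k + 1)) ≤ A * ((4 * ((k : ℝ) + 2) + 5) * w (k + 2)) := by
    have hc : (0 : ℝ) ≤ 4 * ((k : ℝ) + 2) + 3 := by positivity
    calc A * ((4 * ((k : ℝ) + 2) + 3) * w (k + 1)) = (4 * ((k : ℝ) + 2) + 3) * (w (k + 1) * A) := by ring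
      _ ≤ (4 * ((k : ℝ) + 2) + 3) * (w (k + 2) * B) := mul_le_mul_of_nonneg_left h2 hc
      _ = w (k + 2) * ((4 * ((k : ℝ) + 2) + 3) * B) := by ring
      _ ≤ w (k + 2) * ((4 * ((k : ℝ) + 2) + 5) * A) := mul_le_mul_of_nonneg_left h3 p2.le
      _ = _ := by ring
  exact le_of_mul_le_mul_left h4 hA0

/-! ### numerics for the upper bound -/

lemma exp_neg_le {x : ℝ} (hx : 0 ≤ x) : Real.exp (-x) ≤ 1 - x + x ^ 2 / 2 := by
  have h := Real.quadratic_le_exp_of_nonneg hx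
  have h1 : 0 < 1 + x + x ^ 2 / 2 := by positivity
  have h2 : 0 ≤ 1 - x + x ^ 2 / 2 := by nlinarith [sq_nonneg (x - 1)]
  rw [Real.exp_neg]
  have h3 : 1 ≤ (1 - x + x ^ 2 / 2) * Real.exp x := by
    have h4 := mul_le_mul_of_nonneg_left h h2
    nlinarith [sq_nonneg (x ^ 2)]
  rw [inv_le_iff_one_le_mul₀ (Real.exp_pos x)]
  exact h3

/-- the bracket is at most `w_{n-1}` times a rational function -/
lemma bracket_le {n : ℕ} (hn : 2 ≤ n) : ∃ y : ℝ, 0 < y ∧
    ((n : ℝ) - 1) * y * w (n - 1) + w (2 * n - 1) / y ^ (n - 1) - n * w n ≤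
      (-(693 / 2000) + 120063 / 1000000 / (2 * n) + 1 / (4 * n + 2) + 2 * n / (4 * n + 5)) * w (n - 1) := by
  have hnR : (2 : ℝ) ≤ n := by exact_mod_cast hn
  have hn0 : (0 : ℝ) < n := by linarith
  have hw := w_pos' (n - 1)
  set y : ℝ := Real.exp (-(Real.log 2 / (2 * n))) with hy
  have hy0 : 0 < y := Real.exp_pos _
  have hs2 : 0 < Real.sqrt 2 := by positivity
  have hyn : y ^ n * Real.sqrt 2 = 1 := by
    have e1 : y ^ n = Real.exp (-(Real.log 2 / 2)) := by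
      rw [hy, ← Real.exp_nat_mul]; congr 1; field_simp
    have e2 : Real.sqrt 2 = Real.exp (Real.log 2 / 2) := by
      rw [Real.sqrt_eq_rpow, Real.rpow_def_of_pos (by norm_num)]
      congr 1; ring
    rw [e1, e2, ← Real.exp_add]
    simp
  have hy1 : 1 / y ^ (n - 1) = y * Real.sqrt 2 := by
    have e1 : y ^ n = y ^ (n - 1) * y := by rw [← pow_succ, Nat.sub_add_cancel (by omega)]
    rw [e1] at hyn
    rw [div_eq_iff (pow_pos hy0 _).ne']
    linarith
  have hyle : y ≤ 1 - 693 / 2000 / n + (693 / 2000 / n) ^ 2 / 2 := by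
    have h1 : Real.exp (-(Real.log 2 / (2 * n))) ≤ Real.exp (-(693 / 2000 / n)) := by
      apply Real.exp_le_exp.2
      have h2 := Real.log_two_gt_d9
      rw [neg_le_neg_iff, div_le_div_iff₀ hn0 (by positivity)]
      nlinarith
    exact h1.trans (exp_neg_le (by positivity))
  -- √2 w_{2n-1} ≤ (1 + 1/(4n+2)) w_{n-1}
  have hrho : Real.sqrt 2 * w (2 * n - 1) ≤ (1 + 1 / (4 * n + 2)) * w (n - 1) := by
    have h := w_sq_anti' (i := n - 1) (j := 2 * n - 1) (by omega)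
    have c1 : ((2 * n - 1 : ℕ) : ℝ) + 2 = 2 * n + 1 := by
      rw [Nat.cast_sub (by omega)]; push_cast; ring
    have c2 : ((n - 1 : ℕ) : ℝ) + 2 = n + 1 := by
      rw [Nat.cast_sub (by omega)]; push_cast; ring
    rw [c1, c2] at h
    have h2 : (Real.sqrt 2 * w (2 * n - 1)) ^ 2 ≤ ((1 + 1 / (4 * n + 2)) * w (n - 1)) ^ 2 := by
      rw [mul_pow, Real.sq_sqrt (by norm_num), mul_pow]
      have h3 : 2 * w (2 * n - 1) ^ 2 ≤ (2 * (n + 1) / (2 * n + 1)) * w (n - 1) ^ 2 := by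
        rw [div_mul_eq_mul_div, le_div_iff₀ (by positivity)]
        linarith
      refine h3.trans (mul_le_mul_of_nonneg_right ?_ (sq_nonneg _))
      rw [div_le_iff₀ (by positivity)]
      have : (1 + 1 / (4 * (n : ℝ) + 2)) ^ 2 * (2 * n + 1) = 2 * (n + 1) + 1 / (4 * (2 * n + 1)) := by
        field_simp; ring
      rw [this]
      have : (0 : ℝ) ≤ 1 / (4 * (2 * n + 1)) := by positivity
      linarith
    exact le_of_sq_le_sq h2 (by positivity)
  have hr : (4 * (n : ℝ) + 3) * w (n - 1) ≤ (4 * n + 5) * w n := by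
    obtain ⟨k, rfl⟩ : ∃ k, n = k + 2 := ⟨n - 2, by omega⟩
    have := w_ratio_ge k
    push_cast
    exact this
  refine ⟨y, hy0, ?_⟩
  have e1 : w (2 * n - 1) / y ^ (n - 1) = y * (Real.sqrt 2 * w (2 * n - 1)) := by
    rw [div_eq_mul_one_div, hy1]; ring
  have h1 : n * w n ≥ n * ((4 * n + 3) / (4 * n + 5)) * w (n - 1) := by
    have h2 : (4 * (n : ℝ) + 3) / (4 * n + 5) * w (n - 1) ≤ w n := by
      rw [div_mul_eq_mul_div, div_le_iff₀ (by positivity)]
      linarith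
    have := mul_le_mul_of_nonneg_left h2 hn0.le
    linarith
  have h2 : y * (Real.sqrt 2 * w (2 * n - 1)) ≤ y * ((1 + 1 / (4 * n + 2)) * w (n - 1)) :=
    mul_le_mul_of_nonneg_left hrho hy0.le
  rw [e1]
  have h3 : ((n : ℝ) - 1) * y * w (n - 1) + y * ((1 + 1 / (4 * n + 2)) * w (n - 1)) -
      n * ((4 * n + 3) / (4 * n + 5)) * w (n - 1) =
      (y * (n + 1 / (4 * n + 2)) - n * ((4 * n + 3) / (4 * n + 5))) * w (n - 1) := by ring
  have h4 : y * (n + 1 / (4 * n + 2)) ≤ n - 693 / 2000 + 120063 / 1000000 / (2 * n) + 1 / (4 * n + 2) := by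
    have h5 : (0 : ℝ) ≤ n + 1 / (4 * n + 2) := by positivity
    have h6 := mul_le_mul_of_nonneg_right hyle h5
    refine h6.trans ?_
    have h7 : (1 - 693 / 2000 / (n : ℝ) + (693 / 2000 / n) ^ 2 / 2) * (n + 1 / (4 * n + 2)) =
        n - 693 / 2000 + (693 / 2000) ^ 2 / (2 * n) + (1 - 693 / 2000 / (n : ℝ) + (693 / 2000 / n) ^ 2 / 2) *
        (1 / (4 * n + 2)) := by
      field_simp
    rw [h7]
    have h8 : (1 - 693 / 2000 / (n : ℝ) + (693 / 2000 / n) ^ 2 / 2) ≤ 1 := by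
      have : 693 / 2000 / (n : ℝ) ≤ 1 := by rw [div_le_one hn0]; linarith
      have h0 : 0 ≤ 693 / 2000 / (n : ℝ) := by positivity
      nlinarith
    have h9 : (1 - 693 / 2000 / (n : ℝ) + (693 / 2000 / n) ^ 2 / 2) * (1 / (4 * n + 2)) ≤ 1 * (1 / (4 * n + 2)) :=
      mul_le_mul_of_nonneg_right h8 (by positivity)
    have h10 : (693 / 2000 : ℝ) ^ 2 / (2 * n) ≤ 120063 / 1000000 / (2 * n) := by
      apply div_le_div_of_nonneg_right _ (by positivity)
      norm_num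
    linarith
  have h5 : y * (n + 1 / (4 * n + 2)) - n * ((4 * n + 3) / (4 * n + 5)) ≤
      -(693 / 2000) + 120063 / 1000000 / (2 * n) + 1 / (4 * n + 2) + 2 * n / (4 * n + 5) := by
    have : (n : ℝ) - n * ((4 * n + 3) / (4 * n + 5)) = 2 * n / (4 * n + 5) := by field_simp; ring
    linarith
  have h6 := mul_le_mul_of_nonneg_right h5 hw.le
  linarith

/-- `2 ≤ F^n w_n` -/
lemma F_ok {n n0 : ℕ} {F : ℝ} (hF : 0 < F) (h0 : 200 / 314 * ((n0 : ℝ) + 2) ≤ (F ^ 2) ^ n0)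
    (h1 : ((n0 : ℝ) + 3) ≤ F ^ 2 * (n0 + 2)) (hn : n0 ≤ n) : 2 ≤ F ^ n * w n := by
  have h2 : 200 / 314 * ((n : ℝ) + 2) ≤ (F ^ 2) ^ n := by
    induction n, hn using Nat.le_induction with
    | base => exact h0
    | succ m hm ih =>
      have hmR : (n0 : ℝ) ≤ m := by exact_mod_cast hm
      have h3 : ((m : ℝ) + 3) ≤ F ^ 2 * (m + 2) := by
        have h4 : 1 ≤ F ^ 2 := by
          have : (0 : ℝ) ≤ n0 := Nat.cast_nonneg _
          nlinarith
        nlinarith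
      rw [pow_succ]
      have h5 : (0 : ℝ) ≤ F ^ 2 := sq_nonneg _
      have h6 := mul_le_mul_of_nonneg_right ih h5
      push_cast
      nlinarith
  have h3 := w_sq_ge n
  have hw := w_pos' n
  have h4 : (2 : ℝ) ^ 2 ≤ (F ^ n * w n) ^ 2 := by
    have e : (F ^ n * w n) ^ 2 = (F ^ 2) ^ n * w n ^ 2 := by rw [mul_pow, ← pow_mul, ← pow_mul, mul_comm n 2]
    rw [e]
    have h5 : (0 : ℝ) < (n : ℝ) + 2 := by positivity
    have h6 := mul_le_mul_of_nonneg_right h2 (sq_nonneg (w n))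
    nlinarith
  exact le_of_sq_le_sq h4 (by positivity)

theorem lam_le_quarter {r : ℝ → ℝ} (hr : Prof r) {n : ℕ} (hn : 5 ≤ n) (hN : NleB n r) :
    lam n r ≤ 1 / 4 := by
  have hw := w_pos' (n - 1)
  obtain ⟨y, hy, hb⟩ := bracket_le (n := n) (by omega)
  -- choice of α
  have hal : ∃ α : ℝ, 1 ≤ α ∧ (n : ℝ) ^ 2 ≤ α ^ 2 * (5 * n + 4) ∧
      α ^ 2 = if n = 5 then 1 else (n : ℝ) ^ 2 / (5 * n + 4) := by
    by_cases h5 : n = 5
    · refine ⟨1, le_rfl, ?_, by simp [h5]⟩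
      rw [h5]; norm_num
    · have h6 : (6 : ℝ) ≤ n := by exact_mod_cast (by omega : 6 ≤ n)
      have h7 : (0 : ℝ) < 5 * n + 4 := by linarith
      refine ⟨Real.sqrt ((n : ℝ) ^ 2 / (5 * n + 4)), ?_, ?_, ?_⟩
      · rw [Real.one_le_sqrt, one_le_div h7]
        nlinarith
      · rw [Real.sq_sqrt (by positivity), div_mul_cancel₀ _ h7.ne']
      · rw [Real.sq_sqrt (by positivity), if_neg h5]
  obtain ⟨α, hα, hαn, hα2⟩ := hal
  -- it suffices
  suffices h : ∃ F : ℝ, 0 < F ∧ 2 ≤ F ^ n * w n ∧ F * (1 / 100 + 9 / 25 * (α ^ 2 / (n - 1)) +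
      (-(693 / 2000) + 120063 / 1000000 / (2 * n) + 1 / (4 * n + 2) + 2 * n / (4 * n + 5))) ≤ 1 / 4 by
    obtain ⟨F, hF, hFw, hS⟩ := h
    have h1 := lam_le_aux hr (n := n) (by omega) hN hF hFw hα hαn hy
    have h2 : (1 / 100 + 9 / 25 * (α ^ 2 / (n - 1)) + ((n : ℝ) - 1) * y) * w (n - 1) +
      w (2 * n - 1) / y ^ (n - 1) - n * w n ≤ (1 / 100 + 9 / 25 * (α ^ 2 / (n - 1)) +
      (-(693 / 2000) + 120063 / 1000000 / (2 * n) + 1 / (4 * n + 2) + 2 * n / (4 * n + 5))) * w (n - 1) := by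
      linarith
    have h3 := mul_le_mul_of_nonneg_left h2 hF.le
    have h4 := mul_le_mul_of_nonneg_right hS hw.le
    have h5 : lam n r * w (n - 1) ≤ 1 / 4 * w (n - 1) := by linarith
    exact le_of_mul_le_mul_right h5 hw
  by_cases c1 : n ≤ 11
  · refine ⟨117 / 100, by norm_num, F_ok (n0 := 5) (by norm_num) (by norm_num) (by norm_num) hn, ?_⟩
    rw [hα2]
    interval_cases n <;> norm_num
  by_cases c2 : n ≤ 26
  · refine ⟨111 / 100, by norm_num, F_ok (n0 := 12) (by norm_num) (by norm_num) (by norm_num) (by omega), ?_⟩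
    rw [hα2]
    have : 12 ≤ n := by omega
    clear c1
    interval_cases n <;> norm_num
  · refine ⟨106 / 100, by norm_num, F_ok (n0 := 27) (by norm_num) (by norm_num) (by norm_num) (by omega), ?_⟩
    rw [hα2, if_neg (by omega)]
    have h27 : (27 : ℝ) ≤ n := by exact_mod_cast (by omega : 27 ≤ n)
    have hn1 : (0 : ℝ) < (n : ℝ) - 1 := by linarith
    have hn0 : (0 : ℝ) < n := by linarith
    have h1 : (n : ℝ) ^ 2 / (5 * n + 4) / (n - 1) ≤ 1 / 5 + 1 / (10 * n) := by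
      rw [div_div, div_le_iff₀ (by positivity)]
      have : (1 / 5 + 1 / (10 * (n : ℝ))) * ((5 * n + 4) * (n - 1)) =
        n ^ 2 + (3 / 10 * n - 9 / 10) - 2 / (5 * n) := by field_simp; ring
      rw [this]
      have h2 : 2 / (5 * (n : ℝ)) ≤ 1 := by rw [div_le_one (by positivity)]; linarith
      linarith
    have h3 : 2 * (n : ℝ) / (4 * n + 5) ≤ 1 / 2 - 1 / (2 * n) := by
      rw [div_le_iff₀ (by positivity)]
      have : (1 / 2 - 1 / (2 * (n : ℝ))) * (4 * n + 5) = 2 * n + 1 / 2 - 5 / (2 * n) := by field_simp; ring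
      rw [this]
      have h2 : 5 / (2 * (n : ℝ)) ≤ 1 / 2 := by rw [div_le_iff₀ (by positivity)]; linarith
      linarith
    have h4 : 1 / (4 * (n : ℝ) + 2) ≤ 1 / 4 * (1 / n) := by
      rw [one_div_mul_one_div, one_div_le_one_div (by positivity) (by positivity)]
      linarith
    have e1 : 1 / (10 * (n : ℝ)) = 1 / 10 * (1 / n) := by rw [one_div_mul_one_div]
    have e2 : 1 / (2 * (n : ℝ)) = 1 / 2 * (1 / n) := by rw [one_div_mul_one_div]
    have e3 : 120063 / 1000000 / (2 * (n : ℝ)) = 120063 / 2000000 * (1 / n) := by field_simp; norm_num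
    rw [e1] at h1
    rw [e2] at h3
    rw [e3]
    have h5 : (0 : ℝ) < 1 / n := by positivity
    nlinarith


/-! ### the lower bound for `λ` -/

/-- Huygens: `log (s/(1-c)) ≤ (2c/s + c)/3` -/
lemma huygens {s : ℝ} (hs : s ∈ Ioo (0 : ℝ) 1) :
    Real.log (s / (1 - cc s)) ≤ (2 * (cc s / s) + cc s) / 3 := by
  have hpos : ∀ x ∈ Icc s 1, 0 < 1 - cc x := by
    intro x hx
    have : cc x < 1 := by
      unfold cc
      rw [Real.sqrt_lt' one_pos]
      nlinarith [hx.1, hs.1]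
    linarith
  set g : ℝ → ℝ := fun x => (2 * (cc x / x) + cc x) / 3 - Real.log (x / (1 - cc x)) with hg
  have hcc := cc_continuous
  have hanti : AntitoneOn g (Icc s 1) := by
    refine antitoneOn_of_hasDerivWithinAt_nonpos (f' := fun x =>
      -((1 - x) ^ 2 * (x + 2) / (3 * cc x * x ^ 2))) (convex_Icc _ _) ?_ ?_ ?_
    · have h0 : ∀ x ∈ Icc s 1, x ≠ 0 := fun x hx => (by linarith [hs.1, hx.1] : 0 < x).ne'
      refine ContinuousOn.sub (ContinuousOn.div_const ((continuousOn_const.mul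
        (hcc.continuousOn.div continuousOn_id h0)).add hcc.continuousOn) _) ?_
      refine ContinuousOn.log (continuousOn_id.div (continuousOn_const.sub hcc.continuousOn)
        fun x hx => (hpos x hx).ne') fun x hx => ?_
      have h1 : 0 < x := by linarith [hs.1, hx.1]
      exact (div_pos h1 (hpos x hx)).ne'
    · intro x hx
      rw [interior_Icc] at hx
      have hx0 : 0 < x := by linarith [hs.1, hx.1]
      have hxI : x ∈ Icc s 1 := ⟨hx.1.le, hx.2.le⟩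
      have hp := hpos x hxI
      have hc : HasDerivAt cc (-x / cc x) x := Poinc.hasDerivAt_c hx0.le hx.2
      have hcp : 0 < cc x := cc_pos ⟨by linarith, hx.2⟩
      have hc2 : cc x ^ 2 = 1 - x ^ 2 := cc_sq ⟨by linarith, hx.2.le⟩
      have h1 := (((hc.fun_div (hasDerivAt_id x) hx0.ne').const_mul 2).fun_add hc).div_const 3
      have h2 := ((hasDerivAt_id x).fun_div (hc.const_sub 1) hp.ne').log (div_pos hx0 hp).ne'
      have h3 := (h1.fun_sub h2).hasDerivWithinAt (s := interior (Icc s 1))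
      refine h3.congr_deriv ?_
      simp only [id]
      have hx2 : x ^ 2 = 1 - cc x ^ 2 := by linarith
      have hne : 1 - cc x ≠ 0 := hp.ne'
      have hne2 := hcp.ne'
      have hne3 := hx0.ne'
      generalize cc x = c at *
      have e1 : (1 * (1 - c) - x * -(-x / c)) = -(1 - c) / c := by
        field_simp
        linear_combination (-1 : ℝ) * hx2
      have e2 : (-x / c * x - c * 1) = -1 / c := by
        field_simp
        linear_combination (-1 : ℝ) * hx2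
      rw [e1, e2]
      have e3 : -(1 - c) / c / (1 - c) ^ 2 / (x / (1 - c)) = -1 / (c * x) := by
        field_simp
      rw [e3]
      field_simp
      ring
    · intro x hx
      rw [interior_Icc] at hx
      have hx0 : 0 < x := by linarith [hs.1, hx.1]
      have hcp : 0 < cc x := cc_pos ⟨by linarith, hx.2⟩
      have : 0 ≤ (1 - x) ^ 2 * (x + 2) / (3 * cc x * x ^ 2) := by positivity
      linarith
  have h1 : g 1 = 0 := by
    have : cc 1 = 0 := by unfold cc; simp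
    simp only [hg, this]
    simp
  have h2 := hanti (show s ∈ Icc s 1 from ⟨le_rfl, hs.2.le⟩) (show (1 : ℝ) ∈ Icc s 1 from ⟨hs.2.le, le_rfl⟩) hs.2.le
  rw [h1] at h2
  simp only [hg] at h2
  linarith

lemma neg_ll_le {r : ℝ → ℝ} (hr : Prof r) (n : ℕ) {s : ℝ} (hs : s ∈ Ioo (0 : ℝ) 1) :
    -ll n r s ≤ (2 * (cc s / s) + 1) / 3 := by
  have h1 := one_sub_le_tau hr n (s := s) ⟨hs.1.le, hs.2.le⟩
  have e : Real.sqrt (1 - s ^ 2) = cc s := rfl
  rw [e] at h1
  have hc : cc s < 1 := by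
    unfold cc
    rw [Real.sqrt_lt' one_pos]
    nlinarith [hs.1]
  have hT := tau_pos hr n (s := s) ⟨hs.1, hs.2.le⟩
  have h2 := huygens hs
  have h3 : -ll n r s ≤ Real.log (s / (1 - cc s)) := by
    rw [ll_of_ne n hs.1.ne', ← Real.log_inv, inv_div]
    apply Real.log_le_log (div_pos hs.1 hT)
    exact div_le_div_of_nonneg_left hs.1.le (by linarith) h1
  have h4 := cc_le_one s
  linarith

/-- `12 ≤ (2k+5) w_k`, `k ≥ 2` -/
lemma w_two' : w 2 = 4 / 3 := by
  have h := w_rec 0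
  rw [w_zero] at h
  norm_num at h
  linarith

lemma w_three' : w 3 = 3 * Real.pi / 8 := by
  have h := w_rec 1
  rw [w_one'] at h
  norm_num at h
  linarith

lemma w_low : ∀ k : ℕ, 12 ≤ (2 * ((k : ℝ) + 2) + 5) * w (k + 2) ∧
    12 ≤ (2 * ((k : ℝ) + 3) + 5) * w (k + 3) := by
  intro k
  induction k with
  | zero =>
    have h := Real.pi_gt_d2
    rw [show (0 : ℕ) + 2 = 2 from rfl, show (0 : ℕ) + 3 = 3 from rfl, w_two', w_three']
    push_cast
    constructor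
    · norm_num
    · linarith
  | succ k ih =>
    refine ⟨?_, ?_⟩
    · have h := ih.2
      push_cast
      have e : (2 * ((k : ℝ) + 1 + 2) + 5) * w (k + 1 + 2) = (2 * ((k : ℝ) + 3) + 5) * w (k + 3) := by ring_nf
      rw [e]; exact h
    · have h := ih.1
      have hr := w_rec (k + 2)
      push_cast at hr
      have hw := w_pos' (k + 2)
      have e1 : w (k + 2 + 2) = w (k + 2) * (k + 4) / (k + 5) := by
        rw [eq_div_iff (by positivity)]; linarith
      have e2 : w (k + 1 + 3) = w (k + 2 + 2) := by ring_nf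
      rw [e2, e1]
      push_cast
      have hk : (0 : ℝ) ≤ k := Nat.cast_nonneg k
      have e3 : (2 * ((k : ℝ) + 1 + 3) + 5) * (w (k + 2) * (k + 4) / (k + 5)) =
        (2 * (k + 2) + 5) * w (k + 2) + w (k + 2) * (2 * k + 7) / (k + 5) := by
        field_simp; ring
      rw [e3]
      have : 0 ≤ w (k + 2) * (2 * (k : ℝ) + 7) / (k + 5) := by positivity
      linarith

/-- `∫_0^1 s c^k = 1/(k+2)` -/
lemma int_s_cpow (k : ℕ) : ∫ s in (0 : ℝ)..1, s * cc s ^ k = 1 / (k + 2) := by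
  have h := intervalIntegral.integral_eq_sub_of_hasDerivAt_of_le (a := (0 : ℝ)) (b := 1) zero_le_one
    (f := fun s => cc s ^ (k + 2)) (f' := fun s => -((k : ℝ) + 2) * s * cc s ^ k)
    (cc_continuous.pow _).continuousOn (fun s hs => Poinc.hasDerivAt_cpow k hs.1.le hs.2)
    ((by have := cc_continuous; fun_prop : Continuous fun s => -((k : ℝ) + 2) * s * cc s ^ k).intervalIntegrable _ _)
  have h0 : cc 0 = 1 := by unfold cc; simp
  have h1 : cc 1 = 0 := by unfold cc; simp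
  rw [h0, h1] at h
  have e : ∫ s in (0 : ℝ)..1, -((k : ℝ) + 2) * s * cc s ^ k = -((k : ℝ) + 2) * ∫ s in (0 : ℝ)..1, s * cc s ^ k := by
    rw [← intervalIntegral.integral_const_mul]
    congr 1; ext s; ring
  rw [e] at h
  have hk : (k : ℝ) + 2 ≠ 0 := by positivity
  rw [zero_pow (by omega), one_pow] at h
  rw [eq_div_iff hk]
  linarith

theorem lam_ge {r : ℝ → ℝ} (hr : Prof r) {n : ℕ} (hn : 5 ≤ n) :
    -(2 * ((n : ℝ) + 1) / 9) ≤ lam n r := by
  have hw := w_pos' (n - 1)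
  have hnR : (5 : ℝ) ≤ n := by exact_mod_cast hn
  have h1 := lam_mul (r := r) (n := n) (by omega)
  have hl := continuousOn_ll hr n
  have n1 : NI n (fun s => Y s * ll n r s) := NI_Y (by omega) hl
  have n2 : NI n (fun s => Y s * (1 : ℝ)) := NI_Y (by omega) continuousOn_const
  have hcs : ∀ s ∈ Ioo (0 : ℝ) 1, s * cc s ^ (n - 2) = cc s ^ (n - 1) * (Y s * (cc s / s)) := by
    intro s hs
    have h2 := pow_mul_Y (n := n) (by omega) hs
    have h3 : cc s ^ (n - 2) = cc s ^ (n - 3) * cc s := by rw [← pow_succ]; congr 1; omega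
    rw [← mul_assoc, h2, h3]
    have := hs.1.ne'
    field_simp
  have n3 : NI n (fun s => Y s * (cc s / s)) :=
    NI_of (g := fun s => s * cc s ^ (n - 2))
      ((by have := cc_continuous; fun_prop : Continuous fun s => s * cc s ^ (n - 2)).intervalIntegrable _ _) hcs
  have h3 : JJ n (fun s => Y s * (cc s / s)) = 1 / n := by
    rw [JJ_of hcs, int_s_cpow]
    have : ((n - 2 : ℕ) : ℝ) + 2 = n := by rw [Nat.cast_sub (by omega)]; push_cast; ring
    rw [this]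
  have h4 : JJ n (fun s => (-1 : ℝ) * (Y s * ll n r s)) ≤
      JJ n (fun s => 2 / 3 * (Y s * (cc s / s)) + 1 / 3 * (Y s * (1 : ℝ))) := by
    refine JJ_mono (n1.smul _) ((n3.smul _).add (n2.smul _)) fun s hs => ?_
    have := mul_le_mul_of_nonneg_left (neg_ll_le hr n hs) (Y_nonneg hs)
    linarith
  rw [JJ_smul, JJ_add (n3.smul _) (n2.smul _), JJ_smul, JJ_smul, h3] at h4
  have h5 := JJ_Y (n := n) (by omega)
  have h6 := JJ_one n
  have hn1 : (0 : ℝ) < (n : ℝ) - 1 := by linarith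
  have h7 := mul_le_mul_of_nonneg_left h4 hn1.le
  have h8 : -(lam n r * (w (n - 1) / 2)) ≤ 2 / 3 * (((n : ℝ) - 1) / n) + 1 / 3 * (w (n - 1) / 2) := by
    rw [h1, ← h6, ← h5]
    have e : ((n : ℝ) - 1) * (2 / 3 * (1 / n) + 1 / 3 * JJ n (fun s => Y s * (1 : ℝ))) =
      2 / 3 * (((n : ℝ) - 1) / n) + 1 / 3 * (((n : ℝ) - 1) * JJ n (fun s => Y s * (1 : ℝ))) := by ring
    rw [e] at h7
    linarith
  -- (n-1)/n ≤ (2n-1)/12 w_{n-1}
  have h9 : ((n : ℝ) - 1) / n ≤ (2 * n - 1) / 12 * w (n - 1) := by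
    obtain ⟨k, rfl⟩ : ∃ k, n = k + 5 := ⟨n - 5, by omega⟩
    have h10 := (w_low k).1
    have h11 := w_rec (k + 2)
    push_cast at h11
    have e1 : k + 5 - 1 = k + 2 + 2 := by omega
    rw [e1]
    push_cast
    have hk : (0 : ℝ) ≤ k := Nat.cast_nonneg k
    rw [div_le_iff₀ (by positivity)]
    have e2 : (2 * ((k : ℝ) + 5) - 1) / 12 * w (k + 2 + 2) * (k + 5) =
      (2 * ((k : ℝ) + 5) - 1) / 12 * (w (k + 2 + 2) * (k + 2 + 3)) := by ring
    rw [e2, h11]
    have e3 : (2 * ((k : ℝ) + 5) - 1) / 12 * (w (k + 2) * (k + 2 + 2)) =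
      (k + 4) / 12 * ((2 * ((k : ℝ) + 2) + 5) * w (k + 2)) := by ring
    rw [e3]
    have h12 : (0 : ℝ) ≤ (k + 4) / 12 := by positivity
    have := mul_le_mul_of_nonneg_left h10 h12
    linarith
  have h10 : -(lam n r * (w (n - 1) / 2)) ≤ (2 * (n + 1) / 9) * (w (n - 1) / 2) := by
    have e : 2 / 3 * ((2 * (n : ℝ) - 1) / 12 * w (n - 1)) + 1 / 3 * (w (n - 1) / 2) =
      (2 * (n + 1) / 9) * (w (n - 1) / 2) := by ring
    linarith
  have h11 : (-(2 * ((n : ℝ) + 1) / 9)) * (w (n - 1) / 2) ≤ lam n r * (w (n - 1) / 2) := by linarith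
  exact le_of_mul_le_mul_right h11 (by positivity)

end Crest.Agent.R230.LamB
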