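import Crest.Agent.R230.LegalC

-- ▼ part R230/LegalE
section

/-!
# Row 230: explicit bounds for `l = log (tau/s)` (helper446), general chain
-/

set_option autoImplicit false

open MeasureTheory Set Filter Topology
open scoped Pointwise ENNReal Real

namespace Crest.Agent.R230

open WR

section

variable {n : ℕ} {r : ℝ → ℝ}

/-- start of a chain: `F₀ ≤ 89/100` on `(0,a]` -/
theorem regA_start {a c H : ℝ} (ha : a ∈ Ioo (0 : ℝ) 1)
    (hH : hB n 0 ≤ H) (hc0 : 0 ≤ c) (hc : c ^ 2 ≤ 1 - a ^ 2)
    (hchk : 11 * (H * (1 + (n + 1) * a ^ 2)) ≤ 100 * (a * c ^ (n + 2))) :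
    ∀ s ∈ Ioc (0 : ℝ) a, lB n s ≤ 89 / 100 * hB n 0 := by
  intro s hs
  have hcs : c ≤ Real.sqrt (1 - a ^ 2) := Real.le_sqrt_of_sq_le hc
  have hz := haz1 n (s := a) ⟨ha.1.le, ha.2.le⟩
  have hD : 0 < 1 + ((n : ℝ) + 1) * a ^ 2 := by positivity
  have h8 : a * c ^ (n + 2) ≤ (1 + (n + 1) * a ^ 2) * hB n a := by
    refine le_trans (mul_le_mul_of_nonneg_left (pow_le_pow_left₀ hc0 hcs _) ha.1.le) hz
  have h9 : (1 + ((n : ℝ) + 1) * a ^ 2) * hB n 0 ≤ (1 + (n + 1) * a ^ 2) * (100 / 11 * hB n a) := by
    have := mul_le_mul_of_nonneg_right hH hD.le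
    linarith
  have h10 := le_of_mul_le_mul_left h9 hD
  have h11 := lB_add_hB n a
  have h12 := lB_mono n hs.2
  linarith

/-- general step -/
theorem chain_step (hr : Prof r) {e H : ℝ} (hU : ConeUB n r e)
    (he0 : 0 ≤ e) (he : e < 1) (hH : hB n 0 ≤ H) {a b t c : ℝ} (hb : b < 1)
    (ht1 : t ≤ 1) (hc0 : 0 ≤ c) (hc : c ^ 2 ≤ 1 - b ^ 2)
    (hchk : ((1 - (1 - e) * t) ^ (n + 1) - e ^ (n + 1)) * H * (1 + (n + 1) * b ^ 2) ≤
      (1 - e ^ (n + 1)) * (b * c ^ (n + 2)))
    (P : ℝ → Prop) (hA : ∀ s ∈ Ioo (0 : ℝ) 1, lB n s ≤ 89 / 100 * hB n 0 → P s)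
    (hP : ∀ s ∈ Ioo (0 : ℝ) 1, a ≤ s → s ≤ b → tau n r s ≤ t → P s)
    (hprev : ∀ s ∈ Ioc (0 : ℝ) a, P s) : ∀ s ∈ Ioc (0 : ℝ) b, P s := by
  intro s hs
  rcases le_total s a with h | h
  · exact hprev s ⟨hs.1, h⟩
  have hs' : s ∈ Ioo (0 : ℝ) 1 := ⟨hs.1, by linarith [hs.2]⟩
  rcases le_total (lB n s) (89 / 100 * hB n 0) with hF | hF
  · exact hA s hs' hF
  · have hb' : b ∈ Ioo (0 : ℝ) 1 := ⟨by linarith [hs.1, hs.2], by linarith⟩
    have hFb : 89 / 100 * hB n 0 ≤ lB n b := hF.trans (lB_mono n hs.2)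
    have h1 := tau_le_of_chk hr hU he0 he hb' hFb ht1 hH hc0 hc hchk
    have h2 : tau n r s ≤ tau n r b := (tau_strictMonoOn hr n).monotoneOn
      ⟨by linarith [hs.1], hs'.2.le⟩ ⟨by linarith [hb'.1], hb'.2.le⟩ hs.2
    exact hP s hs' h hs.2 (h2.trans h1)

lemma ll_le_of_tau (hr : Prof r) {a t L s : ℝ} (ha : 0 < a) (hs : s ∈ Ioo (0 : ℝ) 1) (has : a ≤ s)
    (hT : tau n r s ≤ t) (hL0 : 0 ≤ L) (hL : t ≤ a * (1 + L + L ^ 2 / 2 + L ^ 3 / 6 + L ^ 4 / 24)) :
    ll n r s ≤ L := by
  have hTp := tau_pos hr n (s := s) ⟨hs.1, hs.2.le⟩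
  rw [ll_eq_log hs, Real.log_le_iff_le_exp (div_pos hTp hs.1), div_le_iff₀' hs.1]
  have h1 := Real.sum_le_exp_of_nonneg hL0 5
  simp only [Finset.sum_range_succ, Finset.sum_range_zero, Nat.factorial] at h1
  norm_num at h1
  have h2 : 1 + L + L ^ 2 / 2 + L ^ 3 / 6 + L ^ 4 / 24 ≤ Real.exp L := by linarith
  calc tau n r s ≤ a * (1 + L + L ^ 2 / 2 + L ^ 3 / 6 + L ^ 4 / 24) := hT.trans hL
    _ ≤ a * Real.exp L := mul_le_mul_of_nonneg_left h2 ha.le
    _ ≤ s * Real.exp L := mul_le_mul_of_nonneg_right has (Real.exp_pos _).le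

/-- one step of the chain for `ll ≤ L` -/
theorem ll_step (hn : 5 ≤ n) (hr : Prof r) (hN : NleB n r) {e H : ℝ} (hU : ConeUB n r e)
    (he0 : 0 ≤ e) (he : e < 1) (hH : hB n 0 ≤ H) {a b t c : ℝ} (ha : 0 < a) (hb : b < 1)
    (ht : t ≤ a * (211 / 128)) (ht1 : t ≤ 1) (hc0 : 0 ≤ c) (hc : c ^ 2 ≤ 1 - b ^ 2)
    (hchk : ((1 - (1 - e) * t) ^ (n + 1) - e ^ (n + 1)) * H * (1 + (n + 1) * b ^ 2) ≤
      (1 - e ^ (n + 1)) * (b * c ^ (n + 2)))
    (hprev : ∀ s ∈ Ioc (0 : ℝ) a, ll n r s ≤ 1 / 2) : ∀ s ∈ Ioc (0 : ℝ) b, ll n r s ≤ 1 / 2 := by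
  refine chain_step hr hU he0 he hH hb ht1 hc0 hc hchk _ (fun s hs hF => ?_) (fun s hs h1 _ h3 => ?_) hprev
  · have h := ll_le_regA hn hr hN hs hF
    have hc0 := cc_nonneg s
    have hc1 := cc_le_one s
    nlinarith [mul_nonneg hc0 (sub_nonneg.2 hc1)]
  · refine ll_le_of_tau hr ha hs h1 h3 (by norm_num) (ht.trans (le_of_eq ?_))
    norm_num

theorem ll_half_end (hr : Prof r) (hprev : ∀ s ∈ Ioc (0 : ℝ) (607 / 1000), ll n r s ≤ 1 / 2) :
    ∀ s ∈ Ioo (0 : ℝ) 1, ll n r s ≤ 1 / 2 := by
  intro s hs
  rcases le_total s (607 / 1000) with h | h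
  · exact hprev s ⟨hs.1, h⟩
  · refine ll_le_of_tau hr (a := 607 / 1000) (t := 1) (by norm_num) hs h
      (tau_mem_Icc hr n (s := s) ⟨by linarith [hs.1], hs.2.le⟩).2 (by norm_num) (by norm_num)

theorem ll_half_start (hn : 5 ≤ n) (hr : Prof r) (hN : NleB n r) {a : ℝ} (ha : a < 1)
    (h0 : ∀ s ∈ Ioc (0 : ℝ) a, lB n s ≤ 89 / 100 * hB n 0) :
    ∀ s ∈ Ioc (0 : ℝ) a, ll n r s ≤ 1 / 2 := by
  intro s hs
  have h := ll_le_regA hn hr hN (s := s) ⟨hs.1, hs.2.trans_lt ha⟩ (h0 s hs)
  have hc0 := cc_nonneg s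
  have hc1 := cc_le_one s
  nlinarith [mul_nonneg hc0 (sub_nonneg.2 hc1)]

/-- one step of the chain for `ll (1+c) ≤ c²` -/
theorem simp_step (hn : 5 ≤ n) (hr : Prof r) (hN : NleB n r) {e H : ℝ} (hU : ConeUB n r e)
    (he0 : 0 ≤ e) (he : e < 1) (hH : hB n 0 ≤ H) {a b t c L : ℝ} (ha : 0 < a) (hb : b < 1)
    (hL0 : 0 ≤ L) (ht : t ≤ a * (1 + L + L ^ 2 / 2 + L ^ 3 / 6 + L ^ 4 / 24)) (ht1 : t ≤ 1)
    (hc0 : 0 ≤ c) (hc : c ^ 2 ≤ 1 - b ^ 2) (hLc : L * (1 + c) ≤ c ^ 2) (hLc' : L ≤ c)
    (hchk : ((1 - (1 - e) * t) ^ (n + 1) - e ^ (n + 1)) * H * (1 + (n + 1) * b ^ 2) ≤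
      (1 - e ^ (n + 1)) * (b * c ^ (n + 2)))
    (hprev : ∀ s ∈ Ioc (0 : ℝ) a, ll n r s * (1 + cc s) ≤ cc s ^ 2) :
    ∀ s ∈ Ioc (0 : ℝ) b, ll n r s * (1 + cc s) ≤ cc s ^ 2 := by
  refine chain_step hr hU he0 he hH hb ht1 hc0 hc hchk _ (fun s hs hF => ll_le_regA hn hr hN hs hF)
    (fun s hs h1 h2 h3 => ?_) hprev
  have h := ll_le_of_tau hr ha hs h1 h3 hL0 ht
  have hcs : c ≤ cc s := by
    refine Real.le_sqrt_of_sq_le ?_
    nlinarith [hs.1]
  have h4 : ll n r s * (1 + cc s) ≤ L * (1 + cc s) :=
    mul_le_mul_of_nonneg_right h (by linarith [cc_nonneg s])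
  nlinarith [mul_nonneg (sub_nonneg.2 hcs) (by linarith : 0 ≤ cc s + c - L)]

theorem simp_end (hr : Prof r) (hprev : ∀ s ∈ Ioc (0 : ℝ) (4 / 5), ll n r s * (1 + cc s) ≤ cc s ^ 2) :
    ∀ s ∈ Ioo (0 : ℝ) 1, ll n r s * (1 + cc s) ≤ cc s ^ 2 := by
  intro s hs
  rcases le_total s (4 / 5) with h | h
  · exact hprev s ⟨hs.1, h⟩
  · have hTp := tau_pos hr n (s := s) ⟨hs.1, hs.2.le⟩
    have hT1 := (tau_mem_Icc hr n (s := s) ⟨by linarith [hs.1], hs.2.le⟩).2
    have hs0 := hs.1
    have hc0 := cc_nonneg s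
    have hc2 : cc s ^ 2 = 1 - s ^ 2 := cc_sq ⟨by linarith [hs.1], hs.2.le⟩
    have h1 : ll n r s ≤ Real.log (1 / s) := by
      rw [ll_eq_log hs]
      exact Real.log_le_log (by positivity) (div_le_div_of_nonneg_right hT1 hs0.le)
    have h2 : Real.log (1 / s) ≤ cc s ^ 2 / (2 * s) := by
      have h := log_le_half (x := 1 / s) (by rw [le_div_iff₀ hs0]; linarith [hs.2])
      have e : (1 / s - (1 / s)⁻¹) / 2 = cc s ^ 2 / (2 * s) := by
        rw [hc2]; field_simp
      rwa [e] at h
    have h3 : cc s ≤ 3 / 5 := by nlinarith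
    have h4 : 1 + cc s ≤ 2 * s := by linarith
    calc ll n r s * (1 + cc s) ≤ cc s ^ 2 / (2 * s) * (1 + cc s) :=
          mul_le_mul_of_nonneg_right (h1.trans h2) (by linarith)
      _ ≤ cc s ^ 2 / (2 * s) * (2 * s) := mul_le_mul_of_nonneg_left h4 (by positivity)
      _ = cc s ^ 2 := by field_simp

theorem simp_start (hn : 5 ≤ n) (hr : Prof r) (hN : NleB n r) {a : ℝ} (ha : a < 1)
    (h0 : ∀ s ∈ Ioc (0 : ℝ) a, lB n s ≤ 89 / 100 * hB n 0) :
    ∀ s ∈ Ioc (0 : ℝ) a, ll n r s * (1 + cc s) ≤ cc s ^ 2 := fun s hs =>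
  ll_le_regA hn hr hN (s := s) ⟨hs.1, hs.2.trans_lt ha⟩ (h0 s hs)

end

end Crest.Agent.R230
end

-- ▼ part R230/LegalF

/-!
# Row 230: explicit bounds for `l = log (tau/s)` (helper446), numerical certificates
-/

set_option autoImplicit false

open MeasureTheory Set Filter Topology
open scoped Pointwise ENNReal Real

namespace Crest.Agent.R230

open WR

lemma coneData_n5 {r : ℝ → ℝ} (hr : Prof r) (hN : NleB 5 r) :
    hB 5 0 ≤ 245437 / 500000 ∧ ConeUB 5 r (5847 / 10000) ∧
      ∀ s ∈ Ioc (0 : ℝ) (277 / 500), lB 5 s ≤ 89 / 100 * hB 5 0 := by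
  have hp1 := Real.pi_gt_d6
  have hp2 := Real.pi_lt_d6
  have hw1 : 981747 / 1000000 ≤ w 5 := by rw [lgw_5]; linarith
  have hw2 : w 4 ≤ 1066667 / 1000000 := by rw [lgw_4]; linarith
  have hH : hB 5 0 ≤ 245437 / 500000 := by
    have h := w_eq_two_hB 5
    rw [lgw_5] at h
    linarith
  refine ⟨hH, ?_, ?_⟩
  · refine coneUB_of (T₁ := 66147 / 100000) (by norm_num) hr hN (by norm_num) (by norm_num) ?_ (by norm_num) (by norm_num)
    calc 89 / 200 * w (5 - 1) ^ 5 ≤ 89 / 200 * (1066667 / 1000000) ^ 5 := by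
          have := w_pos' 4
          gcongr
      _ ≤ 66147 / 100000 * (981747 / 1000000) ^ (5 - 1) := by norm_num
      _ ≤ _ := by gcongr
  · exact regA_start (c := 333 / 400) (by norm_num) hH (by norm_num) (by norm_num) (by norm_num)

theorem ll_half_n5 {r : ℝ → ℝ} (hr : Prof r) (hN : NleB 5 r) : ∀ s ∈ Ioo (0 : ℝ) 1, ll 5 r s ≤ 1 / 2 := by
  obtain ⟨hH, hU, hA⟩ := coneData_n5 hr hN
  have h0 := ll_half_start (by norm_num) hr hN (by norm_num) hA
  have h1 := ll_step (by norm_num) hr hN hU (by norm_num) (by norm_num) hH (a := 277 / 500) (b := 607 / 1000) (t := 91323 / 100000)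
    (c := 7947 / 10000) (by norm_num) (by norm_num) (by norm_num) (by norm_num) (by norm_num) (by norm_num) (by norm_num) h0
  exact ll_half_end hr h1

lemma coneData_n6 {r : ℝ → ℝ} (hr : Prof r) (hN : NleB 6 r) :
    hB 6 0 ≤ 457143 / 1000000 ∧ ConeUB 6 r (376 / 625) ∧
      ∀ s ∈ Ioc (0 : ℝ) (521 / 1000), lB 6 s ≤ 89 / 100 * hB 6 0 := by
  have hp1 := Real.pi_gt_d6
  have hp2 := Real.pi_lt_d6
  have hw1 : 182857 / 200000 ≤ w 6 := by rw [lgw_6]; linarith
  have hw2 : w 5 ≤ 245437 / 250000 := by rw [lgw_5]; linarith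
  have hH : hB 6 0 ≤ 457143 / 1000000 := by
    have h := w_eq_two_hB 6
    rw [lgw_6] at h
    linarith
  refine ⟨hH, ?_, ?_⟩
  · refine coneUB_of (T₁ := 62367 / 100000) (by norm_num) hr hN (by norm_num) (by norm_num) ?_ (by norm_num) (by norm_num)
    calc 89 / 200 * w (6 - 1) ^ 6 ≤ 89 / 200 * (245437 / 250000) ^ 6 := by
          have := w_pos' 5
          gcongr
      _ ≤ 62367 / 100000 * (182857 / 200000) ^ (6 - 1) := by norm_num
      _ ≤ _ := by gcongr
  · exact regA_start (c := 1707 / 2000) (by norm_num) hH (by norm_num) (by norm_num) (by norm_num)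

theorem ll_half_n6 {r : ℝ → ℝ} (hr : Prof r) (hN : NleB 6 r) : ∀ s ∈ Ioo (0 : ℝ) 1, ll 6 r s ≤ 1 / 2 := by
  obtain ⟨hH, hU, hA⟩ := coneData_n6 hr hN
  have h0 := ll_half_start (by norm_num) hr hN (by norm_num) hA
  have h1 := ll_step (by norm_num) hr hN hU (by norm_num) (by norm_num) hH (a := 521 / 1000) (b := 607 / 1000) (t := 85883 / 100000)
    (c := 7947 / 10000) (by norm_num) (by norm_num) (by norm_num) (by norm_num) (by norm_num) (by norm_num) (by norm_num) h0
  exact ll_half_end hr h1

lemma coneData_n7 {r : ℝ → ℝ} (hr : Prof r) (hN : NleB 7 r) :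
    hB 7 0 ≤ 85903 / 200000 ∧ ConeUB 7 r (6181 / 10000) ∧
      ∀ s ∈ Ioc (0 : ℝ) (247 / 500), lB 7 s ≤ 89 / 100 * hB 7 0 := by
  have hp1 := Real.pi_gt_d6
  have hp2 := Real.pi_lt_d6
  have hw1 : 859029 / 1000000 ≤ w 7 := by rw [lgw_7]; linarith
  have hw2 : w 6 ≤ 457143 / 500000 := by rw [lgw_6]; linarith
  have hH : hB 7 0 ≤ 85903 / 200000 := by
    have h := w_eq_two_hB 7
    rw [lgw_7] at h
    linarith
  refine ⟨hH, ?_, ?_⟩
  · refine coneUB_of (T₁ := 59141 / 100000) (by norm_num) hr hN (by norm_num) (by norm_num) ?_ (by norm_num) (by norm_num)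
    calc 89 / 200 * w (7 - 1) ^ 7 ≤ 89 / 200 * (457143 / 500000) ^ 7 := by
          have := w_pos' 6
          gcongr
      _ ≤ 59141 / 100000 * (859029 / 1000000) ^ (7 - 1) := by norm_num
      _ ≤ _ := by gcongr
  · exact regA_start (c := 4347 / 5000) (by norm_num) hH (by norm_num) (by norm_num) (by norm_num)

theorem ll_half_n7 {r : ℝ → ℝ} (hr : Prof r) (hN : NleB 7 r) : ∀ s ∈ Ioo (0 : ℝ) 1, ll 7 r s ≤ 1 / 2 := by
  obtain ⟨hH, hU, hA⟩ := coneData_n7 hr hN
  have h0 := ll_half_start (by norm_num) hr hN (by norm_num) hA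
  have h1 := ll_step (by norm_num) hr hN hU (by norm_num) (by norm_num) hH (a := 247 / 500) (b := 607 / 1000) (t := 10179 / 12500)
    (c := 7947 / 10000) (by norm_num) (by norm_num) (by norm_num) (by norm_num) (by norm_num) (by norm_num) (by norm_num) h0
  exact ll_half_end hr h1

lemma coneData_n8 {r : ℝ → ℝ} (hr : Prof r) (hN : NleB 8 r) :
    hB 8 0 ≤ 8127 / 20000 ∧ ConeUB 8 r (1267 / 2000) ∧
      ∀ s ∈ Ioc (0 : ℝ) (471 / 1000), lB 8 s ≤ 89 / 100 * hB 8 0 := by
  have hp1 := Real.pi_gt_d6
  have hp2 := Real.pi_lt_d6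
  have hw1 : 406349 / 500000 ≤ w 8 := by rw [lgw_8]; linarith
  have hw2 : w 7 ≤ 85903 / 100000 := by rw [lgw_7]; linarith
  have hH : hB 8 0 ≤ 8127 / 20000 := by
    have h := w_eq_two_hB 8
    rw [lgw_8] at h
    linarith
  refine ⟨hH, ?_, ?_⟩
  · refine coneUB_of (T₁ := 28177 / 50000) (by norm_num) hr hN (by norm_num) (by norm_num) ?_ (by norm_num) (by norm_num)
    calc 89 / 200 * w (8 - 1) ^ 8 ≤ 89 / 200 * (85903 / 100000) ^ 8 := by
          have := w_pos' 7
          gcongr
      _ ≤ 28177 / 50000 * (406349 / 500000) ^ (8 - 1) := by norm_num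
      _ ≤ _ := by gcongr
  · exact regA_start (c := 8821 / 10000) (by norm_num) hH (by norm_num) (by norm_num) (by norm_num)

theorem ll_half_n8 {r : ℝ → ℝ} (hr : Prof r) (hN : NleB 8 r) : ∀ s ∈ Ioo (0 : ℝ) 1, ll 8 r s ≤ 1 / 2 := by
  obtain ⟨hH, hU, hA⟩ := coneData_n8 hr hN
  have h0 := ll_half_start (by norm_num) hr hN (by norm_num) hA
  have h1 := ll_step (by norm_num) hr hN hU (by norm_num) (by norm_num) hH (a := 471 / 1000) (b := 607 / 1000) (t := 77641 / 100000)
    (c := 7947 / 10000) (by norm_num) (by norm_num) (by norm_num) (by norm_num) (by norm_num) (by norm_num) (by norm_num) h0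
  exact ll_half_end hr h1

lemma coneData_n9 {r : ℝ → ℝ} (hr : Prof r) (hN : NleB 9 r) :
    hB 9 0 ≤ 96641 / 250000 ∧ ConeUB 9 r (1619 / 2500) ∧
      ∀ s ∈ Ioc (0 : ℝ) (451 / 1000), lB 9 s ≤ 89 / 100 * hB 9 0 := by
  have hp1 := Real.pi_gt_d6
  have hp2 := Real.pi_lt_d6
  have hw1 : 386563 / 500000 ≤ w 9 := by rw [lgw_9]; linarith
  have hw2 : w 8 ≤ 812699 / 1000000 := by rw [lgw_8]; linarith
  have hH : hB 9 0 ≤ 96641 / 250000 := by
    have h := w_eq_two_hB 9
    rw [lgw_9] at h
    linarith
  refine ⟨hH, ?_, ?_⟩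
  · refine coneUB_of (T₁ := 53917 / 100000) (by norm_num) hr hN (by norm_num) (by norm_num) ?_ (by norm_num) (by norm_num)
    calc 89 / 200 * w (9 - 1) ^ 9 ≤ 89 / 200 * (812699 / 1000000) ^ 9 := by
          have := w_pos' 8
          gcongr
      _ ≤ 53917 / 100000 * (386563 / 500000) ^ (9 - 1) := by norm_num
      _ ≤ _ := by gcongr
  · exact regA_start (c := 357 / 400) (by norm_num) hH (by norm_num) (by norm_num) (by norm_num)

theorem ll_half_n9 {r : ℝ → ℝ} (hr : Prof r) (hN : NleB 9 r) : ∀ s ∈ Ioo (0 : ℝ) 1, ll 9 r s ≤ 1 / 2 := by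
  obtain ⟨hH, hU, hA⟩ := coneData_n9 hr hN
  have h0 := ll_half_start (by norm_num) hr hN (by norm_num) hA
  have h1 := ll_step (by norm_num) hr hN hU (by norm_num) (by norm_num) hH (a := 451 / 1000) (b := 581 / 1000) (t := 9293 / 12500)
    (c := 8139 / 10000) (by norm_num) (by norm_num) (by norm_num) (by norm_num) (by norm_num) (by norm_num) (by norm_num) h0
  have h2 := ll_step (by norm_num) hr hN hU (by norm_num) (by norm_num) hH (a := 581 / 1000) (b := 607 / 1000) (t := 47887 / 50000)
    (c := 7947 / 10000) (by norm_num) (by norm_num) (by norm_num) (by norm_num) (by norm_num) (by norm_num) (by norm_num) h1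
  exact ll_half_end hr h2

lemma coneData_n10 {r : ℝ → ℝ} (hr : Prof r) (hN : NleB 10 r) :
    hB 10 0 ≤ 369409 / 1000000 ∧ ConeUB 10 r (1321 / 2000) ∧
      ∀ s ∈ Ioc (0 : ℝ) (54 / 125), lB 10 s ≤ 89 / 100 * hB 10 0 := by
  have hp1 := Real.pi_gt_d6
  have hp2 := Real.pi_lt_d6
  have hw1 : 11544 / 15625 ≤ w 10 := by rw [lgw_10]; linarith
  have hw2 : w 9 ≤ 773127 / 1000000 := by rw [lgw_9]; linarith
  have hH : hB 10 0 ≤ 369409 / 1000000 := by
    have h := w_eq_two_hB 10
    rw [lgw_10] at h
    linarith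
  refine ⟨hH, ?_, ?_⟩
  · refine coneUB_of (T₁ := 25883 / 50000) (by norm_num) hr hN (by norm_num) (by norm_num) ?_ (by norm_num) (by norm_num)
    calc 89 / 200 * w (10 - 1) ^ 10 ≤ 89 / 200 * (773127 / 1000000) ^ 10 := by
          have := w_pos' 9
          gcongr
      _ ≤ 25883 / 50000 * (11544 / 15625) ^ (10 - 1) := by norm_num
      _ ≤ _ := by gcongr
  · exact regA_start (c := 4509 / 5000) (by norm_num) hH (by norm_num) (by norm_num) (by norm_num)

theorem ll_half_n10 {r : ℝ → ℝ} (hr : Prof r) (hN : NleB 10 r) : ∀ s ∈ Ioo (0 : ℝ) 1, ll 10 r s ≤ 1 / 2 := by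
  obtain ⟨hH, hU, hA⟩ := coneData_n10 hr hN
  have h0 := ll_half_start (by norm_num) hr hN (by norm_num) hA
  have h1 := ll_step (by norm_num) hr hN hU (by norm_num) (by norm_num) hH (a := 54 / 125) (b := 111 / 200) (t := 17803 / 25000)
    (c := 16637 / 20000) (by norm_num) (by norm_num) (by norm_num) (by norm_num) (by norm_num) (by norm_num) (by norm_num) h0
  have h2 := ll_step (by norm_num) hr hN hU (by norm_num) (by norm_num) hH (a := 111 / 200) (b := 607 / 1000) (t := 2859 / 3125)
    (c := 7947 / 10000) (by norm_num) (by norm_num) (by norm_num) (by norm_num) (by norm_num) (by norm_num) (by norm_num) h1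
  exact ll_half_end hr h2

lemma coneData_n11 {r : ℝ → ℝ} (hr : Prof r) (hN : NleB 11 r) :
    hB 11 0 ≤ 7087 / 20000 ∧ ConeUB 11 r (6723 / 10000) ∧
      ∀ s ∈ Ioc (0 : ℝ) (417 / 1000), lB 11 s ≤ 89 / 100 * hB 11 0 := by
  have hp1 := Real.pi_gt_d6
  have hp2 := Real.pi_lt_d6
  have hw1 : 354349 / 500000 ≤ w 11 := by rw [lgw_11]; linarith
  have hw2 : w 10 ≤ 738817 / 1000000 := by rw [lgw_10]; linarith
  have hH : hB 11 0 ≤ 7087 / 20000 := by
    have h := w_eq_two_hB 11
    rw [lgw_11] at h
    linarith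
  refine ⟨hH, ?_, ?_⟩
  · refine coneUB_of (T₁ := 49849 / 100000) (by norm_num) hr hN (by norm_num) (by norm_num) ?_ (by norm_num) (by norm_num)
    calc 89 / 200 * w (11 - 1) ^ 11 ≤ 89 / 200 * (738817 / 1000000) ^ 11 := by
          have := w_pos' 10
          gcongr
      _ ≤ 49849 / 100000 * (354349 / 500000) ^ (11 - 1) := by norm_num
      _ ≤ _ := by gcongr
  · exact regA_start (c := 9089 / 10000) (by norm_num) hH (by norm_num) (by norm_num) (by norm_num)

theorem ll_half_n11 {r : ℝ → ℝ} (hr : Prof r) (hN : NleB 11 r) : ∀ s ∈ Ioo (0 : ℝ) 1, ll 11 r s ≤ 1 / 2 := by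
  obtain ⟨hH, hU, hA⟩ := coneData_n11 hr hN
  have h0 := ll_half_start (by norm_num) hr hN (by norm_num) hA
  have h1 := ll_step (by norm_num) hr hN hU (by norm_num) (by norm_num) hH (a := 417 / 1000) (b := 533 / 1000) (t := 68739 / 100000)
    (c := 84611 / 100000) (by norm_num) (by norm_num) (by norm_num) (by norm_num) (by norm_num) (by norm_num) (by norm_num) h0
  have h2 := ll_step (by norm_num) hr hN hU (by norm_num) (by norm_num) hH (a := 533 / 1000) (b := 607 / 1000) (t := 87861 / 100000)
    (c := 7947 / 10000) (by norm_num) (by norm_num) (by norm_num) (by norm_num) (by norm_num) (by norm_num) (by norm_num) h1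
  exact ll_half_end hr h2

lemma coneData_n12 {r : ℝ → ℝ} (hr : Prof r) (hN : NleB 12 r) :
    hB 12 0 ≤ 340993 / 1000000 ∧ ConeUB 12 r (6831 / 10000) ∧
      ∀ s ∈ Ioc (0 : ℝ) (201 / 500), lB 12 s ≤ 89 / 100 * hB 12 0 := by
  have hp1 := Real.pi_gt_d6
  have hp2 := Real.pi_lt_d6
  have hw1 : 10656 / 15625 ≤ w 12 := by rw [lgw_12]; linarith
  have hw2 : w 11 ≤ 7087 / 10000 := by rw [lgw_11]; linarith
  have hH : hB 12 0 ≤ 340993 / 1000000 := by
    have h := w_eq_two_hB 12
    rw [lgw_12] at h
    linarith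
  refine ⟨hH, ?_, ?_⟩
  · refine coneUB_of (T₁ := 1504 / 3125) (by norm_num) hr hN (by norm_num) (by norm_num) ?_ (by norm_num) (by norm_num)
    calc 89 / 200 * w (12 - 1) ^ 12 ≤ 89 / 200 * (7087 / 10000) ^ 12 := by
          have := w_pos' 11
          gcongr
      _ ≤ 1504 / 3125 * (10656 / 15625) ^ (12 - 1) := by norm_num
      _ ≤ _ := by gcongr
  · exact regA_start (c := 2289 / 2500) (by norm_num) hH (by norm_num) (by norm_num) (by norm_num)

theorem ll_half_n12 {r : ℝ → ℝ} (hr : Prof r) (hN : NleB 12 r) : ∀ s ∈ Ioo (0 : ℝ) 1, ll 12 r s ≤ 1 / 2 := by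
  obtain ⟨hH, hU, hA⟩ := coneData_n12 hr hN
  have h0 := ll_half_start (by norm_num) hr hN (by norm_num) hA
  have h1 := ll_step (by norm_num) hr hN hU (by norm_num) (by norm_num) hH (a := 201 / 500) (b := 513 / 1000) (t := 66267 / 100000)
    (c := 42919 / 50000) (by norm_num) (by norm_num) (by norm_num) (by norm_num) (by norm_num) (by norm_num) (by norm_num) h0
  have h2 := ll_step (by norm_num) hr hN hU (by norm_num) (by norm_num) hH (a := 513 / 1000) (b := 607 / 1000) (t := 21141 / 25000)
    (c := 7947 / 10000) (by norm_num) (by norm_num) (by norm_num) (by norm_num) (by norm_num) (by norm_num) (by norm_num) h1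
  exact ll_half_end hr h2

lemma coneData_n13 {r : ℝ → ℝ} (hr : Prof r) (hN : NleB 13 r) :
    hB 13 0 ≤ 329039 / 1000000 ∧ ConeUB 13 r (6929 / 10000) ∧
      ∀ s ∈ Ioc (0 : ℝ) (389 / 1000), lB 13 s ≤ 89 / 100 * hB 13 0 := by
  have hp1 := Real.pi_gt_d6
  have hp2 := Real.pi_lt_d6
  have hw1 : 658077 / 1000000 ≤ w 13 := by rw [lgw_13]; linarith
  have hw2 : w 12 ≤ 136397 / 200000 := by rw [lgw_12]; linarith
  have hH : hB 13 0 ≤ 329039 / 1000000 := by
    have h := w_eq_two_hB 13
    rw [lgw_13] at h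
    linarith
  refine ⟨hH, ?_, ?_⟩
  · refine coneUB_of (T₁ := 46571 / 100000) (by norm_num) hr hN (by norm_num) (by norm_num) ?_ (by norm_num) (by norm_num)
    calc 89 / 200 * w (13 - 1) ^ 13 ≤ 89 / 200 * (136397 / 200000) ^ 13 := by
          have := w_pos' 12
          gcongr
      _ ≤ 46571 / 100000 * (658077 / 1000000) ^ (13 - 1) := by norm_num
      _ ≤ _ := by gcongr
  · exact regA_start (c := 2303 / 2500) (by norm_num) hH (by norm_num) (by norm_num) (by norm_num)

theorem ll_half_n13 {r : ℝ → ℝ} (hr : Prof r) (hN : NleB 13 r) : ∀ s ∈ Ioo (0 : ℝ) 1, ll 13 r s ≤ 1 / 2 := by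
  obtain ⟨hH, hU, hA⟩ := coneData_n13 hr hN
  have h0 := ll_half_start (by norm_num) hr hN (by norm_num) hA
  have h1 := ll_step (by norm_num) hr hN hU (by norm_num) (by norm_num) hH (a := 389 / 1000) (b := 62 / 125) (t := 16031 / 25000)
    (c := 5427 / 6250) (by norm_num) (by norm_num) (by norm_num) (by norm_num) (by norm_num) (by norm_num) (by norm_num) h0
  have h2 := ll_step (by norm_num) hr hN hU (by norm_num) (by norm_num) hH (a := 62 / 125) (b := 593 / 1000) (t := 40881 / 50000)
    (c := 2013 / 2500) (by norm_num) (by norm_num) (by norm_num) (by norm_num) (by norm_num) (by norm_num) (by norm_num) h1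
  have h3 := ll_step (by norm_num) hr hN hU (by norm_num) (by norm_num) hH (a := 593 / 1000) (b := 607 / 1000) (t := 12219 / 12500)
    (c := 7947 / 10000) (by norm_num) (by norm_num) (by norm_num) (by norm_num) (by norm_num) (by norm_num) (by norm_num) h2
  exact ll_half_end hr h3

lemma coneData_n14 {r : ℝ → ℝ} (hr : Prof r) (hN : NleB 14 r) :
    hB 14 0 ≤ 15913 / 50000 ∧ ConeUB 14 r (351 / 500) ∧
      ∀ s ∈ Ioc (0 : ℝ) (189 / 500), lB 14 s ≤ 89 / 100 * hB 14 0 := by
  have hp1 := Real.pi_gt_d6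
  have hp2 := Real.pi_lt_d6
  have hw1 : 636519 / 1000000 ≤ w 14 := by rw [lgw_14]; linarith
  have hw2 : w 13 ≤ 329039 / 500000 := by rw [lgw_13]; linarith
  have hH : hB 14 0 ≤ 15913 / 50000 := by
    have h := w_eq_two_hB 14
    rw [lgw_14] at h
    linarith
  refine ⟨hH, ?_, ?_⟩
  · refine coneUB_of (T₁ := 22577 / 50000) (by norm_num) hr hN (by norm_num) (by norm_num) ?_ (by norm_num) (by norm_num)
    calc 89 / 200 * w (14 - 1) ^ 14 ≤ 89 / 200 * (329039 / 500000) ^ 14 := by
          have := w_pos' 13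
          gcongr
      _ ≤ 22577 / 50000 * (636519 / 1000000) ^ (14 - 1) := by norm_num
      _ ≤ _ := by gcongr
  · exact regA_start (c := 4629 / 5000) (by norm_num) hH (by norm_num) (by norm_num) (by norm_num)

theorem ll_half_n14 {r : ℝ → ℝ} (hr : Prof r) (hN : NleB 14 r) : ∀ s ∈ Ioo (0 : ℝ) 1, ll 14 r s ≤ 1 / 2 := by
  obtain ⟨hH, hU, hA⟩ := coneData_n14 hr hN
  have h0 := ll_half_start (by norm_num) hr hN (by norm_num) hA
  have h1 := ll_step (by norm_num) hr hN hU (by norm_num) (by norm_num) hH (a := 189 / 500) (b := 481 / 1000) (t := 6231 / 10000)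
    (c := 10959 / 12500) (by norm_num) (by norm_num) (by norm_num) (by norm_num) (by norm_num) (by norm_num) (by norm_num) h0
  have h2 := ll_step (by norm_num) hr hN hU (by norm_num) (by norm_num) hH (a := 481 / 1000) (b := 143 / 250) (t := 79289 / 100000)
    (c := 3281 / 4000) (by norm_num) (by norm_num) (by norm_num) (by norm_num) (by norm_num) (by norm_num) (by norm_num) h1
  have h3 := ll_step (by norm_num) hr hN hU (by norm_num) (by norm_num) hH (a := 143 / 250) (b := 607 / 1000) (t := 9429 / 10000)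
    (c := 7947 / 10000) (by norm_num) (by norm_num) (by norm_num) (by norm_num) (by norm_num) (by norm_num) (by norm_num) h2
  exact ll_half_end hr h3

lemma coneData_n15 {r : ℝ → ℝ} (hr : Prof r) (hN : NleB 15 r) :
    hB 15 0 ≤ 154237 / 500000 ∧ ConeUB 15 r (444 / 625) ∧
      ∀ s ∈ Ioc (0 : ℝ) (367 / 1000), lB 15 s ≤ 89 / 100 * hB 15 0 := by
  have hp1 := Real.pi_gt_d6
  have hp2 := Real.pi_lt_d6
  have hw1 : 616947 / 1000000 ≤ w 15 := by rw [lgw_15]; linarith
  have hw2 : w 14 ≤ 15913 / 25000 := by rw [lgw_14]; linarith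
  have hH : hB 15 0 ≤ 154237 / 500000 := by
    have h := w_eq_two_hB 15
    rw [lgw_15] at h
    linarith
  refine ⟨hH, ?_, ?_⟩
  · refine coneUB_of (T₁ := 43861 / 100000) (by norm_num) hr hN (by norm_num) (by norm_num) ?_ (by norm_num) (by norm_num)
    calc 89 / 200 * w (15 - 1) ^ 15 ≤ 89 / 200 * (15913 / 25000) ^ 15 := by
          have := w_pos' 14
          gcongr
      _ ≤ 43861 / 100000 * (616947 / 1000000) ^ (15 - 1) := by norm_num
      _ ≤ _ := by gcongr
  · exact regA_start (c := 4651 / 5000) (by norm_num) hH (by norm_num) (by norm_num) (by norm_num)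

theorem ll_half_n15 {r : ℝ → ℝ} (hr : Prof r) (hN : NleB 15 r) : ∀ s ∈ Ioo (0 : ℝ) 1, ll 15 r s ≤ 1 / 2 := by
  obtain ⟨hH, hU, hA⟩ := coneData_n15 hr hN
  have h0 := ll_half_start (by norm_num) hr hN (by norm_num) hA
  have h1 := ll_step (by norm_num) hr hN hU (by norm_num) (by norm_num) hH (a := 367 / 1000) (b := 233 / 500) (t := 60497 / 100000)
    (c := 44239 / 50000) (by norm_num) (by norm_num) (by norm_num) (by norm_num) (by norm_num) (by norm_num) (by norm_num) h0
  have h2 := ll_step (by norm_num) hr hN hU (by norm_num) (by norm_num) hH (a := 233 / 500) (b := 69 / 125) (t := 76817 / 100000)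
    (c := 10423 / 12500) (by norm_num) (by norm_num) (by norm_num) (by norm_num) (by norm_num) (by norm_num) (by norm_num) h1
  have h3 := ll_step (by norm_num) hr hN hU (by norm_num) (by norm_num) hH (a := 69 / 125) (b := 607 / 1000) (t := 90993 / 100000)
    (c := 7947 / 10000) (by norm_num) (by norm_num) (by norm_num) (by norm_num) (by norm_num) (by norm_num) (by norm_num) h2
  exact ll_half_end hr h3

lemma coneData_n16 {r : ℝ → ℝ} (hr : Prof r) (hN : NleB 16 r) :
    hB 16 0 ≤ 299539 / 1000000 ∧ ConeUB 16 r (3591 / 5000) ∧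
      ∀ s ∈ Ioc (0 : ℝ) (357 / 1000), lB 16 s ≤ 89 / 100 * hB 16 0 := by
  have hp1 := Real.pi_gt_d6
  have hp2 := Real.pi_lt_d6
  have hw1 : 149769 / 250000 ≤ w 16 := by rw [lgw_16]; linarith
  have hw2 : w 15 ≤ 154237 / 250000 := by rw [lgw_15]; linarith
  have hH : hB 16 0 ≤ 299539 / 1000000 := by
    have h := w_eq_two_hB 16
    rw [lgw_16] at h
    linarith
  refine ⟨hH, ?_, ?_⟩
  · refine coneUB_of (T₁ := 42669 / 100000) (by norm_num) hr hN (by norm_num) (by norm_num) ?_ (by norm_num) (by norm_num)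
    calc 89 / 200 * w (16 - 1) ^ 16 ≤ 89 / 200 * (154237 / 250000) ^ 16 := by
          have := w_pos' 15
          gcongr
      _ ≤ 42669 / 100000 * (149769 / 250000) ^ (16 - 1) := by norm_num
      _ ≤ _ := by gcongr
  · exact regA_start (c := 9341 / 10000) (by norm_num) hH (by norm_num) (by norm_num) (by norm_num)

theorem ll_half_n16 {r : ℝ → ℝ} (hr : Prof r) (hN : NleB 16 r) : ∀ s ∈ Ioo (0 : ℝ) 1, ll 16 r s ≤ 1 / 2 := by
  obtain ⟨hH, hU, hA⟩ := coneData_n16 hr hN
  have h0 := ll_half_start (by norm_num) hr hN (by norm_num) hA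
  have h1 := ll_step (by norm_num) hr hN hU (by norm_num) (by norm_num) hH (a := 357 / 1000) (b := 453 / 1000) (t := 58849 / 100000)
    (c := 89151 / 100000) (by norm_num) (by norm_num) (by norm_num) (by norm_num) (by norm_num) (by norm_num) (by norm_num) h0
  have h2 := ll_step (by norm_num) hr hN hU (by norm_num) (by norm_num) hH (a := 453 / 1000) (b := 107 / 200) (t := 37337 / 50000)
    (c := 16897 / 20000) (by norm_num) (by norm_num) (by norm_num) (by norm_num) (by norm_num) (by norm_num) (by norm_num) h1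
  have h3 := ll_step (by norm_num) hr hN hU (by norm_num) (by norm_num) hH (a := 107 / 200) (b := 607 / 1000) (t := 88191 / 100000)
    (c := 7947 / 10000) (by norm_num) (by norm_num) (by norm_num) (by norm_num) (by norm_num) (by norm_num) (by norm_num) h2
  exact ll_half_end hr h3

lemma coneData_n17 {r : ℝ → ℝ} (hr : Prof r) (hN : NleB 17 r) :
    hB 17 0 ≤ 291337 / 1000000 ∧ ConeUB 17 r (7253 / 10000) ∧
      ∀ s ∈ Ioc (0 : ℝ) (347 / 1000), lB 17 s ≤ 89 / 100 * hB 17 0 := by
  have hp1 := Real.pi_gt_d6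
  have hp2 := Real.pi_lt_d6
  have hw1 : 36417 / 62500 ≤ w 17 := by rw [lgw_17]; linarith
  have hw2 : w 16 ≤ 599077 / 1000000 := by rw [lgw_16]; linarith
  have hH : hB 17 0 ≤ 291337 / 1000000 := by
    have h := w_eq_two_hB 17
    rw [lgw_17] at h
    linarith
  refine ⟨hH, ?_, ?_⟩
  · refine coneUB_of (T₁ := 4157 / 10000) (by norm_num) hr hN (by norm_num) (by norm_num) ?_ (by norm_num) (by norm_num)
    calc 89 / 200 * w (17 - 1) ^ 17 ≤ 89 / 200 * (599077 / 1000000) ^ 17 := by
          have := w_pos' 16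
          gcongr
      _ ≤ 4157 / 10000 * (36417 / 62500) ^ (17 - 1) := by norm_num
      _ ≤ _ := by gcongr
  · exact regA_start (c := 4689 / 5000) (by norm_num) hH (by norm_num) (by norm_num) (by norm_num)

theorem ll_half_n17 {r : ℝ → ℝ} (hr : Prof r) (hN : NleB 17 r) : ∀ s ∈ Ioo (0 : ℝ) 1, ll 17 r s ≤ 1 / 2 := by
  obtain ⟨hH, hU, hA⟩ := coneData_n17 hr hN
  have h0 := ll_half_start (by norm_num) hr hN (by norm_num) hA
  have h1 := ll_step (by norm_num) hr hN hU (by norm_num) (by norm_num) hH (a := 347 / 1000) (b := 11 / 25) (t := 143 / 250)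
    (c := 89799 / 100000) (by norm_num) (by norm_num) (by norm_num) (by norm_num) (by norm_num) (by norm_num) (by norm_num) h0
  have h2 := ll_step (by norm_num) hr hN hU (by norm_num) (by norm_num) hH (a := 11 / 25) (b := 519 / 1000) (t := 72531 / 100000)
    (c := 85477 / 100000) (by norm_num) (by norm_num) (by norm_num) (by norm_num) (by norm_num) (by norm_num) (by norm_num) h1
  have h3 := ll_step (by norm_num) hr hN hU (by norm_num) (by norm_num) hH (a := 519 / 1000) (b := 587 / 1000) (t := 85553 / 100000)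
    (c := 40479 / 50000) (by norm_num) (by norm_num) (by norm_num) (by norm_num) (by norm_num) (by norm_num) (by norm_num) h2
  have h4 := ll_step (by norm_num) hr hN hU (by norm_num) (by norm_num) hH (a := 587 / 1000) (b := 607 / 1000) (t := 96763 / 100000)
    (c := 7947 / 10000) (by norm_num) (by norm_num) (by norm_num) (by norm_num) (by norm_num) (by norm_num) (by norm_num) h3
  exact ll_half_end hr h4

lemma coneData_n18 {r : ℝ → ℝ} (hr : Prof r) (hN : NleB 18 r) :
    hB 18 0 ≤ 141887 / 500000 ∧ ConeUB 18 r (7321 / 10000) ∧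
      ∀ s ∈ Ioc (0 : ℝ) (339 / 1000), lB 18 s ≤ 89 / 100 * hB 18 0 := by
  have hp1 := Real.pi_gt_d6
  have hp2 := Real.pi_lt_d6
  have hw1 : 283773 / 500000 ≤ w 18 := by rw [lgw_18]; linarith
  have hw2 : w 17 ≤ 291337 / 500000 := by rw [lgw_17]; linarith
  have hH : hB 18 0 ≤ 141887 / 500000 := by
    have h := w_eq_two_hB 18
    rw [lgw_18] at h
    linarith
  refine ⟨hH, ?_, ?_⟩
  · refine coneUB_of (T₁ := 5069 / 12500) (by norm_num) hr hN (by norm_num) (by norm_num) ?_ (by norm_num) (by norm_num)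
    calc 89 / 200 * w (18 - 1) ^ 18 ≤ 89 / 200 * (291337 / 500000) ^ 18 := by
          have := w_pos' 17
          gcongr
      _ ≤ 5069 / 12500 * (283773 / 500000) ^ (18 - 1) := by norm_num
      _ ≤ _ := by gcongr
  · exact regA_start (c := 9407 / 10000) (by norm_num) hH (by norm_num) (by norm_num) (by norm_num)

theorem ll_half_n18 {r : ℝ → ℝ} (hr : Prof r) (hN : NleB 18 r) : ∀ s ∈ Ioo (0 : ℝ) 1, ll 18 r s ≤ 1 / 2 := by
  obtain ⟨hH, hU, hA⟩ := coneData_n18 hr hN
  have h0 := ll_half_start (by norm_num) hr hN (by norm_num) hA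
  have h1 := ll_step (by norm_num) hr hN hU (by norm_num) (by norm_num) hH (a := 339 / 1000) (b := 43 / 100) (t := 27941 / 50000)
    (c := 45141 / 50000) (by norm_num) (by norm_num) (by norm_num) (by norm_num) (by norm_num) (by norm_num) (by norm_num) h0
  have h2 := ll_step (by norm_num) hr hN hU (by norm_num) (by norm_num) hH (a := 43 / 100) (b := 253 / 500) (t := 35441 / 50000)
    (c := 86253 / 100000) (by norm_num) (by norm_num) (by norm_num) (by norm_num) (by norm_num) (by norm_num) (by norm_num) h1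
  have h3 := ll_step (by norm_num) hr hN hU (by norm_num) (by norm_num) hH (a := 253 / 500) (b := 569 / 1000) (t := 8341 / 10000)
    (c := 82233 / 100000) (by norm_num) (by norm_num) (by norm_num) (by norm_num) (by norm_num) (by norm_num) (by norm_num) h2
  have h4 := ll_step (by norm_num) hr hN hU (by norm_num) (by norm_num) hH (a := 569 / 1000) (b := 607 / 1000) (t := 23449 / 25000)
    (c := 7947 / 10000) (by norm_num) (by norm_num) (by norm_num) (by norm_num) (by norm_num) (by norm_num) (by norm_num) h3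
  exact ll_half_end hr h4

lemma coneData_n19 {r : ℝ → ℝ} (hr : Prof r) (hN : NleB 19 r) :
    hB 19 0 ≤ 27677 / 100000 ∧ ConeUB 19 r (7383 / 10000) ∧
      ∀ s ∈ Ioc (0 : ℝ) (331 / 1000), lB 19 s ≤ 89 / 100 * hB 19 0 := by
  have hp1 := Real.pi_gt_d6
  have hp2 := Real.pi_lt_d6
  have hw1 : 553539 / 1000000 ≤ w 19 := by rw [lgw_19]; linarith
  have hw2 : w 18 ≤ 567547 / 1000000 := by rw [lgw_18]; linarith
  have hH : hB 19 0 ≤ 27677 / 100000 := by
    have h := w_eq_two_hB 19
    rw [lgw_19] at h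
    linarith
  refine ⟨hH, ?_, ?_⟩
  · refine coneUB_of (T₁ := 39603 / 100000) (by norm_num) hr hN (by norm_num) (by norm_num) ?_ (by norm_num) (by norm_num)
    calc 89 / 200 * w (19 - 1) ^ 19 ≤ 89 / 200 * (567547 / 1000000) ^ 19 := by
          have := w_pos' 18
          gcongr
      _ ≤ 39603 / 100000 * (553539 / 1000000) ^ (19 - 1) := by norm_num
      _ ≤ _ := by gcongr
  · exact regA_start (c := 2359 / 2500) (by norm_num) hH (by norm_num) (by norm_num) (by norm_num)

theorem ll_half_n19 {r : ℝ → ℝ} (hr : Prof r) (hN : NleB 19 r) : ∀ s ∈ Ioo (0 : ℝ) 1, ll 19 r s ≤ 1 / 2 := by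
  obtain ⟨hH, hU, hA⟩ := coneData_n19 hr hN
  have h0 := ll_half_start (by norm_num) hr hN (by norm_num) hA
  have h1 := ll_step (by norm_num) hr hN hU (by norm_num) (by norm_num) hH (a := 331 / 1000) (b := 419 / 1000) (t := 54563 / 100000)
    (c := 45399 / 50000) (by norm_num) (by norm_num) (by norm_num) (by norm_num) (by norm_num) (by norm_num) (by norm_num) h0
  have h2 := ll_step (by norm_num) hr hN hU (by norm_num) (by norm_num) hH (a := 419 / 1000) (b := 493 / 1000) (t := 69069 / 100000)
    (c := 43501 / 50000) (by norm_num) (by norm_num) (by norm_num) (by norm_num) (by norm_num) (by norm_num) (by norm_num) h1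
  have h3 := ll_step (by norm_num) hr hN hU (by norm_num) (by norm_num) hH (a := 493 / 1000) (b := 553 / 1000) (t := 81267 / 100000)
    (c := 41659 / 50000) (by norm_num) (by norm_num) (by norm_num) (by norm_num) (by norm_num) (by norm_num) (by norm_num) h2
  have h4 := ll_step (by norm_num) hr hN hU (by norm_num) (by norm_num) hH (a := 553 / 1000) (b := 607 / 1000) (t := 45579 / 50000)
    (c := 7947 / 10000) (by norm_num) (by norm_num) (by norm_num) (by norm_num) (by norm_num) (by norm_num) (by norm_num) h3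
  exact ll_half_end hr h4

lemma coneData_n20 {r : ℝ → ℝ} (hr : Prof r) (hN : NleB 20 r) :
    hB 20 0 ≤ 270261 / 1000000 ∧ ConeUB 20 r (3721 / 5000) ∧
      ∀ s ∈ Ioc (0 : ℝ) (81 / 250), lB 20 s ≤ 89 / 100 * hB 20 0 := by
  have hp1 := Real.pi_gt_d6
  have hp2 := Real.pi_lt_d6
  have hw1 : 13513 / 25000 ≤ w 20 := by rw [lgw_20]; linarith
  have hw2 : w 19 ≤ 27677 / 50000 := by rw [lgw_19]; linarith
  have hH : hB 20 0 ≤ 270261 / 1000000 := by
    have h := w_eq_two_hB 20
    rw [lgw_20] at h
    linarith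
  refine ⟨hH, ?_, ?_⟩
  · refine coneUB_of (T₁ := 38719 / 100000) (by norm_num) hr hN (by norm_num) (by norm_num) ?_ (by norm_num) (by norm_num)
    calc 89 / 200 * w (20 - 1) ^ 20 ≤ 89 / 200 * (27677 / 50000) ^ 20 := by
          have := w_pos' 19
          gcongr
      _ ≤ 38719 / 100000 * (13513 / 25000) ^ (20 - 1) := by norm_num
      _ ≤ _ := by gcongr
  · exact regA_start (c := 473 / 500) (by norm_num) hH (by norm_num) (by norm_num) (by norm_num)

theorem ll_half_n20 {r : ℝ → ℝ} (hr : Prof r) (hN : NleB 20 r) : ∀ s ∈ Ioo (0 : ℝ) 1, ll 20 r s ≤ 1 / 2 := by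
  obtain ⟨hH, hU, hA⟩ := coneData_n20 hr hN
  have h0 := ll_half_start (by norm_num) hr hN (by norm_num) hA
  have h1 := ll_step (by norm_num) hr hN hU (by norm_num) (by norm_num) hH (a := 81 / 250) (b := 41 / 100) (t := 53409 / 100000)
    (c := 11401 / 12500) (by norm_num) (by norm_num) (by norm_num) (by norm_num) (by norm_num) (by norm_num) (by norm_num) h0
  have h2 := ll_step (by norm_num) hr hN hU (by norm_num) (by norm_num) hH (a := 41 / 100) (b := 481 / 1000) (t := 13517 / 20000)
    (c := 10959 / 12500) (by norm_num) (by norm_num) (by norm_num) (by norm_num) (by norm_num) (by norm_num) (by norm_num) h1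
  have h3 := ll_step (by norm_num) hr hN hU (by norm_num) (by norm_num) hH (a := 481 / 1000) (b := 537 / 1000) (t := 79289 / 100000)
    (c := 42179 / 50000) (by norm_num) (by norm_num) (by norm_num) (by norm_num) (by norm_num) (by norm_num) (by norm_num) h2
  have h4 := ll_step (by norm_num) hr hN hU (by norm_num) (by norm_num) hH (a := 537 / 1000) (b := 293 / 500) (t := 88521 / 100000)
    (c := 81031 / 100000) (by norm_num) (by norm_num) (by norm_num) (by norm_num) (by norm_num) (by norm_num) (by norm_num) h3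
  have h5 := ll_step (by norm_num) hr hN hU (by norm_num) (by norm_num) hH (a := 293 / 500) (b := 607 / 1000) (t := 48299 / 50000)
    (c := 7947 / 10000) (by norm_num) (by norm_num) (by norm_num) (by norm_num) (by norm_num) (by norm_num) (by norm_num) h4
  exact ll_half_end hr h5

lemma coneData_n21 {r : ℝ → ℝ} (hr : Prof r) (hN : NleB 21 r) :
    hB 21 0 ≤ 26419 / 100000 ∧ ConeUB 21 r (937 / 1250) ∧
      ∀ s ∈ Ioc (0 : ℝ) (317 / 1000), lB 21 s ≤ 89 / 100 * hB 21 0 := by
  have hp1 := Real.pi_gt_d6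
  have hp2 := Real.pi_lt_d6
  have hw1 : 264189 / 500000 ≤ w 21 := by rw [lgw_21]; linarith
  have hw2 : w 20 ≤ 540521 / 1000000 := by rw [lgw_20]; linarith
  have hH : hB 21 0 ≤ 26419 / 100000 := by
    have h := w_eq_two_hB 21
    rw [lgw_21] at h
    linarith
  refine ⟨hH, ?_, ?_⟩
  · refine coneUB_of (T₁ := 37891 / 100000) (by norm_num) hr hN (by norm_num) (by norm_num) ?_ (by norm_num) (by norm_num)
    calc 89 / 200 * w (21 - 1) ^ 21 ≤ 89 / 200 * (540521 / 1000000) ^ 21 := by
          have := w_pos' 20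
          gcongr
      _ ≤ 37891 / 100000 * (264189 / 500000) ^ (21 - 1) := by norm_num
      _ ≤ _ := by gcongr
  · exact regA_start (c := 2371 / 2500) (by norm_num) hH (by norm_num) (by norm_num) (by norm_num)

theorem ll_half_n21 {r : ℝ → ℝ} (hr : Prof r) (hN : NleB 21 r) : ∀ s ∈ Ioo (0 : ℝ) 1, ll 21 r s ≤ 1 / 2 := by
  obtain ⟨hH, hU, hA⟩ := coneData_n21 hr hN
  have h0 := ll_half_start (by norm_num) hr hN (by norm_num) hA
  have h1 := ll_step (by norm_num) hr hN hU (by norm_num) (by norm_num) hH (a := 317 / 1000) (b := 401 / 1000) (t := 10451 / 20000)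
    (c := 91607 / 100000) (by norm_num) (by norm_num) (by norm_num) (by norm_num) (by norm_num) (by norm_num) (by norm_num) h0
  have h2 := ll_step (by norm_num) hr hN hU (by norm_num) (by norm_num) hH (a := 401 / 1000) (b := 471 / 1000) (t := 33051 / 50000)
    (c := 88213 / 100000) (by norm_num) (by norm_num) (by norm_num) (by norm_num) (by norm_num) (by norm_num) (by norm_num) h1
  have h3 := ll_step (by norm_num) hr hN hU (by norm_num) (by norm_num) hH (a := 471 / 1000) (b := 21 / 40) (t := 77641 / 100000)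
    (c := 8511 / 10000) (by norm_num) (by norm_num) (by norm_num) (by norm_num) (by norm_num) (by norm_num) (by norm_num) h2
  have h4 := ll_step (by norm_num) hr hN hU (by norm_num) (by norm_num) hH (a := 21 / 40) (b := 57 / 100) (t := 43271 / 50000)
    (c := 20541 / 25000) (by norm_num) (by norm_num) (by norm_num) (by norm_num) (by norm_num) (by norm_num) (by norm_num) h3
  have h5 := ll_step (by norm_num) hr hN hU (by norm_num) (by norm_num) hH (a := 57 / 100) (b := 607 / 1000) (t := 2349 / 2500)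
    (c := 7947 / 10000) (by norm_num) (by norm_num) (by norm_num) (by norm_num) (by norm_num) (by norm_num) (by norm_num) h4
  exact ll_half_end hr h5

lemma coneData_n22 {r : ℝ → ℝ} (hr : Prof r) (hN : NleB 22 r) :
    hB 22 0 ≤ 25851 / 100000 ∧ ConeUB 22 r (1887 / 2500) ∧
      ∀ s ∈ Ioc (0 : ℝ) (311 / 1000), lB 22 s ≤ 89 / 100 * hB 22 0 := by
  have hp1 := Real.pi_gt_d6
  have hp2 := Real.pi_lt_d6
  have hw1 : 517019 / 1000000 ≤ w 22 := by rw [lgw_22]; linarith
  have hw2 : w 21 ≤ 528379 / 1000000 := by rw [lgw_21]; linarith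
  have hH : hB 22 0 ≤ 25851 / 100000 := by
    have h := w_eq_two_hB 22
    rw [lgw_22] at h
    linarith
  refine ⟨hH, ?_, ?_⟩
  · refine coneUB_of (T₁ := 37113 / 100000) (by norm_num) hr hN (by norm_num) (by norm_num) ?_ (by norm_num) (by norm_num)
    calc 89 / 200 * w (22 - 1) ^ 22 ≤ 89 / 200 * (528379 / 1000000) ^ 22 := by
          have := w_pos' 21
          gcongr
      _ ≤ 37113 / 100000 * (517019 / 1000000) ^ (22 - 1) := by norm_num
      _ ≤ _ := by gcongr
  · exact regA_start (c := 594 / 625) (by norm_num) hH (by norm_num) (by norm_num) (by norm_num)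

theorem ll_half_n22 {r : ℝ → ℝ} (hr : Prof r) (hN : NleB 22 r) : ∀ s ∈ Ioo (0 : ℝ) 1, ll 22 r s ≤ 1 / 2 := by
  obtain ⟨hH, hU, hA⟩ := coneData_n22 hr hN
  have h0 := ll_half_start (by norm_num) hr hN (by norm_num) hA
  have h1 := ll_step (by norm_num) hr hN hU (by norm_num) (by norm_num) hH (a := 311 / 1000) (b := 197 / 500) (t := 25633 / 50000)
    (c := 91911 / 100000) (by norm_num) (by norm_num) (by norm_num) (by norm_num) (by norm_num) (by norm_num) (by norm_num) h0
  have h2 := ll_step (by norm_num) hr hN hU (by norm_num) (by norm_num) hH (a := 197 / 500) (b := 461 / 1000) (t := 16237 / 25000)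
    (c := 4437 / 5000) (by norm_num) (by norm_num) (by norm_num) (by norm_num) (by norm_num) (by norm_num) (by norm_num) h1
  have h3 := ll_step (by norm_num) hr hN hU (by norm_num) (by norm_num) hH (a := 461 / 1000) (b := 513 / 1000) (t := 9499 / 12500)
    (c := 42919 / 50000) (by norm_num) (by norm_num) (by norm_num) (by norm_num) (by norm_num) (by norm_num) (by norm_num) h2
  have h4 := ll_step (by norm_num) hr hN hU (by norm_num) (by norm_num) hH (a := 513 / 1000) (b := 277 / 500) (t := 21141 / 25000)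
    (c := 83251 / 100000) (by norm_num) (by norm_num) (by norm_num) (by norm_num) (by norm_num) (by norm_num) (by norm_num) h3
  have h5 := ll_step (by norm_num) hr hN hU (by norm_num) (by norm_num) hH (a := 277 / 500) (b := 593 / 1000) (t := 91323 / 100000)
    (c := 2013 / 2500) (by norm_num) (by norm_num) (by norm_num) (by norm_num) (by norm_num) (by norm_num) (by norm_num) h4
  have h6 := ll_step (by norm_num) hr hN hU (by norm_num) (by norm_num) hH (a := 593 / 1000) (b := 607 / 1000) (t := 12219 / 12500)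
    (c := 7947 / 10000) (by norm_num) (by norm_num) (by norm_num) (by norm_num) (by norm_num) (by norm_num) (by norm_num) h5
  exact ll_half_end hr h6

/-- `l (1+c) ≤ c²` in dimension 6 -/
theorem ll_simple_n5 {r : ℝ → ℝ} (hr : Prof r) (hN : NleB 5 r) :
    ∀ s ∈ Ioo (0 : ℝ) 1, ll 5 r s * (1 + cc s) ≤ cc s ^ 2 := by
  obtain ⟨hH, hU, hA⟩ := coneData_n5 hr hN
  have h0 := simp_start (by norm_num) hr hN (by norm_num) hA
  have h1 := simp_step (by norm_num) hr hN hU (by norm_num) (by norm_num) hH (a := 277 / 500) (b := 639 / 1000) (t := 38699 / 50000)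
    (c := 1923 / 2500) (L := 16721 / 50000) (by norm_num) (by norm_num) (by norm_num) (by norm_num) (by norm_num) (by norm_num)
    (by norm_num) (by norm_num) (by norm_num) (by norm_num) h0
  have h2 := simp_step (by norm_num) hr hN hU (by norm_num) (by norm_num) hH (a := 639 / 1000) (b := 88 / 125) (t := 85817 / 100000)
    (c := 71019 / 100000) (L := 7373 / 25000) (by norm_num) (by norm_num) (by norm_num) (by norm_num) (by norm_num) (by norm_num)
    (by norm_num) (by norm_num) (by norm_num) (by norm_num) h1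
  have h3 := simp_step (by norm_num) hr hN hU (by norm_num) (by norm_num) hH (a := 88 / 125) (b := 151 / 200) (t := 91273 / 100000)
    (c := 16393 / 25000) (L := 1623 / 6250) (by norm_num) (by norm_num) (by norm_num) (by norm_num) (by norm_num) (by norm_num)
    (by norm_num) (by norm_num) (by norm_num) (by norm_num) h2
  have h4 := simp_step (by norm_num) hr hN hU (by norm_num) (by norm_num) hH (a := 151 / 200) (b := 199 / 250) (t := 18971 / 20000)
    (c := 60529 / 100000) (L := 22823 / 100000) (by norm_num) (by norm_num) (by norm_num) (by norm_num) (by norm_num) (by norm_num)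
    (by norm_num) (by norm_num) (by norm_num) (by norm_num) h3
  have h5 := simp_step (by norm_num) hr hN hU (by norm_num) (by norm_num) hH (a := 199 / 250) (b := 4 / 5) (t := 99683 / 100000)
    (c := 59999 / 100000) (L := 22499 / 100000) (by norm_num) (by norm_num) (by norm_num) (by norm_num) (by norm_num) (by norm_num)
    (by norm_num) (by norm_num) (by norm_num) (by norm_num) h4
  exact simp_end hr h5

/-- `l (1+c) ≤ c²` in dimension 7 -/
theorem ll_simple_n6 {r : ℝ → ℝ} (hr : Prof r) (hN : NleB 6 r) :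
    ∀ s ∈ Ioo (0 : ℝ) 1, ll 6 r s * (1 + cc s) ≤ cc s ^ 2 := by
  obtain ⟨hH, hU, hA⟩ := coneData_n6 hr hN
  have h0 := simp_start (by norm_num) hr hN (by norm_num) hA
  have h1 := simp_step (by norm_num) hr hN hU (by norm_num) (by norm_num) hH (a := 521 / 1000) (b := 121 / 200) (t := 18537 / 25000)
    (c := 39811 / 50000) (L := 17647 / 50000) (by norm_num) (by norm_num) (by norm_num) (by norm_num) (by norm_num) (by norm_num)
    (by norm_num) (by norm_num) (by norm_num) (by norm_num) h0
  have h2 := simp_step (by norm_num) hr hN hU (by norm_num) (by norm_num) hH (a := 121 / 200) (b := 67 / 100) (t := 41503 / 50000)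
    (c := 18559 / 25000) (L := 31629 / 100000) (by norm_num) (by norm_num) (by norm_num) (by norm_num) (by norm_num) (by norm_num)
    (by norm_num) (by norm_num) (by norm_num) (by norm_num) h1
  have h3 := simp_step (by norm_num) hr hN hU (by norm_num) (by norm_num) hH (a := 67 / 100) (b := 719 / 1000) (t := 8909 / 10000)
    (c := 69501 / 100000) (L := 28497 / 100000) (by norm_num) (by norm_num) (by norm_num) (by norm_num) (by norm_num) (by norm_num)
    (by norm_num) (by norm_num) (by norm_num) (by norm_num) h2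
  have h4 := simp_step (by norm_num) hr hN hU (by norm_num) (by norm_num) hH (a := 719 / 1000) (b := 757 / 1000) (t := 46541 / 50000)
    (c := 65341 / 100000) (L := 12911 / 50000) (by norm_num) (by norm_num) (by norm_num) (by norm_num) (by norm_num) (by norm_num)
    (by norm_num) (by norm_num) (by norm_num) (by norm_num) h3
  have h5 := simp_step (by norm_num) hr hN hU (by norm_num) (by norm_num) hH (a := 757 / 1000) (b := 789 / 1000) (t := 95639 / 100000)
    (c := 61439 / 100000) (L := 23381 / 100000) (by norm_num) (by norm_num) (by norm_num) (by norm_num) (by norm_num) (by norm_num)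
    (by norm_num) (by norm_num) (by norm_num) (by norm_num) h4
  have h6 := simp_step (by norm_num) hr hN hU (by norm_num) (by norm_num) hH (a := 789 / 1000) (b := 4 / 5) (t := 49403 / 50000)
    (c := 59999 / 100000) (L := 22499 / 100000) (by norm_num) (by norm_num) (by norm_num) (by norm_num) (by norm_num) (by norm_num)
    (by norm_num) (by norm_num) (by norm_num) (by norm_num) h5
  exact simp_end hr h6

/-- `l (1+c) ≤ c²` in dimension 8 -/
theorem ll_simple_n7 {r : ℝ → ℝ} (hr : Prof r) (hN : NleB 7 r) :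
    ∀ s ∈ Ioo (0 : ℝ) 1, ll 7 r s * (1 + cc s) ≤ cc s ^ 2 := by
  obtain ⟨hH, hU, hA⟩ := coneData_n7 hr hN
  have h0 := simp_start (by norm_num) hr hN (by norm_num) hA
  have h1 := simp_step (by norm_num) hr hN hU (by norm_num) (by norm_num) hH (a := 247 / 500) (b := 289 / 500) (t := 35639 / 50000)
    (c := 81603 / 100000) (L := 9167 / 25000) (by norm_num) (by norm_num) (by norm_num) (by norm_num) (by norm_num) (by norm_num)
    (by norm_num) (by norm_num) (by norm_num) (by norm_num) h0
  have h2 := simp_step (by norm_num) hr hN hU (by norm_num) (by norm_num) hH (a := 289 / 500) (b := 641 / 1000) (t := 4033 / 5000)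
    (c := 38377 / 50000) (L := 33329 / 100000) (by norm_num) (by norm_num) (by norm_num) (by norm_num) (by norm_num) (by norm_num)
    (by norm_num) (by norm_num) (by norm_num) (by norm_num) h1
  have h3 := simp_step (by norm_num) hr hN hU (by norm_num) (by norm_num) hH (a := 641 / 1000) (b := 86 / 125) (t := 86973 / 100000)
    (c := 72571 / 100000) (L := 15259 / 50000) (by norm_num) (by norm_num) (by norm_num) (by norm_num) (by norm_num) (by norm_num)
    (by norm_num) (by norm_num) (by norm_num) (by norm_num) h2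
  have h4 := simp_step (by norm_num) hr hN hU (by norm_num) (by norm_num) hH (a := 86 / 125) (b := 723 / 1000) (t := 22809 / 25000)
    (c := 17271 / 25000) (L := 14113 / 50000) (by norm_num) (by norm_num) (by norm_num) (by norm_num) (by norm_num) (by norm_num)
    (by norm_num) (by norm_num) (by norm_num) (by norm_num) h3
  have h5 := simp_step (by norm_num) hr hN hU (by norm_num) (by norm_num) hH (a := 723 / 1000) (b := 94 / 125) (t := 46971 / 50000)
    (c := 16479 / 25000) (L := 26187 / 100000) (by norm_num) (by norm_num) (by norm_num) (by norm_num) (by norm_num) (by norm_num)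
    (by norm_num) (by norm_num) (by norm_num) (by norm_num) h4
  have h6 := simp_step (by norm_num) hr hN hU (by norm_num) (by norm_num) hH (a := 94 / 125) (b := 97 / 125) (t := 3839 / 4000)
    (c := 63073 / 100000) (L := 4879 / 20000) (by norm_num) (by norm_num) (by norm_num) (by norm_num) (by norm_num) (by norm_num)
    (by norm_num) (by norm_num) (by norm_num) (by norm_num) h5
  have h7 := simp_step (by norm_num) hr hN hU (by norm_num) (by norm_num) hH (a := 97 / 125) (b := 799 / 1000) (t := 48629 / 50000)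
    (c := 60133 / 100000) (L := 22581 / 100000) (by norm_num) (by norm_num) (by norm_num) (by norm_num) (by norm_num) (by norm_num)
    (by norm_num) (by norm_num) (by norm_num) (by norm_num) h6
  have h8 := simp_step (by norm_num) hr hN hU (by norm_num) (by norm_num) hH (a := 799 / 1000) (b := 4 / 5) (t := 1)
    (c := 59999 / 100000) (L := 22499 / 100000) (by norm_num) (by norm_num) (by norm_num) (by norm_num) (by norm_num) (by norm_num)
    (by norm_num) (by norm_num) (by norm_num) (by norm_num) h7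
  exact simp_end hr h8

/-- `l (1+c) ≤ c²` in dimension 9 -/
theorem ll_simple_n8 {r : ℝ → ℝ} (hr : Prof r) (hN : NleB 8 r) :
    ∀ s ∈ Ioo (0 : ℝ) 1, ll 8 r s * (1 + cc s) ≤ cc s ^ 2 := by
  obtain ⟨hH, hU, hA⟩ := coneData_n8 hr hN
  have h0 := simp_start (by norm_num) hr hN (by norm_num) hA
  have h1 := simp_step (by norm_num) hr hN hU (by norm_num) (by norm_num) hH (a := 471 / 1000) (b := 277 / 500) (t := 34373 / 50000)
    (c := 83251 / 100000) (L := 1891 / 5000) (by norm_num) (by norm_num) (by norm_num) (by norm_num) (by norm_num) (by norm_num)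
    (by norm_num) (by norm_num) (by norm_num) (by norm_num) h0
  have h2 := simp_step (by norm_num) hr hN hU (by norm_num) (by norm_num) hH (a := 277 / 500) (b := 77 / 125) (t := 39193 / 50000)
    (c := 39387 / 50000) (L := 3471 / 10000) (by norm_num) (by norm_num) (by norm_num) (by norm_num) (by norm_num) (by norm_num)
    (by norm_num) (by norm_num) (by norm_num) (by norm_num) h1
  have h3 := simp_step (by norm_num) hr hN hU (by norm_num) (by norm_num) hH (a := 77 / 125) (b := 33 / 50) (t := 85021 / 100000)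
    (c := 37563 / 50000) (L := 32227 / 100000) (by norm_num) (by norm_num) (by norm_num) (by norm_num) (by norm_num) (by norm_num)
    (by norm_num) (by norm_num) (by norm_num) (by norm_num) h2
  have h4 := simp_step (by norm_num) hr hN hU (by norm_num) (by norm_num) hH (a := 33 / 50) (b := 693 / 1000) (t := 22317 / 25000)
    (c := 72093 / 100000) (L := 30201 / 100000) (by norm_num) (by norm_num) (by norm_num) (by norm_num) (by norm_num) (by norm_num)
    (by norm_num) (by norm_num) (by norm_num) (by norm_num) h3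
  have h5 := simp_step (by norm_num) hr hN hU (by norm_num) (by norm_num) hH (a := 693 / 1000) (b := 719 / 1000) (t := 23037 / 25000)
    (c := 69501 / 100000) (L := 28497 / 100000) (by norm_num) (by norm_num) (by norm_num) (by norm_num) (by norm_num) (by norm_num)
    (by norm_num) (by norm_num) (by norm_num) (by norm_num) h4
  have h6 := simp_step (by norm_num) hr hN hU (by norm_num) (by norm_num) hH (a := 719 / 1000) (b := 37 / 50) (t := 94229 / 100000)
    (c := 3363 / 5000) (L := 27047 / 100000) (by norm_num) (by norm_num) (by norm_num) (by norm_num) (by norm_num) (by norm_num)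
    (by norm_num) (by norm_num) (by norm_num) (by norm_num) h5
  have h7 := simp_step (by norm_num) hr hN hU (by norm_num) (by norm_num) hH (a := 37 / 50) (b := 379 / 500) (t := 9573 / 10000)
    (c := 2609 / 4000) (L := 6437 / 25000) (by norm_num) (by norm_num) (by norm_num) (by norm_num) (by norm_num) (by norm_num)
    (by norm_num) (by norm_num) (by norm_num) (by norm_num) h6
  have h8 := simp_step (by norm_num) hr hN hU (by norm_num) (by norm_num) hH (a := 379 / 500) (b := 31 / 40) (t := 6051 / 6250)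
    (c := 15799 / 25000) (L := 3059 / 12500) (by norm_num) (by norm_num) (by norm_num) (by norm_num) (by norm_num) (by norm_num)
    (by norm_num) (by norm_num) (by norm_num) (by norm_num) h7
  have h9 := simp_step (by norm_num) hr hN hU (by norm_num) (by norm_num) hH (a := 31 / 40) (b := 791 / 1000) (t := 48879 / 50000)
    (c := 61181 / 100000) (L := 23223 / 100000) (by norm_num) (by norm_num) (by norm_num) (by norm_num) (by norm_num) (by norm_num)
    (by norm_num) (by norm_num) (by norm_num) (by norm_num) h8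
  have h10 := simp_step (by norm_num) hr hN hU (by norm_num) (by norm_num) hH (a := 791 / 1000) (b := 4 / 5) (t := 99057 / 100000)
    (c := 59999 / 100000) (L := 22499 / 100000) (by norm_num) (by norm_num) (by norm_num) (by norm_num) (by norm_num) (by norm_num)
    (by norm_num) (by norm_num) (by norm_num) (by norm_num) h9
  exact simp_end hr h10

/-- `l (1+c) ≤ c²` in dimension 10 -/
theorem ll_simple_n9 {r : ℝ → ℝ} (hr : Prof r) (hN : NleB 9 r) :
    ∀ s ∈ Ioo (0 : ℝ) 1, ll 9 r s * (1 + cc s) ≤ cc s ^ 2 := by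
  obtain ⟨hH, hU, hA⟩ := coneData_n9 hr hN
  have h0 := simp_start (by norm_num) hr hN (by norm_num) hA
  have h1 := simp_step (by norm_num) hr hN hU (by norm_num) (by norm_num) hH (a := 451 / 1000) (b := 133 / 250) (t := 6649 / 10000)
    (c := 42337 / 50000) (L := 38823 / 100000) (by norm_num) (by norm_num) (by norm_num) (by norm_num) (by norm_num) (by norm_num)
    (by norm_num) (by norm_num) (by norm_num) (by norm_num) h0
  have h2 := simp_step (by norm_num) hr hN hU (by norm_num) (by norm_num) hH (a := 133 / 250) (b := 593 / 1000) (t := 15237 / 20000)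
    (c := 2013 / 2500) (L := 7183 / 20000) (by norm_num) (by norm_num) (by norm_num) (by norm_num) (by norm_num) (by norm_num)
    (by norm_num) (by norm_num) (by norm_num) (by norm_num) h1
  have h3 := simp_step (by norm_num) hr hN hU (by norm_num) (by norm_num) hH (a := 593 / 1000) (b := 159 / 250) (t := 82987 / 100000)
    (c := 4823 / 6250) (L := 33611 / 100000) (by norm_num) (by norm_num) (by norm_num) (by norm_num) (by norm_num) (by norm_num)
    (by norm_num) (by norm_num) (by norm_num) (by norm_num) h2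
  have h4 := simp_step (by norm_num) hr hN hU (by norm_num) (by norm_num) hH (a := 159 / 250) (b := 667 / 1000) (t := 10927 / 12500)
    (c := 14901 / 20000) (L := 31809 / 100000) (by norm_num) (by norm_num) (by norm_num) (by norm_num) (by norm_num) (by norm_num)
    (by norm_num) (by norm_num) (by norm_num) (by norm_num) h3
  have h5 := simp_step (by norm_num) hr hN hU (by norm_num) (by norm_num) hH (a := 667 / 1000) (b := 69 / 100) (t := 45193 / 50000)
    (c := 3619 / 5000) (L := 30391 / 100000) (by norm_num) (by norm_num) (by norm_num) (by norm_num) (by norm_num) (by norm_num)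
    (by norm_num) (by norm_num) (by norm_num) (by norm_num) h4
  have h6 := simp_step (by norm_num) hr hN hU (by norm_num) (by norm_num) hH (a := 69 / 100) (b := 177 / 250) (t := 11553 / 12500)
    (c := 70621 / 100000) (L := 2923 / 10000) (by norm_num) (by norm_num) (by norm_num) (by norm_num) (by norm_num) (by norm_num)
    (by norm_num) (by norm_num) (by norm_num) (by norm_num) h5
  have h7 := simp_step (by norm_num) hr hN hU (by norm_num) (by norm_num) hH (a := 177 / 250) (b := 723 / 1000) (t := 2934 / 3125)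
    (c := 17271 / 25000) (L := 14113 / 50000) (by norm_num) (by norm_num) (by norm_num) (by norm_num) (by norm_num) (by norm_num)
    (by norm_num) (by norm_num) (by norm_num) (by norm_num) h6
  have h8 := simp_step (by norm_num) hr hN hU (by norm_num) (by norm_num) hH (a := 723 / 1000) (b := 92 / 125) (t := 95021 / 100000)
    (c := 33849 / 50000) (L := 27329 / 100000) (by norm_num) (by norm_num) (by norm_num) (by norm_num) (by norm_num) (by norm_num)
    (by norm_num) (by norm_num) (by norm_num) (by norm_num) h7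
  have h9 := simp_step (by norm_num) hr hN hU (by norm_num) (by norm_num) hH (a := 92 / 125) (b := 747 / 1000) (t := 95977 / 100000)
    (c := 33241 / 50000) (L := 6637 / 25000) (by norm_num) (by norm_num) (by norm_num) (by norm_num) (by norm_num) (by norm_num)
    (by norm_num) (by norm_num) (by norm_num) (by norm_num) h8
  have h10 := simp_step (by norm_num) hr hN hU (by norm_num) (by norm_num) hH (a := 747 / 1000) (b := 379 / 500) (t := 24159 / 25000)
    (c := 2609 / 4000) (L := 6437 / 25000) (by norm_num) (by norm_num) (by norm_num) (by norm_num) (by norm_num) (by norm_num)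
    (by norm_num) (by norm_num) (by norm_num) (by norm_num) h9
  have h11 := simp_step (by norm_num) hr hN hU (by norm_num) (by norm_num) hH (a := 379 / 500) (b := 96 / 125) (t := 97331 / 100000)
    (c := 16011 / 25000) (L := 25003 / 100000) (by norm_num) (by norm_num) (by norm_num) (by norm_num) (by norm_num) (by norm_num)
    (by norm_num) (by norm_num) (by norm_num) (by norm_num) h10
  have h12 := simp_step (by norm_num) hr hN hU (by norm_num) (by norm_num) hH (a := 96 / 125) (b := 779 / 1000) (t := 97791 / 100000)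
    (c := 31351 / 50000) (L := 6041 / 25000) (by norm_num) (by norm_num) (by norm_num) (by norm_num) (by norm_num) (by norm_num)
    (by norm_num) (by norm_num) (by norm_num) (by norm_num) h11
  have h13 := simp_step (by norm_num) hr hN hU (by norm_num) (by norm_num) hH (a := 779 / 1000) (b := 79 / 100) (t := 98341 / 100000)
    (c := 6131 / 10000) (L := 11651 / 50000) (by norm_num) (by norm_num) (by norm_num) (by norm_num) (by norm_num) (by norm_num)
    (by norm_num) (by norm_num) (by norm_num) (by norm_num) h12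
  have h14 := simp_step (by norm_num) hr hN hU (by norm_num) (by norm_num) hH (a := 79 / 100) (b := 4 / 5) (t := 24733 / 25000)
    (c := 59999 / 100000) (L := 22499 / 100000) (by norm_num) (by norm_num) (by norm_num) (by norm_num) (by norm_num) (by norm_num)
    (by norm_num) (by norm_num) (by norm_num) (by norm_num) h13
  exact simp_end hr h14

/-- `l (1+c) ≤ c²` in dimension 11 -/
theorem ll_simple_n10 {r : ℝ → ℝ} (hr : Prof r) (hN : NleB 10 r) :
    ∀ s ∈ Ioo (0 : ℝ) 1, ll 10 r s * (1 + cc s) ≤ cc s ^ 2 := by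
  obtain ⟨hH, hU, hA⟩ := coneData_n10 hr hN
  have h0 := simp_start (by norm_num) hr hN (by norm_num) hA
  have h1 := simp_step (by norm_num) hr hN hU (by norm_num) (by norm_num) hH (a := 54 / 125) (b := 513 / 1000) (t := 8027 / 12500)
    (c := 42919 / 50000) (L := 1239 / 3125) (by norm_num) (by norm_num) (by norm_num) (by norm_num) (by norm_num) (by norm_num)
    (by norm_num) (by norm_num) (by norm_num) (by norm_num) h0
  have h2 := simp_step (by norm_num) hr hN hU (by norm_num) (by norm_num) hH (a := 513 / 1000) (b := 143 / 250) (t := 74237 / 100000)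
    (c := 3281 / 4000) (L := 18481 / 50000) (by norm_num) (by norm_num) (by norm_num) (by norm_num) (by norm_num) (by norm_num)
    (by norm_num) (by norm_num) (by norm_num) (by norm_num) h1
  have h3 := simp_step (by norm_num) hr hN hU (by norm_num) (by norm_num) hH (a := 143 / 250) (b := 307 / 500) (t := 81019 / 100000)
    (c := 7893 / 10000) (L := 34817 / 100000) (by norm_num) (by norm_num) (by norm_num) (by norm_num) (by norm_num) (by norm_num)
    (by norm_num) (by norm_num) (by norm_num) (by norm_num) h2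
  have h4 := simp_step (by norm_num) hr hN hU (by norm_num) (by norm_num) hH (a := 307 / 500) (b := 643 / 1000) (t := 85587 / 100000)
    (c := 38293 / 50000) (L := 6643 / 20000) (by norm_num) (by norm_num) (by norm_num) (by norm_num) (by norm_num) (by norm_num)
    (by norm_num) (by norm_num) (by norm_num) (by norm_num) h3
  have h5 := simp_step (by norm_num) hr hN hU (by norm_num) (by norm_num) hH (a := 643 / 1000) (b := 83 / 125) (t := 44269 / 50000)
    (c := 74773 / 100000) (L := 3199 / 10000) (by norm_num) (by norm_num) (by norm_num) (by norm_num) (by norm_num) (by norm_num)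
    (by norm_num) (by norm_num) (by norm_num) (by norm_num) h4
  have h6 := simp_step (by norm_num) hr hN hU (by norm_num) (by norm_num) hH (a := 83 / 125) (b := 17 / 25) (t := 18109 / 20000)
    (c := 73321 / 100000) (L := 31017 / 100000) (by norm_num) (by norm_num) (by norm_num) (by norm_num) (by norm_num) (by norm_num)
    (by norm_num) (by norm_num) (by norm_num) (by norm_num) h5
  have h7 := simp_step (by norm_num) hr hN hU (by norm_num) (by norm_num) hH (a := 17 / 25) (b := 173 / 250) (t := 92031 / 100000)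
    (c := 72189 / 100000) (L := 3783 / 12500) (by norm_num) (by norm_num) (by norm_num) (by norm_num) (by norm_num) (by norm_num)
    (by norm_num) (by norm_num) (by norm_num) (by norm_num) h6
  have h8 := simp_step (by norm_num) hr hN hU (by norm_num) (by norm_num) hH (a := 173 / 250) (b := 351 / 500) (t := 2908 / 3125)
    (c := 71217 / 100000) (L := 14811 / 50000) (by norm_num) (by norm_num) (by norm_num) (by norm_num) (by norm_num) (by norm_num)
    (by norm_num) (by norm_num) (by norm_num) (by norm_num) h7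
  have h9 := simp_step (by norm_num) hr hN hU (by norm_num) (by norm_num) hH (a := 351 / 500) (b := 71 / 100) (t := 93907 / 100000)
    (c := 3521 / 5000) (L := 14549 / 50000) (by norm_num) (by norm_num) (by norm_num) (by norm_num) (by norm_num) (by norm_num)
    (by norm_num) (by norm_num) (by norm_num) (by norm_num) h8
  have h10 := simp_step (by norm_num) hr hN hU (by norm_num) (by norm_num) hH (a := 71 / 100) (b := 717 / 1000) (t := 11817 / 12500)
    (c := 69707 / 100000) (L := 3579 / 12500) (by norm_num) (by norm_num) (by norm_num) (by norm_num) (by norm_num) (by norm_num)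
    (by norm_num) (by norm_num) (by norm_num) (by norm_num) h9
  have h11 := simp_step (by norm_num) hr hN hU (by norm_num) (by norm_num) hH (a := 717 / 1000) (b := 723 / 1000) (t := 95081 / 100000)
    (c := 17271 / 25000) (L := 14113 / 50000) (by norm_num) (by norm_num) (by norm_num) (by norm_num) (by norm_num) (by norm_num)
    (by norm_num) (by norm_num) (by norm_num) (by norm_num) h10
  have h12 := simp_step (by norm_num) hr hN hU (by norm_num) (by norm_num) hH (a := 723 / 1000) (b := 729 / 1000) (t := 23871 / 25000)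
    (c := 68451 / 100000) (L := 5563 / 20000) (by norm_num) (by norm_num) (by norm_num) (by norm_num) (by norm_num) (by norm_num)
    (by norm_num) (by norm_num) (by norm_num) (by norm_num) h11
  have h13 := simp_step (by norm_num) hr hN hU (by norm_num) (by norm_num) hH (a := 729 / 1000) (b := 367 / 500) (t := 95943 / 100000)
    (c := 33957 / 50000) (L := 6867 / 25000) (by norm_num) (by norm_num) (by norm_num) (by norm_num) (by norm_num) (by norm_num)
    (by norm_num) (by norm_num) (by norm_num) (by norm_num) h12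
  have h14 := simp_step (by norm_num) hr hN hU (by norm_num) (by norm_num) hH (a := 367 / 500) (b := 739 / 1000) (t := 96263 / 100000)
    (c := 6737 / 10000) (L := 27117 / 100000) (by norm_num) (by norm_num) (by norm_num) (by norm_num) (by norm_num) (by norm_num)
    (by norm_num) (by norm_num) (by norm_num) (by norm_num) h13
  have h15 := simp_step (by norm_num) hr hN hU (by norm_num) (by norm_num) hH (a := 739 / 1000) (b := 93 / 125) (t := 3863 / 4000)
    (c := 66817 / 100000) (L := 13381 / 50000) (by norm_num) (by norm_num) (by norm_num) (by norm_num) (by norm_num) (by norm_num)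
    (by norm_num) (by norm_num) (by norm_num) (by norm_num) h14
  have h16 := simp_step (by norm_num) hr hN hU (by norm_num) (by norm_num) hH (a := 93 / 125) (b := 749 / 1000) (t := 96881 / 100000)
    (c := 4141 / 6250) (L := 6601 / 25000) (by norm_num) (by norm_num) (by norm_num) (by norm_num) (by norm_num) (by norm_num)
    (by norm_num) (by norm_num) (by norm_num) (by norm_num) h15
  have h17 := simp_step (by norm_num) hr hN hU (by norm_num) (by norm_num) hH (a := 749 / 1000) (b := 377 / 500) (t := 97179 / 100000)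
    (c := 65687 / 100000) (L := 26041 / 100000) (by norm_num) (by norm_num) (by norm_num) (by norm_num) (by norm_num) (by norm_num)
    (by norm_num) (by norm_num) (by norm_num) (by norm_num) h16
  have h18 := simp_step (by norm_num) hr hN hU (by norm_num) (by norm_num) hH (a := 377 / 500) (b := 759 / 1000) (t := 9747 / 10000)
    (c := 65109 / 100000) (L := 1027 / 4000) (by norm_num) (by norm_num) (by norm_num) (by norm_num) (by norm_num) (by norm_num)
    (by norm_num) (by norm_num) (by norm_num) (by norm_num) h17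
  have h19 := simp_step (by norm_num) hr hN hU (by norm_num) (by norm_num) hH (a := 759 / 1000) (b := 191 / 250) (t := 12219 / 12500)
    (c := 64521 / 100000) (L := 25303 / 100000) (by norm_num) (by norm_num) (by norm_num) (by norm_num) (by norm_num) (by norm_num)
    (by norm_num) (by norm_num) (by norm_num) (by norm_num) h18
  have h20 := simp_step (by norm_num) hr hN hU (by norm_num) (by norm_num) hH (a := 191 / 250) (b := 769 / 1000) (t := 98027 / 100000)
    (c := 15981 / 25000) (L := 24927 / 100000) (by norm_num) (by norm_num) (by norm_num) (by norm_num) (by norm_num) (by norm_num)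
    (by norm_num) (by norm_num) (by norm_num) (by norm_num) h19
  have h21 := simp_step (by norm_num) hr hN hU (by norm_num) (by norm_num) hH (a := 769 / 1000) (b := 31 / 40) (t := 4911 / 5000)
    (c := 15799 / 25000) (L := 3059 / 12500) (by norm_num) (by norm_num) (by norm_num) (by norm_num) (by norm_num) (by norm_num)
    (by norm_num) (by norm_num) (by norm_num) (by norm_num) h20
  have h22 := simp_step (by norm_num) hr hN hU (by norm_num) (by norm_num) hH (a := 31 / 40) (b := 781 / 1000) (t := 9853 / 10000)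
    (c := 62453 / 100000) (L := 24009 / 100000) (by norm_num) (by norm_num) (by norm_num) (by norm_num) (by norm_num) (by norm_num)
    (by norm_num) (by norm_num) (by norm_num) (by norm_num) h21
  have h23 := simp_step (by norm_num) hr hN hU (by norm_num) (by norm_num) hH (a := 781 / 1000) (b := 197 / 250) (t := 98749 / 100000)
    (c := 61567 / 100000) (L := 1173 / 5000) (by norm_num) (by norm_num) (by norm_num) (by norm_num) (by norm_num) (by norm_num)
    (by norm_num) (by norm_num) (by norm_num) (by norm_num) h22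
  have h24 := simp_step (by norm_num) hr hN hU (by norm_num) (by norm_num) hH (a := 197 / 250) (b := 199 / 250) (t := 99001 / 100000)
    (c := 60529 / 100000) (L := 22823 / 100000) (by norm_num) (by norm_num) (by norm_num) (by norm_num) (by norm_num) (by norm_num)
    (by norm_num) (by norm_num) (by norm_num) (by norm_num) h23
  have h25 := simp_step (by norm_num) hr hN hU (by norm_num) (by norm_num) hH (a := 199 / 250) (b := 4 / 5) (t := 99683 / 100000)
    (c := 59999 / 100000) (L := 22499 / 100000) (by norm_num) (by norm_num) (by norm_num) (by norm_num) (by norm_num) (by norm_num)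
    (by norm_num) (by norm_num) (by norm_num) (by norm_num) h24
  exact simp_end hr h25

/-- `l ≤ 1/2` in dimensions 6, …, 23 -/
theorem ll_half_all {n : ℕ} (h5 : 5 ≤ n) (h22 : n ≤ 22) {r : ℝ → ℝ} (hr : Prof r) (hN : NleB n r) :
    ∀ s ∈ Ioo (0 : ℝ) 1, ll n r s ≤ 1 / 2 := by
  interval_cases n
  · exact ll_half_n5 hr hN
  · exact ll_half_n6 hr hN
  · exact ll_half_n7 hr hN
  · exact ll_half_n8 hr hN
  · exact ll_half_n9 hr hN
  · exact ll_half_n10 hr hN
  · exact ll_half_n11 hr hN
  · exact ll_half_n12 hr hN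
  · exact ll_half_n13 hr hN
  · exact ll_half_n14 hr hN
  · exact ll_half_n15 hr hN
  · exact ll_half_n16 hr hN
  · exact ll_half_n17 hr hN
  · exact ll_half_n18 hr hN
  · exact ll_half_n19 hr hN
  · exact ll_half_n20 hr hN
  · exact ll_half_n21 hr hN
  · exact ll_half_n22 hr hN

/-- `l (1+c) ≤ c²` in dimensions 6, …, 11 -/
theorem ll_simple_all {n : ℕ} (h5 : 5 ≤ n) (h10 : n ≤ 10) {r : ℝ → ℝ} (hr : Prof r) (hN : NleB n r) :
    ∀ s ∈ Ioo (0 : ℝ) 1, ll n r s * (1 + cc s) ≤ cc s ^ 2 := by
  interval_cases n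
  · exact ll_simple_n5 hr hN
  · exact ll_simple_n6 hr hN
  · exact ll_simple_n7 hr hN
  · exact ll_simple_n8 hr hN
  · exact ll_simple_n9 hr hN
  · exact ll_simple_n10 hr hN

end Crest.Agent.R230
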