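import Crest.Agent.R230.WMain2

/-!
# Row 230: master theorem, general Poincaré weight and general null Lagrangians
-/

set_option autoImplicit false

open MeasureTheory Set Filter Topology
open scoped Pointwise ENNReal

namespace Crest.Agent.R230.WR

/-- general null Lagrangian: `F` continuous on `[0,1]`, vanishing at `0` and `1`, right derivative
`c^{n-1} F'` -/
lemma null_F {n : ℕ} {F F' : ℝ → ℝ} (hF : ContinuousOn F (Icc 0 1)) (h0 : F 0 = 0) (h1 : F 1 = 0)
    (hF' : ∀ s ∈ Ioo (0 : ℝ) 1, HasDerivWithinAt F (cc s ^ (n - 1) * F' s) (Ioi s) s)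
    (hi : NI n F') : JJ n F' = 0 := by
  have h := intervalIntegral.integral_eq_sub_of_hasDeriv_right_of_le (a := (0 : ℝ)) (b := 1)
    zero_le_one hF hF' hi
  unfold JJ
  rw [h, h0, h1, sub_zero]


/-- null Lagrangian `s c^{n-1} G` with a right derivative -/
lemma null_GR {n : ℕ} (hn : 3 ≤ n) {G G' : ℝ → ℝ} (hG : ContinuousOn G (Icc 0 1))
    (hG' : ∀ s ∈ Ioo (0 : ℝ) 1, HasDerivWithinAt G (G' s) (Ioi s) s) (hi : NI n (fun s => s * G' s)) :
    JJ n (fun s => G s + s * G' s - ((n : ℝ) - 1) * (Y s * G s)) = 0 := by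
  obtain ⟨k, rfl⟩ : ∃ k, n = k + 3 := ⟨n - 3, by omega⟩
  have e1 : k + 3 - 1 = k + 2 := rfl
  have e2 : k + 3 - 3 = k := rfl
  refine null_F (F := fun s => s * cc s ^ (k + 2) * G s) ?_ (by simp) ?_ ?_
    (((NI_cont hG).add hi).sub ((NI_Y hn hG).smul _))
  · exact (continuousOn_id.mul (cc_continuous.pow _).continuousOn).mul hG
  · have : cc 1 = 0 := by unfold cc; simp
    simp [this]
  · intro s hs
    have d : HasDerivAt (fun s => s * cc s ^ (k + 2)) (1 * cc s ^ (k + 2) +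
        s * (-((k : ℝ) + 2) * s * cc s ^ k)) s :=
      (hasDerivAt_id s).fun_mul (Poinc.hasDerivAt_cpow k hs.1.le hs.2)
    have d2 := d.hasDerivWithinAt (s := Ioi s) |>.fun_mul (hG' s hs)
    refine d2.congr_deriv ?_
    have h1 := pow_mul_Y (n := k + 3) hn hs
    rw [e1, e2] at h1
    rw [e1]
    push_cast
    calc (1 * cc s ^ (k + 2) + s * (-((k : ℝ) + 2) * s * cc s ^ k)) * G s + s * cc s ^ (k + 2) * G' s
        = cc s ^ (k + 2) * (G s + s * G' s) - ((k : ℝ) + 2) * ((s ^ 2 * cc s ^ k) * G s) := by ring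
      _ = _ := by rw [← h1]; ring

/-- null Lagrangian `s³ c^{n-3} G` with a right derivative -/
lemma null_YR {n : ℕ} (hn : 5 ≤ n) {G G' : ℝ → ℝ} (hG : ContinuousOn G (Icc 0 1))
    (hG' : ∀ s ∈ Ioo (0 : ℝ) 1, HasDerivWithinAt G (G' s) (Ioi s) s)
    (hi : NI n (fun s => Y s * (s * G' s))) :
    JJ n (fun s => 3 * (Y s * G s) - ((n : ℝ) - 3) * (Y s ^ 2 * G s) + Y s * (s * G' s)) = 0 := by
  obtain ⟨k, rfl⟩ : ∃ k, n = k + 5 := ⟨n - 5, by omega⟩
  refine null_F (F := fun s => s ^ 3 * cc s ^ (k + 2) * G s) ?_ (by simp) ?_ ?_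
    ((((NI_Y (by omega) hG).smul 3).sub ((NI_Y2 hn hG).smul _)).add hi)
  · exact ((continuous_pow 3).continuousOn.mul (cc_continuous.pow _).continuousOn).mul hG
  · have : cc 1 = 0 := by unfold cc; simp
    simp [this]
  · intro s hs
    have d1 := hasDerivAt_pow 3 s
    have d2 : HasDerivAt (fun s => cc s ^ (k + 2)) (-((k : ℝ) + 2) * s * cc s ^ k) s :=
      Poinc.hasDerivAt_cpow k hs.1.le hs.2
    have d := (d1.fun_mul d2).hasDerivWithinAt (s := Ioi s) |>.fun_mul (hG' s hs)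
    refine d.congr_deriv ?_
    have h1 := pow_mul_Y (n := k + 5) (by omega) hs
    have h2 := pow_mul_Y2 (n := k + 5) hn hs
    have e1 : k + 5 - 3 = k + 2 := by omega
    have e2 : k + 5 - 5 = k := by omega
    rw [e1] at h1
    rw [e2] at h2
    have e3 : k + 5 - 1 = k + 4 := by omega
    rw [e3] at h1 h2 ⊢
    calc (↑3 * s ^ (3 - 1) * cc s ^ (k + 2) + s ^ 3 * (-((k : ℝ) + 2) * s * cc s ^ k)) * G s +
          s ^ 3 * cc s ^ (k + 2) * G' s
        = 3 * (s ^ 2 * cc s ^ (k + 2)) * G s - ((k : ℝ) + 2) * (s ^ 4 * cc s ^ k) * G s +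
        (s ^ 2 * cc s ^ (k + 2)) * (s * G' s) := by
          norm_num
          ring
      _ = _ := by
          rw [← h1, ← h2]
          push_cast
          ring



section path

variable {r : ℝ → ℝ} (hr : Prof r) {n : ℕ}
include hr




end path

end Crest.Agent.R230.WR
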