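import Crest.Agent.R230.Poincare1
import Crest.Agent.R230.WMain3
import Crest.Agent.R230.XlogWR

-- ▼ part R230/WPoincare
section

/-!
# Row 230: weighted Poincare inequality (helper608's form) on `[0,1]`

`k = N - 4`, `c = √(1-s²)`, `k ≥ 1`.
* `wpoincare` : `2k ∫ s² c^k (l-l(s⋆))² ≤ ∫ s² c^{k+4} l'²`, `s⋆² = 3/(k+3)`;
* `wpoincare_mean` : the same with any `λ` such that `∫ s² c^k (l-λ) = 0`.
-/

set_option autoImplicit false

open MeasureTheory Set Filter Topology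

namespace Crest.Agent.R230.Poinc

/-- main piece: on `[a,b] ⊆ [0,1]` with `s² ≠ q` inside, `q = 3/(k+3)` -/
lemma wpiece (k : ℕ) {l l' : ℝ → ℝ} {lst a b : ℝ} (ha : 0 ≤ a) (hab : a ≤ b) (hb : b ≤ 1)
    (hl' : ∀ s ∈ Ioo a b, HasDerivAt l (l' s) s)
    (hq : ∀ s ∈ Ioo a b, s ^ 2 - 3 / ((k : ℝ) + 3) ≠ 0)
    (hF : ContinuousOn (fun s => (2 * k / (k + 3)) * s ^ 3 * Real.sqrt (1 - s ^ 2) ^ (k + 2) *
      (l s - lst) ^ 2 / (s ^ 2 - 3 / ((k : ℝ) + 3))) (Icc a b))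
    (hi : IntegrableOn (fun s => s ^ 2 * Real.sqrt (1 - s ^ 2) ^ (k + 4) * l' s ^ 2) (Icc a b))
    (hi2 : IntegrableOn (fun s => s ^ 2 * Real.sqrt (1 - s ^ 2) ^ k * (l s - lst) ^ 2) (Icc a b)) :
    ((2 * k / (k + 3)) * b ^ 3 * Real.sqrt (1 - b ^ 2) ^ (k + 2) * (l b - lst) ^ 2 /
        (b ^ 2 - 3 / ((k : ℝ) + 3))) -
      ((2 * k / (k + 3)) * a ^ 3 * Real.sqrt (1 - a ^ 2) ^ (k + 2) * (l a - lst) ^ 2 /
        (a ^ 2 - 3 / ((k : ℝ) + 3))) ≤
      ∫ s in a..b, (s ^ 2 * Real.sqrt (1 - s ^ 2) ^ (k + 4) * l' s ^ 2 -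
        2 * (k : ℝ) * (s ^ 2 * Real.sqrt (1 - s ^ 2) ^ k * (l s - lst) ^ 2)) := by
  have hk3 : ((k : ℝ) + 3) ≠ 0 := by positivity
  refine intervalIntegral.sub_le_integral_of_hasDeriv_right_of_le hab hF
    (g' := fun s => -2 * (k : ℝ) * (s ^ 2 * Real.sqrt (1 - s ^ 2) ^ k * (l s - lst) ^ 2) +
      2 * (2 * k / (k + 3)) * s ^ 3 * Real.sqrt (1 - s ^ 2) ^ (k + 2) * (l s - lst) * l' s /
        (s ^ 2 - 3 / ((k : ℝ) + 3)) -
      (2 * k / (k + 3)) ^ 2 * s ^ 4 * Real.sqrt (1 - s ^ 2) ^ k * (l s - lst) ^ 2 /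
        (s ^ 2 - 3 / ((k : ℝ) + 3)) ^ 2)
    ?_ ?_ ?_
  · intro s hs
    have h0 : 0 ≤ s := ha.trans hs.1.le
    have h1 : s < 1 := hs.2.trans_le hb
    have hq' := hq s hs
    have d1 : HasDerivAt (fun s : ℝ => (2 * (k : ℝ) / (k + 3)) * s ^ 3)
        ((2 * (k : ℝ) / (k + 3)) * (3 * s ^ 2)) s := by
      have := (hasDerivAt_pow 3 s).const_mul (2 * (k : ℝ) / (k + 3))
      refine this.congr_deriv ?_
      norm_num
    have d2 := hasDerivAt_cpow k h0 h1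
    have d3 : HasDerivAt (fun s => (l s - lst) ^ 2) (2 * (l s - lst) * l' s) s := by
      have := ((hl' s hs).sub_const lst).fun_pow 2
      refine this.congr_deriv ?_
      norm_num
    have d4 : HasDerivAt (fun s : ℝ => s ^ 2 - 3 / ((k : ℝ) + 3)) (2 * s) s := by
      have := (hasDerivAt_pow 2 s).sub_const (3 / ((k : ℝ) + 3))
      refine this.congr_deriv ?_
      norm_num
    have d := ((d1.fun_mul d2).fun_mul d3).fun_div d4 hq'
    refine (d.congr_deriv ?_).hasDerivWithinAt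
    have hc2 : Real.sqrt (1 - s ^ 2) ^ (k + 2) = Real.sqrt (1 - s ^ 2) ^ k * (1 - s ^ 2) := by
      rw [pow_add, csq h0 h1.le]
    rw [hc2]
    have key : ∀ (Q D C u v : ℝ), Q ≠ 0 → D * ((k : ℝ) + 3) = 2 * k → ((k : ℝ) + 3) * (s ^ 2 - Q) = 3 →
        D = 2 - 2 * (s ^ 2 - Q) →
        ((((D * (3 * s ^ 2)) * (C * (1 - s ^ 2)) + D * s ^ 3 * (-((k : ℝ) + 2) * s * C)) * u ^ 2 +
          D * s ^ 3 * (C * (1 - s ^ 2)) * (2 * u * v)) * Q -
          D * s ^ 3 * (C * (1 - s ^ 2)) * u ^ 2 * (2 * s)) / Q ^ 2 =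
        -2 * (k : ℝ) * (s ^ 2 * C * u ^ 2) + 2 * D * s ^ 3 * (C * (1 - s ^ 2)) * u * v / Q -
          D ^ 2 * s ^ 4 * C * u ^ 2 / Q ^ 2 := by
      intro Q D C u v hQ r1 r2 r3
      have eR : (-2 * (k : ℝ) * (s ^ 2 * C * u ^ 2) + 2 * D * s ^ 3 * (C * (1 - s ^ 2)) * u * v / Q -
          D ^ 2 * s ^ 4 * C * u ^ 2 / Q ^ 2) * Q ^ 2 = -2 * (k : ℝ) * (s ^ 2 * C * u ^ 2) * Q ^ 2 +
          2 * D * s ^ 3 * (C * (1 - s ^ 2)) * u * v * Q - D ^ 2 * s ^ 4 * C * u ^ 2 := by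
        field_simp
      rw [div_eq_iff (pow_ne_zero 2 hQ), eR]
      linear_combination (-(s ^ 2 * C * u ^ 2 * (D * Q))) * r2 - (s ^ 2 * C * u ^ 2 * Q ^ 2) * r1 +
        (s ^ 2 * C * u ^ 2 * (D * s ^ 2)) * r3
    refine key (s ^ 2 - 3 / ((k : ℝ) + 3)) (2 * k / (k + 3)) _ _ _ hq' ?_ ?_ ?_
    · field_simp
    · field_simp; ring
    · field_simp; ring
  · refine hi.sub ?_
    exact hi2.const_mul _
  · intro s hs
    have h0 : 0 ≤ s := ha.trans hs.1.le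
    have h1 : s < 1 := hs.2.trans_le hb
    have hq' := hq s hs
    have hcp : 0 ≤ s ^ 2 * Real.sqrt (1 - s ^ 2) ^ (k + 4) :=
      mul_nonneg (sq_nonneg s) (pow_nonneg (Real.sqrt_nonneg _) _)
    have hc1 : (1 - s ^ 2) ≠ 0 := by nlinarith
    have key : 0 ≤ s ^ 2 * Real.sqrt (1 - s ^ 2) ^ (k + 4) *
        (l' s - (2 * k / (k + 3)) * s * (l s - lst) / ((1 - s ^ 2) * (s ^ 2 - 3 / ((k : ℝ) + 3)))) ^ 2 :=
      mul_nonneg hcp (sq_nonneg _)
    have hc4 : Real.sqrt (1 - s ^ 2) ^ (k + 4) = Real.sqrt (1 - s ^ 2) ^ k * (1 - s ^ 2) ^ 2 := by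
      have : Real.sqrt (1 - s ^ 2) ^ 4 = (1 - s ^ 2) ^ 2 := by
        have h5 := csq h0 h1.le
        have h6 : Real.sqrt (1 - s ^ 2) ^ 4 = (Real.sqrt (1 - s ^ 2) ^ 2) ^ 2 := by ring
        rw [h6, h5]
      rw [pow_add, this]
    have hc2 : Real.sqrt (1 - s ^ 2) ^ (k + 2) = Real.sqrt (1 - s ^ 2) ^ k * (1 - s ^ 2) := by
      rw [pow_add, csq h0 h1.le]
    have e : s ^ 2 * Real.sqrt (1 - s ^ 2) ^ (k + 4) *
        (l' s - (2 * k / (k + 3)) * s * (l s - lst) / ((1 - s ^ 2) * (s ^ 2 - 3 / ((k : ℝ) + 3)))) ^ 2 =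
        s ^ 2 * Real.sqrt (1 - s ^ 2) ^ (k + 4) * l' s ^ 2 -
        (2 * (2 * k / (k + 3)) * s ^ 3 * Real.sqrt (1 - s ^ 2) ^ (k + 2) * (l s - lst) * l' s /
          (s ^ 2 - 3 / ((k : ℝ) + 3)) -
        (2 * k / (k + 3)) ^ 2 * s ^ 4 * Real.sqrt (1 - s ^ 2) ^ k * (l s - lst) ^ 2 /
          (s ^ 2 - 3 / ((k : ℝ) + 3)) ^ 2) := by
      rw [hc4, hc2]
      have hQ := hq'
      set Q := s ^ 2 - 3 / ((k : ℝ) + 3) with hQd
      set D := 2 * (k : ℝ) / (k + 3) with hDd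
      field_simp
      ring
    rw [e] at key
    linarith

/-- **weighted Poincare inequality**, centred at the value at `s⋆ = √(3/(k+3))`. -/
theorem wpoincare (k : ℕ) (hk1 : 1 ≤ k) {l l' : ℝ → ℝ} (hl : ContinuousOn l (Icc 0 1))
    (hl' : ∀ s ∈ Ioo (0 : ℝ) 1, HasDerivAt l (l' s) s)
    (hi : IntervalIntegrable (fun s => s ^ 2 * Real.sqrt (1 - s ^ 2) ^ (k + 4) * l' s ^ 2)
      volume 0 1) :
    2 * (k : ℝ) * ∫ s in (0 : ℝ)..1, s ^ 2 * Real.sqrt (1 - s ^ 2) ^ k *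
        (l s - l (Real.sqrt (3 / ((k : ℝ) + 3)))) ^ 2 ≤
      ∫ s in (0 : ℝ)..1, s ^ 2 * Real.sqrt (1 - s ^ 2) ^ (k + 4) * l' s ^ 2 := by
  set q : ℝ := 3 / ((k : ℝ) + 3) with hqd
  have hk : (0 : ℝ) < (k : ℝ) + 3 := by positivity
  have hq0 : 0 < q := by positivity
  have hq1 : q < 1 := by
    rw [hqd, div_lt_one hk]
    have : (1 : ℝ) ≤ k := by exact_mod_cast hk1
    linarith
  set st : ℝ := Real.sqrt q with hst
  have hst0 : 0 < st := Real.sqrt_pos.2 hq0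
  have hst2 : st ^ 2 = q := Real.sq_sqrt hq0.le
  have hst1 : st < 1 := by nlinarith
  have hstm : st ∈ Ioo (0 : ℝ) 1 := ⟨hst0, hst1⟩
  have hne : ∀ s : ℝ, 0 ≤ s → s ≠ st → s ^ 2 - q ≠ 0 := by
    intro s hs hne h
    apply hne
    have : s ^ 2 = st ^ 2 := by rw [hst2]; linarith
    nlinarith [sq_nonneg (s - st), hst0]
  -- continuity of F
  have hF : ContinuousOn (fun s => (2 * (k : ℝ) / (k + 3)) * s ^ 3 * Real.sqrt (1 - s ^ 2) ^ (k + 2) *
      (l s - l st) ^ 2 / (s ^ 2 - q)) (Icc 0 1) := by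
    intro s hs
    by_cases h : s = st
    · -- at the singular point
      subst h
      have hd := hl' st hstm
      have hval : (2 * (k : ℝ) / (k + 3)) * st ^ 3 * Real.sqrt (1 - st ^ 2) ^ (k + 2) *
          (l st - l st) ^ 2 / (st ^ 2 - q) = 0 := by simp [hst2]
      refine ContinuousAt.continuousWithinAt ?_
      rw [continuousAt_iff_punctured_nhds]
      rw [hval]
      have hslope : Tendsto (slope l st) (𝓝[≠] st) (𝓝 (l' st)) := hasDerivAt_iff_tendsto_slope.1 hd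
      have hlc : Tendsto (fun s => l s - l st) (𝓝[≠] st) (𝓝 0) := by
        have h1 : Tendsto l (𝓝[≠] st) (𝓝 (l st)) := hd.continuousAt.tendsto.mono_left nhdsWithin_le_nhds
        simpa using h1.sub_const (l st)
      have hrest : Tendsto (fun s => (2 * (k : ℝ) / (k + 3)) * s ^ 3 *
          Real.sqrt (1 - s ^ 2) ^ (k + 2) / (s + st)) (𝓝[≠] st)
          (𝓝 ((2 * (k : ℝ) / (k + 3)) * st ^ 3 * Real.sqrt (1 - st ^ 2) ^ (k + 2) / (st + st))) := by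
        have hc : ContinuousAt (fun s => (2 * (k : ℝ) / (k + 3)) * s ^ 3 *
            Real.sqrt (1 - s ^ 2) ^ (k + 2) / (s + st)) st := by
          refine ContinuousAt.div (by fun_prop) (by fun_prop) (by positivity)
        exact hc.tendsto.mono_left nhdsWithin_le_nhds
      have hprod := (hrest.mul hslope).mul hlc
      rw [mul_zero] at hprod
      refine hprod.congr' ?_
      filter_upwards [self_mem_nhdsWithin, mem_nhdsWithin_of_mem_nhds (Ioi_mem_nhds hst0)] with s hs1 hs2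
      have hs1' : s ≠ st := hs1
      have hs2' : 0 < s := hs2
      have h1 : s - st ≠ 0 := sub_ne_zero.2 hs1'
      have h2 : s + st ≠ 0 := by positivity
      have h3 : s ^ 2 - q = (s - st) * (s + st) := by rw [← hst2]; ring
      rw [h3, slope_def_field]
      field_simp
    · have hl1 := hl s hs
      refine ContinuousWithinAt.div ?_ (by fun_prop) (hne s hs.1 h)
      refine ContinuousWithinAt.mul (by fun_prop) ?_
      exact (hl1.sub continuousWithinAt_const).pow 2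
  have hiw : IntervalIntegrable (fun s => s ^ 2 * Real.sqrt (1 - s ^ 2) ^ k * (l s - l st) ^ 2)
      volume 0 1 := by
    refine ContinuousOn.intervalIntegrable ?_
    rw [uIcc_of_le zero_le_one]
    refine ContinuousOn.mul (by fun_prop) ((hl.sub continuousOn_const).pow 2)
  have hI1 : IntegrableOn (fun s => s ^ 2 * Real.sqrt (1 - s ^ 2) ^ (k + 4) * l' s ^ 2) (Icc 0 1) := by
    rw [integrableOn_Icc_iff_integrableOn_Ioc]
    exact (intervalIntegrable_iff_integrableOn_Ioc_of_le zero_le_one).1 hi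
  have hI2 : IntegrableOn (fun s => s ^ 2 * Real.sqrt (1 - s ^ 2) ^ k * (l s - l st) ^ 2) (Icc 0 1) := by
    rw [integrableOn_Icc_iff_integrableOn_Ioc]
    exact (intervalIntegrable_iff_integrableOn_Ioc_of_le zero_le_one).1 hiw
  have p1 := wpiece k (l := l) (l' := l') (lst := l st) le_rfl hst0.le hst1.le
    (fun s hs => hl' s ⟨hs.1, hs.2.trans hst1⟩)
    (fun s hs => hne s hs.1.le hs.2.ne)
    (hF.mono (Icc_subset_Icc_right hst1.le)) (hI1.mono_set (Icc_subset_Icc_right hst1.le))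
    (hI2.mono_set (Icc_subset_Icc_right hst1.le))
  have p2 := wpiece k (l := l) (l' := l') (lst := l st) hst0.le hst1.le le_rfl
    (fun s hs => hl' s ⟨hst0.trans hs.1, hs.2⟩)
    (fun s hs => hne s (hst0.trans hs.1).le hs.1.ne')
    (hF.mono (Icc_subset_Icc_left hst0.le)) (hI1.mono_set (Icc_subset_Icc_left hst0.le))
    (hI2.mono_set (Icc_subset_Icc_left hst0.le))
  have hint : IntervalIntegrable (fun s => s ^ 2 * Real.sqrt (1 - s ^ 2) ^ (k + 4) * l' s ^ 2 -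
        2 * (k : ℝ) * (s ^ 2 * Real.sqrt (1 - s ^ 2) ^ k * (l s - l st) ^ 2)) volume 0 1 :=
    hi.sub (hiw.const_mul _)
  have hsum : (∫ s in (0 : ℝ)..1, (s ^ 2 * Real.sqrt (1 - s ^ 2) ^ (k + 4) * l' s ^ 2 -
        2 * (k : ℝ) * (s ^ 2 * Real.sqrt (1 - s ^ 2) ^ k * (l s - l st) ^ 2))) =
      (∫ s in (0 : ℝ)..1, s ^ 2 * Real.sqrt (1 - s ^ 2) ^ (k + 4) * l' s ^ 2) -
        2 * (k : ℝ) * ∫ s in (0 : ℝ)..1, s ^ 2 * Real.sqrt (1 - s ^ 2) ^ k * (l s - l st) ^ 2 := by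
    rw [intervalIntegral.integral_sub hi (hiw.const_mul _), intervalIntegral.integral_const_mul]
  have hadd := intervalIntegral.integral_add_adjacent_intervals
    (hint.mono_set (by
      rw [uIcc_of_le hst0.le, uIcc_of_le zero_le_one]; exact Icc_subset_Icc_right hst1.le))
    (hint.mono_set (by
      rw [uIcc_of_le hst1.le, uIcc_of_le zero_le_one]; exact Icc_subset_Icc_left hst0.le))
    (a := 0) (b := st) (c := 1)
  have z1 : ((2 * (k : ℝ) / (k + 3)) * (1 : ℝ) ^ 3 * Real.sqrt (1 - 1 ^ 2) ^ (k + 2) *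
      (l 1 - l st) ^ 2 / (1 ^ 2 - q)) = 0 := by
    simp
  have z2 : ((2 * (k : ℝ) / (k + 3)) * st ^ 3 * Real.sqrt (1 - st ^ 2) ^ (k + 2) *
      (l st - l st) ^ 2 / (st ^ 2 - q)) = 0 := by
    simp
  have z3 : ((2 * (k : ℝ) / (k + 3)) * (0 : ℝ) ^ 3 * Real.sqrt (1 - 0 ^ 2) ^ (k + 2) *
      (l 0 - l st) ^ 2 / (0 ^ 2 - q)) = 0 := by
    simp
  rw [← hqd] at p1 p2
  rw [z1, z2] at p2
  rw [z2, z3] at p1
  have : 0 ≤ (∫ s in (0 : ℝ)..1, (s ^ 2 * Real.sqrt (1 - s ^ 2) ^ (k + 4) * l' s ^ 2 -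
        2 * (k : ℝ) * (s ^ 2 * Real.sqrt (1 - s ^ 2) ^ k * (l s - l st) ^ 2))) := by
    rw [← hadd]; linarith
  rw [hsum] at this
  linarith

/-- **weighted Poincare inequality** with the mean. -/
theorem wpoincare_mean (k : ℕ) (hk1 : 1 ≤ k) {l l' : ℝ → ℝ} {lam : ℝ} (hl : ContinuousOn l (Icc 0 1))
    (hl' : ∀ s ∈ Ioo (0 : ℝ) 1, HasDerivAt l (l' s) s)
    (hi : IntervalIntegrable (fun s => s ^ 2 * Real.sqrt (1 - s ^ 2) ^ (k + 4) * l' s ^ 2)
      volume 0 1)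
    (hlam : ∫ s in (0 : ℝ)..1, s ^ 2 * Real.sqrt (1 - s ^ 2) ^ k * (l s - lam) = 0) :
    2 * (k : ℝ) * ∫ s in (0 : ℝ)..1, s ^ 2 * Real.sqrt (1 - s ^ 2) ^ k * (l s - lam) ^ 2 ≤
      ∫ s in (0 : ℝ)..1, s ^ 2 * Real.sqrt (1 - s ^ 2) ^ (k + 4) * l' s ^ 2 := by
  refine le_trans ?_ (wpoincare k hk1 hl hl' hi)
  set a : ℝ := l (Real.sqrt (3 / ((k : ℝ) + 3))) with ha
  have hk : (0 : ℝ) ≤ 2 * (k : ℝ) := by positivity
  refine mul_le_mul_of_nonneg_left ?_ hk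
  have hw : ContinuousOn (fun s : ℝ => s ^ 2 * Real.sqrt (1 - s ^ 2) ^ k) (Icc 0 1) := by fun_prop
  have i1 : ∀ b : ℝ, IntervalIntegrable (fun s => s ^ 2 * Real.sqrt (1 - s ^ 2) ^ k * (l s - b) ^ 2)
      volume 0 1 := fun b => by
    refine ContinuousOn.intervalIntegrable ?_
    rw [uIcc_of_le zero_le_one]
    exact hw.mul ((hl.sub continuousOn_const).pow 2)
  have i2 : IntervalIntegrable (fun s => s ^ 2 * Real.sqrt (1 - s ^ 2) ^ k * (l s - lam))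
      volume 0 1 := by
    refine ContinuousOn.intervalIntegrable ?_
    rw [uIcc_of_le zero_le_one]
    exact hw.mul (hl.sub continuousOn_const)
  have i3 : IntervalIntegrable (fun s : ℝ => s ^ 2 * Real.sqrt (1 - s ^ 2) ^ k) volume 0 1 := by
    refine ContinuousOn.intervalIntegrable ?_
    rw [uIcc_of_le zero_le_one]
    exact hw
  have e : (∫ s in (0 : ℝ)..1, s ^ 2 * Real.sqrt (1 - s ^ 2) ^ k * (l s - a) ^ 2) =
      (∫ s in (0 : ℝ)..1, s ^ 2 * Real.sqrt (1 - s ^ 2) ^ k * (l s - lam) ^ 2) +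
        2 * (lam - a) * (∫ s in (0 : ℝ)..1, s ^ 2 * Real.sqrt (1 - s ^ 2) ^ k * (l s - lam)) +
        (lam - a) ^ 2 * ∫ s in (0 : ℝ)..1, s ^ 2 * Real.sqrt (1 - s ^ 2) ^ k := by
    rw [← intervalIntegral.integral_const_mul, ← intervalIntegral.integral_const_mul,
      ← intervalIntegral.integral_add (i1 lam) (i2.const_mul _),
      ← intervalIntegral.integral_add ((i1 lam).add (i2.const_mul _)) (i3.const_mul _)]
    congr 1
    ext s
    ring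
  rw [e, hlam]
  have hpos : 0 ≤ ∫ s in (0 : ℝ)..1, s ^ 2 * Real.sqrt (1 - s ^ 2) ^ k := by
    refine intervalIntegral.integral_nonneg zero_le_one fun s _ => ?_
    positivity
  have := mul_nonneg (sq_nonneg (lam - a)) hpos
  linarith

end Crest.Agent.R230.Poinc
end

-- ▼ part R230/OneDAll

/-!
# Row 230: assembly of `OneD n` from the blocks

`oneD_of_blocks` : lower bound of `UX` by the raw density, bounds for `λ`, class region `Reg`, pointwise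
positivity of `PP` in case I (`-(n+1)/σ₁ ≤ λ ≤ 0`, `μ = 0`, `σ₁`, `θ₁`) and case II (`0 ≤ λ ≤ Λ`).
`oneD_of_blocks_w` : the same with the weighted Poincaré inequality in case II.
-/

set_option autoImplicit false

open MeasureTheory Set Filter Topology
open scoped Pointwise ENNReal

namespace Crest.Agent.R230

open WR

/-- the raw lower bound for `UX` -/
def RawBound (n : ℕ) : Prop := ∀ r : ℝ → ℝ, Prof r → NleB n r →
  2 * (∫ s in (0 : ℝ)..1, cc s ^ n *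
      (rawL n s (ll n r s) (kk n r s) + (Phi (tau n r s) - Phi s))) ≤ w n * UX n r

/-- the weighted Poincaré inequality in `JJ`-form (hypothesis `hW` of `master2`) -/
theorem WR.wpoinc {n : ℕ} (hn : 5 ≤ n) {r : ℝ → ℝ} (hr : Prof r) :
    0 ≤ JJ n (fun s => cc s ^ 2 * kk n r s ^ 2 -
      2 * ((n : ℝ) - 3) * (Y s * (ll n r s - lam n r) ^ 2)) := by
  obtain ⟨k, hk⟩ : ∃ k, n = k + 3 := ⟨n - 3, by omega⟩
  have hl := continuousOn_ll hr n
  have hlam := JJ_lam hr (n := n) (by omega)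
  have e0 : JJ n (fun s => Y s * (ll n r s - lam n r)) =
      ∫ s in (0 : ℝ)..1, s ^ 2 * Real.sqrt (1 - s ^ 2) ^ k * (ll n r s - lam n r) := by
    refine JJ_of fun s hs => ?_
    have h1 := pow_mul_Y (n := n) (by omega) hs
    have e2 : n - 3 = k := by omega
    rw [e2] at h1
    have h2 : Real.sqrt (1 - s ^ 2) = cc s := rfl
    rw [h2, ← h1]; ring
  rw [e0] at hlam
  have hkk : ∀ s ∈ Ioo (0 : ℝ) 1, s ^ 2 * Real.sqrt (1 - s ^ 2) ^ (k + 4) * (kk n r s / s) ^ 2 =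
      cc s ^ (n - 1) * (cc s ^ 2 * kk n r s ^ 2) := by
    intro s hs
    have e2 : n - 1 = k + 2 := by omega
    have h2 : Real.sqrt (1 - s ^ 2) = cc s := rfl
    rw [h2, e2]
    have := hs.1.ne'
    have e5 : cc s ^ (k + 4) = cc s ^ (k + 2) * cc s ^ 2 := by rw [← pow_add]
    rw [e5]
    field_simp
  have n1 := NI_ckk_sq hr hn
  have hi : IntervalIntegrable (fun s => s ^ 2 * Real.sqrt (1 - s ^ 2) ^ (k + 4) * (kk n r s / s) ^ 2)
      volume 0 1 := by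
    refine IntervalIntegrable.congr_ae n1 ?_
    rw [uIoc_of_le (by norm_num), ← restrict_Ioo_eq_restrict_Ioc, EventuallyEq,
      ae_restrict_iff' measurableSet_Ioo]
    exact Eventually.of_forall fun s hs => (hkk s hs).symm
  have h := Poinc.wpoincare_mean k (by omega) hl (fun s hs => hasDerivAt_ll hr n hs) hi hlam
  have n2 : NI n (fun s => Y s * (ll n r s - lam n r) ^ 2) :=
    NI_Y (by omega) ((hl.sub continuousOn_const).pow 2)
  rw [JJ_sub n1 (n2.smul _), JJ_smul]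
  have e3 : JJ n (fun s => cc s ^ 2 * kk n r s ^ 2) =
      ∫ s in (0 : ℝ)..1, s ^ 2 * Real.sqrt (1 - s ^ 2) ^ (k + 4) * (kk n r s / s) ^ 2 :=
    JJ_of fun s hs => hkk s hs
  have e4 : JJ n (fun s => Y s * (ll n r s - lam n r) ^ 2) =
      ∫ s in (0 : ℝ)..1, s ^ 2 * Real.sqrt (1 - s ^ 2) ^ k * (ll n r s - lam n r) ^ 2 := by
    refine JJ_of fun s hs => ?_
    have h1 := pow_mul_Y (n := n) (by omega) hs
    have e2 : n - 3 = k := by omega
    rw [e2] at h1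
    have h2 : Real.sqrt (1 - s ^ 2) = cc s := rfl
    rw [h2, ← h1]; ring
  have hnR : (n : ℝ) = k + 3 := by rw [hk]; push_cast; ring
  rw [e3, e4, hnR]
  have : (k : ℝ) + 3 - 3 = k := by ring
  rw [this]
  linarith

section

variable {n : ℕ} {r : ℝ → ℝ}

lemma PP_lm (μ σ θ lm s l k : ℝ) : PP n μ σ θ 0 lm s l k = PP n μ σ θ 0 0 s l k := by
  unfold PP; ring

lemma PQ_lm (μ β₁ β₂ θ lm s l k : ℝ) : PQ n μ β₁ β₂ θ 0 lm s l k = PQ n μ β₁ β₂ θ 0 0 s l k := by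
  unfold PQ; ring

/-- conclusion of the one dimensional lemma for `r` -/
def Concl (n : ℕ) (r : ℝ → ℝ) : Prop :=
  0 ≤ UX n r ∧ (UX n r = 0 → ∃ a : ℝ, ∀ s ∈ Icc (-1 : ℝ) 1, r s = a * Real.sqrt (1 - s ^ 2))


/-- case II, uncapped: `0 ≤ λ ≤ Λ` -/
theorem concl_caseII (hn : 5 ≤ n) (hU : RawBound n) (hr : Prof r) (hN : NleB n r) {σ θ Λ : ℝ}
    (hσ : 0 ≤ σ) (hΛ : 0 ≤ Λ) (hlamU : lam n r ≤ Λ) (hlam : 0 ≤ lam n r)
    (hII : ∀ s ∈ Ioo (0 : ℝ) 1,
      0 ≤ PP n (((n : ℝ) + 1 + σ * Λ) / ((n : ℝ) - 1)) σ θ 0 0 s (ll n r s) (kk n r s) ∧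
      (PP n (((n : ℝ) + 1 + σ * Λ) / ((n : ℝ) - 1)) σ θ 0 0 s (ll n r s) (kk n r s) = 0 →
        ll n r s = 0)) : Concl n r := by
  have hn1 : (0 : ℝ) < (n : ℝ) - 1 := by
    have : (5 : ℝ) ≤ n := by exact_mod_cast hn
    linarith
  have hU1 := hU r hr hN
  have n0 : NI n (fun _ => (0 : ℝ)) := NI_cont continuousOn_const
  have j0 : JJ n (fun _ => (0 : ℝ)) = 0 := by unfold JJ; simp
  have hμ : (((n : ℝ) + 1 + σ * Λ) / ((n : ℝ) - 1)) * ((n : ℝ) - 1) = (n : ℝ) + 1 + σ * Λ :=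
    div_mul_cancel₀ _ hn1.ne'
  refine master hr hn hN (μ := ((n : ℝ) + 1 + σ * Λ) / ((n : ℝ) - 1)) (σ := σ) (θ := θ) (ξ := 0)
    (div_nonneg (by positivity) hn1.le) hσ ?_ n0
    (U := UX n r) (by rw [j0, add_zero]; exact hU1) ?_ ?_
  · rw [hμ]
    have : 0 ≤ σ * (Λ - lam n r) * lam n r :=
      mul_nonneg (mul_nonneg hσ (by linarith)) hlam
    linarith
  · intro s hs
    rw [PP_lm, add_zero]
    exact (hII s hs).1
  · intro s hs h
    rw [PP_lm, add_zero] at h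
    exact (hII s hs).2 h

/-- case II, uncapped, weighted Poincaré (`σ = 2(n-3)β`) : any `μ ≥ (n+1+σΛ)/(n-1)` -/
theorem concl_caseII_w (hn : 5 ≤ n) (hU : RawBound n) (hr : Prof r) (hN : NleB n r) {β θ Λ μ : ℝ}
    (hβ : 0 ≤ β) (hlamU : lam n r ≤ Λ) (hlam : 0 ≤ lam n r) (hμ0 : 0 ≤ μ)
    (hμ : (n : ℝ) + 1 + 2 * ((n : ℝ) - 3) * β * Λ ≤ μ * ((n : ℝ) - 1))
    (hII : ∀ s ∈ Ioo (0 : ℝ) 1, 0 ≤ PQ n μ 0 β θ 0 0 s (ll n r s) (kk n r s) ∧
      (PQ n μ 0 β θ 0 0 s (ll n r s) (kk n r s) = 0 → ll n r s = 0)) : Concl n r := by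
  have hn5 : (5 : ℝ) ≤ n := by exact_mod_cast hn
  have hU1 := hU r hr hN
  have n0 : NI n (fun _ => (0 : ℝ)) := NI_cont continuousOn_const
  have j0 : JJ n (fun _ => (0 : ℝ)) = 0 := by unfold JJ; simp
  refine master2 hr hn hN (μ := μ) (β₁ := 0) (β₂ := β) (θ := θ) (ξ := 0) hμ0 le_rfl hβ
    (fun _ => wpoinc hn hr) ?_ n0 (U := UX n r) (by rw [j0, add_zero]; exact hU1) ?_ ?_
  · have h1 : sg n 0 β = 2 * ((n : ℝ) - 3) * β := by unfold sg; ring
    rw [h1]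
    have h2 : 0 ≤ 2 * ((n : ℝ) - 3) * β := by
      have : 0 ≤ (n : ℝ) - 3 := by linarith
      positivity
    have h3 : 2 * ((n : ℝ) - 3) * β * lam n r ≤ 2 * ((n : ℝ) - 3) * β * Λ :=
      mul_le_mul_of_nonneg_left hlamU h2
    exact mul_nonneg (by linarith) hlam
  · intro s hs
    rw [PQ_lm, add_zero]
    exact (hII s hs).1
  · intro s hs h
    rw [PQ_lm, add_zero] at h
    exact (hII s hs).2 h

end

theorem oneD_of_concl {n : ℕ} (hn : 1 ≤ n) (h : ∀ r : ℝ → ℝ, Prof r → NleB n r → Concl n r) :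
    OneD n := OneD_of_XL hn h



end Crest.Agent.R230
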