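import Crest.Agent.R230.LegalC
import Crest.Agent.R230.XlogWR
import Crest.Agent.R230.OneDAll
import Crest.Agent.R230.CaseIProf
import Crest.Agent.R230.NegL
import Crest.Agent.R230.LamBound
import Crest.Agent.R230.LegalF
import Crest.Agent.R230.Apriori3

-- ▼ part R230/LegalD
section

/-!
# Row 230: legality of the XLOG lines (helper446), part D: numerical certificates
-/

set_option autoImplicit false

open MeasureTheory Set Filter Topology
open scoped Pointwise ENNReal Real

namespace Crest.Agent.R230

open WR

/-- legality in dimension 17 -/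
theorem legal_n16 {r : ℝ → ℝ} (hr : Prof r) (hN : NleB 16 r) : ∀ s ∈ Ioo (0 : ℝ) 1, Legal 16 r s := by
  have hp1 := Real.pi_gt_d6
  have hp2 := Real.pi_lt_d6
  have hw1 : 149769 / 250000 ≤ w 16 := by rw [lgw_16]; linarith
  have hw2 : w 15 ≤ 154237 / 250000 := by rw [lgw_15]; linarith
  have hH : hB 16 0 ≤ 299539 / 1000000 := by
    have h := w_eq_two_hB 16
    rw [lgw_16] at h
    linarith
  have hU : ConeUB 16 r (3591 / 5000) := by
    refine coneUB_of (T₁ := 42669 / 100000) (by norm_num) hr hN (by norm_num) (by norm_num) ?_ (by norm_num) (by norm_num)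
    calc 89 / 200 * w (16 - 1) ^ 16 ≤ 89 / 200 * (154237 / 250000) ^ 16 := by
          have := w_pos' 15
          gcongr
      _ ≤ 42669 / 100000 * (149769 / 250000) ^ (16 - 1) := by norm_num
      _ ≤ _ := by gcongr
  have h0 := legal_start (a := 357 / 1000) (c := 9341 / 10000) (by norm_num) hr hN (by norm_num) hH (by norm_num) (by norm_num) (by norm_num)
  have h1 := legal_step (by norm_num) hr hN hU (by norm_num) (by norm_num) hH (a := 357 / 1000) (b := 58 / 125) (t := 609 / 1000)
    (c := 4429 / 5000) (by norm_num) (by norm_num) (LG_num (c := 4671 / 5000) (L := 334 / 625) (by norm_num) (by norm_num)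
      (by norm_num) (by norm_num) (by norm_num) (by norm_num) (by norm_num) (by norm_num))
    (by norm_num) (by norm_num) (by norm_num) (by norm_num) (by norm_num) h0
  have h2 := legal_step (by norm_num) hr hN hU (by norm_num) (by norm_num) hH (a := 58 / 125) (b := 137 / 250) (t := 482 / 625)
    (c := 2091 / 2500) (by norm_num) (by norm_num) (LG_num (c := 8859 / 10000) (L := 5083 / 10000) (by norm_num) (by norm_num)
      (by norm_num) (by norm_num) (by norm_num) (by norm_num) (by norm_num) (by norm_num))
    (by norm_num) (by norm_num) (by norm_num) (by norm_num) (by norm_num) h1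
  have h3 := legal_step (by norm_num) hr hN hU (by norm_num) (by norm_num) hH (a := 137 / 250) (b := 76 / 125) (t := 879 / 1000)
    (c := 7939 / 10000) (by norm_num) (by norm_num) (LG_num (c := 1673 / 2000) (L := 4727 / 10000) (by norm_num) (by norm_num)
      (by norm_num) (by norm_num) (by norm_num) (by norm_num) (by norm_num) (by norm_num))
    (by norm_num) (by norm_num) (by norm_num) (by norm_num) (by norm_num) h2
  have h4 := legal_step (by norm_num) hr hN hU (by norm_num) (by norm_num) hH (a := 76 / 125) (b := 131 / 200) (t := 471 / 500)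
    (c := 1889 / 2500) (by norm_num) (by norm_num) (LG_num (c := 397 / 500) (L := 219 / 500) (by norm_num) (by norm_num)
      (by norm_num) (by norm_num) (by norm_num) (by norm_num) (by norm_num) (by norm_num))
    (by norm_num) (by norm_num) (by norm_num) (by norm_num) (by norm_num) h3
  have h5 := legal_step (by norm_num) hr hN hU (by norm_num) (by norm_num) hH (a := 131 / 200) (b := 7 / 10) (t := 4911 / 5000)
    (c := 7141 / 10000) (by norm_num) (by norm_num) (LG_num (c := 7557 / 10000) (L := 4053 / 10000) (by norm_num) (by norm_num)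
      (by norm_num) (by norm_num) (by norm_num) (by norm_num) (by norm_num) (by norm_num))
    (by norm_num) (by norm_num) (by norm_num) (by norm_num) (by norm_num) h4
  exact legal_end hr h5

/-- legality in dimension 18 -/
theorem legal_n17 {r : ℝ → ℝ} (hr : Prof r) (hN : NleB 17 r) : ∀ s ∈ Ioo (0 : ℝ) 1, Legal 17 r s := by
  have hp1 := Real.pi_gt_d6
  have hp2 := Real.pi_lt_d6
  have hw1 : 36417 / 62500 ≤ w 17 := by rw [lgw_17]; linarith
  have hw2 : w 16 ≤ 599077 / 1000000 := by rw [lgw_16]; linarith
  have hH : hB 17 0 ≤ 291337 / 1000000 := by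
    have h := w_eq_two_hB 17
    rw [lgw_17] at h
    linarith
  have hU : ConeUB 17 r (7253 / 10000) := by
    refine coneUB_of (T₁ := 4157 / 10000) (by norm_num) hr hN (by norm_num) (by norm_num) ?_ (by norm_num) (by norm_num)
    calc 89 / 200 * w (17 - 1) ^ 17 ≤ 89 / 200 * (599077 / 1000000) ^ 17 := by
          have := w_pos' 16
          gcongr
      _ ≤ 4157 / 10000 * (36417 / 62500) ^ (17 - 1) := by norm_num
      _ ≤ _ := by gcongr
  have h0 := legal_start (a := 347 / 1000) (c := 4689 / 5000) (by norm_num) hr hN (by norm_num) hH (by norm_num) (by norm_num) (by norm_num)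
  have h1 := legal_step (by norm_num) hr hN hU (by norm_num) (by norm_num) hH (a := 347 / 1000) (b := 451 / 1000) (t := 741 / 1250)
    (c := 357 / 400) (by norm_num) (by norm_num) (LG_num (c := 9379 / 10000) (L := 2679 / 5000) (by norm_num) (by norm_num)
      (by norm_num) (by norm_num) (by norm_num) (by norm_num) (by norm_num) (by norm_num))
    (by norm_num) (by norm_num) (by norm_num) (by norm_num) (by norm_num) h0
  have h2 := legal_step (by norm_num) hr hN hU (by norm_num) (by norm_num) hH (a := 451 / 1000) (b := 533 / 1000) (t := 941 / 1250)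
    (c := 8461 / 10000) (by norm_num) (by norm_num) (LG_num (c := 4463 / 5000) (L := 2563 / 5000) (by norm_num) (by norm_num)
      (by norm_num) (by norm_num) (by norm_num) (by norm_num) (by norm_num) (by norm_num))
    (by norm_num) (by norm_num) (by norm_num) (by norm_num) (by norm_num) h1
  have h3 := legal_step (by norm_num) hr hN hU (by norm_num) (by norm_num) hH (a := 533 / 1000) (b := 591 / 1000) (t := 2153 / 2500)
    (c := 4033 / 5000) (by norm_num) (by norm_num) (LG_num (c := 4231 / 5000) (L := 12 / 25) (by norm_num) (by norm_num)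
      (by norm_num) (by norm_num) (by norm_num) (by norm_num) (by norm_num) (by norm_num))
    (by norm_num) (by norm_num) (by norm_num) (by norm_num) (by norm_num) h2
  have h4 := legal_step (by norm_num) hr hN hU (by norm_num) (by norm_num) hH (a := 591 / 1000) (b := 633 / 1000) (t := 1851 / 2000)
    (c := 7741 / 10000) (by norm_num) (by norm_num) (LG_num (c := 8067 / 10000) (L := 4487 / 10000) (by norm_num) (by norm_num)
      (by norm_num) (by norm_num) (by norm_num) (by norm_num) (by norm_num) (by norm_num))
    (by norm_num) (by norm_num) (by norm_num) (by norm_num) (by norm_num) h3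
  have h5 := legal_step (by norm_num) hr hN hU (by norm_num) (by norm_num) hH (a := 633 / 1000) (b := 671 / 1000) (t := 1929 / 2000)
    (c := 3707 / 5000) (by norm_num) (by norm_num) (LG_num (c := 3871 / 5000) (L := 4213 / 10000) (by norm_num) (by norm_num)
      (by norm_num) (by norm_num) (by norm_num) (by norm_num) (by norm_num) (by norm_num))
    (by norm_num) (by norm_num) (by norm_num) (by norm_num) (by norm_num) h4
  have h6 := legal_step (by norm_num) hr hN hU (by norm_num) (by norm_num) hH (a := 671 / 1000) (b := 7 / 10) (t := 9939 / 10000)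
    (c := 7141 / 10000) (by norm_num) (by norm_num) (LG_num (c := 1483 / 2000) (L := 393 / 1000) (by norm_num) (by norm_num)
      (by norm_num) (by norm_num) (by norm_num) (by norm_num) (by norm_num) (by norm_num))
    (by norm_num) (by norm_num) (by norm_num) (by norm_num) (by norm_num) h5
  exact legal_end hr h6

/-- legality in dimension 19 -/
theorem legal_n18 {r : ℝ → ℝ} (hr : Prof r) (hN : NleB 18 r) : ∀ s ∈ Ioo (0 : ℝ) 1, Legal 18 r s := by
  have hp1 := Real.pi_gt_d6
  have hp2 := Real.pi_lt_d6
  have hw1 : 283773 / 500000 ≤ w 18 := by rw [lgw_18]; linarith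
  have hw2 : w 17 ≤ 291337 / 500000 := by rw [lgw_17]; linarith
  have hH : hB 18 0 ≤ 141887 / 500000 := by
    have h := w_eq_two_hB 18
    rw [lgw_18] at h
    linarith
  have hU : ConeUB 18 r (7321 / 10000) := by
    refine coneUB_of (T₁ := 5069 / 12500) (by norm_num) hr hN (by norm_num) (by norm_num) ?_ (by norm_num) (by norm_num)
    calc 89 / 200 * w (18 - 1) ^ 18 ≤ 89 / 200 * (291337 / 500000) ^ 18 := by
          have := w_pos' 17
          gcongr
      _ ≤ 5069 / 12500 * (283773 / 500000) ^ (18 - 1) := by norm_num
      _ ≤ _ := by gcongr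
  have h0 := legal_start (a := 339 / 1000) (c := 9407 / 10000) (by norm_num) hr hN (by norm_num) hH (by norm_num) (by norm_num) (by norm_num)
  have h1 := legal_step (by norm_num) hr hN hU (by norm_num) (by norm_num) hH (a := 339 / 1000) (b := 441 / 1000) (t := 2899 / 5000)
    (c := 359 / 400) (by norm_num) (by norm_num) (LG_num (c := 588 / 625) (L := 537 / 1000) (by norm_num) (by norm_num)
      (by norm_num) (by norm_num) (by norm_num) (by norm_num) (by norm_num) (by norm_num))
    (by norm_num) (by norm_num) (by norm_num) (by norm_num) (by norm_num) h0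
  have h2 := legal_step (by norm_num) hr hN hU (by norm_num) (by norm_num) hH (a := 441 / 1000) (b := 13 / 25) (t := 7383 / 10000)
    (c := 8541 / 10000) (by norm_num) (by norm_num) (LG_num (c := 561 / 625) (L := 1289 / 2500) (by norm_num) (by norm_num)
      (by norm_num) (by norm_num) (by norm_num) (by norm_num) (by norm_num) (by norm_num))
    (by norm_num) (by norm_num) (by norm_num) (by norm_num) (by norm_num) h1
  have h3 := legal_step (by norm_num) hr hN hU (by norm_num) (by norm_num) hH (a := 13 / 25) (b := 23 / 40) (t := 8453 / 10000)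
    (c := 8181 / 10000) (by norm_num) (by norm_num) (LG_num (c := 4271 / 5000) (L := 4861 / 10000) (by norm_num) (by norm_num)
      (by norm_num) (by norm_num) (by norm_num) (by norm_num) (by norm_num) (by norm_num))
    (by norm_num) (by norm_num) (by norm_num) (by norm_num) (by norm_num) h2
  have h4 := legal_step (by norm_num) hr hN hU (by norm_num) (by norm_num) hH (a := 23 / 40) (b := 307 / 500) (t := 9089 / 10000)
    (c := 7893 / 10000) (by norm_num) (by norm_num) (LG_num (c := 4091 / 5000) (L := 229 / 500) (by norm_num) (by norm_num)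
      (by norm_num) (by norm_num) (by norm_num) (by norm_num) (by norm_num) (by norm_num))
    (by norm_num) (by norm_num) (by norm_num) (by norm_num) (by norm_num) h3
  have h5 := legal_step (by norm_num) hr hN hU (by norm_num) (by norm_num) hH (a := 307 / 500) (b := 129 / 200) (t := 2369 / 2500)
    (c := 7641 / 10000) (by norm_num) (by norm_num) (LG_num (c := 3947 / 5000) (L := 4341 / 10000) (by norm_num) (by norm_num)
      (by norm_num) (by norm_num) (by norm_num) (by norm_num) (by norm_num) (by norm_num))
    (by norm_num) (by norm_num) (by norm_num) (by norm_num) (by norm_num) h4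
  have h6 := legal_step (by norm_num) hr hN hU (by norm_num) (by norm_num) hH (a := 129 / 200) (b := 339 / 500) (t := 609 / 625)
    (c := 147 / 200) (by norm_num) (by norm_num) (LG_num (c := 3821 / 5000) (L := 4127 / 10000) (by norm_num) (by norm_num)
      (by norm_num) (by norm_num) (by norm_num) (by norm_num) (by norm_num) (by norm_num))
    (by norm_num) (by norm_num) (by norm_num) (by norm_num) (by norm_num) h5
  have h7 := legal_step (by norm_num) hr hN hU (by norm_num) (by norm_num) hH (a := 339 / 500) (b := 7 / 10) (t := 9987 / 10000)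
    (c := 7141 / 10000) (by norm_num) (by norm_num) (LG_num (c := 7351 / 10000) (L := 1937 / 5000) (by norm_num) (by norm_num)
      (by norm_num) (by norm_num) (by norm_num) (by norm_num) (by norm_num) (by norm_num))
    (by norm_num) (by norm_num) (by norm_num) (by norm_num) (by norm_num) h6
  exact legal_end hr h7

/-- legality in dimension 20 -/
theorem legal_n19 {r : ℝ → ℝ} (hr : Prof r) (hN : NleB 19 r) : ∀ s ∈ Ioo (0 : ℝ) 1, Legal 19 r s := by
  have hp1 := Real.pi_gt_d6
  have hp2 := Real.pi_lt_d6
  have hw1 : 553539 / 1000000 ≤ w 19 := by rw [lgw_19]; linarith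
  have hw2 : w 18 ≤ 567547 / 1000000 := by rw [lgw_18]; linarith
  have hH : hB 19 0 ≤ 27677 / 100000 := by
    have h := w_eq_two_hB 19
    rw [lgw_19] at h
    linarith
  have hU : ConeUB 19 r (7383 / 10000) := by
    refine coneUB_of (T₁ := 39603 / 100000) (by norm_num) hr hN (by norm_num) (by norm_num) ?_ (by norm_num) (by norm_num)
    calc 89 / 200 * w (19 - 1) ^ 19 ≤ 89 / 200 * (567547 / 1000000) ^ 19 := by
          have := w_pos' 18
          gcongr
      _ ≤ 39603 / 100000 * (553539 / 1000000) ^ (19 - 1) := by norm_num
      _ ≤ _ := by gcongr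
  have h0 := legal_start (a := 331 / 1000) (c := 2359 / 2500) (by norm_num) hr hN (by norm_num) hH (by norm_num) (by norm_num) (by norm_num)
  have h1 := legal_step (by norm_num) hr hN hU (by norm_num) (by norm_num) hH (a := 331 / 1000) (b := 43 / 100) (t := 2833 / 5000)
    (c := 2257 / 2500) (by norm_num) (by norm_num) (LG_num (c := 9437 / 10000) (L := 2689 / 5000) (by norm_num) (by norm_num)
      (by norm_num) (by norm_num) (by norm_num) (by norm_num) (by norm_num) (by norm_num))
    (by norm_num) (by norm_num) (by norm_num) (by norm_num) (by norm_num) h0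
  have h2 := legal_step (by norm_num) hr hN hU (by norm_num) (by norm_num) hH (a := 43 / 100) (b := 127 / 250) (t := 3611 / 5000)
    (c := 8613 / 10000) (by norm_num) (by norm_num) (LG_num (c := 9029 / 10000) (L := 1297 / 2500) (by norm_num) (by norm_num)
      (by norm_num) (by norm_num) (by norm_num) (by norm_num) (by norm_num) (by norm_num))
    (by norm_num) (by norm_num) (by norm_num) (by norm_num) (by norm_num) h1
  have h3 := legal_step (by norm_num) hr hN hU (by norm_num) (by norm_num) hH (a := 127 / 250) (b := 281 / 500) (t := 4151 / 5000)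
    (c := 8271 / 10000) (by norm_num) (by norm_num) (LG_num (c := 4307 / 5000) (L := 2457 / 5000) (by norm_num) (by norm_num)
      (by norm_num) (by norm_num) (by norm_num) (by norm_num) (by norm_num) (by norm_num))
    (by norm_num) (by norm_num) (by norm_num) (by norm_num) (by norm_num) h2
  have h4 := legal_step (by norm_num) hr hN hU (by norm_num) (by norm_num) hH (a := 281 / 500) (b := 299 / 500) (t := 2237 / 2500)
    (c := 4007 / 5000) (by norm_num) (by norm_num) (LG_num (c := 517 / 625) (L := 4653 / 10000) (by norm_num) (by norm_num)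
      (by norm_num) (by norm_num) (by norm_num) (by norm_num) (by norm_num) (by norm_num))
    (by norm_num) (by norm_num) (by norm_num) (by norm_num) (by norm_num) h3
  have h5 := legal_step (by norm_num) hr hN hU (by norm_num) (by norm_num) hH (a := 299 / 500) (b := 5 / 8) (t := 373 / 400)
    (c := 3903 / 5000) (by norm_num) (by norm_num) (LG_num (c := 1603 / 2000) (L := 1111 / 2500) (by norm_num) (by norm_num)
      (by norm_num) (by norm_num) (by norm_num) (by norm_num) (by norm_num) (by norm_num))
    (by norm_num) (by norm_num) (by norm_num) (by norm_num) (by norm_num) h4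
  have h6 := legal_step (by norm_num) hr hN hU (by norm_num) (by norm_num) hH (a := 5 / 8) (b := 81 / 125) (t := 1197 / 1250)
    (c := 476 / 625) (by norm_num) (by norm_num) (LG_num (c := 7807 / 10000) (L := 1067 / 2500) (by norm_num) (by norm_num)
      (by norm_num) (by norm_num) (by norm_num) (by norm_num) (by norm_num) (by norm_num))
    (by norm_num) (by norm_num) (by norm_num) (by norm_num) (by norm_num) h5
  have h7 := legal_step (by norm_num) hr hN hU (by norm_num) (by norm_num) hH (a := 81 / 125) (b := 337 / 500) (t := 1221 / 1250)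
    (c := 7387 / 10000) (by norm_num) (by norm_num) (LG_num (c := 7617 / 10000) (L := 821 / 2000) (by norm_num) (by norm_num)
      (by norm_num) (by norm_num) (by norm_num) (by norm_num) (by norm_num) (by norm_num))
    (by norm_num) (by norm_num) (by norm_num) (by norm_num) (by norm_num) h6
  have h8 := legal_step (by norm_num) hr hN hU (by norm_num) (by norm_num) hH (a := 337 / 500) (b := 7 / 10) (t := 249 / 250)
    (c := 7141 / 10000) (by norm_num) (by norm_num) (LG_num (c := 1847 / 2500) (L := 1953 / 5000) (by norm_num) (by norm_num)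
      (by norm_num) (by norm_num) (by norm_num) (by norm_num) (by norm_num) (by norm_num))
    (by norm_num) (by norm_num) (by norm_num) (by norm_num) (by norm_num) h7
  exact legal_end hr h8

/-- legality in dimension 21 -/
theorem legal_n20 {r : ℝ → ℝ} (hr : Prof r) (hN : NleB 20 r) : ∀ s ∈ Ioo (0 : ℝ) 1, Legal 20 r s := by
  have hp1 := Real.pi_gt_d6
  have hp2 := Real.pi_lt_d6
  have hw1 : 13513 / 25000 ≤ w 20 := by rw [lgw_20]; linarith
  have hw2 : w 19 ≤ 27677 / 50000 := by rw [lgw_19]; linarith
  have hH : hB 20 0 ≤ 270261 / 1000000 := by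
    have h := w_eq_two_hB 20
    rw [lgw_20] at h
    linarith
  have hU : ConeUB 20 r (3721 / 5000) := by
    refine coneUB_of (T₁ := 38719 / 100000) (by norm_num) hr hN (by norm_num) (by norm_num) ?_ (by norm_num) (by norm_num)
    calc 89 / 200 * w (20 - 1) ^ 20 ≤ 89 / 200 * (27677 / 50000) ^ 20 := by
          have := w_pos' 19
          gcongr
      _ ≤ 38719 / 100000 * (13513 / 25000) ^ (20 - 1) := by norm_num
      _ ≤ _ := by gcongr
  have h0 := legal_start (a := 81 / 250) (c := 473 / 500) (by norm_num) hr hN (by norm_num) hH (by norm_num) (by norm_num) (by norm_num)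
  have h1 := legal_step (by norm_num) hr hN hU (by norm_num) (by norm_num) hH (a := 81 / 250) (b := 421 / 1000) (t := 111 / 200)
    (c := 907 / 1000) (by norm_num) (by norm_num) (LG_num (c := 9461 / 10000) (L := 1077 / 2000) (by norm_num) (by norm_num)
      (by norm_num) (by norm_num) (by norm_num) (by norm_num) (by norm_num) (by norm_num))
    (by norm_num) (by norm_num) (by norm_num) (by norm_num) (by norm_num) h0
  have h2 := legal_step (by norm_num) hr hN hU (by norm_num) (by norm_num) hH (a := 421 / 1000) (b := 497 / 1000) (t := 7089 / 10000)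
    (c := 8677 / 10000) (by norm_num) (by norm_num) (LG_num (c := 9071 / 10000) (L := 5213 / 10000) (by norm_num) (by norm_num)
      (by norm_num) (by norm_num) (by norm_num) (by norm_num) (by norm_num) (by norm_num))
    (by norm_num) (by norm_num) (by norm_num) (by norm_num) (by norm_num) h1
  have h3 := legal_step (by norm_num) hr hN hU (by norm_num) (by norm_num) hH (a := 497 / 1000) (b := 549 / 1000) (t := 102 / 125)
    (c := 4179 / 5000) (by norm_num) (by norm_num) (LG_num (c := 4339 / 5000) (L := 62 / 125) (by norm_num) (by norm_num)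
      (by norm_num) (by norm_num) (by norm_num) (by norm_num) (by norm_num) (by norm_num))
    (by norm_num) (by norm_num) (by norm_num) (by norm_num) (by norm_num) h2
  have h4 := legal_step (by norm_num) hr hN hU (by norm_num) (by norm_num) hH (a := 549 / 1000) (b := 583 / 1000) (t := 8801 / 10000)
    (c := 2031 / 2500) (by norm_num) (by norm_num) (LG_num (c := 8359 / 10000) (L := 4721 / 10000) (by norm_num) (by norm_num)
      (by norm_num) (by norm_num) (by norm_num) (by norm_num) (by norm_num) (by norm_num))
    (by norm_num) (by norm_num) (by norm_num) (by norm_num) (by norm_num) h3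
  have h5 := legal_step (by norm_num) hr hN hU (by norm_num) (by norm_num) hH (a := 583 / 1000) (b := 607 / 1000) (t := 9173 / 10000)
    (c := 7947 / 10000) (by norm_num) (by norm_num) (LG_num (c := 13 / 16) (L := 2267 / 5000) (by norm_num) (by norm_num)
      (by norm_num) (by norm_num) (by norm_num) (by norm_num) (by norm_num) (by norm_num))
    (by norm_num) (by norm_num) (by norm_num) (by norm_num) (by norm_num) h4
  have h6 := legal_step (by norm_num) hr hN hU (by norm_num) (by norm_num) hH (a := 607 / 1000) (b := 5 / 8) (t := 9411 / 10000)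
    (c := 3903 / 5000) (by norm_num) (by norm_num) (LG_num (c := 1987 / 2500) (L := 4387 / 10000) (by norm_num) (by norm_num)
      (by norm_num) (by norm_num) (by norm_num) (by norm_num) (by norm_num) (by norm_num))
    (by norm_num) (by norm_num) (by norm_num) (by norm_num) (by norm_num) h5
  have h7 := legal_step (by norm_num) hr hN hU (by norm_num) (by norm_num) hH (a := 5 / 8) (b := 641 / 1000) (t := 1197 / 1250)
    (c := 307 / 400) (by norm_num) (by norm_num) (LG_num (c := 7807 / 10000) (L := 1067 / 2500) (by norm_num) (by norm_num)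
      (by norm_num) (by norm_num) (by norm_num) (by norm_num) (by norm_num) (by norm_num))
    (by norm_num) (by norm_num) (by norm_num) (by norm_num) (by norm_num) h6
  have h8 := legal_step (by norm_num) hr hN hU (by norm_num) (by norm_num) hH (a := 641 / 1000) (b := 329 / 500) (t := 607 / 625)
    (c := 753 / 1000) (by norm_num) (by norm_num) (LG_num (c := 1919 / 2500) (L := 1039 / 2500) (by norm_num) (by norm_num)
      (by norm_num) (by norm_num) (by norm_num) (by norm_num) (by norm_num) (by norm_num))
    (by norm_num) (by norm_num) (by norm_num) (by norm_num) (by norm_num) h7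
  have h9 := legal_step (by norm_num) hr hN hU (by norm_num) (by norm_num) hH (a := 329 / 500) (b := 341 / 500) (t := 1969 / 2000)
    (c := 7313 / 10000) (by norm_num) (by norm_num) (LG_num (c := 7531 / 10000) (L := 403 / 1000) (by norm_num) (by norm_num)
      (by norm_num) (by norm_num) (by norm_num) (by norm_num) (by norm_num) (by norm_num))
    (by norm_num) (by norm_num) (by norm_num) (by norm_num) (by norm_num) h8
  have h10 := legal_step (by norm_num) hr hN hU (by norm_num) (by norm_num) hH (a := 341 / 500) (b := 7 / 10) (t := 1)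
    (c := 7141 / 10000) (by norm_num) (by norm_num) (LG_num (c := 3657 / 5000) (L := 957 / 2500) (by norm_num) (by norm_num)
      (by norm_num) (by norm_num) (by norm_num) (by norm_num) (by norm_num) (by norm_num))
    (by norm_num) (by norm_num) (by norm_num) (by norm_num) (by norm_num) h9
  exact legal_end hr h10

/-- legality in dimension 22 -/
theorem legal_n21 {r : ℝ → ℝ} (hr : Prof r) (hN : NleB 21 r) : ∀ s ∈ Ioo (0 : ℝ) 1, Legal 21 r s := by
  have hp1 := Real.pi_gt_d6
  have hp2 := Real.pi_lt_d6
  have hw1 : 264189 / 500000 ≤ w 21 := by rw [lgw_21]; linarith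
  have hw2 : w 20 ≤ 540521 / 1000000 := by rw [lgw_20]; linarith
  have hH : hB 21 0 ≤ 26419 / 100000 := by
    have h := w_eq_two_hB 21
    rw [lgw_21] at h
    linarith
  have hU : ConeUB 21 r (937 / 1250) := by
    refine coneUB_of (T₁ := 37891 / 100000) (by norm_num) hr hN (by norm_num) (by norm_num) ?_ (by norm_num) (by norm_num)
    calc 89 / 200 * w (21 - 1) ^ 21 ≤ 89 / 200 * (540521 / 1000000) ^ 21 := by
          have := w_pos' 20
          gcongr
      _ ≤ 37891 / 100000 * (264189 / 500000) ^ (21 - 1) := by norm_num
      _ ≤ _ := by gcongr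
  have h0 := legal_start (a := 317 / 1000) (c := 2371 / 2500) (by norm_num) hr hN (by norm_num) hH (by norm_num) (by norm_num) (by norm_num)
  have h1 := legal_step (by norm_num) hr hN hU (by norm_num) (by norm_num) hH (a := 317 / 1000) (b := 103 / 250) (t := 2717 / 5000)
    (c := 9111 / 10000) (by norm_num) (by norm_num) (LG_num (c := 1897 / 2000) (L := 337 / 625) (by norm_num) (by norm_num)
      (by norm_num) (by norm_num) (by norm_num) (by norm_num) (by norm_num) (by norm_num))
    (by norm_num) (by norm_num) (by norm_num) (by norm_num) (by norm_num) h0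
  have h2 := legal_step (by norm_num) hr hN hU (by norm_num) (by norm_num) hH (a := 103 / 250) (b := 487 / 1000) (t := 6953 / 10000)
    (c := 4367 / 5000) (by norm_num) (by norm_num) (LG_num (c := 1139 / 1250) (L := 1309 / 2500) (by norm_num) (by norm_num)
      (by norm_num) (by norm_num) (by norm_num) (by norm_num) (by norm_num) (by norm_num))
    (by norm_num) (by norm_num) (by norm_num) (by norm_num) (by norm_num) h1
  have h3 := legal_step (by norm_num) hr hN hU (by norm_num) (by norm_num) hH (a := 487 / 1000) (b := 537 / 1000) (t := 8027 / 10000)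
    (c := 1687 / 2000) (by norm_num) (by norm_num) (LG_num (c := 1747 / 2000) (L := 4999 / 10000) (by norm_num) (by norm_num)
      (by norm_num) (by norm_num) (by norm_num) (by norm_num) (by norm_num) (by norm_num))
    (by norm_num) (by norm_num) (by norm_num) (by norm_num) (by norm_num) h2
  have h4 := legal_step (by norm_num) hr hN hU (by norm_num) (by norm_num) hH (a := 537 / 1000) (b := 57 / 100) (t := 8661 / 10000)
    (c := 1027 / 1250) (by norm_num) (by norm_num) (LG_num (c := 2109 / 2500) (L := 2391 / 5000) (by norm_num) (by norm_num)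
      (by norm_num) (by norm_num) (by norm_num) (by norm_num) (by norm_num) (by norm_num))
    (by norm_num) (by norm_num) (by norm_num) (by norm_num) (by norm_num) h3
  have h5 := legal_step (by norm_num) hr hN hU (by norm_num) (by norm_num) hH (a := 57 / 100) (b := 74 / 125) (t := 2259 / 2500)
    (c := 8059 / 10000) (by norm_num) (by norm_num) (LG_num (c := 8217 / 10000) (L := 4609 / 10000) (by norm_num) (by norm_num)
      (by norm_num) (by norm_num) (by norm_num) (by norm_num) (by norm_num) (by norm_num))
    (by norm_num) (by norm_num) (by norm_num) (by norm_num) (by norm_num) h4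
  have h6 := legal_step (by norm_num) hr hN hU (by norm_num) (by norm_num) hH (a := 74 / 125) (b := 607 / 1000) (t := 579 / 625)
    (c := 7947 / 10000) (by norm_num) (by norm_num) (LG_num (c := 403 / 500) (L := 56 / 125) (by norm_num) (by norm_num)
      (by norm_num) (by norm_num) (by norm_num) (by norm_num) (by norm_num) (by norm_num))
    (by norm_num) (by norm_num) (by norm_num) (by norm_num) (by norm_num) h5
  have h7 := legal_step (by norm_num) hr hN hU (by norm_num) (by norm_num) hH (a := 607 / 1000) (b := 619 / 1000) (t := 9411 / 10000)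
    (c := 7853 / 10000) (by norm_num) (by norm_num) (LG_num (c := 1987 / 2500) (L := 4387 / 10000) (by norm_num) (by norm_num)
      (by norm_num) (by norm_num) (by norm_num) (by norm_num) (by norm_num) (by norm_num))
    (by norm_num) (by norm_num) (by norm_num) (by norm_num) (by norm_num) h6
  have h8 := legal_step (by norm_num) hr hN hU (by norm_num) (by norm_num) hH (a := 619 / 1000) (b := 629 / 1000) (t := 9523 / 10000)
    (c := 3887 / 5000) (by norm_num) (by norm_num) (LG_num (c := 3927 / 5000) (L := 4309 / 10000) (by norm_num) (by norm_num)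
      (by norm_num) (by norm_num) (by norm_num) (by norm_num) (by norm_num) (by norm_num))
    (by norm_num) (by norm_num) (by norm_num) (by norm_num) (by norm_num) h7
  have h9 := legal_step (by norm_num) hr hN hU (by norm_num) (by norm_num) hH (a := 629 / 1000) (b := 319 / 500) (t := 961 / 1000)
    (c := 77 / 100) (by norm_num) (by norm_num) (LG_num (c := 311 / 400) (L := 53 / 125) (by norm_num) (by norm_num)
      (by norm_num) (by norm_num) (by norm_num) (by norm_num) (by norm_num) (by norm_num))
    (by norm_num) (by norm_num) (by norm_num) (by norm_num) (by norm_num) h8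
  have h10 := legal_step (by norm_num) hr hN hU (by norm_num) (by norm_num) hH (a := 319 / 500) (b := 81 / 125) (t := 9687 / 10000)
    (c := 476 / 625) (by norm_num) (by norm_num) (LG_num (c := 7701 / 10000) (L := 4177 / 10000) (by norm_num) (by norm_num)
      (by norm_num) (by norm_num) (by norm_num) (by norm_num) (by norm_num) (by norm_num))
    (by norm_num) (by norm_num) (by norm_num) (by norm_num) (by norm_num) h9
  have h11 := legal_step (by norm_num) hr hN hU (by norm_num) (by norm_num) hH (a := 81 / 125) (b := 33 / 50) (t := 1221 / 1250)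
    (c := 939 / 1250) (by norm_num) (by norm_num) (LG_num (c := 7617 / 10000) (L := 821 / 2000) (by norm_num) (by norm_num)
      (by norm_num) (by norm_num) (by norm_num) (by norm_num) (by norm_num) (by norm_num))
    (by norm_num) (by norm_num) (by norm_num) (by norm_num) (by norm_num) h10
  have h12 := legal_step (by norm_num) hr hN hU (by norm_num) (by norm_num) hH (a := 33 / 50) (b := 339 / 500) (t := 493 / 500)
    (c := 147 / 200) (by norm_num) (by norm_num) (LG_num (c := 7513 / 10000) (L := 803 / 2000) (by norm_num) (by norm_num)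
      (by norm_num) (by norm_num) (by norm_num) (by norm_num) (by norm_num) (by norm_num))
    (by norm_num) (by norm_num) (by norm_num) (by norm_num) (by norm_num) h11
  have h13 := legal_step (by norm_num) hr hN hU (by norm_num) (by norm_num) hH (a := 339 / 500) (b := 7 / 10) (t := 9987 / 10000)
    (c := 7141 / 10000) (by norm_num) (by norm_num) (LG_num (c := 7351 / 10000) (L := 1937 / 5000) (by norm_num) (by norm_num)
      (by norm_num) (by norm_num) (by norm_num) (by norm_num) (by norm_num) (by norm_num))
    (by norm_num) (by norm_num) (by norm_num) (by norm_num) (by norm_num) h12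
  exact legal_end hr h13

/-- legality in dimension 23 -/
theorem legal_n22 {r : ℝ → ℝ} (hr : Prof r) (hN : NleB 22 r) : ∀ s ∈ Ioo (0 : ℝ) 1, Legal 22 r s := by
  have hp1 := Real.pi_gt_d6
  have hp2 := Real.pi_lt_d6
  have hw1 : 517019 / 1000000 ≤ w 22 := by rw [lgw_22]; linarith
  have hw2 : w 21 ≤ 528379 / 1000000 := by rw [lgw_21]; linarith
  have hH : hB 22 0 ≤ 25851 / 100000 := by
    have h := w_eq_two_hB 22
    rw [lgw_22] at h
    linarith
  have hU : ConeUB 22 r (1887 / 2500) := by
    refine coneUB_of (T₁ := 37113 / 100000) (by norm_num) hr hN (by norm_num) (by norm_num) ?_ (by norm_num) (by norm_num)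
    calc 89 / 200 * w (22 - 1) ^ 22 ≤ 89 / 200 * (528379 / 1000000) ^ 22 := by
          have := w_pos' 21
          gcongr
      _ ≤ 37113 / 100000 * (517019 / 1000000) ^ (22 - 1) := by norm_num
      _ ≤ _ := by gcongr
  have h0 := legal_start (a := 311 / 1000) (c := 594 / 625) (by norm_num) hr hN (by norm_num) hH (by norm_num) (by norm_num) (by norm_num)
  have h1 := legal_step (by norm_num) hr hN hU (by norm_num) (by norm_num) hH (a := 311 / 1000) (b := 101 / 250) (t := 5333 / 10000)
    (c := 9147 / 10000) (by norm_num) (by norm_num) (LG_num (c := 1901 / 2000) (L := 1349 / 2500) (by norm_num) (by norm_num)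
      (by norm_num) (by norm_num) (by norm_num) (by norm_num) (by norm_num) (by norm_num))
    (by norm_num) (by norm_num) (by norm_num) (by norm_num) (by norm_num) h0
  have h2 := legal_step (by norm_num) hr hN hU (by norm_num) (by norm_num) hH (a := 101 / 250) (b := 477 / 1000) (t := 6831 / 10000)
    (c := 8789 / 10000) (by norm_num) (by norm_num) (LG_num (c := 2287 / 2500) (L := 1051 / 2000) (by norm_num) (by norm_num)
      (by norm_num) (by norm_num) (by norm_num) (by norm_num) (by norm_num) (by norm_num))
    (by norm_num) (by norm_num) (by norm_num) (by norm_num) (by norm_num) h1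
  have h3 := legal_step (by norm_num) hr hN hU (by norm_num) (by norm_num) hH (a := 477 / 1000) (b := 263 / 500) (t := 1973 / 2500)
    (c := 1063 / 1250) (by norm_num) (by norm_num) (LG_num (c := 879 / 1000) (L := 5037 / 10000) (by norm_num) (by norm_num)
      (by norm_num) (by norm_num) (by norm_num) (by norm_num) (by norm_num) (by norm_num))
    (by norm_num) (by norm_num) (by norm_num) (by norm_num) (by norm_num) h2
  have h4 := legal_step (by norm_num) hr hN hU (by norm_num) (by norm_num) hH (a := 263 / 500) (b := 279 / 500) (t := 533 / 625)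
    (c := 4149 / 5000) (by norm_num) (by norm_num) (LG_num (c := 1701 / 2000) (L := 2417 / 5000) (by norm_num) (by norm_num)
      (by norm_num) (by norm_num) (by norm_num) (by norm_num) (by norm_num) (by norm_num))
    (by norm_num) (by norm_num) (by norm_num) (by norm_num) (by norm_num) h3
  have h5 := legal_step (by norm_num) hr hN hU (by norm_num) (by norm_num) hH (a := 279 / 500) (b := 289 / 500) (t := 8903 / 10000)
    (c := 102 / 125) (by norm_num) (by norm_num) (LG_num (c := 8299 / 10000) (L := 2337 / 5000) (by norm_num) (by norm_num)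
      (by norm_num) (by norm_num) (by norm_num) (by norm_num) (by norm_num) (by norm_num))
    (by norm_num) (by norm_num) (by norm_num) (by norm_num) (by norm_num) h4
  have h6 := legal_step (by norm_num) hr hN hU (by norm_num) (by norm_num) hH (a := 289 / 500) (b := 74 / 125) (t := 9121 / 10000)
    (c := 8059 / 10000) (by norm_num) (by norm_num) (LG_num (c := 8161 / 10000) (L := 4563 / 10000) (by norm_num) (by norm_num)
      (by norm_num) (by norm_num) (by norm_num) (by norm_num) (by norm_num) (by norm_num))
    (by norm_num) (by norm_num) (by norm_num) (by norm_num) (by norm_num) h5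
  have h7 := legal_step (by norm_num) hr hN hU (by norm_num) (by norm_num) hH (a := 74 / 125) (b := 301 / 500) (t := 579 / 625)
    (c := 499 / 625) (by norm_num) (by norm_num) (LG_num (c := 403 / 500) (L := 56 / 125) (by norm_num) (by norm_num)
      (by norm_num) (by norm_num) (by norm_num) (by norm_num) (by norm_num) (by norm_num))
    (by norm_num) (by norm_num) (by norm_num) (by norm_num) (by norm_num) h6
  have h8 := legal_step (by norm_num) hr hN hU (by norm_num) (by norm_num) hH (a := 301 / 500) (b := 609 / 1000) (t := 2341 / 2500)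
    (c := 7931 / 10000) (by norm_num) (by norm_num) (LG_num (c := 1597 / 2000) (L := 4419 / 10000) (by norm_num) (by norm_num)
      (by norm_num) (by norm_num) (by norm_num) (by norm_num) (by norm_num) (by norm_num))
    (by norm_num) (by norm_num) (by norm_num) (by norm_num) (by norm_num) h7
  have h9 := legal_step (by norm_num) hr hN hU (by norm_num) (by norm_num) hH (a := 609 / 1000) (b := 123 / 200) (t := 943 / 1000)
    (c := 1577 / 2000) (by norm_num) (by norm_num) (LG_num (c := 1983 / 2500) (L := 2187 / 5000) (by norm_num) (by norm_num)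
      (by norm_num) (by norm_num) (by norm_num) (by norm_num) (by norm_num) (by norm_num))
    (by norm_num) (by norm_num) (by norm_num) (by norm_num) (by norm_num) h8
  have h10 := legal_step (by norm_num) hr hN hU (by norm_num) (by norm_num) hH (a := 123 / 200) (b := 31 / 50) (t := 4743 / 5000)
    (c := 3923 / 5000) (by norm_num) (by norm_num) (LG_num (c := 3943 / 5000) (L := 867 / 2000) (by norm_num) (by norm_num)
      (by norm_num) (by norm_num) (by norm_num) (by norm_num) (by norm_num) (by norm_num))
    (by norm_num) (by norm_num) (by norm_num) (by norm_num) (by norm_num) h9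
  have h11 := legal_step (by norm_num) hr hN hU (by norm_num) (by norm_num) hH (a := 31 / 50) (b := 78 / 125) (t := 9531 / 10000)
    (c := 3907 / 5000) (by norm_num) (by norm_num) (LG_num (c := 7847 / 10000) (L := 4301 / 10000) (by norm_num) (by norm_num)
      (by norm_num) (by norm_num) (by norm_num) (by norm_num) (by norm_num) (by norm_num))
    (by norm_num) (by norm_num) (by norm_num) (by norm_num) (by norm_num) h10
  have h12 := legal_step (by norm_num) hr hN hU (by norm_num) (by norm_num) hH (a := 78 / 125) (b := 627 / 1000) (t := 9567 / 10000)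
    (c := 779 / 1000) (by norm_num) (by norm_num) (LG_num (c := 1563 / 2000) (L := 171 / 400) (by norm_num) (by norm_num)
      (by norm_num) (by norm_num) (by norm_num) (by norm_num) (by norm_num) (by norm_num))
    (by norm_num) (by norm_num) (by norm_num) (by norm_num) (by norm_num) h11
  have h13 := legal_step (by norm_num) hr hN hU (by norm_num) (by norm_num) hH (a := 627 / 1000) (b := 63 / 100) (t := 9593 / 10000)
    (c := 1553 / 2000) (by norm_num) (by norm_num) (LG_num (c := 7791 / 10000) (L := 2127 / 5000) (by norm_num) (by norm_num)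
      (by norm_num) (by norm_num) (by norm_num) (by norm_num) (by norm_num) (by norm_num))
    (by norm_num) (by norm_num) (by norm_num) (by norm_num) (by norm_num) h12
  have h14 := legal_step (by norm_num) hr hN hU (by norm_num) (by norm_num) hH (a := 63 / 100) (b := 633 / 1000) (t := 481 / 500)
    (c := 7741 / 10000) (by norm_num) (by norm_num) (LG_num (c := 3883 / 5000) (L := 2117 / 5000) (by norm_num) (by norm_num)
      (by norm_num) (by norm_num) (by norm_num) (by norm_num) (by norm_num) (by norm_num))
    (by norm_num) (by norm_num) (by norm_num) (by norm_num) (by norm_num) h13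
  have h15 := legal_step (by norm_num) hr hN hU (by norm_num) (by norm_num) hH (a := 633 / 1000) (b := 159 / 250) (t := 1929 / 2000)
    (c := 1929 / 2500) (by norm_num) (by norm_num) (LG_num (c := 3871 / 5000) (L := 4213 / 10000) (by norm_num) (by norm_num)
      (by norm_num) (by norm_num) (by norm_num) (by norm_num) (by norm_num) (by norm_num))
    (by norm_num) (by norm_num) (by norm_num) (by norm_num) (by norm_num) h14
  have h16 := legal_step (by norm_num) hr hN hU (by norm_num) (by norm_num) hH (a := 159 / 250) (b := 639 / 1000) (t := 9671 / 10000)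
    (c := 1923 / 2500) (by norm_num) (by norm_num) (LG_num (c := 7717 / 10000) (L := 262 / 625) (by norm_num) (by norm_num)
      (by norm_num) (by norm_num) (by norm_num) (by norm_num) (by norm_num) (by norm_num))
    (by norm_num) (by norm_num) (by norm_num) (by norm_num) (by norm_num) h15
  have h17 := legal_step (by norm_num) hr hN hU (by norm_num) (by norm_num) hH (a := 639 / 1000) (b := 321 / 500) (t := 1939 / 2000)
    (c := 7667 / 10000) (by norm_num) (by norm_num) (LG_num (c := 7693 / 10000) (L := 417 / 1000) (by norm_num) (by norm_num)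
      (by norm_num) (by norm_num) (by norm_num) (by norm_num) (by norm_num) (by norm_num))
    (by norm_num) (by norm_num) (by norm_num) (by norm_num) (by norm_num) h16
  have h18 := legal_step (by norm_num) hr hN hU (by norm_num) (by norm_num) hH (a := 321 / 500) (b := 323 / 500) (t := 9719 / 10000)
    (c := 7633 / 10000) (by norm_num) (by norm_num) (LG_num (c := 1917 / 2500) (L := 1037 / 2500) (by norm_num) (by norm_num)
      (by norm_num) (by norm_num) (by norm_num) (by norm_num) (by norm_num) (by norm_num))
    (by norm_num) (by norm_num) (by norm_num) (by norm_num) (by norm_num) h17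
  have h19 := legal_step (by norm_num) hr hN hU (by norm_num) (by norm_num) hH (a := 323 / 500) (b := 13 / 20) (t := 1219 / 1250)
    (c := 7599 / 10000) (by norm_num) (by norm_num) (LG_num (c := 3817 / 5000) (L := 103 / 250) (by norm_num) (by norm_num)
      (by norm_num) (by norm_num) (by norm_num) (by norm_num) (by norm_num) (by norm_num))
    (by norm_num) (by norm_num) (by norm_num) (by norm_num) (by norm_num) h18
  have h20 := legal_step (by norm_num) hr hN hU (by norm_num) (by norm_num) hH (a := 13 / 20) (b := 131 / 200) (t := 9783 / 10000)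
    (c := 1889 / 2500) (by norm_num) (by norm_num) (LG_num (c := 19 / 25) (L := 409 / 1000) (by norm_num) (by norm_num)
      (by norm_num) (by norm_num) (by norm_num) (by norm_num) (by norm_num) (by norm_num))
    (by norm_num) (by norm_num) (by norm_num) (by norm_num) (by norm_num) h19
  have h21 := legal_step (by norm_num) hr hN hU (by norm_num) (by norm_num) hH (a := 131 / 200) (b := 663 / 1000) (t := 4911 / 5000)
    (c := 3743 / 5000) (by norm_num) (by norm_num) (LG_num (c := 7557 / 10000) (L := 4053 / 10000) (by norm_num) (by norm_num)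
      (by norm_num) (by norm_num) (by norm_num) (by norm_num) (by norm_num) (by norm_num))
    (by norm_num) (by norm_num) (by norm_num) (by norm_num) (by norm_num) h20
  have h22 := legal_step (by norm_num) hr hN hU (by norm_num) (by norm_num) hH (a := 663 / 1000) (b := 677 / 1000) (t := 4941 / 5000)
    (c := 7359 / 10000) (by norm_num) (by norm_num) (LG_num (c := 7487 / 10000) (L := 499 / 1250) (by norm_num) (by norm_num)
      (by norm_num) (by norm_num) (by norm_num) (by norm_num) (by norm_num) (by norm_num))
    (by norm_num) (by norm_num) (by norm_num) (by norm_num) (by norm_num) h21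
  have h23 := legal_step (by norm_num) hr hN hU (by norm_num) (by norm_num) hH (a := 677 / 1000) (b := 7 / 10) (t := 499 / 500)
    (c := 7141 / 10000) (by norm_num) (by norm_num) (LG_num (c := 92 / 125) (L := 1941 / 5000) (by norm_num) (by norm_num)
      (by norm_num) (by norm_num) (by norm_num) (by norm_num) (by norm_num) (by norm_num))
    (by norm_num) (by norm_num) (by norm_num) (by norm_num) (by norm_num) h22
  exact legal_end hr h23

/-- **legality of the XLOG lines in dimensions 6, …, 23** (Lean `n = dim - 1`) -/
theorem legal_all {n : ℕ} (h5 : 5 ≤ n) (h22 : n ≤ 22) {r : ℝ → ℝ} (hr : Prof r) (hN : NleB n r) :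
    ∀ s ∈ Ioo (0 : ℝ) 1, Legal n r s := by
  interval_cases n
  · exact legal_n5 hr hN
  · exact legal_n6 hr hN
  · exact legal_n7 hr hN
  · exact legal_n8 hr hN
  · exact legal_n9 hr hN
  · exact legal_n10 hr hN
  · exact legal_n11 hr hN
  · exact legal_n12 hr hN
  · exact legal_n13 hr hN
  · exact legal_n14 hr hN
  · exact legal_n15 hr hN
  · exact legal_n16 hr hN
  · exact legal_n17 hr hN
  · exact legal_n18 hr hN
  · exact legal_n19 hr hN
  · exact legal_n20 hr hN
  · exact legal_n21 hr hN
  · exact legal_n22 hr hN

end Crest.Agent.R230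
end

-- ▼ part R230/XlogRB
section

/-!
# Row 230: `RawBound n` from legality
-/

set_option autoImplicit false

open MeasureTheory Set Filter Topology

namespace Crest.Agent.R230

/-- `RawBound n` from the legality inequality in closed form -/
theorem rawBound_of_legal {n : ℕ} (hn : 3 ≤ n)
    (h : ∀ r : ℝ → ℝ, Prof r → NleB n r → ∀ s ∈ Ioo (0 : ℝ) 1, WR.Legal n r s) : RawBound n := by
  intro r hr hN
  rw [WR.int_rawL_eq hr]
  exact UX_ge_half_id hn hr fun s hs => (h r hr hN s hs).adm hs


end Crest.Agent.R230
end

-- ▼ part R230/OneDAsm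

/-!
# Row 230: assembly of `OneD n` for `5 ≤ n ≤ 22` (all XLOG lines legal)
-/

set_option autoImplicit false

open MeasureTheory Set Filter Topology
open scoped Pointwise ENNReal

namespace Crest.Agent.R230

open WR

variable {n : ℕ} {r : ℝ → ℝ}

/-- `κ c ≤ c + α s` -/
theorem kk_le_cone' (hr : Prof r) {α : ℝ} (hα : 1 ≤ α) (hαn : (n : ℝ) ^ 2 ≤ α ^ 2 * (5 * n + 4))
    {s : ℝ} (hs : s ∈ Ioo (0 : ℝ) 1) : (1 + kk n r s) * cc s ≤ cc s + α * s := by
  have hT := tau_pos hr n (s := s) ⟨hs.1, hs.2.le⟩
  have h := kappa_le' hr n hα hαn hs
  have hcc : Real.sqrt (1 - s ^ 2) = cc s := rfl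
  rw [hcc] at h
  have e : (1 + kk n r s) * cc s = s * dtau n r s * cc s / tau n r s := by
    unfold kk
    field_simp
    ring
  rw [e, div_le_iff₀ hT]
  exact h

/-- case II, `l ≤ 0`, for a profile -/
theorem caseII_neg_prof (hn : 5 ≤ n) (hr : Prof r) {s : ℝ} (hs : s ∈ Ioo (0 : ℝ) 1)
    (hl : ll n r s ≤ 0) :
    0 ≤ PP n (((n : ℝ) + 1 + 3 * (1 / 4)) / ((n : ℝ) - 1)) 3 1 0 0 s (ll n r s) (kk n r s) ∧
      (PP n (((n : ℝ) + 1 + 3 * (1 / 4)) / ((n : ℝ) - 1)) 3 1 0 0 s (ll n r s) (kk n r s) = 0 →
        ll n r s = 0) :=
  caseII_neg hn hs hl (kk_pos hr hs) (kk_le_cone hr hs)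
    (fun _ h1 h2 => kk_le_cone' hr h1 h2 hs) (kk_hazard hr hs)

/-- the missing block: case II at `l > 0` -/
def PosBlock (n : ℕ) : Prop := ∀ r : ℝ → ℝ, Prof r → NleB n r → ∀ s ∈ Ioo (0 : ℝ) 1, 0 < ll n r s →
  0 < PP n (((n : ℝ) + 1 + 3 * (1 / 4)) / ((n : ℝ) - 1)) 3 1 0 0 s (ll n r s) (kk n r s)

/-- case I for `5 ≤ n ≤ 22` -/
theorem concl_neg_small (h5 : 5 ≤ n) (h22 : n ≤ 22) (hr : Prof r) (hN : NleB n r)
    (hlam : lam n r ≤ 0) : Concl n r := by
  refine concl_caseI_legal h5 hr hN (legal_all h5 h22 hr hN) ?_ hlam
  have h := LamB.lam_ge hr h5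
  have e : -((n : ℝ) + 1) / (9 / 2) = -(2 * ((n : ℝ) + 1) / 9) := by ring
  rw [e]
  exact h

theorem rawBound_small (h5 : 5 ≤ n) (h22 : n ≤ 22) : RawBound n :=
  rawBound_of_legal (by omega) fun _ hr hN => legal_all h5 h22 hr hN

/-- `OneD n`, `5 ≤ n ≤ 22`, from the block `PosBlock n` -/
theorem oneD_small (h5 : 5 ≤ n) (h22 : n ≤ 22) (hB : PosBlock n) : OneD n := by
  refine oneD_of_concl (by omega) fun r hr hN => ?_
  rcases le_total (lam n r) 0 with hlam | hlam
  · exact concl_neg_small h5 h22 hr hN hlam
  · refine concl_caseII h5 (rawBound_small h5 h22) hr hN (σ := 3) (θ := 1) (Λ := 1 / 4)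
      (by norm_num) (by norm_num) (LamB.lam_le_quarter hr h5 hN) hlam fun s hs => ?_
    rcases le_or_gt (ll n r s) 0 with hl | hl
    · exact caseII_neg_prof h5 hr hs hl
    · have h := hB r hr hN s hs hl
      exact ⟨h.le, fun h0 => absurd h0 h.ne'⟩

/-- `OneD n`, `5 ≤ n ≤ 22`, from the weighted certificate `PQ n μ 0 β θ` -/
theorem oneD_small_w (h5 : 5 ≤ n) (h22 : n ≤ 22) {β θ μ : ℝ} (hβ : 0 ≤ β) (hμ0 : 0 ≤ μ)
    (hμ : (n : ℝ) + 1 + 2 * ((n : ℝ) - 3) * β * (1 / 4) ≤ μ * ((n : ℝ) - 1))
    (hII : ∀ r : ℝ → ℝ, Prof r → NleB n r → ∀ s ∈ Ioo (0 : ℝ) 1,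
      0 ≤ PQ n μ 0 β θ 0 0 s (ll n r s) (kk n r s) ∧
      (PQ n μ 0 β θ 0 0 s (ll n r s) (kk n r s) = 0 → ll n r s = 0)) : OneD n := by
  refine oneD_of_concl (by omega) fun r hr hN => ?_
  rcases le_total (lam n r) 0 with hlam | hlam
  · exact concl_neg_small h5 h22 hr hN hlam
  · exact concl_caseII_w h5 (rawBound_small h5 h22) hr hN hβ (LamB.lam_le_quarter hr h5 hN) hlam hμ0 hμ
      fun s hs => hII r hr hN s hs

end Crest.Agent.R230
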