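import Crest.Agent.R230.CaseIProf
import Crest.Agent.R230.Apriori3
import Crest.Agent.R230.PLarge
import Crest.Agent.R230.OneDFar

-- ▼ part R230/PLargeProf
section

/-!
# Row 230: the near block (uncapped region, Lean `n ≥ 16`) for profiles
-/

set_option autoImplicit false

open MeasureTheory Set Filter Topology
open scoped Pointwise ENNReal

namespace Crest.Agent.R230.PL

open Crest.Agent.R230 Crest.Agent.R230.WR

variable {n : ℕ} {r : ℝ → ℝ}

/-- `κ ≤ 1 + α s/c` -/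
lemma kk_mul_le {α : ℝ} (hr : Prof r) (hα : 1 ≤ α) (hαn : (n : ℝ) ^ 2 ≤ α ^ 2 * (5 * n + 4)) {s : ℝ}
    (hs : s ∈ Ioo (0 : ℝ) 1) : (1 + kk n r s) * cc s ≤ cc s + α * s := by
  have hT := tau_pos hr n (s := s) ⟨hs.1, hs.2.le⟩
  have h := kappa_le' hr n hα hαn hs
  have hcc : Real.sqrt (1 - s ^ 2) = cc s := rfl
  rw [hcc] at h
  have e : (1 + kk n r s) * cc s = s * dtau n r s * cc s / tau n r s := by
    unfold kk
    field_simp
    ring
  rw [e, div_le_iff₀ hT]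
  exact h

lemma kk_sq (hn : 6 ≤ n) (hr : Prof r) {s : ℝ} (hs : s ∈ Ioo (0 : ℝ) 1) (hk : 0 ≤ kk n r s) :
    5 * cc s ^ 2 * kk n r s ^ 2 ≤ n * s ^ 2 := by
  have hn0 : (6 : ℝ) ≤ n := by exact_mod_cast hn
  have hc := cc_pos' hs
  have hq : (0 : ℝ) < 5 * n + 4 := by linarith
  obtain ⟨α, hα⟩ : ∃ α : ℝ, α = Real.sqrt ((n : ℝ) ^ 2 / (5 * n + 4)) := ⟨_, rfl⟩
  have hα2 : α ^ 2 = (n : ℝ) ^ 2 / (5 * n + 4) := by rw [hα]; exact Real.sq_sqrt (by positivity)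
  have hα0 : 0 ≤ α := by rw [hα]; exact Real.sqrt_nonneg _
  have h1 : 1 ≤ α ^ 2 := by rw [hα2, le_div_iff₀ hq]; nlinarith
  have hα1 : 1 ≤ α := by nlinarith
  have h2 : (n : ℝ) ^ 2 ≤ α ^ 2 * (5 * n + 4) := by
    rw [hα2]; field_simp; exact le_rfl
  have h3 := kk_mul_le (n := n) hr hα1 h2 hs
  have h4 : kk n r s * cc s ≤ α * s := by linarith
  have h5 : 0 ≤ kk n r s * cc s := by positivity
  have h6 : (kk n r s * cc s) ^ 2 ≤ (α * s) ^ 2 := pow_le_pow_left₀ h5 h4 2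
  have h7 : α ^ 2 ≤ n / 5 := by
    rw [hα2, div_le_div_iff₀ hq (by norm_num)]
    nlinarith
  have h8 : α ^ 2 * s ^ 2 ≤ n / 5 * s ^ 2 := mul_le_mul_of_nonneg_right h7 (sq_nonneg _)
  nlinarith

lemma kk_le_half (hn : 16 ≤ n) (hr : Prof r) {s : ℝ} (hs : s ∈ Ioo (0 : ℝ) 1) (hl : 0 < ll n r s)
    (hk : 8 ≤ kk n r s) : 2 * kk n r s ≤ n := by
  have hc := cc_pos' hs
  have h1 := kk_le_cone (n := n) hr hs
  have h2 := kk_hazard (n := n) hr hs
  have hs0 := hs.1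
  have hs1 := hs.2
  have he : Real.exp (-(ll n r s)) ≤ 1 := Real.exp_le_one_iff.2 (by linarith)
  refine two_k_le hn hs (by linarith) hk ?_
  have h3 : (1 + kk n r s) * (s * cc s ^ 2) ≤ (1 + ((n : ℝ) + 1) * s ^ 2) * (1 - s) := by
    refine h2.trans (mul_le_mul_of_nonneg_left (by linarith) (by positivity))
  rw [cc_sq' hs] at h3
  refine le_of_mul_le_mul_right ?_ (show 0 < 1 - s by linarith)
  calc (1 + kk n r s) * (s * (1 + s)) * (1 - s) = (1 + kk n r s) * (s * (1 - s ^ 2)) := by ring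
    _ ≤ _ := h3

/-- **near block for profiles** -/
theorem PQ_large_prof (hn : 16 ≤ n) (hr : Prof r) {μ β : ℝ} (lm : ℝ) (hμ0 : 0 ≤ μ)
    (hμ : μ * ((n : ℝ) - 1) ≤ n + 1 + 3 / 40 * ((n : ℝ) - 3))
    (hβ1 : 27 / 8 ≤ 2 * ((n : ℝ) - 3) * β) (hβ2 : β ≤ 3 / 20)
    {s : ℝ} (hs : s ∈ Ioo (0 : ℝ) 1) (hl : ll n r s ≤ 11 / 20) :
    1 / 100 * (KK (kk n r s) + (Y s * ll n r s) ^ 2) ≤
      PQ n μ 0 β 1 0 lm s (ll n r s) (kk n r s) ∧
    0 ≤ PQ n μ 0 β 1 0 lm s (ll n r s) (kk n r s) ∧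
    (PQ n μ 0 β 1 0 lm s (ll n r s) (kk n r s) = 0 → ll n r s = 0) := by
  have hT : s * Real.exp (ll n r s) ≤ 1 := by
    rw [mul_exp_ll hr hs]
    exact (tau_lt_one hr n ⟨hs.1.le, hs.2⟩).le
  have hk0 := kk_pos (n := n) hr hs
  have h := PQ_large hn lm hμ0 hμ hβ1 hβ2 hs hT hl hk0
    (by have := kk_le_cone (n := n) hr hs; linarith)
    (fun h => kk_sq (by omega) hr hs h) (fun h1 h2 => kk_le_half hn hr hs h1 h2)
  have hK : 0 ≤ KK (kk n r s) := by unfold KK; positivity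
  refine ⟨h, le_trans (by positivity) h, fun h0 => ?_⟩
  rw [h0] at h
  have h1 : (Y s * ll n r s) ^ 2 = 0 := by
    have := sq_nonneg (Y s * ll n r s)
    linarith
  have hY : 0 < Y s := by
    unfold Y
    have := hs.1
    have : 0 < 1 - s ^ 2 := by nlinarith [hs.1, hs.2]
    positivity
  have h2 := pow_eq_zero_iff (two_ne_zero) |>.1 h1
  rcases mul_eq_zero.1 h2 with h3 | h3
  · exact absurd h3 hY.ne'
  · exact h3

end Crest.Agent.R230.PL
end

-- ▼ part R230/OneDFin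

/-!
# Row 230: `OneD n` for `16 ≤ n ≤ 22`, and the large `n` assembly with the near block plugged in
-/

set_option autoImplicit false

open MeasureTheory Set Filter Topology
open scoped Pointwise ENNReal

namespace Crest.Agent.R230.WR

variable {n : ℕ} {r : ℝ → ℝ}

lemma muF_mul (hn : 2 ≤ n) : muF n * ((n : ℝ) - 1) = (n : ℝ) + 1 + 7 / 100 * ((n : ℝ) - 3) := by
  have hnR : (2 : ℝ) ≤ n := by exact_mod_cast hn
  have hn1 : (0 : ℝ) < (n : ℝ) - 1 := by linarith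
  unfold muF
  exact div_mul_cancel₀ _ hn1.ne'

lemma muF_nonneg (hn : 3 ≤ n) : 0 ≤ muF n := by
  have hnR : (3 : ℝ) ≤ n := by exact_mod_cast hn
  unfold muF
  exact div_nonneg (by linarith) (by linarith)

theorem nearP_prof (hn : 16 ≤ n) (hr : Prof r) {μ : ℝ} (h0 : 0 ≤ μ) (h1 : μ ≤ muF n) : NearP n μ r := by
  intro s hs hl
  have hnR : (16 : ℝ) ≤ n := by exact_mod_cast hn
  have h2 : μ * ((n : ℝ) - 1) ≤ muF n * ((n : ℝ) - 1) :=
    mul_le_mul_of_nonneg_right h1 (by linarith)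
  rw [muF_mul (by omega)] at h2
  exact (PL.PQ_large_prof hn hr 0 h0 (β := 7 / 50) (by linarith) (by linarith) (by norm_num) hs hl).2

/-- dimensions 17 to 23 -/
theorem oneD_16_22 (h16 : 16 ≤ n) (h22 : n ≤ 22) : OneD n := by
  refine oneD_small_w (by omega) h22 (β := 7 / 50) (θ := 1) (μ := muF n) (by norm_num)
    (muF_nonneg (by omega)) ?_ fun r hr hN s hs => ?_
  · rw [muF_mul (by omega)]
    have hnR : (16 : ℝ) ≤ n := by exact_mod_cast h16
    linarith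
  · exact nearP_prof h16 hr (muF_nonneg (by omega)) le_rfl s hs
      (ll_le_of_legal hr hs (legal_all (by omega) h22 hr hN s hs)).1

/-- `OneD n`, `n ≥ 23`, from the far blocks -/
theorem oneD_far' (hn : 23 ≤ n) (hapr : ∀ r : ℝ → ℝ, Prof r → NleB n r → FarApr n r)
    (hF0 : ∀ s l k : ℝ, FarC n s l k → 0 < PF n 0 s l k)
    (hF1 : ∀ s l k : ℝ, FarC n s l k → 0 < PF n (muF n) s l k) : OneD n :=
  oneD_far hn (fun _ hr _ h0 h1 => nearP_prof (by omega) hr h0 h1) hapr hF0 hF1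

end Crest.Agent.R230.WR
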