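import Crest.Agent.R230.ProfInt
import Crest.Agent.R230.BM
import Crest.Agent.R230.ConeDivG
import Crest.Agent.R230.Mink
import Mathlib

-- ▼ part R230/Profile
section

/-!
# Row 230, L1: profiles of symmetric convex bodies are even, concave, positive, continuous
-/

set_option autoImplicit false

open MeasureTheory Set Filter Topology
open scoped Pointwise ENNReal

namespace Crest.Agent.R230

variable {n : ℕ}

lemma prf_rt_eq (A : Set (E n)) : rt A = vol A ^ ((1 : ℝ) / n) := by
  unfold rt vol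
  rw [finrank_euclideanSpace_fin, measureReal_def]

section

variable {K : Set (E (n + 1))} {u : E (n + 1)}

/-- there is a point at every height -/
lemma prf_exists_point (hK : CB K) (hs' : ∀ x ∈ K, -x ∈ K) {t : ℝ} (ht : |t| ≤ hs K u) :
    ∃ x ∈ K, inner ℝ x u = t := by
  obtain ⟨x, hx, hxu⟩ := exists_hs_eq hK.isCompact hK.nonempty u
  have hc : OrdConnected ((fun x : E (n + 1) => (inner ℝ x u : ℝ)) '' K) :=
    (hK.convex.linear_image ((innerₗ (E (n + 1))).flip u)).ordConnected
  have h1 : (inner ℝ x u : ℝ) ∈ (fun x : E (n + 1) => (inner ℝ x u : ℝ)) '' K := ⟨x, hx, rfl⟩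
  have h2 : -(inner ℝ x u : ℝ) ∈ (fun x : E (n + 1) => (inner ℝ x u : ℝ)) '' K :=
    ⟨-x, hs' x hx, by simp⟩
  have := hc.out h2 h1 (show t ∈ Icc _ _ by rw [hxu]; exact abs_le.1 ht)
  obtain ⟨y, hy, hyt⟩ := this
  exact ⟨y, hy, hyt⟩

/-- an interior point at every interior height -/
lemma prf_exists_interior (hK : CB K) (hs' : ∀ x ∈ K, -x ∈ K) {t : ℝ} (hu : 0 < hs K u)
    (ht : |t| < hs K u) : ∃ x ∈ interior K, inner ℝ x u = t := by
  obtain ⟨z, hz⟩ := hK.interior_nonempty
  have h0 : (0 : E (n + 1)) ∈ interior K := by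
    have hnx : -z ∈ K := hs' z (interior_subset hz)
    have := hK.convex.combo_interior_self_mem_interior hz hnx (a := 1 / 2) (b := 1 / 2)
      (by norm_num) (by norm_num) (by norm_num)
    convert this using 1
    rw [smul_neg]; abel
  obtain ⟨x, hx, hxu⟩ := exists_hs_eq hK.isCompact hK.nonempty u
  have key : ∀ a : ℝ, 0 ≤ a → a < 1 → a • x ∈ interior K := by
    intro a ha ha1
    have := hK.convex.combo_interior_self_mem_interior h0 hx (a := 1 - a) (b := a)
      (by linarith) ha (by ring)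
    simpa using this
  have hneg : ∀ y ∈ interior K, -y ∈ interior K := by
    intro y hy
    rw [mem_interior_iff_mem_nhds] at hy ⊢
    have h2 : Tendsto (fun w : E (n + 1) => -w) (𝓝 (-y)) (𝓝 y) := by
      have := (continuous_neg (G := E (n + 1))).tendsto (-y)
      rwa [neg_neg] at this
    filter_upwards [h2 hy] with w hw
    have := hs' _ (show -w ∈ K from hw)
    rwa [neg_neg] at this
  rcases le_or_gt 0 t with h | h
  · rw [abs_of_nonneg h] at ht
    refine ⟨(t / hs K u) • x, key _ (by positivity) ((div_lt_one hu).2 ht), ?_⟩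
    rw [inner_smul_left, hxu]
    simp only [conj_trivial]
    field_simp
  · rw [abs_of_neg h] at ht
    refine ⟨-((-t / hs K u) • x), hneg _ (key _ (div_nonneg (by linarith) hu.le) ((div_lt_one hu).2 ht)), ?_⟩
    rw [inner_neg_left, inner_smul_left, hxu]
    simp only [conj_trivial]
    field_simp

variable (F : Frame u)

lemma prf_slice_nonempty (hu : ‖u‖ = 1) (hK : CB K) (hs' : ∀ x ∈ K, -x ∈ K) {t : ℝ}
    (ht : |t| ≤ hs K u) : (F.slice K t).Nonempty := by
  obtain ⟨x, hx, hxt⟩ := prf_exists_point hK hs' ht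
  obtain ⟨⟨s, y⟩, hp⟩ := F.surjective_Φ x
  have h1 := F.inner_Φ hu (s, y)
  rw [hp, hxt] at h1
  simp only at h1
  refine ⟨y, ?_⟩
  rw [F.mem_slice, h1, hp]
  exact hx

lemma prf_slice_pos (hu : ‖u‖ = 1) (hK : CB K) (hs' : ∀ x ∈ K, -x ∈ K) {t : ℝ}
    (hpos : 0 < hs K u) (ht : |t| < hs K u) : 0 < vol (F.slice K t) := by
  obtain ⟨x, hx, hxt⟩ := prf_exists_interior hK hs' hpos ht
  obtain ⟨⟨s, y⟩, hp⟩ := F.surjective_Φ x
  have h1 := F.inner_Φ hu (s, y)
  rw [hp, hxt] at h1
  simp only at h1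
  have hc : Continuous fun y : E n => F.Φ (t, y) :=
    F.continuous_Φ.comp (continuous_const.prodMk continuous_id)
  have hopen : IsOpen ((fun y : E n => F.Φ (t, y)) ⁻¹' interior K) := isOpen_interior.preimage hc
  unfold vol
  refine ENNReal.toReal_pos ?_ (F.isCompact_slice hK.isCompact t).measure_lt_top.ne
  refine ((hopen.measure_pos volume ⟨y, ?_⟩).trans_le (measure_mono ?_)).ne'
  · show F.Φ (t, y) ∈ interior K
    rw [h1, hp]; exact hx
  · intro z hz
    have hz' : F.Φ (t, z) ∈ interior K := hz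
    rw [F.mem_slice]
    exact interior_subset hz'

lemma prf_slice_neg (hs' : ∀ x ∈ K, -x ∈ K) (t : ℝ) :
    F.slice K (-t) = -F.slice K t := by
  have key : ∀ (t : ℝ) (y : E n), F.Φ (-t, -y) = -F.Φ (t, y) := by
    intro t y
    simp only [Frame.Φ, map_neg, neg_smul]
    abel
  ext y
  rw [Set.mem_neg, F.mem_slice, F.mem_slice]
  constructor
  · intro h
    have := hs' _ h
    rw [← key] at this
    simpa using this
  · intro h
    have := hs' _ h
    rw [← key] at this
    simpa using this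

lemma prf_slice_comb (a b s t : ℝ) (hK : Convex ℝ K) (ha : 0 ≤ a) (hb : 0 ≤ b) (hab : a + b = 1) :
    a • F.slice K s + b • F.slice K t ⊆ F.slice K (a * s + b * t) := by
  rintro _ ⟨_, ⟨y, hy, rfl⟩, _, ⟨z, hz, rfl⟩, rfl⟩
  rw [F.mem_slice] at hy hz ⊢
  have : F.Φ (a * s + b * t, a • y + b • z) = a • F.Φ (s, y) + b • F.Φ (t, z) := by
    simp only [Frame.Φ, map_add, map_smul, smul_add, add_smul, mul_smul]
    abel
  simp only
  rw [this]
  exact hK hy hz ha hb hab

end

theorem prof_Prof (hn : 1 ≤ n) {K : Set (E (n + 1))} (hK : CB K) (hs : ∀ x ∈ K, -x ∈ K) {e : E (n + 1)}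
    (he : e ≠ 0) : Prof (prof K e) := by
  have hs' := hs
  have hne : 0 < ‖e‖ := norm_pos_iff.2 he
  set u : E (n + 1) := ‖e‖⁻¹ • e with hu
  have hu1 : ‖u‖ = 1 := by rw [hu, norm_smul, norm_inv, norm_norm, inv_mul_cancel₀ hne.ne']
  have hu0 : u ≠ 0 := by rintro h; rw [h] at hu1; simp at hu1
  set H : ℝ := Crest.Agent.R230.hs K u with hH
  have hHpos : 0 < H := pint_hs_pos hK hs' hu0
  obtain ⟨F⟩ := exists_frame u hu1
  have hfin : 0 < Module.finrank ℝ (E n) := by rw [finrank_euclideanSpace_fin]; omega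
  have hprof : ∀ s, prof K e s = rt (F.slice K (s * H)) := by
    intro s
    rw [prf_rt_eq, ← area_eq hu1 F]
    rfl
  have hle : ∀ s ∈ Icc (-1 : ℝ) 1, |s * H| ≤ H := by
    intro s hs1
    rw [abs_mul, abs_of_pos hHpos]
    have := abs_le.2 hs1
    nlinarith [abs_nonneg s]
  have hnn : ∀ s, 0 ≤ prof K e s := fun s => by rw [hprof]; exact rt_nonneg _
  have hconc : ConcaveOn ℝ (Icc (-1) 1) (prof K e) := by
    refine ⟨convex_Icc _ _, ?_⟩
    intro s hs1 t ht a b ha hb hab
    simp only [smul_eq_mul]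
    rw [hprof, hprof, hprof]
    have h1 := BM_comb hfin (F.isCompact_slice hK.isCompact (s * H)) (F.isCompact_slice hK.isCompact (t * H))
      (prf_slice_nonempty F hu1 hK hs' (hle s hs1)) (prf_slice_nonempty F hu1 hK hs' (hle t ht)) ha hb
    refine h1.trans ?_
    have h2 := prf_slice_comb F a b (s * H) (t * H) hK.convex ha hb hab
    have h3 : a * (s * H) + b * (t * H) = (a * s + b * t) * H := by ring
    rw [h3] at h2
    exact rt_mono (F.isCompact_slice hK.isCompact _) h2
  have heven : ∀ s, prof K e (-s) = prof K e s := by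
    intro s
    rw [hprof, hprof, neg_mul, prf_slice_neg F hs', prf_rt_eq, prf_rt_eq]
    congr 1
    unfold vol
    rw [Measure.measure_neg]
  refine ⟨hconc, fun s _ => heven s, ?_, ?_⟩
  · intro s hs1
    rw [hprof, prf_rt_eq]
    apply Real.rpow_pos_of_pos
    apply prf_slice_pos F hu1 hK hs' hHpos
    rw [abs_mul, abs_of_pos hHpos]
    have := abs_lt.2 hs1
    nlinarith [abs_nonneg s]
  · -- continuity
    have hint : ContinuousOn (prof K e) (Ioo (-1) 1) := by
      have := hconc.subset Ioo_subset_Icc_self (convex_Ioo _ _)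
      exact this.continuousOn isOpen_Ioo
    -- the end point `1`
    have hone : ContinuousWithinAt (prof K e) (Icc (-1) 1) 1 := by
      -- the sweeps
      set A : ℕ → Set (E n) := fun j => {y | ∃ t ∈ Icc (H - H / (j + 1)) H, F.Φ (t, y) ∈ K} with hA
      have hAc : ∀ j, IsCompact (A j) := by
        intro j
        have h1 : A j = Prod.snd '' ((F.Φ ⁻¹' K) ∩ (Icc (H - H / (j + 1)) H ×ˢ univ)) := by
          ext y
          simp only [hA, mem_ofPred_eq, mem_image, mem_inter_iff, mem_preimage, mem_prod, mem_univ,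
            and_true, Prod.exists, exists_eq_right]
          constructor
          · rintro ⟨t, ht, h⟩; exact ⟨t, h, ht⟩
          · rintro ⟨t, h, ht⟩; exact ⟨t, ht, h⟩
        rw [h1]
        apply IsCompact.image _ continuous_snd
        apply (F.isCompact_preimage hu1 hK.isCompact).inter_right
        exact isClosed_Icc.prod isClosed_univ
      have hAanti : Antitone A := by
        intro i j hij y hy
        obtain ⟨t, ht, h⟩ := hy
        refine ⟨t, ⟨?_, ht.2⟩, h⟩
        refine le_trans ?_ ht.1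
        have : H / ((j : ℝ) + 1) ≤ H / ((i : ℝ) + 1) := by
          apply div_le_div_of_nonneg_left hHpos.le (by positivity)
          have : (i : ℝ) ≤ j := by exact_mod_cast hij
          linarith
        linarith
      have hAinter : ⋂ j, A j = F.slice K H := by
        ext y
        rw [mem_iInter, F.mem_slice]
        constructor
        · intro h
          choose t ht hty using h
          have hlim : Tendsto t atTop (𝓝 H) := by
            have h0 : Tendsto (fun j : ℕ => H - H / ((j : ℝ) + 1)) atTop (𝓝 (H - 0)) := by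
              apply tendsto_const_nhds.sub
              have := tendsto_one_div_add_atTop_nhds_zero_nat (𝕜 := ℝ)
              have h2 := this.const_mul H
              rw [mul_zero] at h2
              refine h2.congr fun j => ?_
              rw [mul_one_div]
            rw [sub_zero] at h0
            exact tendsto_of_tendsto_of_tendsto_of_le_of_le h0 tendsto_const_nhds
              (fun j => (ht j).1) (fun j => (ht j).2)
          have hcl : IsClosed {s : ℝ | F.Φ (s, y) ∈ K} :=
            hK.isCompact.isClosed.preimage (F.continuous_Φ.comp (continuous_id.prodMk continuous_const))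
          exact hcl.mem_of_tendsto hlim (Eventually.of_forall hty)
        · intro h j
          exact ⟨H, ⟨by have : 0 ≤ H / ((j : ℝ) + 1) := by positivity
                        linarith, le_rfl⟩, h⟩
      have hvolA : Tendsto (fun j => rt (A j)) atTop (𝓝 (rt (F.slice K H))) := by
        have h1 : Tendsto (fun j => volume (A j)) atTop (𝓝 (volume (⋂ j, A j))) :=
          tendsto_measure_iInter_atTop (fun j => (hAc j).measurableSet.nullMeasurableSet) hAanti
            ⟨0, (hAc 0).measure_lt_top.ne⟩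
        rw [hAinter] at h1
        have h2 := (ENNReal.tendsto_toReal (F.isCompact_slice hK.isCompact H).measure_lt_top.ne).comp h1
        have h3 := h2.rpow_const (p := (1 : ℝ) / Module.finrank ℝ (E n)) (Or.inr (by positivity))
        exact h3
      have hr1 : prof K e 1 = rt (F.slice K H) := by rw [hprof, one_mul]
      rw [Metric.continuousWithinAt_iff']
      intro δ hδ
      have h1 : ∀ᶠ s in 𝓝[Icc (-1) 1] (1 : ℝ), prof K e 1 - δ < s * prof K e 1 ∧ 0 < s ∧ s ∈ Icc (-1 : ℝ) 1 := by
        have hc : Tendsto (fun s : ℝ => s * prof K e 1) (𝓝[Icc (-1) 1] 1) (𝓝 (1 * prof K e 1)) :=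
          ((continuous_id.mul continuous_const).tendsto 1).mono_left nhdsWithin_le_nhds
        rw [one_mul] at hc
        filter_upwards [hc (Ioi_mem_nhds (show prof K e 1 - δ < prof K e 1 by linarith)),
          nhdsWithin_le_nhds (Ioi_mem_nhds (show (0 : ℝ) < 1 by norm_num)), self_mem_nhdsWithin]
          with s h1 h2 h3
        exact ⟨h1, h2, h3⟩
      obtain ⟨j, hj⟩ := (hvolA.eventually (gt_mem_nhds (show rt (F.slice K H) < rt (F.slice K H) + δ by
        linarith))).exists
      have h2 : ∀ᶠ s in 𝓝[Icc (-1) 1] (1 : ℝ), H - H / ((j : ℝ) + 1) < s * H := by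
        have hc : Tendsto (fun s : ℝ => s * H) (𝓝[Icc (-1) 1] 1) (𝓝 (1 * H)) :=
          ((continuous_id.mul continuous_const).tendsto 1).mono_left nhdsWithin_le_nhds
        rw [one_mul] at hc
        apply hc
        apply Ioi_mem_nhds
        have : 0 < H / ((j : ℝ) + 1) := by positivity
        linarith
      filter_upwards [h1, h2] with s hs1 hs2
      rw [Real.dist_eq, abs_lt]
      obtain ⟨h3, h4, h5⟩ := hs1
      constructor
      · have h6 := hconc.2 (show (1 : ℝ) ∈ Icc (-1 : ℝ) 1 by simp) (show (0 : ℝ) ∈ Icc (-1 : ℝ) 1 by simp)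
          h4.le (show (0 : ℝ) ≤ 1 - s by linarith [h5.2]) (by ring)
        simp only [smul_eq_mul, mul_one, mul_zero, add_zero] at h6
        have h7 := hnn 0
        have h8 : 0 ≤ (1 - s) * prof K e 0 := mul_nonneg (by linarith [h5.2]) h7
        linarith
      · rw [hr1, hprof]
        have h6 : F.slice K (s * H) ⊆ A j := by
          intro y hy
          exact ⟨s * H, ⟨hs2.le, by nlinarith [h5.2]⟩, hy⟩
        have h7 := rt_mono (hAc j) h6
        linarith
    intro s hs1
    rcases hs1.2.eq_or_lt with h | h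
    · rw [h]; exact hone
    rcases hs1.1.eq_or_lt with h' | h'
    · -- end point `-1`
      rw [← h']
      have hmap : MapsTo (fun s : ℝ => -s) (Icc (-1) 1) (Icc (-1) 1) := by
        intro s hs2
        exact ⟨by linarith [hs2.2], by linarith [hs2.1]⟩
      have h1 : ContinuousWithinAt (prof K e ∘ fun s : ℝ => -s) (Icc (-1) 1) (-1) := by
        apply ContinuousWithinAt.comp (t := Icc (-1) 1) _ continuous_neg.continuousWithinAt hmap
        rw [neg_neg]
        exact hone
      refine h1.congr (fun s _ => ?_) ?_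
      · simp [heven s]
      · simp [heven]
    · exact ((hint s ⟨h', h⟩).continuousAt (Ioo_mem_nhds h' h)).continuousWithinAt

end Crest.Agent.R230
end

-- ▼ part R230/ConeDiv
section

/-!
Divergence theorem in gauge form (interface versions).
-/

set_option autoImplicit false

open MeasureTheory Set
open scoped Pointwise ENNReal

namespace Crest.Agent.R230

variable {n : ℕ}

theorem cone_div {K : Set (E (n + 1))} (hK : CB K) (h0 : (0 : E (n + 1)) ∈ interior K) (ψ : ℝ → ℝ)
    (hψ : ContDiff ℝ 1 ψ) (e v : E (n + 1)) :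
    (n + 1) * ∫ x in K, ψ (inner ℝ x e / gauge K x) * inner ℝ (nu K x) v =
      inner ℝ e v * ∫ x in K, deriv ψ (inner ℝ x e) := by
  have h := G.cone_div_gen (hK.body h0) hψ e v
  rw [finrank_E] at h
  push_cast at h
  exact h

theorem cone_scale {K : Set (E (n + 1))} (hK : CB K) (h0 : (0 : E (n + 1)) ∈ interior K) (ψ : ℝ → ℝ)
    (hψ : ContDiff ℝ 1 ψ) (e : E (n + 1)) :
    (n + 1) * ∫ x in K, ψ (inner ℝ x e / gauge K x) =
      ∫ x in K, ((n + 1) * ψ (inner ℝ x e) + inner ℝ x e * deriv ψ (inner ℝ x e)) := by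
  have h := G.cone_scale_gen (hK.body h0) hψ e (Ω := fun _ => 1) measurable_const
    (fun _ _ _ => rfl) (B := 1) (by simp)
  rw [finrank_E] at h
  push_cast at h
  simpa using h

end Crest.Agent.R230
end

-- ▼ part R230/JensenAbs

/-!
# Row 230, section O: an abstract Jensen inequality

If `(ξ,p)` has first marginal `m` and `E[p | ξ] = P(ξ)` in the weak sense of `C¹` test functions, then
`∫ φ(t,P t) dm ≤ ∫ φ(ξ,p)` for `φ` convex in the second variable.
-/

set_option autoImplicit false

open MeasureTheory Set ProbabilityTheory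
open scoped ENNReal Real

namespace Crest.Agent.R230

section abs

variable {X : Type*} [MeasurableSpace X]

/-- two finite measures on `ℝ` agreeing on bounded `C¹` functions are equal -/
lemma measure_ext_of_contDiff {μ ν : Measure ℝ} [IsFiniteMeasure μ] [IsFiniteMeasure ν]
    (h : ∀ ψ : ℝ → ℝ, ContDiff ℝ 1 ψ → (∀ x, |ψ x| ≤ 1) → ∫ x, ψ x ∂μ = ∫ x, ψ x ∂ν) : μ = ν := by
  apply Measure.ext_of_charFun
  ext t
  rw [charFun_apply_real, charFun_apply_real]
  have key : ∀ ρ : Measure ℝ, IsFiniteMeasure ρ → ∫ x, Complex.exp (t * x * Complex.I) ∂ρ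
      = ((∫ x, Real.cos (t * x) ∂ρ : ℝ) : ℂ) + ((∫ x, Real.sin (t * x) ∂ρ : ℝ) : ℂ) * Complex.I := by
    intro ρ hρ
    have hc : Integrable (fun x : ℝ => Real.cos (t * x)) ρ := by
      refine Integrable.of_bound (C := 1) (by fun_prop) (Filter.Eventually.of_forall fun x => ?_)
      rw [Real.norm_eq_abs]; exact Real.abs_cos_le_one _
    have hs : Integrable (fun x : ℝ => Real.sin (t * x)) ρ := by
      refine Integrable.of_bound (C := 1) (by fun_prop) (Filter.Eventually.of_forall fun x => ?_)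
      rw [Real.norm_eq_abs]; exact Real.abs_sin_le_one _
    rw [← integral_complex_ofReal, ← integral_complex_ofReal, ← integral_mul_const, ← integral_add hc.ofReal
      (hs.ofReal.mul_const _)]
    congr 1
    ext x
    have : (t * x * Complex.I : ℂ) = ((t * x : ℝ) : ℂ) * Complex.I := by push_cast; ring
    rw [this, Complex.exp_mul_I]
    simp
  rw [key μ inferInstance, key ν inferInstance]
  rw [h (fun x => Real.cos (t * x)) (by fun_prop) (fun x => Real.abs_cos_le_one _),
    h (fun x => Real.sin (t * x)) (by fun_prop) (fun x => Real.abs_sin_le_one _)]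

theorem jensen_abs_cont {ρ : Measure X} [IsFiniteMeasure ρ] {ξ p : X → ℝ} (hξ : AEMeasurable ξ ρ)
    (hp : AEMeasurable p ρ) {R : ℝ} (hpR : ∀ᵐ x ∂ρ, |p x| ≤ R) (hξ1 : ∀ᵐ x ∂ρ, |ξ x| ≤ 1)
    {m : Measure ℝ} [IsFiniteMeasure m] {P : ℝ → ℝ} (hP : Measurable P) (hPR : ∀ᵐ t ∂m, |P t| ≤ R)
    (h1 : ∀ ψ : ℝ → ℝ, ContDiff ℝ 1 ψ → ∫ x, ψ (ξ x) ∂ρ = ∫ t, ψ t ∂m)
    (h2 : ∀ ψ : ℝ → ℝ, ContDiff ℝ 1 ψ → ∫ x, ψ (ξ x) * p x ∂ρ = ∫ t, ψ t * P t ∂m)
    (φ : ℝ → ℝ → ℝ) (hφ : Continuous (fun q : ℝ × ℝ => φ q.1 q.2))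
    (hφc : ∀ t, ConvexOn ℝ (Icc (-R) R) (φ t)) :
    ∫ t, φ t (P t) ∂m ≤ ∫ x, φ (ξ x) (p x) ∂ρ := by
  have hξp : AEMeasurable (fun x => (ξ x, p x)) ρ := hξ.prodMk hp
  set μ : Measure (ℝ × ℝ) := ρ.map (fun x => (ξ x, p x)) with hμ
  have hμf : IsFiniteMeasure μ := by rw [hμ]; infer_instance
  have hfst : μ.fst = m := by
    apply measure_ext_of_contDiff
    intro ψ hψ _
    rw [← h1 ψ hψ, Measure.fst, hμ, AEMeasurable.map_map_of_aemeasurable measurable_fst.aemeasurable hξp]
    rw [integral_map]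
    · rfl
    · exact hξ
    · exact hψ.continuous.aestronglyMeasurable
  have hdis : m ⊗ₘ μ.condKernel = μ := by rw [← hfst]; exact μ.disintegrate μ.condKernel
  -- bounds
  have hμb : ∀ᵐ q ∂μ, |q.1| ≤ 1 ∧ |q.2| ≤ R := by
    rw [hμ, ae_map_iff hξp]
    · filter_upwards [hξ1, hpR] with x h1 h2 using ⟨h1, h2⟩
    · exact ((measurable_fst.abs) measurableSet_Iic).inter ((measurable_snd.abs) measurableSet_Iic)
  have hker : ∀ᵐ t ∂m, ∀ᵐ y ∂(μ.condKernel t), |t| ≤ 1 ∧ |y| ≤ R := by
    rw [← hdis] at hμb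
    exact Measure.ae_ae_of_ae_compProd hμb
  have hfi : ∀ᵐ t ∂m, Integrable (fun y : ℝ => y) (μ.condKernel t) := by
    filter_upwards [hker] with t ht
    refine Integrable.of_bound (C := R) (by fun_prop) ?_
    filter_upwards [ht] with y hy using hy.2
  set b : ℝ → ℝ := fun t => ∫ y, y ∂(μ.condKernel t) with hb
  have hbm : StronglyMeasurable b := by
    have h := StronglyMeasurable.integral_kernel_prod_right' (κ := μ.condKernel) (E := ℝ)
      (f := fun q : ℝ × ℝ => q.2) measurable_snd.stronglyMeasurable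
    exact h
  have hbR : ∀ᵐ t ∂m, |b t| ≤ R := by
    filter_upwards [hker] with t ht
    have h3 := norm_integral_le_of_norm_le_const (μ := μ.condKernel t) (f := fun y : ℝ => y) (C := R)
      (by filter_upwards [ht] with y hy using hy.2)
    simpa [Measure.real] using h3
  have hint : ∀ g : ℝ × ℝ → ℝ, Continuous g → Integrable g μ := by
    intro g hg
    obtain ⟨C, hC⟩ := (isCompact_Icc (a := ((-1 : ℝ), -R)) (b := ((1 : ℝ), R))).exists_bound_of_continuousOn
      hg.continuousOn
    refine Integrable.of_bound (C := C) hg.aestronglyMeasurable ?_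
    filter_upwards [hμb] with q hq
    exact hC q ⟨Prod.mk_le_mk.2 ⟨(abs_le.1 hq.1).1, (abs_le.1 hq.2).1⟩,
      Prod.mk_le_mk.2 ⟨(abs_le.1 hq.1).2, (abs_le.1 hq.2).2⟩⟩
  have hbP : ∀ᵐ t ∂m, b t = P t := by
    have hi1 : Integrable b m := Integrable.of_bound (C := R) hbm.aestronglyMeasurable hbR
    have hi2 : Integrable P m := Integrable.of_bound (C := R) hP.aestronglyMeasurable hPR
    have hz : ∀ᵐ t ∂m, (fun t => b t - P t) t = 0 := by
      apply ae_eq_zero_of_integral_contDiff_smul_eq_zero (hi1.sub hi2).locallyIntegrable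
      intro g hg hgs
      have hg1 : ContDiff ℝ 1 g := hg.of_le (by exact_mod_cast le_top)
      obtain ⟨C, hC⟩ := hgs.exists_bound_of_continuous hg.continuous
      have hgi1 : Integrable (fun t => g t * b t) m := hi1.bdd_mul hg.continuous.aestronglyMeasurable
        (Filter.Eventually.of_forall hC)
      have hgi2 : Integrable (fun t => g t * P t) m := hi2.bdd_mul hg.continuous.aestronglyMeasurable
        (Filter.Eventually.of_forall hC)
      have e1 : ∫ t, g t * b t ∂m = ∫ t, g t * P t ∂m := by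
        rw [← h2 g hg1]
        have e2 : ∫ x, g (ξ x) * p x ∂ρ = ∫ q, g q.1 * q.2 ∂μ := by
          rw [hμ, integral_map hξp]
          exact (by fun_prop : Continuous (fun q : ℝ × ℝ => g q.1 * q.2)).aestronglyMeasurable
        have hgq : Integrable (fun q : ℝ × ℝ => g q.1 * q.2) (m ⊗ₘ μ.condKernel) := by
          rw [hdis]
          exact hint _ (by fun_prop)
        have e3 : ∫ q, g q.1 * q.2 ∂μ = ∫ t, ∫ y, g t * y ∂(μ.condKernel t) ∂m := by
          calc ∫ q, g q.1 * q.2 ∂μ = ∫ q, g q.1 * q.2 ∂(m ⊗ₘ μ.condKernel) := by rw [hdis]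
            _ = _ := Measure.integral_compProd hgq
        rw [e2, e3]
        congr 1
        ext t
        rw [integral_const_mul]
      have e4 : ∫ x, g x • (b - P) x ∂m = ∫ x, (g x * b x - g x * P x) ∂m := by
        congr 1; ext x; simp only [smul_eq_mul, Pi.sub_apply, mul_sub]
      rw [e4, integral_sub hgi1 hgi2, e1, sub_self]
    filter_upwards [hz] with t ht using sub_eq_zero.1 ht
  have hL : ∫ x, φ (ξ x) (p x) ∂ρ = ∫ t, ∫ y, φ t y ∂(μ.condKernel t) ∂m := by
    have e2 : ∫ x, φ (ξ x) (p x) ∂ρ = ∫ q, φ q.1 q.2 ∂μ := by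
      rw [hμ, integral_map hξp hφ.aestronglyMeasurable]
    have hgq : Integrable (fun q : ℝ × ℝ => φ q.1 q.2) (m ⊗ₘ μ.condKernel) := by
      rw [hdis]; exact hint _ hφ
    rw [e2]
    calc ∫ q, φ q.1 q.2 ∂μ = ∫ q, φ q.1 q.2 ∂(m ⊗ₘ μ.condKernel) := by rw [hdis]
      _ = _ := Measure.integral_compProd hgq
  rw [hL]
  have hgq : Integrable (fun q : ℝ × ℝ => φ q.1 q.2) (m ⊗ₘ μ.condKernel) := by
    rw [hdis]; exact hint _ hφ
  obtain ⟨C, hC⟩ := (isCompact_Icc (a := ((-1 : ℝ), -R)) (b := ((1 : ℝ), R))).exists_bound_of_continuousOn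
      hφ.continuousOn
  have hm1 : ∀ᵐ t ∂m, |t| ≤ 1 := by
    filter_upwards [hker] with t ht
    obtain ⟨y, hy⟩ := ht.exists
    exact hy.1
  refine integral_mono_ae ?_ ?_ ?_
  · refine Integrable.of_bound (C := C) ?_ ?_
    · exact (hφ.measurable.comp (measurable_id.prodMk hP)).aestronglyMeasurable
    · filter_upwards [hm1, hPR] with t h3 h4
      exact hC (t, P t) ⟨Prod.mk_le_mk.2 ⟨(abs_le.1 h3).1, (abs_le.1 h4).1⟩,
        Prod.mk_le_mk.2 ⟨(abs_le.1 h3).2, (abs_le.1 h4).2⟩⟩
  · refine Integrable.of_bound (C := C) ?_ ?_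
    · exact (StronglyMeasurable.integral_kernel_prod_right' (κ := μ.condKernel) (E := ℝ)
        (f := fun q : ℝ × ℝ => φ q.1 q.2) hφ.stronglyMeasurable).aestronglyMeasurable
    · filter_upwards [hker] with t ht
      have h3 := norm_integral_le_of_norm_le_const (μ := μ.condKernel t) (f := fun y : ℝ => φ t y) (C := C)
        (by
          filter_upwards [ht] with y hy
          exact hC (t, y) ⟨Prod.mk_le_mk.2 ⟨(abs_le.1 hy.1).1, (abs_le.1 hy.2).1⟩,
            Prod.mk_le_mk.2 ⟨(abs_le.1 hy.1).2, (abs_le.1 hy.2).2⟩⟩)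
      simpa [Measure.real] using h3
  · filter_upwards [hker, hfi, hbP] with t h3 h4 h5
    show φ t (P t) ≤ ∫ y, φ t y ∂(μ.condKernel t)
    rw [← h5]
    refine (hφc t).map_integral_le ?_ isClosed_Icc ?_ h4 ?_
    · exact (hφ.comp (Continuous.prodMk_right t)).continuousOn
    · filter_upwards [h3] with y hy using abs_le.1 hy.2
    · refine Integrable.of_bound (C := C) ?_ ?_
      · exact (hφ.comp (Continuous.prodMk_right t)).aestronglyMeasurable
      · filter_upwards [h3] with y hy
        exact hC (t, y) ⟨Prod.mk_le_mk.2 ⟨(abs_le.1 hy.1).1, (abs_le.1 hy.2).1⟩,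
          Prod.mk_le_mk.2 ⟨(abs_le.1 hy.1).2, (abs_le.1 hy.2).2⟩⟩


end abs

end Crest.Agent.R230
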