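import Crest.Agent.R230.DefsE
import Crest.Agent.R230.JensenAbs_Mg
import Crest.Agent.R230.ProfInt
import Crest.Agent.R230.ProfCalc
import Crest.Agent.R230.Mink
import Crest.Agent.R230.Gauge

/-!
# Row 230, section O: Jensen on slices
-/

set_option autoImplicit false

open MeasureTheory Set
open scoped Pointwise ENNReal

namespace Crest.Agent.R230

variable {n : ℕ}

/-- a symmetric convex body contains `0` in its interior -/
private lemma zmi {K : Set (E n)} (hK : CB K) (hs : ∀ x ∈ K, -x ∈ K) :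
    (0 : E n) ∈ interior K := by
  obtain ⟨x, hx⟩ := hK.interior_nonempty
  have h1 : -x ∈ interior K := by
    have : -K = K := by
      ext y; constructor
      · intro hy; have := hs _ hy; simpa using this
      · intro hy; exact hs _ hy
    have h2 : interior (-K) = -interior K := by
      have := (Homeomorph.neg (E n)).preimage_interior K
      exact this.symm
    rw [← this, h2]; simpa using hx
  have := hK.convex.interior hx h1 (a := 1/2) (b := 1/2) (by norm_num) (by norm_num) (by norm_num)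
  simpa using this

lemma abs_xi_le {K : Set (E n)} (hK : CB K) (hs' : ∀ x ∈ K, -x ∈ K) {e : E n}
    (he : hs K e = 1) (x : E n) : |inner ℝ x e / gauge K x| ≤ 1 := by
  have h0 := zmi hK hs'
  have hB : G.Body K := ⟨hK.isCompact, hK.convex, mem_interior_iff_mem_nhds.1 h0⟩
  rcases (gauge_nonneg (s := K) x).eq_or_lt with hg | hg
  · rw [← hg]; simp
  · have hm : (gauge K x)⁻¹ • x ∈ K := by
      rw [← hB.gauge_le_one_iff, gauge_smul_of_nonneg (by positivity), smul_eq_mul,
        inv_mul_cancel₀ hg.ne']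
    have h1 := le_hs hK.isCompact hm e
    have h2 := le_hs hK.isCompact (hs' _ hm) e
    rw [he, inner_smul_left] at h1
    rw [he, inner_neg_left, inner_smul_left] at h2
    simp only [conj_trivial] at h1 h2
    rw [div_eq_inv_mul, abs_le]
    exact ⟨by linarith, h1⟩

/-- the cone marginal as a measure -/
noncomputable def coneM (n : ℕ) (r : ℝ → ℝ) (h : ℝ) : Measure ℝ :=
  ENNReal.ofReal (h / (n + 1)) • ((volume.restrict (Ioc (-1 : ℝ) 1)).withDensity
    (fun s => ENNReal.ofReal (n * (r s ^ (n - 1) * (r s - s * deriv r s)))) +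
    (ENNReal.ofReal (r 1 ^ n) • Measure.dirac (1 : ℝ) + ENNReal.ofReal (r 1 ^ n) • Measure.dirac (-1 : ℝ)))

lemma coneM_finite (hn : 1 ≤ n) {r : ℝ → ℝ} (hr : Prof r) (h : ℝ) : IsFiniteMeasure (coneM n r h) := by
  have hD : IntegrableOn (fun s => r s ^ (n-1) * (r s - s * deriv r s)) (Ioc (-1) 1) :=
    (intervalIntegrable_iff_integrableOn_Ioc_of_le (by norm_num)).1 (prof_integrable hn hr)
  have h1 : IsFiniteMeasure ((volume.restrict (Ioc (-1 : ℝ) 1)).withDensity
    (fun s => ENNReal.ofReal (n * (r s ^ (n - 1) * (r s - s * deriv r s))))) :=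
    isFiniteMeasure_withDensity_ofReal (hD.const_mul _).2
  unfold coneM
  have h2 : IsFiniteMeasure (ENNReal.ofReal (r 1 ^ n) • Measure.dirac (1 : ℝ)) :=
    Measure.smul_finite _ ENNReal.ofReal_ne_top
  have h3 : IsFiniteMeasure (ENNReal.ofReal (r 1 ^ n) • Measure.dirac (-1 : ℝ)) :=
    Measure.smul_finite _ ENNReal.ofReal_ne_top
  exact Measure.smul_finite _ ENNReal.ofReal_ne_top

lemma coneM_ae (n : ℕ) (r : ℝ → ℝ) (h : ℝ) : ∀ᵐ t ∂(coneM n r h), |t| ≤ 1 := by
  unfold coneM
  refine Measure.ae_smul_measure (ae_add_measure_iff.2 ⟨?_, ae_add_measure_iff.2 ⟨?_, ?_⟩⟩) _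
  · refine (withDensity_absolutelyContinuous _ _).ae_le ?_
    filter_upwards [ae_restrict_mem measurableSet_Ioc] with t ht
    exact abs_le.2 ⟨ht.1.le, ht.2⟩
  · refine Measure.ae_smul_measure ?_ _
    rw [ae_dirac_iff (measurableSet_le (by fun_prop) (by fun_prop))]; simp
  · refine Measure.ae_smul_measure ?_ _
    rw [ae_dirac_iff (measurableSet_le (by fun_prop) (by fun_prop))]; simp

lemma prof_one_nonneg {r : ℝ → ℝ} (hr : Prof r) : 0 ≤ r 1 := by
  have h1 : Filter.Tendsto r (nhdsWithin 1 (Iio 1)) (nhds (r 1)) := by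
    have := hr.cont 1 (by simp)
    have h2 : Filter.Tendsto r (nhdsWithin 1 (Ioo (-1) 1)) (nhds (r 1)) :=
      this.mono_left (nhdsWithin_mono _ Ioo_subset_Icc_self)
    rwa [nhdsWithin_Ioo_eq_nhdsLT (by norm_num)] at h2
  refine ge_of_tendsto h1 ?_
  have : Ioo (-1 : ℝ) 1 ∈ nhdsWithin 1 (Iio 1) := Ioo_mem_nhdsLT (by norm_num)
  filter_upwards [this] with s hs using (hr.pos s hs).le

lemma integral_coneM (hn : 1 ≤ n) {r : ℝ → ℝ} (hr : Prof r) {h : ℝ} (hh : 0 ≤ h) {f : ℝ → ℝ}
    (hf : Measurable f) {C : ℝ} (hC : ∀ t ∈ Icc (-1 : ℝ) 1, |f t| ≤ C) :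
    ∫ t, f t ∂(coneM n r h) = h / (n + 1) *
      (n * (∫ s in (-1 : ℝ)..1, r s ^ (n - 1) * (r s - s * deriv r s) * f s) + (f 1 + f (-1)) * r 1 ^ n) := by
  have hD : IntegrableOn (fun s => r s ^ (n-1) * (r s - s * deriv r s)) (Ioc (-1) 1) :=
    (intervalIntegrable_iff_integrableOn_Ioc_of_le (by norm_num)).1 (prof_integrable hn hr)
  have hfin : IsFiniteMeasure ((volume.restrict (Ioc (-1 : ℝ) 1)).withDensity
    (fun s => ENNReal.ofReal (n * (r s ^ (n - 1) * (r s - s * deriv r s))))) :=
    isFiniteMeasure_withDensity_ofReal (hD.const_mul _).2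
  have hr1 := prof_one_nonneg hr
  have i1 : Integrable f ((volume.restrict (Ioc (-1 : ℝ) 1)).withDensity
      (fun s => ENNReal.ofReal (n * (r s ^ (n - 1) * (r s - s * deriv r s))))) := by
    refine Integrable.of_bound (C := C) hf.aestronglyMeasurable ?_
    refine (withDensity_absolutelyContinuous _ _).ae_le ?_
    filter_upwards [ae_restrict_mem measurableSet_Ioc] with t ht
    exact hC t ⟨ht.1.le, ht.2⟩
  have i2 : ∀ a : ℝ, Integrable f (ENNReal.ofReal (r 1 ^ n) • Measure.dirac a) := fun a =>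
    (integrable_dirac (by simp)).smul_measure ENNReal.ofReal_ne_top
  unfold coneM
  rw [integral_smul_measure, integral_add_measure i1 ((i2 1).add_measure (i2 (-1))),
    integral_add_measure (i2 1) (i2 (-1)), integral_smul_measure, integral_smul_measure,
    integral_dirac, integral_dirac,
    integral_withDensity_eq_integral_toReal_smul₀]
  · rw [ENNReal.toReal_ofReal (by positivity), ENNReal.toReal_ofReal (by positivity)]
    have e1 : ∫ x in Ioc (-1 : ℝ) 1, (ENNReal.ofReal (n * (r x ^ (n - 1) * (r x - x * deriv r x)))).toReal • f x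
        = n * ∫ s in (-1 : ℝ)..1, r s ^ (n - 1) * (r s - s * deriv r s) * f s := by
      rw [intervalIntegral.integral_of_le (by norm_num), ← integral_const_mul, integral_Ioc_eq_integral_Ioo,
        integral_Ioc_eq_integral_Ioo]
      apply setIntegral_congr_fun measurableSet_Ioo
      intro s hs
      have hpos := (prof_pp_mem hr hs).1
      have hrs := hr.pos s hs
      simp only [smul_eq_mul]
      rw [ENNReal.toReal_ofReal (by positivity)]
      ring
    rw [e1]
    simp only [smul_eq_mul]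
    ring
  · exact ((hD.const_mul (n : ℝ)).aestronglyMeasurable.aemeasurable).ennreal_ofReal
  · exact Filter.Eventually.of_forall fun _ => ENNReal.ofReal_lt_top

theorem jensen_cont (hn : 1 ≤ n) {K : Set (E (n + 1))} (hK : CB K) (hs' : ∀ x ∈ K, -x ∈ K) {e : E (n + 1)}
    (he : hs K e = 1) {v : E (n + 1)} (hv : inner ℝ e v = 1) {R : ℝ} (hR : 1 ≤ R)
    (hRb : ∀ᵐ x ∂(volume.restrict K), |inner ℝ (nu K x) v| ≤ R) (φ : ℝ → ℝ → ℝ)
    (hφ : Continuous (fun q : ℝ × ℝ => φ q.1 q.2))
    (hφc : ∀ t, ConvexOn ℝ (Icc (-R) R) (φ t)) :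
    vol K * EP n (prof K e) φ ≤ ∫ x in K, φ (inner ℝ x e / gauge K x) (inner ℝ (nu K x) v) := by
  have h0 := zmi hK hs'
  have hB : G.Body K := ⟨hK.isCompact, hK.convex, mem_interior_iff_mem_nhds.1 h0⟩
  have he0 : e ≠ 0 := by rintro rfl; simp at hv
  have hP := prof_Prof hn hK hs' he0
  set r := prof K e with hr
  set h := hs K (‖e‖⁻¹ • e) with hh
  have hh0 : 0 ≤ h := hs_nonneg (interior_subset h0) _
  have hvolK : vol K = h * mom n r := by
    have f2 := integral_inner_prof hn hK hs' he (fun _ => 1) (by fun_prop)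
    have f3 : ∫ x in K, (1 : ℝ) = vol K := by simp [vol, Measure.real]
    rw [f3] at f2
    rw [f2, mom]; simp only [one_mul]; rfl
  have hfinm := coneM_finite hn hP h
  have hfinK : IsFiniteMeasure (volume.restrict K) := ⟨by simpa using hK.isCompact.measure_lt_top⟩
  -- P
  set c1 : ℝ → ℝ := fun t => max (-1) (min 1 t) with hc1
  have hc1m : ∀ t, c1 t ∈ Icc (-1 : ℝ) 1 := fun t => ⟨le_max_left _ _, max_le (by norm_num) (min_le_left _ _)⟩
  have hc1c : Continuous c1 := by simp only [hc1]; fun_prop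
  have hrc : Continuous (fun t => r (c1 t)) := hP.cont.comp_continuous hc1c hc1m
  set P : ℝ → ℝ := fun t => if t = 1 then 1 else if t = -1 then -1 else
    -deriv r t / (r (c1 t) - t * deriv r t) with hPdef
  have hPm : Measurable P := by
    have hd : Measurable (deriv r) := measurable_deriv r
    refine Measurable.ite (measurableSet_singleton (1 : ℝ)) measurable_const
      (Measurable.ite (measurableSet_singleton (-1 : ℝ)) measurable_const ?_)
    exact hd.neg.div (hrc.measurable.sub (measurable_id.mul hd))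
  have hPin : ∀ t ∈ Ioo (-1 : ℝ) 1, P t = pp r t := by
    intro t ht
    have : c1 t = t := by simp only [hc1]; rw [min_eq_right ht.2.le, max_eq_right ht.1.le]
    simp only [hPdef, if_neg ht.2.ne, if_neg ht.1.ne', this, pp]
  have hP1 : P 1 = 1 := by simp [hPdef]
  have hPm1 : P (-1) = -1 := by simp [hPdef]; norm_num
  have hPb : ∀ t ∈ Icc (-1 : ℝ) 1, |P t| ≤ 1 := by
    intro t ht
    rcases ht.2.eq_or_lt with h2 | h2
    · rw [h2, hP1]; simp
    rcases ht.1.eq_or_lt with h3 | h3
    · rw [← h3, hPm1]; simp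
    rw [hPin t ⟨h3, h2⟩]
    exact abs_le.2 (prof_pp_mem hP ⟨h3, h2⟩).2
  -- integrals with P
  have hEPint : ∀ g : ℝ → ℝ → ℝ, ∫ s in (-1 : ℝ)..1, r s ^ (n - 1) * (r s - s * deriv r s) * g s (P s)
      = ∫ s in (-1 : ℝ)..1, r s ^ (n - 1) * (r s - s * deriv r s) * g s (pp r s) := by
    intro g
    rw [intervalIntegral.integral_of_le (by norm_num), intervalIntegral.integral_of_le (by norm_num),
      integral_Ioc_eq_integral_Ioo, integral_Ioc_eq_integral_Ioo]
    apply setIntegral_congr_fun measurableSet_Ioo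
    intro s hs
    simp only [hPin s hs]
  have key := jensen_abs_cont (ρ := volume.restrict K) (m := coneM n r h)
    (ξ := fun x => inner ℝ x e / gauge K x) (p := fun x => inner ℝ (nu K x) v) (R := R) (P := P)
    ?_ ?_ hRb (Filter.Eventually.of_forall fun x => abs_xi_le hK hs' he x) hPm ?_ ?_ ?_ φ hφ hφc
  · -- conclusion
    refine le_trans (le_of_eq ?_) key
    obtain ⟨C, hC⟩ := (isCompact_Icc (a := ((-1 : ℝ), (-1 : ℝ))) (b := ((1 : ℝ), (1 : ℝ)))).exists_bound_of_continuousOn
      hφ.continuousOn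
    rw [integral_coneM hn hP hh0 (f := fun t => φ t (P t)) (C := C)
      (hφ.measurable.comp (measurable_id.prodMk hPm)) (fun t ht => ?_)]
    · rw [hEPint φ, hP1, hPm1]
      unfold EP
      rw [hvolK]
      have := mom_pos hP n
      field_simp
    · have h3 := hPb t ht
      exact hC (t, P t) ⟨Prod.mk_le_mk.2 ⟨ht.1, (abs_le.1 h3).1⟩, Prod.mk_le_mk.2 ⟨ht.2, (abs_le.1 h3).2⟩⟩
  · -- measurability of ξ
    have h1 : Measurable (fun x : E (n + 1) => inner ℝ x e) :=
      (by fun_prop : Continuous (fun x : E (n + 1) => inner ℝ x e)).measurable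
    exact (h1.div hB.continuous_gauge.measurable).aemeasurable
  · have h1 : Measurable (fun x : E (n + 1) => inner ℝ (nu K x) v) :=
      (by fun_prop : Continuous (fun x : E (n + 1) => inner ℝ x v)).measurable.comp (measurable_nu K)
    exact h1.aemeasurable
  · filter_upwards [coneM_ae n r h] with t ht
    exact (hPb t (abs_le.1 ht)).trans hR
  · -- h1
    intro ψ hψ
    have hψc := hψ.continuous
    obtain ⟨C, hC⟩ := (isCompact_Icc (a := (-1 : ℝ)) (b := 1)).exists_bound_of_continuousOn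
      hψc.continuousOn
    rw [integral_coneM hn hP hh0 hψc.measurable hC]
    have hd : Continuous (deriv ψ) := hψ.continuous_deriv le_rfl
    have e1 := cone_scale hK h0 ψ hψ e
    have e2 := integral_inner_prof hn hK hs' he (fun s => (n + 1) * ψ s + s * deriv ψ s) (by fun_prop)
    have e3 := prof_id1 hn hP ψ hψ
    rw [e2, ← hr, ← hh, ← e3] at e1
    have h3 : (0 : ℝ) < n + 1 := by positivity
    field_simp
    linarith
  · -- h2
    intro ψ hψ
    have hψc := hψ.continuous
    obtain ⟨C, hC⟩ := (isCompact_Icc (a := (-1 : ℝ)) (b := 1)).exists_bound_of_continuousOn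
      hψc.continuousOn
    rw [integral_coneM hn hP hh0 (f := fun t => ψ t * P t) (C := C) (hψc.measurable.mul hPm) (fun t ht => by
      rw [abs_mul]
      calc |ψ t| * |P t| ≤ C * 1 := mul_le_mul (hC t ht) (hPb t ht) (abs_nonneg _) ((abs_nonneg _).trans (hC t ht))
        _ = C := mul_one C)]
    have hd : Continuous (deriv ψ) := hψ.continuous_deriv le_rfl
    have e1 := cone_div hK h0 ψ hψ e v
    have e2 := integral_inner_prof hn hK hs' he (fun s => deriv ψ s) hd.continuousOn
    have e3 := prof_id2 hn hP ψ hψ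
    rw [e2, ← hr, ← hh, hv, one_mul, ← e3] at e1
    have e4 := hEPint (fun s y => ψ s * y)
    rw [e4]
    have e5 : ∫ s in (-1 : ℝ)..1, r s ^ (n - 1) * (r s - s * deriv r s) * (ψ s * pp r s)
        = ∫ s in (-1 : ℝ)..1, r s ^ (n - 1) * (-deriv r s) * ψ s := by
      rw [intervalIntegral.integral_of_le (by norm_num), intervalIntegral.integral_of_le (by norm_num),
        integral_Ioc_eq_integral_Ioo, integral_Ioc_eq_integral_Ioo]
      apply setIntegral_congr_fun measurableSet_Ioo
      intro s hs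
      have hpos := (prof_pp_mem hP hs).1
      simp only [pp]
      field_simp
    have e6 : ψ 1 * 1 + ψ (-1) * -1 = ψ 1 - ψ (-1) := by ring
    have h3 : (0 : ℝ) < n + 1 := by positivity
    simp only [hP1, hPm1]
    rw [e5, e6, div_mul_eq_mul_div, eq_div_iff h3.ne', mul_comm]
    exact e1

theorem jensen (hn : 1 ≤ n) {K : Set (E (n + 1))} (hK : CB K) (hs' : ∀ x ∈ K, -x ∈ K) {e : E (n + 1)}
    (he : hs K e = 1) {v : E (n + 1)} (hv : inner ℝ e v = 1) {R : ℝ} (hR : 1 ≤ R)
    (hRb : ∀ᵐ x ∂(volume.restrict K), |inner ℝ (nu K x) v| ≤ R) (φ : ℝ → ℝ → ℝ)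
    (hφ : ContinuousOn (fun q : ℝ × ℝ => φ q.1 q.2) (Icc (-1) 1 ×ˢ Icc (-R) R))
    (hφc : ∀ t ∈ Icc (-1 : ℝ) 1, ConvexOn ℝ (Icc (-R) R) (φ t)) :
    vol K * EP n (prof K e) φ ≤ ∫ x in K, φ (inner ℝ x e / gauge K x) (inner ℝ (nu K x) v) := by
  have he0 : e ≠ 0 := by rintro rfl; simp at hv
  have hP := prof_Prof hn hK hs' he0
  set c1 : ℝ → ℝ := fun t => max (-1) (min 1 t) with hc1
  set c2 : ℝ → ℝ := fun t => max (-R) (min R t) with hc2
  have hc1m : ∀ t, c1 t ∈ Icc (-1 : ℝ) 1 := fun t => ⟨le_max_left _ _, max_le (by norm_num) (min_le_left _ _)⟩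
  have hc2m : ∀ t, c2 t ∈ Icc (-R) R := fun t => ⟨le_max_left _ _, max_le (by linarith) (min_le_left _ _)⟩
  have hc1e : ∀ t, |t| ≤ 1 → c1 t = t := fun t ht => by
    have := abs_le.1 ht
    simp only [hc1]; rw [min_eq_right this.2, max_eq_right this.1]
  have hc2e : ∀ t, |t| ≤ R → c2 t = t := fun t ht => by
    have := abs_le.1 ht
    simp only [hc2]; rw [min_eq_right this.2, max_eq_right this.1]
  have hcont : Continuous (fun q : ℝ × ℝ => φ (c1 q.1) (c2 q.2)) := by
    have hg : Continuous (fun q : ℝ × ℝ => (c1 q.1, c2 q.2)) := by simp only [hc1, hc2]; fun_prop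
    exact hφ.comp_continuous hg (fun q => ⟨hc1m _, hc2m _⟩)
  have key := jensen_cont hn hK hs' he hv hR hRb (fun t y => φ (c1 t) (c2 y)) hcont (fun t => by
    refine (hφc (c1 t) (hc1m t)).congr ?_
    intro y hy
    simp only [hc2e y (abs_le.2 hy)])
  have e1 : EP n (prof K e) (fun t y => φ (c1 t) (c2 y)) = EP n (prof K e) φ := by
    unfold EP
    have h1 : ∫ s in (-1 : ℝ)..1, prof K e s ^ (n - 1) * (prof K e s - s * deriv (prof K e) s) *
        φ (c1 s) (c2 (pp (prof K e) s)) = ∫ s in (-1 : ℝ)..1, prof K e s ^ (n - 1) *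
        (prof K e s - s * deriv (prof K e) s) * φ s (pp (prof K e) s) := by
      rw [intervalIntegral.integral_of_le (by norm_num), intervalIntegral.integral_of_le (by norm_num),
        integral_Ioc_eq_integral_Ioo, integral_Ioc_eq_integral_Ioo]
      apply setIntegral_congr_fun measurableSet_Ioo
      intro s hs
      simp only
      rw [hc1e s (abs_le.2 ⟨hs.1.le, hs.2.le⟩), hc2e _ ((abs_le.2 (prof_pp_mem hP hs).2).trans hR)]
    rw [h1]
    simp only [hc1e 1 (by simp), hc1e (-1) (by simp), hc2e 1 (by simpa using hR), hc2e (-1) (by simpa using hR)]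
  have e2 : ∫ x in K, φ (c1 (inner ℝ x e / gauge K x)) (c2 (inner ℝ (nu K x) v))
      = ∫ x in K, φ (inner ℝ x e / gauge K x) (inner ℝ (nu K x) v) := by
    apply integral_congr_ae
    filter_upwards [hRb] with x hx
    rw [hc1e _ (abs_xi_le hK hs' he x), hc2e _ hx]
  rw [e1] at key
  rw [← e2]
  exact key

end Crest.Agent.R230
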