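import Crest.Agent.R230.Mink
import Crest.Agent.R230.BMEq
import Crest.Agent.R230.BaseTwoAux
import Crest.Agent.R230.Frame
import Crest.Agent.R230.PBBasic
import Crest.Agent.R230.SupportPB
import Crest.Agent.R230.Bright
import Crest.Agent.R230.BallPB_Mg
import Crest.Agent.R230.Ball
import Crest.Agent.R230.DefsE
import Crest.Agent.R230.Basic
import Crest.Agent.R230.ProfInt
import Crest.Agent.R230.JensenAbs_Mg
import Crest.Agent.R230.ProfCalc
import Crest.Agent.R230.Jensen
import Crest.Agent.R230.SDWrap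

-- ▼ part R230/MinkEq
section

/-!
Equality case of Minkowski's first inequality.
-/

set_option autoImplicit false

open MeasureTheory Set
open scoped Pointwise ENNReal

namespace Crest.Agent.R230

variable {n : ℕ}

theorem minkowski_first_eq {K L : Set (E (n + 1))} (hK : CB K) (h0 : (0 : E (n + 1)) ∈ interior K)
    (hL : CB L) (h : V1 K L ^ (n + 1) ≤ vol K ^ n * vol L) :
    ∃ (a : E (n + 1)) (r : ℝ), 0 < r ∧ K = a +ᵥ r • L := by
  refine brunn_minkowski_eq hK hL (le_of_eq ?_)
  have h1 := rt_add_of_minkowski_eq hK h0 hL h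
  unfold rt at h1
  rw [finrank_E] at h1
  push_cast at h1
  exact h1

end Crest.Agent.R230
end

-- ▼ part R230/BaseTwo
section

/-!
Row 230, base case `n = 2` of Petty's inequality (helper852).
-/

set_option autoImplicit false

namespace Crest.Agent.R230

theorem petty_two : PettyIneq 2 :=
  petty_two_of (fun e he => exists_frame e he)
    (fun _ hK hKc _ he F _ hc => sh_eq_shadow hK hKc he F hc)

end Crest.Agent.R230
end

-- ▼ part R230/Assembly
section

set_option autoImplicit false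

open MeasureTheory Set
open scoped Pointwise ENNReal

namespace Crest.Agent.R230

variable {n : ℕ}

/-- `K` minimises `|ΠK| / |K|^n` in dimension `n + 1`. -/
def IsMin (K : Set (E (n + 1))) : Prop :=
  ∀ L : Set (E (n + 1)), CB L → vol (PB K) * vol L ^ n ≤ vol (PB L) * vol K ^ n

lemma cpos (n : ℕ) : 0 < κ (n - 1) ^ n / κ n ^ (n - 2) := by
  have := κ_pos (n - 1); have := κ_pos n; positivity

theorem min_is_ellipsoid (hn : 2 ≤ n) (hP : PettyIneq n) (hE : CruxE n) {K : Set (E (n + 1))}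
    (hK : CB K) (hmin : IsMin K) :
    ∃ (a : E (n + 1)) (T : E (n + 1) ≃ₗ[ℝ] E (n + 1)),
      K = (fun x => a + T x) '' Metric.closedBall 0 1 := by
  obtain ⟨x0, hx0⟩ := hK.interior_nonempty
  set K0 : Set (E (n + 1)) := (-x0) +ᵥ K with hK0def
  have hK0 : CB K0 := hK.vadd _
  have h00 : (0 : E (n + 1)) ∈ interior K0 := by
    rw [hK0def, interior_vadd]
    exact ⟨x0, hx0, by simp⟩
  set M := PB K0 with hMdef
  have hM : CB M := CB_PB hK0
  set L := PB M with hLdef
  have hL : CB L := CB_PB hM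
  have hPBK : PB K = M := by rw [hMdef, hK0def, PB_vadd]
  have hvolK0 : vol K0 = vol K := vol_vadd _ _
  have hV1 : V1 K0 L = vol M := V1_PB_PB hK0 h00
  have h1 : vol M * vol M ^ n ≤ vol L * vol K0 ^ n := by
    have := hmin M hM
    rwa [hPBK, ← hvolK0] at this
  obtain ⟨a, r, hr, hKa⟩ := minkowski_first_eq hK0 h00 hL (by
    rw [hV1, pow_succ]; nlinarith [h1])
  set K1 : Set (E (n + 1)) := r • L with hK1def
  have hK1 : CB K1 := by
    have : K1 = (-a) +ᵥ K0 := by
      rw [hKa, vadd_vadd]; simp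
    rw [this]; exact hK0.vadd _
  have hM1 : PB K1 = M := by
    rw [hMdef, hKa, PB_vadd]
  have hvolK1 : vol K1 = vol K := by
    rw [← hvolK0, hKa, vol_vadd]
  have h0L : (0 : E (n + 1)) ∈ interior L := zero_mem_interior_PB hM
  have h01 : (0 : E (n + 1)) ∈ interior K1 := by
    rw [hK1def, interior_smul₀ hr.ne']
    exact ⟨0, h0L, by simp⟩
  have hsymm : ∀ x ∈ K1, -x ∈ K1 := by
    rintro x ⟨y, hy, rfl⟩
    exact ⟨-y, neg_mem_PB hy, by simp⟩
  have hLK : L = r⁻¹ • K1 := by
    rw [hK1def, smul_smul, inv_mul_cancel₀ hr.ne', one_smul]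
  have hsL : ∀ u, hs L u = r⁻¹ * hs K1 u := by
    intro u
    conv_lhs => rw [hLK]
    rw [hs_smul_set (inv_nonneg.2 hr.le)]
  have hvM : vol M = r⁻¹ * vol K1 := by
    have h := V1_PB_PB hK1 h01
    rw [hM1, ← hLdef] at h
    rw [← h]
    unfold V1
    have h2 : ∫ x in K1, hs L (nu K1 x) = ∫ x in K1, r⁻¹ := by
      apply integral_congr_ae
      filter_upwards [ae_hs_nu hK1 h01] with x hx
      rw [hsL, hx, mul_one]
    rw [h2]
    simp [vol, Measure.real, mul_comm]
  have hvK1 : 0 < vol K1 := hK1.vol_pos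
  have hr' : r⁻¹ = vol M / vol K1 := by rw [hvM]; field_simp
  have hκ := κ_pos (n + 1)
  have hκn := κ_pos n
  have hκm := κ_pos (n - 1)
  have hball : vol M * κ (n + 1) ^ (n - 1) ≤ κ n ^ (n + 1) * vol K1 ^ n := by
    have := hmin _ (CB_ball (n + 1))
    rw [hPBK, vol_closedBall, vol_PB_ball, ← hvolK1] at this
    have h3 : κ (n + 1) ^ n = κ (n + 1) ^ (n - 1) * κ (n + 1) := by
      rw [← pow_succ]; congr 1; omega
    rw [h3] at this
    have h4 : (vol M * κ (n + 1) ^ (n - 1)) * κ (n + 1) ≤ (κ n ^ (n + 1) * vol K1 ^ n) * κ (n + 1) := by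
      nlinarith [this]
    exact le_of_mul_le_mul_right h4 hκ
  obtain ⟨T, hT⟩ := hE K1 hK1 hsymm (fun e he => by
    have hsl := slice_ineq (n := n) (by omega) (cpos n).le (fun L hL => by
      have := hP L hL
      rw [div_mul_eq_mul_div, div_le_iff₀ (by positivity)]
      exact this) hK1 he hn
    rw [hM1, ← hs_PB hM e, ← hLdef, hsL, hr'] at hsl
    -- c * NK ≤ (vol M / vol K1) * hs K1 e
    have hhs : 0 ≤ hs K1 e := by
      unfold hs
      apply Real.sSup_nonneg'
      exact ⟨0, ⟨0, interior_subset h01, by simp⟩, le_rfl⟩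
    have hNK : NK K1 e ≤ (vol M / vol K1 * hs K1 e) / (κ (n - 1) ^ n / κ n ^ (n - 2)) := by
      rw [le_div_iff₀ (cpos n)]; linarith [mul_comm (NK K1 e) (κ (n - 1) ^ n / κ n ^ (n - 2))]
    refine hNK.trans ?_
    have e1 : (vol M / vol K1 * hs K1 e) / (κ (n - 1) ^ n / κ n ^ (n - 2))
        = (vol M * κ (n + 1) ^ (n - 1)) * (κ n ^ (n - 2) * hs K1 e /
          (κ (n - 1) ^ n * vol K1 * κ (n + 1) ^ (n - 1))) := by
      field_simp
    have e2 : NB n * (vol K1 / κ (n + 1)) ^ (n - 1) * hs K1 e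
        = (κ n ^ (n + 1) * vol K1 ^ n) * (κ n ^ (n - 2) * hs K1 e /
          (κ (n - 1) ^ n * vol K1 * κ (n + 1) ^ (n - 1))) := by
      unfold NB
      have h5 : κ n ^ (2 * n - 1) = κ n ^ (n + 1) * κ n ^ (n - 2) := by
        rw [← pow_add]; congr 1; omega
      have h6 : vol K1 ^ n = vol K1 ^ (n - 1) * vol K1 := by
        rw [← pow_succ]; congr 1; omega
      rw [h5, h6, div_pow]
      field_simp
    rw [e1, e2]
    gcongr)
  refine ⟨x0 + a, T, ?_⟩
  have hK' : K = x0 +ᵥ (a +ᵥ K1) := by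
    rw [← hKa, hK0def, vadd_vadd]; simp
  rw [hK', hT]
  ext y
  simp only [mem_vadd_set, mem_image, vadd_eq_add]
  constructor
  · rintro ⟨_, ⟨_, ⟨x, hx, rfl⟩, rfl⟩, rfl⟩
    exact ⟨x, hx, by rw [add_assoc]⟩
  · rintro ⟨x, hx, rfl⟩
    exact ⟨_, ⟨_, ⟨x, hx, rfl⟩, rfl⟩, by rw [add_assoc]⟩

lemma ellipsoid_vol (a : E (n + 1)) (T : E (n + 1) ≃ₗ[ℝ] E (n + 1)) :
    vol ((fun x => a + T x) '' Metric.closedBall 0 1)
      = |LinearMap.det (T : E (n + 1) →ₗ[ℝ] E (n + 1))| * κ (n + 1) ∧
    vol (PB ((fun x => a + T x) '' Metric.closedBall 0 1))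
      = |LinearMap.det (T : E (n + 1) →ₗ[ℝ] E (n + 1))| ^ n * (κ n ^ (n + 1) * κ (n + 1)) := by
  have h : (fun x => a + T x) '' Metric.closedBall (0 : E (n + 1)) 1
      = a +ᵥ (T '' Metric.closedBall 0 1) := by
    ext y
    simp only [mem_vadd_set, mem_image, vadd_eq_add]
    constructor
    · rintro ⟨x, hx, rfl⟩; exact ⟨_, ⟨x, hx, rfl⟩, rfl⟩
    · rintro ⟨_, ⟨x, hx, rfl⟩, rfl⟩; exact ⟨x, hx, rfl⟩
  rw [h]
  constructor
  · rw [vol_vadd, vol_image, vol_closedBall]
  · rw [PB_vadd, vol_PB_image, vol_PB_ball]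

theorem petty_step (hn : 2 ≤ n) (hP : PettyIneq n) (hE : CruxE n) {K : Set (E (n + 1))} (hK : CB K) :
    κ n ^ (n + 1) * vol K ^ n ≤ vol (PB K) * κ (n + 1) ^ (n - 1) ∧
    (κ n ^ (n + 1) * vol K ^ n = vol (PB K) * κ (n + 1) ^ (n - 1) ↔
      ∃ (a : E (n + 1)) (T : E (n + 1) ≃ₗ[ℝ] E (n + 1)),
        K = (fun x => a + T x) '' Metric.closedBall 0 1) := by
  have hκ := κ_pos (n + 1)
  have hκn := κ_pos n
  have h3 : κ (n + 1) ^ n = κ (n + 1) ^ (n - 1) * κ (n + 1) := by
    rw [← pow_succ]; congr 1; omega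
  have main : ∀ L : Set (E (n + 1)), CB L →
      κ n ^ (n + 1) * vol L ^ n ≤ vol (PB L) * κ (n + 1) ^ (n - 1) := by
    intro L hL
    obtain ⟨K0, hK0, hmin⟩ := exists_minimiser n
    obtain ⟨a, T, rfl⟩ := min_is_ellipsoid hn hP hE hK0 hmin
    have h := hmin L hL
    obtain ⟨h1, h2⟩ := ellipsoid_vol a T
    rw [h1, h2] at h
    have hd := det_pos' T
    set d := |LinearMap.det (T : E (n + 1) →ₗ[ℝ] E (n + 1))|
    rw [mul_pow, h3] at h
    have h4 : (κ n ^ (n + 1) * vol L ^ n) * (d ^ n * κ (n + 1)) ≤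
        (vol (PB L) * κ (n + 1) ^ (n - 1)) * (d ^ n * κ (n + 1)) := by
      nlinarith [h]
    exact le_of_mul_le_mul_right h4 (by positivity)
  refine ⟨main K hK, ?_, ?_⟩
  · intro heq
    refine min_is_ellipsoid hn hP hE hK ?_
    intro L hL
    have h := main L hL
    have h4 : (vol (PB K) * vol L ^ n) * (κ (n + 1) ^ (n - 1) * κ n ^ (n + 1)) ≤
        (vol (PB L) * vol K ^ n) * (κ (n + 1) ^ (n - 1) * κ n ^ (n + 1)) := by
      calc (vol (PB K) * vol L ^ n) * (κ (n + 1) ^ (n - 1) * κ n ^ (n + 1))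
          = (vol (PB K) * κ (n + 1) ^ (n - 1)) * (κ n ^ (n + 1) * vol L ^ n) := by ring
        _ = (κ n ^ (n + 1) * vol K ^ n) * (κ n ^ (n + 1) * vol L ^ n) := by rw [heq]
        _ ≤ (κ n ^ (n + 1) * vol K ^ n) * (vol (PB L) * κ (n + 1) ^ (n - 1)) := by
            have : 0 ≤ vol K := hK.vol_pos.le
            gcongr
        _ = _ := by ring
    exact le_of_mul_le_mul_right h4 (by positivity)
  · rintro ⟨a, T, rfl⟩
    obtain ⟨h1, h2⟩ := ellipsoid_vol a T
    rw [h1, h2, mul_pow, h3]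
    ring

theorem petty_all (hE : ∀ n, 2 ≤ n → CruxE n) : ∀ n, 2 ≤ n → PettyIneq n := by
  intro n hn
  induction n, hn using Nat.le_induction with
  | base => exact petty_two
  | succ n hn ih =>
    intro K hK
    have := (petty_step hn ih (hE n hn) hK).1
    have e1 : n + 1 - 1 = n := by omega
    have e2 : n + 1 - 2 = n - 1 := by omega
    rw [e1, e2]
    exact this

/-- Everything except the crux: the frozen statement S0354. -/
theorem S0354_of_crux (hE : ∀ n, 2 ≤ n → CruxE n) (n : ℕ) (hn : 4 ≤ n)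
    (K : Set (EuclideanSpace ℝ (Fin n))) (hK : IsCompact K) (hKc : Convex ℝ K) (hKi : (interior K).Nonempty) :
    volume (Metric.ball (0 : EuclideanSpace ℝ (Fin (n - 1))) 1) ^ n * volume K ^ (n - 1) ≤
        volume (⋂ u ∈ Metric.sphere (0 : EuclideanSpace ℝ (Fin n)) 1,
          {x : EuclideanSpace ℝ (Fin n) | inner ℝ x u ≤
            ((μHE[n - 1] : Measure (EuclideanSpace ℝ (Fin n))) ((fun y => y - inner ℝ y u • u) '' K)).toReal}) *
          volume (Metric.ball (0 : EuclideanSpace ℝ (Fin n)) 1) ^ (n - 2) ∧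
      (volume (Metric.ball (0 : EuclideanSpace ℝ (Fin (n - 1))) 1) ^ n * volume K ^ (n - 1) =
          volume (⋂ u ∈ Metric.sphere (0 : EuclideanSpace ℝ (Fin n)) 1,
          {x : EuclideanSpace ℝ (Fin n) | inner ℝ x u ≤
            ((μHE[n - 1] : Measure (EuclideanSpace ℝ (Fin n))) ((fun y => y - inner ℝ y u • u) '' K)).toReal}) *
            volume (Metric.ball (0 : EuclideanSpace ℝ (Fin n)) 1) ^ (n - 2) ↔
        ∃ (a : EuclideanSpace ℝ (Fin n)) (T : EuclideanSpace ℝ (Fin n) ≃ₗ[ℝ] EuclideanSpace ℝ (Fin n)),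
          K = (fun x => a + T x) '' Metric.closedBall 0 1) := by
  obtain ⟨m, rfl⟩ : ∃ m, n = m + 1 := ⟨n - 1, by omega⟩
  have hCB : CB K := ⟨hK, hKc, hKi⟩
  have key := petty_step (n := m) (by omega) (petty_all hE m (by omega)) (hE m (by omega)) hCB
  simp only [Nat.add_sub_cancel] at *
  rw [← PB_eq hK hKc]
  have e2 : m + 1 - 2 = m - 1 := by omega
  rw [e2]
  have hPB : CB (PB K) := CB_PB hCB
  have f1 : volume (Metric.ball (0 : E m) 1) ≠ ∞ := measure_ball_lt_top.ne
  have f2 : volume (Metric.ball (0 : E (m + 1)) 1) ≠ ∞ := measure_ball_lt_top.ne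
  have f3 : volume K ≠ ∞ := hK.measure_lt_top.ne
  have f4 : volume (PB K) ≠ ∞ := hPB.isCompact.measure_lt_top.ne
  have g1 : volume (Metric.ball (0 : E m) 1) ^ (m + 1) * volume K ^ m ≠ ∞ :=
    ENNReal.mul_ne_top (ENNReal.pow_ne_top f1) (ENNReal.pow_ne_top f3)
  have g2 : volume (PB K) * volume (Metric.ball (0 : E (m + 1)) 1) ^ (m - 1) ≠ ∞ :=
    ENNReal.mul_ne_top f4 (ENNReal.pow_ne_top f2)
  have r1 : (volume (Metric.ball (0 : E m) 1) ^ (m + 1) * volume K ^ m).toReal
      = κ m ^ (m + 1) * vol K ^ m := by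
    rw [ENNReal.toReal_mul, ENNReal.toReal_pow, ENNReal.toReal_pow]; rfl
  have r2 : (volume (PB K) * volume (Metric.ball (0 : E (m + 1)) 1) ^ (m - 1)).toReal
      = vol (PB K) * κ (m + 1) ^ (m - 1) := by
    rw [ENNReal.toReal_mul, ENNReal.toReal_pow]; rfl
  refine ⟨?_, ?_⟩
  · rw [← ENNReal.toReal_le_toReal g1 g2, r1, r2]
    exact key.1
  · rw [← ENNReal.toReal_eq_toReal_iff' g1 g2, r1, r2]
    exact key.2

end Crest.Agent.R230
end

-- ▼ part R230/Lyz
section

/-!
# Row 230, section Q: LYZ-type trace identity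

`M = E[ν ⊗ ν]` is positive definite; `G e = ⟨e, M⁻¹ e⟩`.
-/

set_option autoImplicit false

open MeasureTheory Set
open scoped Pointwise ENNReal

namespace Crest.Agent.R230

variable {n : ℕ}

/-- `∫_K ⟨ν,u⟩² > 0` for `u ≠ 0`. -/
theorem integral_inner_nu_sq_pos {K : Set (E (n + 1))} (hK : CB K)
    (h0 : (0 : E (n + 1)) ∈ interior K) {u : E (n + 1)} (hu : u ≠ 0) :
    0 < ∫ x in K, (inner ℝ (nu K x) u) ^ 2 := by
  obtain ⟨C, hC⟩ := norm_nu_le hK h0
  have hmeas : Measurable (fun x : E (n + 1) => inner ℝ (nu K x) u) :=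
    (measurable_nu K).inner_const
  have hfin : IsFiniteMeasure (volume.restrict K) :=
    ⟨by rw [Measure.restrict_apply_univ]; exact hK.isCompact.measure_lt_top⟩
  have hint : Integrable (fun x : E (n + 1) => (inner ℝ (nu K x) u) ^ 2) (volume.restrict K) := by
    refine Integrable.of_bound (hmeas.pow_const 2).aestronglyMeasurable ((C * ‖u‖) ^ 2)
      (Filter.Eventually.of_forall fun x => ?_)
    rw [Real.norm_eq_abs, abs_pow]
    refine pow_le_pow_left₀ (abs_nonneg _) ?_ 2
    exact (abs_real_inner_le_norm _ _).trans (mul_le_mul_of_nonneg_right (hC x) (norm_nonneg _))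
  have hnn : 0 ≤ ∫ x in K, (inner ℝ (nu K x) u) ^ 2 :=
    integral_nonneg fun x => sq_nonneg _
  refine lt_of_le_of_ne hnn fun h => ?_
  have h1 : (fun x : E (n + 1) => (inner ℝ (nu K x) u) ^ 2) =ᵐ[volume.restrict K] 0 :=
    (integral_eq_zero_iff_of_nonneg (fun x => sq_nonneg _) hint).1 h.symm
  have h2 : ∫ x in K, |inner ℝ (nu K x) u| = 0 := by
    rw [← integral_zero (E (n + 1)) ℝ (μ := volume.restrict K)]
    refine integral_congr_ae ?_
    filter_upwards [h1] with x hx
    have : inner ℝ (nu K x) u = 0 := pow_eq_zero_iff two_ne_zero |>.1 hx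
    rw [this, abs_zero]
  obtain ⟨c, hc, hcu⟩ := exists_mul_norm_le_sh hK
  have h3 := hcu u
  rw [sh_eq_integral hK h0, h2, mul_zero] at h3
  have : 0 < c * ‖u‖ := mul_pos hc (norm_pos_iff.2 hu)
  linarith

/-- second moment matrix of the normals -/
noncomputable def Mnu (K : Set (E (n + 1))) : Matrix (Fin (n + 1)) (Fin (n + 1)) ℝ :=
  fun i j => ∫ x in K, nu K x i * nu K x j

lemma integrable_nu_mul {K : Set (E (n + 1))} (hK : CB K) (h0 : (0 : E (n + 1)) ∈ interior K)
    (i j : Fin (n + 1)) : Integrable (fun x => nu K x i * nu K x j) (volume.restrict K) := by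
  obtain ⟨C, hC⟩ := norm_nu_le hK h0
  have hfin : IsFiniteMeasure (volume.restrict K) :=
    ⟨by rw [Measure.restrict_apply_univ]; exact hK.isCompact.measure_lt_top⟩
  have hmeas : ∀ i, Measurable (fun x : E (n + 1) => nu K x i) := fun i => by
    have hc : Continuous (fun z : E (n + 1) => z i) := by fun_prop
    exact hc.measurable.comp (measurable_nu K)
  have hb : ∀ i x, |nu K x i| ≤ C := fun i x => by
    have := PiLp.norm_apply_le (nu K x) i
    rw [Real.norm_eq_abs] at this
    exact this.trans (hC x)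
  refine Integrable.of_bound ((hmeas i).mul (hmeas j)).aestronglyMeasurable (C * C)
    (Filter.Eventually.of_forall fun x => ?_)
  rw [Real.norm_eq_abs, abs_mul]
  exact mul_le_mul (hb i x) (hb j x) (abs_nonneg _) ((abs_nonneg _).trans (hb i x))

lemma inner_eq_sum (x y : E (n + 1)) : inner ℝ x y = ∑ i, x i * y i := by
  rw [PiLp.inner_apply]
  refine Finset.sum_congr rfl fun i _ => ?_
  simp [mul_comm]

/-- `∫_K ⟨ν,u⟩⟨ν,v⟩ = ⟨u, M v⟩` -/
lemma integral_inner_mul_inner {K : Set (E (n + 1))} (hK : CB K)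
    (h0 : (0 : E (n + 1)) ∈ interior K) (u v : E (n + 1)) :
    ∫ x in K, inner ℝ (nu K x) u * inner ℝ (nu K x) v = ∑ i, ∑ j, u i * Mnu K i j * v j := by
  have e : ∀ x, inner ℝ (nu K x) u * inner ℝ (nu K x) v =
      ∑ i, ∑ j, u i * (nu K x i * nu K x j) * v j := by
    intro x
    rw [inner_eq_sum, inner_eq_sum, Finset.sum_mul_sum]
    refine Finset.sum_congr rfl fun i _ => Finset.sum_congr rfl fun j _ => ?_
    ring
  simp only [e]
  rw [integral_finsetSum _ fun i _ => integrable_finsetSum _ fun j _ =>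
    ((integrable_nu_mul hK h0 i j).const_mul _).mul_const _]
  refine Finset.sum_congr rfl fun i _ => ?_
  rw [integral_finsetSum _ fun j _ => ((integrable_nu_mul hK h0 i j).const_mul _).mul_const _]
  refine Finset.sum_congr rfl fun j _ => ?_
  rw [integral_mul_const, integral_const_mul]
  rfl

theorem lyz (hn : 1 ≤ n) {K : Set (E (n + 1))} (hK : CB K) (h0 : (0 : E (n + 1)) ∈ interior K) :
    ∃ G : E (n + 1) → ℝ, Continuous G ∧ (∫ y in K, G (nu K y) = vol K * (n + 1)) ∧
      ∀ e : E (n + 1), e ≠ 0 → 0 < G e ∧ ∃ v : E (n + 1), inner ℝ e v = 1 ∧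
        ∫ x in K, (inner ℝ (nu K x) v) ^ 2 = vol K * (G e)⁻¹ := by
  classical
  have hV := hK.vol_pos
  set M := Mnu K with hM
  -- quadratic form
  have hq : ∀ u : E (n + 1), ∫ x in K, (inner ℝ (nu K x) u) ^ 2 =
      ∑ i, ∑ j, u i * M i j * u j := by
    intro u
    rw [← integral_inner_mul_inner hK h0]
    refine integral_congr_ae (Filter.Eventually.of_forall fun x => ?_)
    simp only; ring
  have hdet : M.det ≠ 0 := by
    intro hd
    obtain ⟨v, hv, hv0⟩ := Matrix.exists_mulVec_eq_zero_iff.2 hd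
    have h1 : (WithLp.toLp 2 v : E (n + 1)) ≠ 0 := by
      intro h
      apply hv
      funext i
      have := congrArg (fun z : E (n + 1) => z i) h
      simpa using this
    have h2 := integral_inner_nu_sq_pos hK h0 h1
    rw [hq] at h2
    have h3 : ∑ i, ∑ j, (WithLp.toLp 2 v : E (n + 1)) i * M i j * (WithLp.toLp 2 v : E (n + 1)) j = 0 := by
      have : ∀ i, ∑ j, v i * M i j * v j = v i * (M.mulVec v) i := by
        intro i
        rw [Matrix.mulVec, dotProduct, Finset.mul_sum]
        refine Finset.sum_congr rfl fun j _ => ?_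
        ring
      show ∑ i, ∑ j, v i * M i j * v j = 0
      simp only [this, hv0]
      simp
    linarith
  have hunit : IsUnit M.det := isUnit_iff_ne_zero.2 hdet
  set A := M⁻¹ with hA
  have hMA : M * A = 1 := Matrix.mul_nonsing_inv M hunit
  have hAM : A * M = 1 := Matrix.nonsing_inv_mul M hunit
  have hMsymm : ∀ i j, M i j = M j i := by
    intro i j
    show ∫ x in K, nu K x i * nu K x j = ∫ x in K, nu K x j * nu K x i
    refine integral_congr_ae (Filter.Eventually.of_forall fun x => ?_)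
    simp only; ring
  -- `G e = vol K * ⟨e, A e⟩`
  refine ⟨fun e => vol K * ∑ i, ∑ j, e i * A i j * e j, ?_, ?_, ?_⟩
  · have hc : ∀ i : Fin (n + 1), Continuous fun e : E (n + 1) => e i := fun i => by fun_prop
    exact continuous_const.mul (continuous_finsetSum _ fun i _ => continuous_finsetSum _ fun j _ =>
      ((hc i).mul continuous_const).mul (hc j))
  · have e1 : ∀ y, vol K * ∑ i, ∑ j, nu K y i * A i j * nu K y j =
        vol K * ∑ i, ∑ j, A i j * (nu K y i * nu K y j) := by
      intro y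
      congr 1
      refine Finset.sum_congr rfl fun i _ => Finset.sum_congr rfl fun j _ => ?_
      ring
    have e2 : ∀ i, ∫ y in K, ∑ j, A i j * (nu K y i * nu K y j) = (A * M) i i := by
      intro i
      rw [Matrix.mul_apply]
      calc ∫ y in K, ∑ j, A i j * (nu K y i * nu K y j)
          = ∑ j, ∫ y in K, A i j * (nu K y i * nu K y j) :=
            integral_finsetSum _ fun j _ => (integrable_nu_mul hK h0 i j).const_mul _
        _ = ∑ j, A i j * M j i := by
            refine Finset.sum_congr rfl fun j _ => ?_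
            rw [integral_const_mul, hMsymm j i]
            rfl
    calc ∫ y in K, vol K * ∑ i, ∑ j, nu K y i * A i j * nu K y j
        = ∫ y in K, vol K * ∑ i, ∑ j, A i j * (nu K y i * nu K y j) := by
          refine integral_congr_ae (Filter.Eventually.of_forall fun y => e1 y)
      _ = vol K * ∫ y in K, ∑ i, ∑ j, A i j * (nu K y i * nu K y j) := integral_const_mul _ _
      _ = vol K * ∑ i, ∫ y in K, ∑ j, A i j * (nu K y i * nu K y j) := by
          congr 1
          exact integral_finsetSum _ fun i _ => integrable_finsetSum _ fun j _ =>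
            (integrable_nu_mul hK h0 i j).const_mul _
      _ = vol K * (n + 1) := by
          simp only [e2, hAM, Matrix.one_apply_eq]
          simp
  · intro e he
    set u : E (n + 1) := WithLp.toLp 2 (A.mulVec e.ofLp) with hu
    have hui : ∀ i, u i = ∑ j, A i j * e j := fun i => rfl
    have hMu : ∀ i, ∑ j, M i j * u j = e i := by
      intro i
      have : (M.mulVec (A.mulVec e.ofLp)) i = e i := by
        rw [Matrix.mulVec_mulVec, hMA, Matrix.one_mulVec]
      exact this
    have hu0 : u ≠ 0 := by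
      intro h
      apply he
      ext i
      rw [← hMu i, h]
      simp
    -- `S = ⟨e, u⟩ = ⟨e, A e⟩ = ⟨u, M u⟩`
    have hS : ∑ i, ∑ j, e i * A i j * e j = inner ℝ e u := by
      rw [inner_eq_sum]
      refine Finset.sum_congr rfl fun i _ => ?_
      rw [hui, Finset.mul_sum]
      refine Finset.sum_congr rfl fun j _ => ?_
      ring
    have hS2 : ∑ i, ∑ j, u i * M i j * u j = inner ℝ e u := by
      rw [inner_eq_sum]
      refine Finset.sum_congr rfl fun i _ => ?_
      rw [← hMu i, Finset.sum_mul]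
      refine Finset.sum_congr rfl fun j _ => ?_
      ring
    have hpos : 0 < inner ℝ e u := by
      rw [← hS2, ← hq]
      exact integral_inner_nu_sq_pos hK h0 hu0
    simp only [hS]
    refine ⟨mul_pos hV hpos, (inner ℝ e u)⁻¹ • u, ?_, ?_⟩
    · rw [inner_smul_right, inv_mul_cancel₀ hpos.ne']
    · have e3 : ∀ x, (inner ℝ (nu K x) ((inner ℝ e u)⁻¹ • u)) ^ 2 =
          ((inner ℝ e u)⁻¹) ^ 2 * (inner ℝ (nu K x) u) ^ 2 := by
        intro x; rw [inner_smul_right]; ring
      simp only [e3]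
      rw [integral_const_mul, hq, hS2]
      field_simp

end Crest.Agent.R230
end

-- ▼ part R230/Swap
section

/-!
# Row 230, part R: the swap inequality
-/

set_option autoImplicit false

open MeasureTheory Set
open scoped Pointwise ENNReal

namespace Crest.Agent.R230

variable {n : ℕ}

lemma CB.zero_mem_interior_of_symm {K : Set (E n)} (hK : CB K) (hs' : ∀ x ∈ K, -x ∈ K) :
    (0 : E n) ∈ interior K := by
  obtain ⟨x, hx⟩ := hK.interior_nonempty
  have hneg : -x ∈ interior K := by
    have h1 : -K = K := by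
      ext y
      rw [Set.mem_neg]
      exact ⟨fun h => by simpa using hs' _ h, fun h => hs' _ h⟩
    have h2 : -x ∈ interior (-K) := by
      have h := (Homeomorph.neg (E n)).image_interior K
      have h3 : (Homeomorph.neg (E n)) '' K = -K := by
        rw [← Set.image_neg_eq_neg]; rfl
      rw [h3] at h
      rw [← h]
      exact ⟨x, hx, rfl⟩
    rwa [h1] at h2
  have h3 := hK.convex.interior hx hneg (by norm_num : (0 : ℝ) ≤ 1 / 2) (by norm_num : (0 : ℝ) ≤ 1 / 2)
    (by norm_num)
  simpa using h3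

/-- extension of `η` by clamping -/
noncomputable def clampEta (η : ℝ → ℝ → ℝ) (q : ℝ × ℝ) : ℝ :=
  η (max (-1) (min 1 q.1)) (max (-1) (min 1 q.2))

lemma clamp_mem (t : ℝ) : max (-1) (min 1 t) ∈ Icc (-1 : ℝ) 1 :=
  ⟨le_max_left _ _, max_le (by norm_num) (min_le_left _ _)⟩

lemma clamp_eq {t : ℝ} (ht : |t| ≤ 1) : max (-1) (min 1 t) = t := by
  rw [abs_le] at ht
  rw [min_eq_right ht.2, max_eq_right ht.1]

lemma clampEta_eq {η : ℝ → ℝ → ℝ} {t p : ℝ} (ht : |t| ≤ 1) (hp : |p| ≤ 1) :
    clampEta η (t, p) = η t p := by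
  unfold clampEta
  simp only [clamp_eq ht, clamp_eq hp]

lemma continuous_clampEta {η : ℝ → ℝ → ℝ}
    (hη : ContinuousOn (fun q : ℝ × ℝ => η q.1 q.2) (Icc (-1) 1 ×ˢ Icc (-1) 1)) :
    Continuous (clampEta η) := by
  have h1 : Continuous (fun q : ℝ × ℝ => (max (-1) (min 1 q.1), max (-1) (min 1 q.2))) := by fun_prop
  have h2 := hη.comp_continuous h1 (fun q => ⟨clamp_mem q.1, clamp_mem q.2⟩)
  exact h2

lemma exists_clampEta_le {η : ℝ → ℝ → ℝ}
    (hη : ContinuousOn (fun q : ℝ × ℝ => η q.1 q.2) (Icc (-1) 1 ×ˢ Icc (-1) 1)) :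
    ∃ C, ∀ q, ‖clampEta η q‖ ≤ C := by
  obtain ⟨C, hC⟩ := (isCompact_Icc.prod isCompact_Icc).exists_bound_of_continuousOn hη
  exact ⟨C, fun q => hC (max (-1) (min 1 q.1), max (-1) (min 1 q.2)) ⟨clamp_mem q.1, clamp_mem q.2⟩⟩

/-- the two arguments -/
noncomputable def swapPt (K : Set (E n)) (y x : E n) : ℝ × ℝ :=
  (inner ℝ x (nu K y) / gauge K x, inner ℝ (nu K x) y / gauge K y)

lemma swapPt_swap (K : Set (E n)) (y x : E n) : swapPt K x y = (swapPt K y x).swap := by
  unfold swapPt
  simp only [Prod.swap_prod_mk, real_inner_comm]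

lemma measurable_swapPt {K : Set (E n)} (hK : CB K) (h0 : (0 : E n) ∈ interior K) :
    Measurable (fun q : E n × E n => swapPt K q.1 q.2) := by
  have hg : Measurable (gauge K) := (hK.body h0).continuous_gauge.measurable
  have h1 : Measurable (fun q : E n × E n => nu K q.1) := (measurable_nu K).comp measurable_fst
  have h2 : Measurable (fun q : E n × E n => nu K q.2) := (measurable_nu K).comp measurable_snd
  exact ((measurable_snd.inner h1).div (hg.comp measurable_snd)).prodMk
    ((h2.inner measurable_fst).div (hg.comp measurable_fst))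

lemma abs_inner_nu_le {K : Set (E n)} (hK : CB K) (hs' : ∀ x ∈ K, -x ∈ K) {x : E n}
    (hx : DifferentiableAt ℝ (gauge K) x) (y : E n) : |inner ℝ (nu K x) y| ≤ gauge K y := by
  have hB := hK.body (hK.zero_mem_interior_of_symm hs')
  rw [abs_le]
  constructor
  · have h := hB.inner_nu_le hx (-y)
    rw [inner_neg_right, gauge_neg hs'] at h
    rw [nu_eq_G]
    linarith
  · rw [nu_eq_G]
    exact hB.inner_nu_le hx y

lemma abs_inner_nu_div_le {K : Set (E n)} (hK : CB K) (hs' : ∀ x ∈ K, -x ∈ K) {x : E n}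
    (hx : DifferentiableAt ℝ (gauge K) x) (y : E n) : |inner ℝ (nu K x) y / gauge K y| ≤ 1 := by
  rw [abs_div, abs_of_nonneg (gauge_nonneg y)]
  exact div_le_one_of_le₀ (abs_inner_nu_le hK hs' hx y) (gauge_nonneg y)

lemma integrable_clamp {K : Set (E n)} (hK : CB K) (h0 : (0 : E n) ∈ interior K) {η : ℝ → ℝ → ℝ}
    (hη : ContinuousOn (fun q : ℝ × ℝ => η q.1 q.2) (Icc (-1) 1 ×ˢ Icc (-1) 1)) :
    Integrable (Function.uncurry fun y x => clampEta η (swapPt K y x))
      ((volume.restrict K).prod (volume.restrict K)) := by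
  have hKf : IsFiniteMeasure ((volume : Measure (E n)).restrict K) :=
    ⟨by rw [Measure.restrict_apply_univ]; exact hK.isCompact.measure_lt_top⟩
  obtain ⟨C, hC⟩ := exists_clampEta_le hη
  refine Integrable.of_bound ?_ C (Filter.Eventually.of_forall fun q => hC _)
  exact ((continuous_clampEta hη).measurable.comp (measurable_swapPt hK h0)).aestronglyMeasurable

lemma ae_eq_clamp {K : Set (E n)} (hK : CB K) (hs' : ∀ x ∈ K, -x ∈ K) (η : ℝ → ℝ → ℝ) :
    ∀ᵐ y ∂(volume.restrict K),
      ∫ x in K, η (inner ℝ x (nu K y) / gauge K x) (inner ℝ (nu K x) y / gauge K y) =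
        ∫ x in K, clampEta η (swapPt K y x) := by
  have hB := hK.body (hK.zero_mem_interior_of_symm hs')
  refine ae_restrict_of_ae ?_
  filter_upwards [hB.ae_differentiableAt] with y hy
  refine integral_congr_ae (ae_restrict_of_ae ?_)
  filter_upwards [hB.ae_differentiableAt] with x hx
  have h1 : |inner ℝ x (nu K y) / gauge K x| ≤ 1 := by
    rw [real_inner_comm]; exact abs_inner_nu_div_le hK hs' hy x
  have h2 := abs_inner_nu_div_le hK hs' hx y
  unfold swapPt
  rw [clampEta_eq h1 h2]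

theorem swap_integrable {K : Set (E (n + 1))} (hK : CB K) (hs' : ∀ x ∈ K, -x ∈ K) (η : ℝ → ℝ → ℝ)
    (hη : ContinuousOn (fun q : ℝ × ℝ => η q.1 q.2) (Icc (-1) 1 ×ˢ Icc (-1) 1)) :
    IntegrableOn (fun y => ∫ x in K, η (inner ℝ x (nu K y) / gauge K x)
      (inner ℝ (nu K x) y / gauge K y)) K := by
  have h0 := hK.zero_mem_interior_of_symm hs'
  have hKf : IsFiniteMeasure ((volume : Measure (E (n + 1))).restrict K) :=
    ⟨by rw [Measure.restrict_apply_univ]; exact hK.isCompact.measure_lt_top⟩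
  have h1 := (integrable_clamp hK h0 hη).integral_prod_left
  unfold IntegrableOn
  exact h1.congr ((ae_eq_clamp hK hs' η).mono fun y hy => hy.symm)

theorem swap_nonpos {K : Set (E (n + 1))} (hK : CB K) (hs' : ∀ x ∈ K, -x ∈ K) (η : ℝ → ℝ → ℝ)
    (hη : ContinuousOn (fun q : ℝ × ℝ => η q.1 q.2) (Icc (-1) 1 ×ˢ Icc (-1) 1))
    (hanti : ∀ t ∈ Icc (-1 : ℝ) 1, ∀ p ∈ Icc (-1 : ℝ) 1, η t p + η p t ≤ 0) :
    ∫ y in K, ∫ x in K, η (inner ℝ x (nu K y) / gauge K x) (inner ℝ (nu K x) y / gauge K y) ≤ 0 := by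
  have h0 := hK.zero_mem_interior_of_symm hs'
  have hKf : IsFiniteMeasure ((volume : Measure (E (n + 1))).restrict K) :=
    ⟨by rw [Measure.restrict_apply_univ]; exact hK.isCompact.measure_lt_top⟩
  have hI := integrable_clamp hK h0 hη
  rw [integral_congr_ae (ae_eq_clamp hK hs' η)]
  have h1 : ∫ y in K, ∫ x in K, clampEta η (swapPt K y x) =
      ∫ y in K, ∫ x in K, clampEta η (swapPt K x y) := integral_integral_swap hI
  have hI' : Integrable (Function.uncurry fun y x => clampEta η (swapPt K x y))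
      ((volume.restrict K).prod (volume.restrict K)) := hI.swap
  have h2 : (∫ y in K, ∫ x in K, clampEta η (swapPt K y x)) +
      (∫ y in K, ∫ x in K, clampEta η (swapPt K x y)) ≤ 0 := by
    rw [integral_integral hI, integral_integral hI']
    have h3 := integral_add hI hI'
    simp only [Function.uncurry_def] at h3
    rw [← h3]
    refine integral_nonpos fun z => ?_
    simp only [Pi.zero_apply]
    rw [swapPt_swap K z.1 z.2]
    exact hanti _ (clamp_mem _) _ (clamp_mem _)
  linarith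

/-- a.e. `y`: `y ≠ 0`, `h_K(ν y) = 1`, `⟨ν y, y⟩ = g(y)`, and for a.e. `x`: `|⟨ν x, y/g(y)⟩| ≤ 1`. -/
theorem ae_good {K : Set (E (n + 1))} (hK : CB K) (hs' : ∀ x ∈ K, -x ∈ K) :
    ∀ᵐ y ∂(volume.restrict K), y ≠ 0 ∧ nu K y ≠ 0 ∧ hs K (nu K y) = 1 ∧ 0 < gauge K y ∧
      inner ℝ (nu K y) y = gauge K y ∧
      ∀ᵐ x ∂(volume.restrict K), |inner ℝ (nu K x) ((gauge K y)⁻¹ • y)| ≤ 1 := by
  have h0 := hK.zero_mem_interior_of_symm hs'
  have hB := hK.body h0
  refine ae_restrict_of_ae ?_
  filter_upwards [hB.ae_differentiableAt, (Measure.ae_ne volume (0 : E (n + 1)))] with y hy hy0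
  have hp := hB.gauge_pos_iff.2 hy0
  have he : inner ℝ (nu K y) y = gauge K y := by rw [nu_eq_G]; exact hB.inner_nu_self hy
  refine ⟨hy0, ?_, ?_, hp, he, ?_⟩
  · intro h
    rw [h, inner_zero_left] at he
    exact hp.ne he
  · rw [hs_eq_G, nu_eq_G]
    exact hB.hs_nu hy hy0
  · refine ae_restrict_of_ae ?_
    filter_upwards [hB.ae_differentiableAt] with x hx
    rw [real_inner_smul_right, inv_mul_eq_div]
    exact abs_inner_nu_div_le hK hs' hx y

end Crest.Agent.R230
end

-- ▼ part R230/EqCase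
section

/-!
# Row 230, S: the equality case
-/

set_option autoImplicit false

open MeasureTheory Set Filter Topology
open scoped Pointwise ENNReal

namespace Crest.Agent.R230

variable {n : ℕ}

namespace EqC

/-- the operator of the second moments -/
noncomputable def mOp (K : Set (E n)) : E n →L[ℝ] E n := ∫ x in K, (innerSL ℝ x).smulRight x

lemma inner_mOp {K : Set (E n)} (hK : IsCompact K) (u v : E n) :
    inner ℝ (mOp K u) v = ∫ x in K, inner ℝ x u * inner ℝ x v := by
  have hi : IntegrableOn (fun x : E n => (innerSL ℝ x).smulRight x) K := by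
    apply ContinuousOn.integrableOn_compact hK
    exact Continuous.continuousOn (by fun_prop)
  have hi3 : IntegrableOn (fun x : E n => (inner ℝ x u) • x) K := by
    apply ContinuousOn.integrableOn_compact hK
    exact Continuous.continuousOn (by fun_prop)
  have h1 : mOp K u = (∫ x in K, (inner ℝ x u) • x) := by
    unfold mOp
    rw [ContinuousLinearMap.integral_apply hi]
    rfl
  rw [h1, real_inner_comm, ← integral_inner hi3]
  simp only [inner_smul_right]
  refine integral_congr_ae (Filter.Eventually.of_forall fun x => ?_)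
  simp only [real_inner_comm]

lemma mOp_symm {K : Set (E n)} (hK : IsCompact K) :
    ((mOp K : E n →L[ℝ] E n) : E n →ₗ[ℝ] E n).IsSymmetric := by
  intro u v
  change inner ℝ (mOp K u) v = inner ℝ u (mOp K v)
  rw [real_inner_comm (mOp K v) u, inner_mOp hK, inner_mOp hK]
  refine integral_congr_ae (Filter.Eventually.of_forall fun x => ?_)
  simp only
  ring

lemma integral_sq_pos {K : Set (E n)} (hK : CB K) {v : E n} (hv : v ≠ 0) :
    0 < ∫ x in K, (inner ℝ x v) ^ 2 := by
  have hc : Continuous fun x : E n => (inner ℝ x v : ℝ) ^ 2 := by fun_prop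
  rw [setIntegral_pos_iff_support_of_nonneg_ae (Eventually.of_forall fun x => sq_nonneg _)
    (hc.continuousOn.integrableOn_compact hK.isCompact)]
  have h1 : (interior K ∩ {x | (inner ℝ x v : ℝ) ≠ 0}) ⊆ (Function.support fun x : E n => (inner ℝ x v : ℝ) ^ 2) ∩ K := by
    rintro x ⟨hx, hx2⟩
    exact ⟨by simpa using hx2, interior_subset hx⟩
  refine lt_of_lt_of_le ?_ (measure_mono h1)
  have hopen : IsOpen (interior K ∩ {x : E n | (inner ℝ x v : ℝ) ≠ 0}) := by
    refine isOpen_interior.inter ?_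
    exact isOpen_ne_fun (by fun_prop) (by fun_prop)
  refine hopen.measure_pos volume ?_
  obtain ⟨z, hz⟩ := hK.interior_nonempty
  by_cases h0 : (inner ℝ z v : ℝ) = 0
  · -- move in the direction v
    have hcont : Tendsto (fun t : ℝ => z + t • v) (𝓝[>] 0) (𝓝 z) := by
      have : Continuous fun t : ℝ => z + t • v := by fun_prop
      have := (this.tendsto 0).mono_left (nhdsWithin_le_nhds (s := Ioi 0))
      simpa using this
    have h2 : ∀ᶠ t : ℝ in 𝓝[>] 0, z + t • v ∈ interior K := hcont (isOpen_interior.mem_nhds hz)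
    obtain ⟨t, ht, ht0⟩ := (h2.and self_mem_nhdsWithin).exists
    refine ⟨z + t • v, ht, ?_⟩
    simp only [mem_ofPred_eq, inner_add_left, h0, inner_smul_left, zero_add, conj_trivial,
      real_inner_self_eq_norm_sq]
    have ht0' : (0 : ℝ) < t := ht0
    have : 0 < ‖v‖ := norm_pos_iff.2 hv
    positivity
  · exact ⟨z, hz, h0⟩

/-- square root of the second moment form -/
lemma exists_sqrt {K : Set (E n)} (hK : CB K) {c : ℝ} (hc : 0 < c) :
    ∃ S : E n ≃ₗ[ℝ] E n, (∀ u v : E n, (inner ℝ (S u) v : ℝ) = inner ℝ u (S v)) ∧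
      ∀ v : E n, ‖S v‖ ^ 2 = c * ∫ x in K, (inner ℝ x v) ^ 2 := by
  have hsym := mOp_symm hK.isCompact
  have hfr : Module.finrank ℝ (E n) = n := by simp
  set b := hsym.eigenvectorBasis hfr with hb
  set μ := hsym.eigenvalues hfr with hμ
  have hbe : ∀ i, mOp K (b i) = μ i • b i := fun i => by
    have := hsym.apply_eigenvectorBasis hfr i
    exact this
  have hμ2 : ∀ i, μ i = ∫ x in K, (inner ℝ x (b i)) ^ 2 := by
    intro i
    have h1 := inner_mOp hK.isCompact (b i) (b i)
    rw [hbe, inner_smul_left, real_inner_self_eq_norm_sq, b.norm_eq_one] at h1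
    simp only [conj_trivial, one_pow, mul_one] at h1
    rw [h1]
    refine integral_congr_ae (Filter.Eventually.of_forall fun x => ?_)
    simp only
    ring
  have hμpos : ∀ i, 0 < μ i := fun i => by
    rw [hμ2]
    exact integral_sq_pos hK (by
      intro h
      have := b.norm_eq_one i
      rw [h] at this
      simp at this)
  have hs : ∀ i, IsUnit (Real.sqrt (c * μ i)) := fun i =>
    isUnit_iff_ne_zero.2 (Real.sqrt_pos.2 (mul_pos hc (hμpos i))).ne'
  set S : E n ≃ₗ[ℝ] E n := b.toBasis.equiv (b.toBasis.isUnitSMul hs) (Equiv.refl _) with hS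
  have hSb : ∀ i, S (b i) = Real.sqrt (c * μ i) • b i := by
    intro i
    have h1 := b.toBasis.equiv_apply i (b.toBasis.isUnitSMul hs) (Equiv.refl _)
    have h2 := b.toBasis.isUnitSMul_apply hs i
    rw [Equiv.refl_apply, h2] at h1
    simpa only [OrthonormalBasis.coe_toBasis] using h1
  have hSv : ∀ v : E n, ∀ i, (inner ℝ (b i) (S v) : ℝ) = Real.sqrt (c * μ i) * inner ℝ (b i) v := by
    intro v i
    conv_lhs => rw [← b.sum_repr' v]
    rw [map_sum, inner_sum]
    rw [Finset.sum_eq_single i]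
    · rw [map_smul, hSb, inner_smul_right, inner_smul_right, real_inner_self_eq_norm_sq, b.norm_eq_one]
      ring
    · intro j _ hj
      rw [map_smul, hSb, inner_smul_right, inner_smul_right, b.inner_eq_zero hj.symm]
      ring
    · simp
  refine ⟨S, ?_, ?_⟩
  · intro u v
    rw [← b.sum_inner_mul_inner (S u) v, ← b.sum_inner_mul_inner u (S v)]
    refine Finset.sum_congr rfl fun i _ => ?_
    rw [hSv, real_inner_comm, hSv, real_inner_comm u]
    ring
  · intro v
    have h1 : ∫ x in K, (inner ℝ x v) ^ 2 = inner ℝ (mOp K v) v := by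
      rw [inner_mOp hK.isCompact]
      refine integral_congr_ae (Filter.Eventually.of_forall fun x => ?_)
      simp only
      ring
    rw [h1, ← b.sum_sq_norm_inner_right (S v), ← b.sum_inner_mul_inner (mOp K v) v, Finset.mul_sum]
    refine Finset.sum_congr rfl fun i _ => ?_
    have h2 : (inner ℝ (mOp K v) (b i) : ℝ) = μ i * inner ℝ (b i) v := by
      have := hsym v (b i)
      change (inner ℝ (mOp K v) (b i) : ℝ) = inner ℝ v (mOp K (b i)) at this
      rw [this, hbe, inner_smul_right, real_inner_comm]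
    rw [hSv, h2, Real.norm_eq_abs, sq_abs, mul_pow, Real.sq_sqrt (mul_pos hc (hμpos i)).le]
    ring

lemma integral_norm_sq_ball :
    ((n : ℝ) + 3) * ∫ x in Metric.closedBall (0 : E (n + 1)) 1, ‖x‖ ^ 2 = (n + 1) * κ (n + 1) := by
  have h1 := integral_fun_norm_addHaar (volume : Measure (E (n + 1))) (fun y : ℝ => (Iic (1 : ℝ)).indicator (fun y => y ^ 2) y)
  have h2 : ∫ x : E (n + 1), (Iic (1 : ℝ)).indicator (fun y => y ^ 2) ‖x‖
      = ∫ x in Metric.closedBall (0 : E (n + 1)) 1, ‖x‖ ^ 2 := by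
    rw [← integral_indicator Metric.isClosed_closedBall.measurableSet]
    refine integral_congr_ae (Eventually.of_forall fun x => ?_)
    by_cases hx : ‖x‖ ≤ 1
    · simp [indicator, hx]
    · simp [indicator, hx]
  have h3 : ∫ y in Ioi (0 : ℝ), y ^ (n + 1 - 1) • (Iic (1 : ℝ)).indicator (fun y => y ^ 2) y = 1 / ((n : ℝ) + 3) := by
    have e1 : ∀ y : ℝ, y ^ (n + 1 - 1) • (Iic (1 : ℝ)).indicator (fun y => y ^ 2) y
        = (Iic (1 : ℝ)).indicator (fun y => y ^ (n + 2)) y := by
      intro y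
      by_cases hy : y ≤ 1
      · simp [indicator, hy, pow_add]
      · simp [indicator, hy]
    simp only [e1]
    rw [integral_indicator measurableSet_Iic, Measure.restrict_restrict measurableSet_Iic,
      Iic_inter_Ioi, ← intervalIntegral.integral_of_le zero_le_one, integral_pow]
    simp
    ring_nf
  have h4 : (volume : Measure (E (n + 1))).real (Metric.ball 0 1) = κ (n + 1) := rfl
  rw [h2, finrank_euclideanSpace_fin, h3, h4] at h1
  rw [h1]
  simp only [nsmul_eq_mul, smul_eq_mul, Nat.cast_add, Nat.cast_one]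
  field_simp

end EqC

open EqC

theorem ellipsoid_of_second_moment {K : Set (E (n + 1))} (hK : CB K) (h0 : (0 : E (n + 1)) ∈ interior K)
    (h : ∀ᵐ y ∂(volume.restrict K), (n + 3) * ∫ x in K, (inner ℝ x (nu K y)) ^ 2 = vol K) :
    ∃ T : E (n + 1) ≃ₗ[ℝ] E (n + 1), K = T '' Metric.closedBall 0 1 := by
  have hvol := hK.vol_pos
  have hn3 : (0 : ℝ) < n + 3 := by positivity
  set c : ℝ := (n + 3) / vol K with hc
  have hc0 : 0 < c := by positivity
  obtain ⟨S, hSsym, hSn⟩ := exists_sqrt hK hc0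
  have hB : G.Body K := hK.body h0
  -- the ellipsoid is contained in `K`
  have hScont : Continuous S := LinearMap.continuous_of_finiteDimensional (S : E (n + 1) →ₗ[ℝ] E (n + 1))
  have hS'cont : Continuous S.symm :=
    LinearMap.continuous_of_finiteDimensional (S.symm : E (n + 1) →ₗ[ℝ] E (n + 1))
  have hle_ae : ∀ᵐ y ∂(volume.restrict K), gauge K y ≤ ‖S.symm y‖ := by
    filter_upwards [h, ae_restrict_of_ae hB.ae_differentiableAt] with y hy hyd
    have h1 : ‖S (nu K y)‖ = 1 := by
      have h2 := hSn (nu K y)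
      have h3 : c * ∫ x in K, (inner ℝ x (nu K y)) ^ 2 = 1 := by
        rw [hc, div_mul_eq_mul_div, hy, div_self hvol.ne']
      rw [h3] at h2
      nlinarith [norm_nonneg (S (nu K y))]
    have h2 : gauge K y = inner ℝ (nu K y) y := by
      rw [nu_eq_G]; exact (hB.inner_nu_self hyd).symm
    calc gauge K y = inner ℝ (nu K y) (S (S.symm y)) := by rw [h2, LinearEquiv.apply_symm_apply]
      _ = inner ℝ (S (nu K y)) (S.symm y) := (hSsym _ _).symm
      _ ≤ ‖S (nu K y)‖ * ‖S.symm y‖ := real_inner_le_norm _ _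
      _ = ‖S.symm y‖ := by rw [h1, one_mul]
  have hle_int : ∀ y ∈ interior K, gauge K y ≤ ‖S.symm y‖ := by
    set U : Set (E (n + 1)) := interior K ∩ {y | ‖S.symm y‖ < gauge K y} with hU
    have hUo : IsOpen U := isOpen_interior.inter (isOpen_lt hS'cont.norm hB.continuous_gauge)
    have hU0 : volume U = 0 := by
      have h1 : volume.restrict K U = 0 := by
        refine measure_mono_null ?_ (ae_iff.1 hle_ae)
        rintro y ⟨_, hy⟩
        simpa using hy
      rwa [Measure.restrict_apply' hK.isCompact.measurableSet,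
        inter_eq_self_of_subset_left (inter_subset_left.trans interior_subset)] at h1
    have hUe := (hUo.measure_eq_zero_iff volume).1 hU0
    intro y hy
    by_contra hlt
    push Not at hlt
    have : y ∈ U := ⟨hy, hlt⟩
    rw [hUe] at this
    exact this
  have hle : ∀ y, gauge K y ≤ ‖S.symm y‖ := by
    intro y
    have h2 : ∀ᶠ t : ℝ in 𝓝[>] 0, t • y ∈ interior K := by
      have hcont : Tendsto (fun t : ℝ => t • y) (𝓝[>] 0) (𝓝 0) := by
        have : Continuous fun t : ℝ => t • y := by fun_prop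
        have := (this.tendsto 0).mono_left (nhdsWithin_le_nhds (s := Ioi 0))
        simpa using this
      exact hcont (isOpen_interior.mem_nhds h0)
    obtain ⟨t, ht, ht0⟩ := (h2.and self_mem_nhdsWithin).exists
    have ht0' : (0 : ℝ) < t := ht0
    have h3 := hle_int _ ht
    rw [gauge_smul_of_nonneg ht0'.le, map_smul, norm_smul, Real.norm_eq_abs, abs_of_pos ht0',
      smul_eq_mul] at h3
    exact le_of_mul_le_mul_left h3 ht0'
  have hsub : S '' Metric.closedBall 0 1 ⊆ K := by
    rintro _ ⟨z, hz, rfl⟩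
    rw [← hB.gauge_le_one_iff]
    refine (hle _).trans ?_
    rw [LinearEquiv.symm_apply_apply]
    simpa using hz
  -- transport to the ball
  set K' : Set (E (n + 1)) := S.symm '' K with hK'
  have hK'C : CB K' := hK.image S.symm
  have hBK' : Metric.closedBall 0 1 ⊆ K' := by
    intro z hz
    exact ⟨S z, hsub ⟨z, hz, rfl⟩, LinearEquiv.symm_apply_apply _ _⟩
  have hmom : (n + 3) * ∫ z in K', ‖z‖ ^ 2 = (n + 1) * vol K' := by
    set d := |LinearMap.det (S.symm : E (n + 1) →ₗ[ℝ] E (n + 1))| with hd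
    have hsy : ∀ u v : E (n + 1), (inner ℝ (S.symm u) v : ℝ) = inner ℝ u (S.symm v) := by
      intro u v
      have := hSsym (S.symm u) (S.symm v)
      rw [LinearEquiv.apply_symm_apply, LinearEquiv.apply_symm_apply] at this
      exact this.symm
    have e1 : ∫ z in K', ‖z‖ ^ 2 = d * ∫ x in K, ‖S.symm x‖ ^ 2 := by
      have h1 := integral_image_eq_integral_abs_det_fderiv_smul (volume : Measure (E (n + 1)))
        (s := K) (f := S.symm)
        (f' := fun _ => LinearMap.toContinuousLinearMap (S.symm : E (n + 1) →ₗ[ℝ] E (n + 1)))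
        hK.isCompact.measurableSet
        (fun x _ => (LinearMap.toContinuousLinearMap (S.symm : E (n + 1) →ₗ[ℝ] E (n + 1))).hasFDerivAt.hasFDerivWithinAt)
        (S.symm.injective.injOn) (fun z => ‖z‖ ^ 2)
      rw [hK', h1, ← integral_const_mul]
      simp only [smul_eq_mul]
      rfl
    set b := EuclideanSpace.basisFun (Fin (n + 1)) ℝ with hb
    have e2 : ∀ i, ∫ x in K, (inner ℝ (b i) (S.symm x)) ^ 2 = 1 / c := by
      intro i
      have h1 := hSn (S.symm (b i))
      rw [LinearEquiv.apply_symm_apply, b.norm_eq_one] at h1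
      have h2 : ∫ x in K, (inner ℝ (b i) (S.symm x)) ^ 2 = ∫ x in K, (inner ℝ x (S.symm (b i))) ^ 2 := by
        refine integral_congr_ae (Eventually.of_forall fun x => ?_)
        simp only
        rw [← hsy, real_inner_comm]
      rw [h2, eq_div_iff hc0.ne']
      linarith
    have e3 : ∫ x in K, ‖S.symm x‖ ^ 2 = (n + 1) / c := by
      have h1 : ∀ x, ‖S.symm x‖ ^ 2 = ∑ i, (inner ℝ (b i) (S.symm x)) ^ 2 := by
        intro x
        rw [← b.sum_sq_norm_inner_right (S.symm x)]
        refine Finset.sum_congr rfl fun i _ => ?_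
        rw [Real.norm_eq_abs, sq_abs]
      simp only [h1]
      rw [integral_finsetSum]
      · simp only [e2, Finset.sum_const, Finset.card_univ, Fintype.card_fin, nsmul_eq_mul]
        push_cast
        ring
      · intro i _
        apply ContinuousOn.integrableOn_compact hK.isCompact
        exact Continuous.continuousOn (by fun_prop)
    have e4 : vol K' = d * vol K := vol_image S.symm K
    rw [e1, e3, e4, hc]
    field_simp
  have hKB : K' = Metric.closedBall 0 1 := by
    refine Subset.antisymm ?_ hBK'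
    by_contra hne
    rw [not_subset] at hne
    obtain ⟨x, hxK, hxB⟩ := hne
    set D := (Metric.closedBall (0 : E (n + 1)) 1)ᶜ ∩ K' with hD
    have hDm : MeasurableSet D := (Metric.isClosed_closedBall.measurableSet.compl).inter hK'C.isCompact.measurableSet
    have hopen : ((Metric.closedBall (0 : E (n + 1)) 1)ᶜ ∩ interior K').Nonempty := by
      have h7 : x ∈ closure (interior K') := by
        rw [hK'C.convex.closure_interior_eq_closure_of_nonempty_interior hK'C.interior_nonempty]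
        exact subset_closure hxK
      exact mem_closure_iff.1 h7 _ Metric.isClosed_closedBall.isOpen_compl hxB
    have h8 : 0 < volume ((Metric.closedBall (0 : E (n + 1)) 1)ᶜ ∩ interior K') :=
      ((Metric.isClosed_closedBall.isOpen_compl).inter isOpen_interior).measure_pos volume hopen
    have h9 : 0 < volume D := h8.trans_le (measure_mono (inter_subset_inter_right _ interior_subset))
    have hDfin : volume D < ∞ := (measure_mono inter_subset_right).trans_lt hK'C.isCompact.measure_lt_top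
    have hDr : 0 < volume.real D := ENNReal.toReal_pos h9.ne' hDfin.ne
    have hun : K' = Metric.closedBall 0 1 ∪ D := by
      ext z; constructor
      · intro hz
        by_cases hz1 : z ∈ Metric.closedBall (0 : E (n + 1)) 1
        · exact Or.inl hz1
        · exact Or.inr ⟨hz1, hz⟩
      · rintro (hz | hz)
        · exact hBK' hz
        · exact hz.2
    have hdisj : Disjoint (Metric.closedBall (0 : E (n + 1)) 1) D := by
      rw [Set.disjoint_left]; intro y hy hy2; exact hy2.1 hy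
    have hcn : Continuous fun z : E (n + 1) => ‖z‖ ^ 2 := by fun_prop
    have i1 : IntegrableOn (fun z : E (n + 1) => ‖z‖ ^ 2) (Metric.closedBall 0 1) :=
      hcn.continuousOn.integrableOn_compact (isCompact_closedBall _ _)
    have i2 : IntegrableOn (fun z : E (n + 1) => ‖z‖ ^ 2) D :=
      (hcn.continuousOn.integrableOn_compact hK'C.isCompact).mono_set inter_subset_right
    have e1 : ∫ z in K', ‖z‖ ^ 2 = (∫ z in Metric.closedBall (0 : E (n + 1)) 1, ‖z‖ ^ 2) + ∫ z in D, ‖z‖ ^ 2 := by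
      conv_lhs => rw [hun]
      exact setIntegral_union hdisj hDm i1 i2
    have e2 : vol K' = κ (n + 1) + volume.real D := by
      rw [← vol_closedBall (n + 1)]
      unfold vol
      conv_lhs => rw [hun]
      rw [measure_union hdisj hDm, ENNReal.toReal_add measure_closedBall_lt_top.ne hDfin.ne]
      rfl
    have e3 : volume.real D ≤ ∫ z in D, ‖z‖ ^ 2 := by
      have : ∫ z in D, (1 : ℝ) = volume.real D := by simp
      rw [← this]
      refine setIntegral_mono_on (integrableOn_const (hs := hDfin.ne)) i2 hDm ?_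
      intro z hz
      have hz1 : 1 < ‖z‖ := by simpa using hz.1
      nlinarith
    have e4 := integral_norm_sq_ball (n := n)
    rw [e1, e2] at hmom
    nlinarith
  refine ⟨S, ?_⟩
  rw [← hKB, hK', ← image_comp]
  simp

end Crest.Agent.R230
end

-- ▼ part R230/John
section

/-!
# Row 230, section T: position of maximal volume ellipsoid
-/

set_option autoImplicit false

open MeasureTheory Set
open scoped Pointwise ENNReal Topology

namespace Crest.Agent.R230

variable {n : ℕ}

/-- small perturbations of the identity in a direction of positive trace have determinant `> 1` -/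
lemma exists_det_gt {N : ℕ} (M : Matrix (Fin N) (Fin N) ℝ) (hM : 0 < M.trace) (ρ : ℝ) (hρ : 0 < ρ) :
    ∃ ε, 0 < ε ∧ ε < ρ ∧ 1 < (1 + ε • M).det := by
  set P := (Matrix.det (1 + (Polynomial.X : Polynomial ℝ) • M.map Polynomial.C)).divX.divX with hP
  have hdet : ∀ ε : ℝ, (1 + ε • M).det = 1 + M.trace * ε + P.eval ε * ε ^ 2 :=
    fun ε => Matrix.det_one_add_smul ε M
  have hc : Continuous (fun ε : ℝ => M.trace + P.eval ε * ε) := by fun_prop
  have h0 : ∀ᶠ ε in 𝓝[>] (0 : ℝ), 0 < M.trace + P.eval ε * ε := by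
    have : Filter.Tendsto (fun ε : ℝ => M.trace + P.eval ε * ε) (𝓝[>] (0 : ℝ)) (𝓝 M.trace) := by
      have := (hc.tendsto 0).mono_left (nhdsWithin_le_nhds (s := Ioi (0 : ℝ)))
      simpa using this
    exact this.eventually (lt_mem_nhds hM)
  have h1 : ∀ᶠ ε in 𝓝[>] (0 : ℝ), ε < ρ :=
    (Filter.tendsto_id.mono_left nhdsWithin_le_nhds).eventually (gt_mem_nhds hρ)
  have h2 : ∀ᶠ ε in 𝓝[>] (0 : ℝ), 0 < ε := self_mem_nhdsWithin
  obtain ⟨ε, a, b, c⟩ := (h0.and (h1.and h2)).exists
  refine ⟨ε, c, b, ?_⟩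
  rw [hdet]
  have : 0 < (M.trace + P.eval ε * ε) * ε := mul_pos a c
  nlinarith

lemma exists_det_gt' {N : ℕ} (f : E N →ₗ[ℝ] E N) 
    (hf : 0 < ∑ i, inner ℝ (f (EuclideanSpace.basisFun (Fin N) ℝ i)) (EuclideanSpace.basisFun (Fin N) ℝ i))
    (ρ : ℝ) (hρ : 0 < ρ) :
    ∃ ε, 0 < ε ∧ ε < ρ ∧ 1 < LinearMap.det (1 + ε • f) := by
  set b := (EuclideanSpace.basisFun (Fin N) ℝ).toBasis with hb
  obtain ⟨ε, h1, h2, h3⟩ := exists_det_gt (LinearMap.toMatrix b b f) (by
    rw [Matrix.trace]
    refine hf.trans_le (le_of_eq ?_)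
    refine Finset.sum_congr rfl fun i _ => ?_
    rw [Matrix.diag_apply, LinearMap.toMatrix_apply, hb, OrthonormalBasis.coe_toBasis_repr_apply,
      OrthonormalBasis.coe_toBasis, OrthonormalBasis.repr_apply_apply, real_inner_comm]) ρ hρ
  refine ⟨ε, h1, h2, ?_⟩
  rw [← LinearMap.det_toMatrix b, map_add, map_smul]
  convert h3 using 3
  exact LinearMap.toMatrix_one b

lemma zero_mem_interior_of_symm {K : Set (E n)} (hK : CB K) (hs' : ∀ x ∈ K, -x ∈ K) :
    (0 : E n) ∈ interior K := by
  obtain ⟨x, hx⟩ := hK.interior_nonempty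
  have hneg : (-1 : ℝ) • K = K := by
    ext y
    constructor
    · rintro ⟨z, hz, rfl⟩
      simpa using hs' z hz
    · intro hy
      exact ⟨-y, hs' y hy, by simp⟩
  have hx' : -x ∈ interior K := by
    have : -x ∈ (-1 : ℝ) • interior K := ⟨x, hx, by simp⟩
    rwa [← interior_smul₀ (by norm_num : (-1 : ℝ) ≠ 0), hneg] at this
  have := hK.convex.interior hx hx' (a := 1 / 2) (b := 1 / 2) (by norm_num) (by norm_num) (by norm_num)
  simpa using this

/-- the ellipsoid of maximal volume -/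
lemma exists_max_det {K : Set (E n)} (hK : CB K) (h0 : (0 : E n) ∈ interior K) :
    ∃ A : E n →L[ℝ] E n, (∀ x ∈ Metric.closedBall (0 : E n) 1, A x ∈ K) ∧ 0 < |A.det| ∧
      ∀ B : E n →L[ℝ] E n, (∀ x ∈ Metric.closedBall (0 : E n) 1, B x ∈ K) → |B.det| ≤ |A.det| := by
  set 𝒜 : Set (E n →L[ℝ] E n) := {A | ∀ x ∈ Metric.closedBall (0 : E n) 1, A x ∈ K} with h𝒜
  have hcl : IsClosed 𝒜 := by
    have : 𝒜 = ⋂ x ∈ Metric.closedBall (0 : E n) 1, {A : E n →L[ℝ] E n | A x ∈ K} := by
      ext A; simp [h𝒜]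
    rw [this]
    refine isClosed_biInter fun x _ => ?_
    exact hK.isCompact.isClosed.preimage (ContinuousLinearMap.apply ℝ (E n) x).continuous
  obtain ⟨R, hR⟩ := hK.isCompact.isBounded.subset_closedBall (0 : E n)
  have hR0 : 0 ≤ R := by
    have := hR (interior_subset h0)
    simpa using this
  have hbd : Bornology.IsBounded 𝒜 := by
    rw [isBounded_iff_forall_norm_le]
    refine ⟨R, fun A hA => ?_⟩
    refine ContinuousLinearMap.opNorm_le_of_unit_norm hR0 fun x hx => ?_
    have := hR (hA x (by simp [hx]))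
    simpa using this
  have hcomp : IsCompact 𝒜 := Metric.isCompact_of_isClosed_isBounded hcl hbd
  obtain ⟨ρ, hρ, hball⟩ := Metric.nhds_basis_closedBall.mem_iff.1 (mem_interior_iff_mem_nhds.1 h0)
  have hmem : (ρ • ContinuousLinearMap.id ℝ (E n)) ∈ 𝒜 := by
    intro x hx
    apply hball
    simp only [Metric.mem_closedBall, dist_zero_right] at hx ⊢
    rw [show (ρ • ContinuousLinearMap.id ℝ (E n)) x = ρ • x from rfl, norm_smul,
      Real.norm_eq_abs, abs_of_pos hρ]
    nlinarith
  obtain ⟨A, hA, hmax⟩ := hcomp.exists_isMaxOn ⟨_, hmem⟩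
    (f := fun A : E n →L[ℝ] E n => |A.det|) (ContinuousLinearMap.continuous_det.abs.continuousOn)
  refine ⟨A, hA, ?_, fun B hB => hmax hB⟩
  have h1 : |(ρ • ContinuousLinearMap.id ℝ (E n)).det| ≤ |A.det| := hmax hmem
  refine lt_of_lt_of_le ?_ h1
  rw [abs_pos]
  have : (ρ • ContinuousLinearMap.id ℝ (E n)).det = ρ ^ Module.finrank ℝ (E n) := by
    have h : ((ρ • ContinuousLinearMap.id ℝ (E n) : E n →L[ℝ] E n) : E n →ₗ[ℝ] E n) = ρ • LinearMap.id := rfl
    rw [ContinuousLinearMap.det, h, LinearMap.det_smul, LinearMap.det_id, mul_one]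
  rw [this]
  positivity

/-- the symmetric operator of the second moments, with trace zero -/
noncomputable def secOp (K : Set (E n)) : E n →L[ℝ] E n :=
  (n : ℝ) • (∫ x in K, (innerSL ℝ x).smulRight x) - (∫ x in K, ‖x‖ ^ 2) • ContinuousLinearMap.id ℝ (E n)

lemma inner_secOp {K : Set (E n)} (hK : IsCompact K) (u v : E n) :
    inner ℝ (secOp K u) v = ∫ x in K, (n * (inner ℝ x u * inner ℝ x v) - ‖x‖ ^ 2 * inner ℝ u v) := by
  have hi : IntegrableOn (fun x : E n => (innerSL ℝ x).smulRight x) K := by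
    apply ContinuousOn.integrableOn_compact hK
    exact Continuous.continuousOn (by fun_prop)
  have hi1 : IntegrableOn (fun x : E n => (n : ℝ) * (inner ℝ x u * inner ℝ x v)) K := by
    apply ContinuousOn.integrableOn_compact hK
    exact Continuous.continuousOn (by fun_prop)
  have hi2 : IntegrableOn (fun x : E n => ‖x‖ ^ 2 * inner ℝ u v) K := by
    apply ContinuousOn.integrableOn_compact hK
    exact Continuous.continuousOn (by fun_prop)
  have hi3 : IntegrableOn (fun x : E n => (inner ℝ x u) • x) K := by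
    apply ContinuousOn.integrableOn_compact hK
    exact Continuous.continuousOn (by fun_prop)
  rw [integral_sub hi1 hi2, integral_const_mul, integral_mul_const]
  have h1 : secOp K u = (n : ℝ) • (∫ x in K, (inner ℝ x u) • x) - (∫ x in K, ‖x‖ ^ 2) • u := by
    unfold secOp
    rw [_root_.sub_apply, _root_.smul_apply, _root_.smul_apply, ContinuousLinearMap.integral_apply hi]
    rfl
  rw [h1, inner_sub_left, inner_smul_left, inner_smul_left, real_inner_comm, ← integral_inner hi3]
  simp only [inner_smul_right, conj_trivial]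
  congr 2
  refine integral_congr_ae (Filter.Eventually.of_forall fun x => ?_)
  simp only [real_inner_comm]

lemma sum_inner_secOp {K : Set (E n)} (hK : IsCompact K) :
    ∑ i, inner ℝ (secOp K (EuclideanSpace.basisFun (Fin n) ℝ i)) (EuclideanSpace.basisFun (Fin n) ℝ i) = 0 := by
  have hi : ∀ i ∈ (Finset.univ : Finset (Fin n)), IntegrableOn (fun x : E n =>
      (n * (inner ℝ x (EuclideanSpace.basisFun (Fin n) ℝ i) * inner ℝ x (EuclideanSpace.basisFun (Fin n) ℝ i))
        - ‖x‖ ^ 2 * inner ℝ (EuclideanSpace.basisFun (Fin n) ℝ i) (EuclideanSpace.basisFun (Fin n) ℝ i))) K := by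
    intro i _
    apply ContinuousOn.integrableOn_compact hK
    exact Continuous.continuousOn (by fun_prop)
  simp only [inner_secOp hK]
  rw [← integral_finsetSum _ hi]
  rw [← integral_zero (E n) ℝ]
  refine integral_congr_ae (Filter.Eventually.of_forall fun x => ?_)
  simp only
  rw [Finset.sum_sub_distrib, ← Finset.mul_sum, ← Finset.mul_sum]
  have h1 : ∑ i, inner ℝ x (EuclideanSpace.basisFun (Fin n) ℝ i) * inner ℝ x (EuclideanSpace.basisFun (Fin n) ℝ i)
      = ‖x‖ ^ 2 := by
    rw [← OrthonormalBasis.sum_sq_norm_inner_left (EuclideanSpace.basisFun (Fin n) ℝ) x]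
    refine Finset.sum_congr rfl fun i _ => ?_
    rw [Real.norm_eq_abs, sq_abs, pow_two]
  have h2 : ∑ i, inner ℝ (EuclideanSpace.basisFun (Fin n) ℝ i) (EuclideanSpace.basisFun (Fin n) ℝ i)
      = (n : ℝ) := by
    simp
  rw [h1, h2]; ring

lemma secOp_symm {K : Set (E n)} (hK : IsCompact K) (u v : E n) :
    inner ℝ (secOp K u) v = inner ℝ u (secOp K v) := by
  rw [real_inner_comm (secOp K v) u, inner_secOp hK, inner_secOp hK]
  refine integral_congr_ae (Filter.Eventually.of_forall fun x => ?_)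
  simp only [real_inner_comm]
  ring

/-- the contact point -/
lemma exists_contact (hn : 1 ≤ n) {K : Set (E n)} (hK : CB K) (hB : Metric.closedBall (0 : E n) 1 ⊆ K)
    (hmax : ∀ B : E n →L[ℝ] E n, (∀ x ∈ Metric.closedBall (0 : E n) 1, B x ∈ K) → |B.det| ≤ 1) :
    ∃ u : E n, ‖u‖ = 1 ∧ hs K u = 1 ∧ 0 ≤ inner ℝ (secOp K u) u := by
  set S := secOp K with hS
  set C : ℝ := ‖S‖ + 1 with hC
  have hC0 : 0 < C := by positivity
  have hge : ∀ u : E n, ‖u‖ = 1 → 1 ≤ hs K u := by
    intro u hu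
    have := le_hs hK.isCompact (hB (show u ∈ _ by simp [hu])) u
    rwa [real_inner_self_eq_norm_sq, hu, one_pow] at this
  have key : ∀ k : ℕ, ∃ u : E n, ‖u‖ = 1 ∧ hs K u ≤ 1 + C * (1 / ((k : ℝ) + 1)) ∧
      -((1 + C ^ 2) * (1 / ((k : ℝ) + 1))) ≤ inner ℝ (S u) u := by
    intro k
    set δ : ℝ := 1 / ((k : ℝ) + 1) with hδ
    have hδ0 : 0 < δ := by positivity
    have hδ1 : δ ≤ 1 := by
      rw [hδ, div_le_one (by positivity)]
      have : (0 : ℝ) ≤ k := Nat.cast_nonneg k
      linarith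
    set f : E n →L[ℝ] E n := S + δ • ContinuousLinearMap.id ℝ (E n) with hf
    have hfu : ∀ u, f u = S u + δ • u := fun u => rfl
    have hnf : ‖f‖ ≤ C := by
      refine (norm_add_le _ _).trans ?_
      rw [hC]
      gcongr
      refine ContinuousLinearMap.opNorm_le_bound _ (by norm_num) fun x => ?_
      rw [show (δ • ContinuousLinearMap.id ℝ (E n)) x = δ • x from rfl, norm_smul, Real.norm_eq_abs,
        abs_of_pos hδ0]
      gcongr
    obtain ⟨ε, hε0, hεδ, hdet⟩ := exists_det_gt' (f : E n →ₗ[ℝ] E n) (by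
      have h2 : ∑ i, inner ℝ (EuclideanSpace.basisFun (Fin n) ℝ i) (EuclideanSpace.basisFun (Fin n) ℝ i)
        = (n : ℝ) := by simp
      have h3 : ∑ i, inner ℝ ((f : E n →ₗ[ℝ] E n) (EuclideanSpace.basisFun (Fin n) ℝ i))
          (EuclideanSpace.basisFun (Fin n) ℝ i) = δ * n := by
        simp only [ContinuousLinearMap.coe_coe, hfu, inner_add_left, inner_smul_left, conj_trivial]
        rw [Finset.sum_add_distrib, ← Finset.mul_sum, h2, hS, sum_inner_secOp hK.isCompact, zero_add]
      rw [h3]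
      have : (0 : ℝ) < n := by exact_mod_cast hn
      positivity) δ hδ0
    set g : E n →L[ℝ] E n := ContinuousLinearMap.id ℝ (E n) + ε • f with hg
    have hgu : ∀ u, g u = u + ε • f u := fun u => rfl
    have hgdet : 1 < |g.det| := by
      refine lt_of_lt_of_le hdet (le_abs_self _)
    obtain ⟨x, hx, hxK⟩ : ∃ x ∈ Metric.closedBall (0 : E n) 1, g x ∉ K := by
      by_contra hcon
      push Not at hcon
      exact absurd (hmax g hcon) (not_le.2 hgdet)
    obtain ⟨v, hv⟩ : ∃ v : E n, hs K v < inner ℝ (g x) v := by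
      by_contra hcon
      push Not at hcon
      exact hxK (mem_of_forall_le_hs hK.isCompact hK.convex hK.nonempty hcon)
    have hgsymm : ∀ a b, inner ℝ (g a) b = inner ℝ a (g b) := by
      intro a b
      rw [hgu, hgu, hfu, hfu]
      simp only [inner_add_left, inner_add_right, inner_smul_left, inner_smul_right, conj_trivial]
      rw [hS, secOp_symm hK.isCompact]
    have hv0 : v ≠ 0 := by
      rintro rfl
      rw [hs_zero hK.nonempty, inner_zero_right] at hv
      exact lt_irrefl _ hv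
    have hvn : 0 < ‖v‖ := norm_pos_iff.2 hv0
    have hv2 : hs K v < ‖g v‖ := by
      refine hv.trans_le ?_
      rw [hgsymm]
      refine (real_inner_le_norm _ _).trans ?_
      have : ‖x‖ ≤ 1 := by simpa using hx
      calc ‖x‖ * ‖g v‖ ≤ 1 * ‖g v‖ := by gcongr
        _ = ‖g v‖ := one_mul _
    set u : E n := ‖v‖⁻¹ • v with hu
    have hu1 : ‖u‖ = 1 := by
      rw [hu, norm_smul, norm_inv, norm_norm, inv_mul_cancel₀ hvn.ne']
    have hu2 : hs K u < ‖g u‖ := by
      rw [hu, hs_smul (inv_nonneg.2 hvn.le), map_smul, norm_smul, norm_inv, norm_norm]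
      exact mul_lt_mul_of_pos_left hv2 (inv_pos.2 hvn)
    have hfun : ‖f u‖ ≤ C := by
      refine (f.le_opNorm u).trans ?_
      rw [hu1, mul_one]; exact hnf
    refine ⟨u, hu1, ?_, ?_⟩
    · refine hu2.le.trans ?_
      rw [hgu]
      refine (norm_add_le _ _).trans ?_
      rw [hu1, norm_smul, Real.norm_eq_abs, abs_of_pos hε0]
      have : ε * ‖f u‖ ≤ δ * C := by gcongr
      linarith
    · have h1 : 1 < ‖g u‖ := (hge u hu1).trans_lt hu2
      have h2 : 1 < ‖g u‖ ^ 2 := by nlinarith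
      rw [hgu, norm_add_sq_real, hu1, inner_smul_right, norm_smul, Real.norm_eq_abs, abs_of_pos hε0] at h2
      have h3 : 0 < 2 * inner ℝ u (f u) + ε * ‖f u‖ ^ 2 := by
        by_contra hcon
        push Not at hcon
        nlinarith
      have h4 : inner ℝ u (f u) = inner ℝ (S u) u + δ := by
        rw [hfu, inner_add_right, inner_smul_right, real_inner_self_eq_norm_sq, hu1, real_inner_comm]
        ring
      have h5 : ‖f u‖ ^ 2 ≤ C ^ 2 := by gcongr
      have h6 : ε * ‖f u‖ ^ 2 ≤ δ * C ^ 2 := by gcongr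
      rw [h4] at h3
      nlinarith [mul_pos hδ0 (pow_pos hC0 2)]
  choose U hU1 hU2 hU3 using key
  obtain ⟨u, hu, φ, hφ, hlim⟩ := (isCompact_sphere (0 : E n) 1).tendsto_subseq
    (x := U) (fun k => by simp [hU1 k])
  have hu1 : ‖u‖ = 1 := by simpa using hu
  have ht : Filter.Tendsto (fun k : ℕ => 1 / (((φ k : ℕ) : ℝ) + 1)) Filter.atTop (𝓝 0) :=
    tendsto_one_div_add_atTop_nhds_zero_nat.comp hφ.tendsto_atTop
  refine ⟨u, hu1, le_antisymm ?_ (hge u hu1), ?_⟩
  · refine hs_le hK.nonempty fun x hx => ?_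
    have h1 : Filter.Tendsto (fun k => inner ℝ x (U (φ k))) Filter.atTop (𝓝 (inner ℝ x u)) :=
      (Filter.Tendsto.inner tendsto_const_nhds hlim)
    have h2 : Filter.Tendsto (fun k : ℕ => 1 + C * (1 / (((φ k : ℕ) : ℝ) + 1))) Filter.atTop (𝓝 1) := by
      simpa using (ht.const_mul C).const_add 1
    exact le_of_tendsto_of_tendsto' h1 h2 fun k => (le_hs hK.isCompact hx _).trans (hU2 (φ k))
  · have h1 : Filter.Tendsto (fun k => inner ℝ (S (U (φ k))) (U (φ k))) Filter.atTop (𝓝 (inner ℝ (S u) u)) :=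
      Filter.Tendsto.inner ((S.continuous.tendsto u).comp hlim) hlim
    have h2 : Filter.Tendsto (fun k : ℕ => -((1 + C ^ 2) * (1 / (((φ k : ℕ) : ℝ) + 1)))) Filter.atTop (𝓝 0) := by
      simpa using (ht.const_mul (1 + C ^ 2)).neg
    exact le_of_tendsto_of_tendsto' h2 h1 fun k => hU3 (φ k)

theorem john {K : Set (E (n + 1))} (hK : CB K) (hs' : ∀ x ∈ K, -x ∈ K) :
    ∃ T : E (n + 1) ≃ₗ[ℝ] E (n + 1), Metric.closedBall 0 1 ⊆ T '' K ∧ ∃ u : E (n + 1), ‖u‖ = 1 ∧
      hs (T '' K) u = 1 ∧ 0 ≤ ∫ x in T '' K, ((n + 1) * (inner ℝ x u) ^ 2 - ‖x‖ ^ 2) := by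
  have h0 := zero_mem_interior_of_symm hK hs'
  obtain ⟨A, hA, hdet, hmax⟩ := exists_max_det hK h0
  have hdet' : LinearMap.det (A : E (n + 1) →ₗ[ℝ] E (n + 1)) ≠ 0 := abs_pos.1 hdet
  set T' : E (n + 1) ≃ₗ[ℝ] E (n + 1) := LinearEquiv.ofIsUnitDet (f := (A : E (n + 1) →ₗ[ℝ] E (n + 1)))
    (v := (EuclideanSpace.basisFun (Fin (n + 1)) ℝ).toBasis) (v' := (EuclideanSpace.basisFun (Fin (n + 1)) ℝ).toBasis)
    (by rw [LinearMap.det_toMatrix]; exact isUnit_iff_ne_zero.2 hdet') with hT'
  have hT'A : ∀ x, T' x = A x := fun x => rfl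
  set T := T'.symm with hT
  have hTA : ∀ x, T (A x) = x := fun x => by rw [← hT'A, hT, LinearEquiv.symm_apply_apply]
  have hAT : ∀ x, A (T x) = x := fun x => by rw [← hT'A, hT, LinearEquiv.apply_symm_apply]
  have hK1 : CB (T '' K) := hK.image T
  have hball : Metric.closedBall 0 1 ⊆ T '' K := fun x hx => ⟨A x, hA x hx, hTA x⟩
  have hmax1 : ∀ B : E (n + 1) →L[ℝ] E (n + 1),
      (∀ x ∈ Metric.closedBall (0 : E (n + 1)) 1, B x ∈ T '' K) → |B.det| ≤ 1 := by
    intro B hB
    have h := hmax (A.comp B) (fun x hx => by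
      obtain ⟨y, hy, hyx⟩ := hB x hx
      rw [ContinuousLinearMap.comp_apply, ← hyx, hAT]
      exact hy)
    have h2 : (A.comp B).det = A.det * B.det := by
      simp only [ContinuousLinearMap.det]
      rw [← LinearMap.det_comp]
      rfl
    rw [h2, abs_mul] at h
    exact le_of_mul_le_mul_left (by rwa [mul_one]) hdet
  obtain ⟨u, hu1, hu2, hu3⟩ := exists_contact (by omega) hK1 hball hmax1
  refine ⟨T, hball, u, hu1, hu2, ?_⟩
  rw [inner_secOp hK1.isCompact] at hu3
  refine hu3.trans (le_of_eq ?_)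
  refine integral_congr_ae (Filter.Eventually.of_forall fun x => ?_)
  simp only [real_inner_self_eq_norm_sq, hu1, Nat.cast_add, Nat.cast_one]
  ring

end Crest.Agent.R230
end

-- ▼ part R230/HypImage
section

/-!
# Row 230, section U: affine invariance of the hypothesis of the crux
-/

set_option autoImplicit false

open MeasureTheory Set
open scoped Pointwise ENNReal

namespace Crest.Agent.R230

variable {n : ℕ}

/-- change of frame under a linear map: slices of `T '' K` are linear images of slices of `K` -/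
theorem U_slice_image {K : Set (E (n + 1))} (T : E (n + 1) ≃ₗ[ℝ] E (n + 1)) {e e' : E (n + 1)}
    (he : ‖e‖ = 1) (he' : ‖e'‖ = 1) {τ : ℝ} (hτ : 0 < τ)
    (hadj : ∀ x, inner ℝ (T x) e = τ * inner ℝ x e') (F : Frame e) (F' : Frame e') :
    ∃ c : ℝ, 0 < c ∧ ∀ t : ℝ, volume (F.slice (T '' K) t) =
      ENNReal.ofReal c * volume (F'.slice K (τ⁻¹ * t)) := by
  classical
  set L : E (n + 1) →ₗ[ℝ] (ℝ × E n) :=
    ((F'.lin he').symm.toLinearEquiv.toLinearMap).comp T.symm.toLinearMap with hL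
  have hLΦ : ∀ x, F'.Φ (L x) = T.symm x := by
    intro x
    rw [← F'.lin_apply he']
    simp [hL]
  have hL1 : ∀ x, (L x).1 = τ⁻¹ * inner ℝ x e := by
    intro x
    have h1 := F'.inner_Φ he' (L x)
    rw [hLΦ] at h1
    have h2 := hadj (T.symm x)
    rw [T.apply_symm_apply] at h2
    rw [← h1, h2, ← mul_assoc, inv_mul_cancel₀ hτ.ne', one_mul]
  set A : E n →ₗ[ℝ] E n := (LinearMap.snd ℝ ℝ (E n)).comp (L.comp F.ι.toLinearMap) with hA
  have hAinj : Function.Injective A := by
    rw [← LinearMap.ker_eq_bot, LinearMap.ker_eq_bot']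
    intro y hy
    have h1 : (L (F.ι y)).1 = 0 := by rw [hL1, F.inner_eq]; simp
    have h2 : (L (F.ι y)).2 = 0 := by simpa [hA] using hy
    have h3 : L (F.ι y) = 0 := Prod.ext h1 h2
    have h4 : F'.Φ (L (F.ι y)) = 0 := by rw [h3]; simp [Frame.Φ]
    rw [hLΦ] at h4
    have h5 : F.ι y = 0 := by simpa using h4
    exact F.ι.injective (by rw [h5, map_zero])
  have hdet : LinearMap.det A ≠ 0 := by
    have := LinearMap.isUnit_det A ((Module.End.isUnit_iff _).2 ⟨hAinj, LinearMap.injective_iff_surjective.1 hAinj⟩)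
    exact this.ne_zero
  refine ⟨|(LinearMap.det A)⁻¹|, abs_pos.2 (inv_ne_zero hdet), fun t => ?_⟩
  have hset : F.slice (T '' K) t = A ⁻¹' ((fun z => t • (L e).2 + z) ⁻¹' (F'.slice K (τ⁻¹ * t))) := by
    ext y
    simp only [mem_preimage, Frame.mem_slice]
    have h1 : F.Φ (t, y) ∈ T '' K ↔ T.symm (F.Φ (t, y)) ∈ K := by
      constructor
      · rintro ⟨x, hx, h⟩
        rw [← h]; simpa using hx
      · intro h
        exact ⟨_, h, by simp⟩
    rw [h1, ← hLΦ]
    have h2 : L (F.Φ (t, y)) = (τ⁻¹ * t, t • (L e).2 + A y) := by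
      refine Prod.ext ?_ ?_
      · simp only [hL1, F.inner_Φ he]
      · simp [Frame.Φ, hA]
    rw [h2]
  rw [hset, Measure.addHaar_preimage_linearMap volume hdet, measure_preimage_add]

/-- one dimensional scaling of a lower integral -/
theorem U_lintegral_scale (f : ℝ → ℝ≥0∞) {τ : ℝ} (hτ : 0 < τ) :
    ∫⁻ t : ℝ, f (τ⁻¹ * t) = ENNReal.ofReal τ * ∫⁻ t : ℝ, f t := by
  have h1 := Real.smul_map_volume_mul_left (a := τ⁻¹) (inv_ne_zero hτ.ne')
  have hme : MeasurableEmbedding (fun t : ℝ => τ⁻¹ * t) :=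
    (Homeomorph.mulLeft₀ τ⁻¹ (inv_ne_zero hτ.ne')).measurableEmbedding
  have h2 : ∫⁻ t : ℝ, f t = ENNReal.ofReal |τ⁻¹| * ∫⁻ t : ℝ, f (τ⁻¹ * t) := by
    conv_lhs => rw [← h1]
    rw [lintegral_smul_measure, hme.lintegral_map]
    rfl
  rw [h2, ← mul_assoc, ← ENNReal.ofReal_mul hτ.le, abs_of_pos (inv_pos.2 hτ), mul_inv_cancel₀ hτ.ne',
    ENNReal.ofReal_one, one_mul]

theorem U_area_image {K : Set (E (n + 1))} (hK : CB K) (T : E (n + 1) ≃ₗ[ℝ] E (n + 1)) {e e' : E (n + 1)}
    (he : ‖e‖ = 1) (he' : ‖e'‖ = 1) {τ : ℝ} (hτ : 0 < τ)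
    (hadj : ∀ x, inner ℝ (T x) e = τ * inner ℝ x e') (t : ℝ) :
    area (T '' K) e t = (|LinearMap.det (T : E (n + 1) →ₗ[ℝ] E (n + 1))| / τ) * area K e' (τ⁻¹ * t) := by
  obtain ⟨F⟩ := exists_frame e he
  obtain ⟨F'⟩ := exists_frame e' he'
  obtain ⟨c, hc, h⟩ := U_slice_image (K := K) T he he' hτ hadj F F'
  have hv1 := F.volume_eq_lintegral_slices (hK.image T).isCompact.measurableSet
  have hv2 := F'.volume_eq_lintegral_slices hK.isCompact.measurableSet
  have hv3 : volume (T '' K) = ENNReal.ofReal c * (ENNReal.ofReal τ * volume K) := by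
    rw [hv1, hv2]
    simp only [h]
    rw [lintegral_const_mul' _ _ ENNReal.ofReal_ne_top]
    rw [U_lintegral_scale (fun t => volume (F'.slice K t)) hτ]
  have hv4 : vol (T '' K) = c * (τ * vol K) := by
    unfold vol
    rw [hv3, ENNReal.toReal_mul, ENNReal.toReal_mul, ENNReal.toReal_ofReal hc.le,
      ENNReal.toReal_ofReal hτ.le]
  have hv5 := vol_image T K
  have hpos := hK.vol_pos
  have hcτ : c = |LinearMap.det (T : E (n + 1) →ₗ[ℝ] E (n + 1))| / τ := by
    rw [eq_div_iff hτ.ne']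
    have : c * τ * vol K = |LinearMap.det (T : E (n + 1) →ₗ[ℝ] E (n + 1))| * vol K := by
      rw [← hv5, hv4]; ring
    exact mul_right_cancel₀ hpos.ne' this
  rw [area_eq he F, area_eq he' F', ← hcτ]
  unfold vol
  rw [h, ENNReal.toReal_mul, ENNReal.toReal_ofReal hc.le]

theorem U_area_nonneg (K : Set (E (n + 1))) (e : E (n + 1)) (t : ℝ) : 0 ≤ area K e t :=
  ENNReal.toReal_nonneg

theorem U_NK_image (hn : 1 ≤ n) {K : Set (E (n + 1))} (hK : CB K) (T : E (n + 1) ≃ₗ[ℝ] E (n + 1))
    {e e' : E (n + 1)} (he : ‖e‖ = 1) (he' : ‖e'‖ = 1) {τ : ℝ} (hτ : 0 < τ)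
    (hadj : ∀ x, inner ℝ (T x) e = τ * inner ℝ x e') :
    NK (T '' K) e = |LinearMap.det (T : E (n + 1) →ₗ[ℝ] E (n + 1))| ^ (n - 1) * τ * NK K e' := by
  set D := |LinearMap.det (T : E (n + 1) →ₗ[ℝ] E (n + 1))| with hD
  have hD0 : 0 ≤ D := abs_nonneg _
  unfold NK
  have h1 : ∀ t : ℝ, area (T '' K) e t ^ (((n : ℝ) - 1) / n) =
      (D / τ) ^ (((n : ℝ) - 1) / n) * (fun t => area K e' t ^ (((n : ℝ) - 1) / n)) (τ⁻¹ * t) := by
    intro t
    rw [U_area_image hK T he he' hτ hadj t, Real.mul_rpow (div_nonneg hD0 hτ.le) (U_area_nonneg _ _ _)]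
  simp only [h1]
  rw [integral_const_mul]
  rw [Measure.integral_comp_mul_left (fun t => area K e' t ^ (((n : ℝ) - 1) / n)) τ⁻¹]
  rw [mul_pow, smul_eq_mul, mul_pow, inv_inv, abs_of_pos hτ]
  have h2 : ((D / τ) ^ (((n : ℝ) - 1) / n)) ^ n = (D / τ) ^ (n - 1) := by
    rw [← Real.rpow_natCast, ← Real.rpow_mul (div_nonneg hD0 hτ.le), div_mul_cancel₀ _ (by positivity),
      ← Real.rpow_natCast]
    congr 1
    rw [Nat.cast_sub hn]; simp
  rw [h2, div_pow]
  have h3 : τ ^ n = τ ^ (n - 1) * τ := by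
    rw [← pow_succ]; congr 1; omega
  rw [h3]
  field_simp

theorem U_hs_image (K : Set (E (n + 1))) (T : E (n + 1) ≃ₗ[ℝ] E (n + 1))
    {e e' : E (n + 1)} {τ : ℝ} (hτ : 0 < τ)
    (hadj : ∀ x, inner ℝ (T x) e = τ * inner ℝ x e') :
    hs (T '' K) e = τ * hs K e' := by
  unfold hs
  have h1 : (fun x : E (n + 1) => inner ℝ x e) '' (T '' K) = τ • ((fun x : E (n + 1) => inner ℝ x e') '' K) := by
    rw [image_image, ← image_smul, image_image]
    apply image_congr
    intro x _
    rw [hadj, smul_eq_mul]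
  rw [h1, Real.sSup_smul_of_nonneg hτ.le, smul_eq_mul]

theorem HypE_image (hn : 2 ≤ n) {K : Set (E (n + 1))} (hK : CB K) (hE : HypE K)
    (T : E (n + 1) ≃ₗ[ℝ] E (n + 1)) : HypE (T '' K) := by
  intro e he
  set u : E (n + 1) := LinearMap.adjoint (T : E (n + 1) →ₗ[ℝ] E (n + 1)) e with hu
  have hadj0 : ∀ x, inner ℝ (T x) e = inner ℝ x u := by
    intro x
    rw [hu, LinearMap.adjoint_inner_right]
    rfl
  have hu0 : u ≠ 0 := by
    intro h
    have := hadj0 (T.symm e)
    rw [h, T.apply_symm_apply, real_inner_self_eq_norm_sq, he] at this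
    simp at this
  have hτ : 0 < ‖u‖ := norm_pos_iff.2 hu0
  have he' : ‖‖u‖⁻¹ • u‖ = 1 := by
    rw [norm_smul, norm_inv, norm_norm, inv_mul_cancel₀ hτ.ne']
  have hadj : ∀ x, inner ℝ (T x) e = ‖u‖ * inner ℝ x (‖u‖⁻¹ • u) := by
    intro x
    rw [hadj0, inner_smul_right, ← mul_assoc, mul_inv_cancel₀ hτ.ne', one_mul]
  have h := hE _ he'
  rw [U_NK_image (by omega) hK T he he' hτ hadj, U_hs_image K T hτ hadj, vol_image]
  set D := |LinearMap.det (T : E (n + 1) →ₗ[ℝ] E (n + 1))| with hD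
  have hD0 : 0 ≤ D := abs_nonneg _
  have h2 : NB n * (D * vol K / κ (n + 1)) ^ (n - 1) * (‖u‖ * hs K (‖u‖⁻¹ • u)) =
      D ^ (n - 1) * ‖u‖ * (NB n * (vol K / κ (n + 1)) ^ (n - 1) * hs K (‖u‖⁻¹ • u)) := by
    rw [mul_div_assoc, mul_pow]; ring
  rw [h2]
  exact mul_le_mul_of_nonneg_left h (by positivity)

end Crest.Agent.R230
end

-- ▼ part R230/Schwarz
section

/-!
# Row 230, section V: Schwarz symmetrisation of the moment
-/

set_option autoImplicit false

open MeasureTheory Set
open scoped Pointwise ENNReal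

namespace Crest.Agent.R230

variable {n : ℕ}

/-- second moment of a ball -/
lemma sch_integral_ball_norm_sq (hn : 1 ≤ n) {r : ℝ} (hr : 0 ≤ r) :
    ∫ y in Metric.closedBall (0 : E n) r, ‖y‖ ^ 2 = κ n * n * (r ^ (n + 2) / (n + 2)) := by
  have hnt : Nontrivial (E n) := by
    obtain ⟨m, rfl⟩ : ∃ m, n = m + 1 := ⟨n - 1, by omega⟩
    infer_instance
  have h1 : ∫ y in Metric.closedBall (0 : E n) r, ‖y‖ ^ 2 =
      ∫ y : E n, (Icc (0 : ℝ) r).indicator (fun s => s ^ 2) ‖y‖ := by
    rw [← integral_indicator Metric.isClosed_closedBall.measurableSet]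
    congr 1
    funext y
    by_cases hy : ‖y‖ ≤ r
    · rw [indicator_of_mem (mem_closedBall_zero_iff.2 hy), indicator_of_mem (show ‖y‖ ∈ Icc 0 r from ⟨norm_nonneg _, hy⟩)]
    · rw [indicator_of_notMem (fun h => hy (mem_closedBall_zero_iff.1 h)),
        indicator_of_notMem (fun h => hy h.2)]
  rw [h1, integral_fun_norm_addHaar volume (fun s => (Icc (0 : ℝ) r).indicator (fun s => s ^ 2) s)]
  have h2 : ∫ y in Ioi (0 : ℝ), y ^ (Module.finrank ℝ (E n) - 1) • (Icc (0 : ℝ) r).indicator (fun s => s ^ 2) y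
      = r ^ (n + 2) / (n + 2) := by
    have h3 : ∀ y : ℝ, y ^ (Module.finrank ℝ (E n) - 1) • (Icc (0 : ℝ) r).indicator (fun s => s ^ 2) y
        = (Icc (0 : ℝ) r).indicator (fun s => s ^ (n + 1)) y := by
      intro y
      rw [finrank_euclideanSpace_fin]
      by_cases hy : y ∈ Icc (0 : ℝ) r
      · rw [indicator_of_mem hy, indicator_of_mem hy, smul_eq_mul, ← pow_add]
        congr 1; omega
      · rw [indicator_of_notMem hy, indicator_of_notMem hy, smul_zero]
    simp only [h3]
    rw [setIntegral_indicator measurableSet_Icc]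
    have h4 : Ioi (0 : ℝ) ∩ Icc 0 r = Ioc 0 r := by
      ext x
      simp only [mem_inter_iff, mem_Ioi, mem_Icc, mem_Ioc]
      constructor
      · rintro ⟨h, -, h'⟩; exact ⟨h, h'⟩
      · rintro ⟨h, h'⟩; exact ⟨h, h.le, h'⟩
    rw [h4, ← intervalIntegral.integral_of_le hr, integral_pow]
    push_cast
    rw [zero_pow (by omega), sub_zero]
    congr 1
    ring
  rw [h2]
  simp only [finrank_euclideanSpace_fin, smul_eq_mul, nsmul_eq_mul, κ, vol, Measure.real]
  ring

/-- bathtub -/
lemma sch_bathtub (hn : 1 ≤ n) {S : Set (E n)} (hS : IsCompact S) {r : ℝ} (hr : 0 ≤ r)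
    (hv : vol S = κ n * r ^ n) :
    κ n * n * (r ^ (n + 2) / (n + 2)) ≤ ∫ y in S, ‖y‖ ^ 2 := by
  rw [← sch_integral_ball_norm_sq hn hr]
  set B := Metric.closedBall (0 : E n) r with hB
  have hBc : IsCompact B := isCompact_closedBall _ _
  have hvB : vol B = κ n * r ^ n := by rw [hB, vol_closedBall_radius n hr]; ring
  have i1 : IntegrableOn (fun y : E n => ‖y‖ ^ 2) S :=
    (by fun_prop : Continuous fun y : E n => ‖y‖ ^ 2).continuousOn.integrableOn_compact hS
  have i2 : IntegrableOn (fun y : E n => ‖y‖ ^ 2) B :=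
    (by fun_prop : Continuous fun y : E n => ‖y‖ ^ 2).continuousOn.integrableOn_compact hBc
  have i3 : IntegrableOn (fun _ : E n => r ^ 2) S := integrableOn_const (hs := hS.measure_lt_top.ne)
  have i4 : IntegrableOn (fun _ : E n => r ^ 2) B := integrableOn_const (hs := hBc.measure_lt_top.ne)
  have key : ∫ y in B, (‖y‖ ^ 2 - r ^ 2) ≤ ∫ y in S, (‖y‖ ^ 2 - r ^ 2) := by
    rw [← integral_indicator hBc.measurableSet, ← integral_indicator hS.measurableSet]
    refine integral_mono ?_ ?_ ?_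
    · rw [integrable_indicator_iff hBc.measurableSet]; exact i2.sub i4
    · rw [integrable_indicator_iff hS.measurableSet]; exact i1.sub i3
    · intro y
      simp only
      by_cases hyB : y ∈ B
      · have h0 : ‖y‖ ≤ r := mem_closedBall_zero_iff.1 hyB
        have h1 : ‖y‖ ^ 2 - r ^ 2 ≤ 0 := by nlinarith [norm_nonneg y]
        rw [indicator_of_mem hyB]
        by_cases hyS : y ∈ S
        · rw [indicator_of_mem hyS]
        · rw [indicator_of_notMem hyS]; exact h1
      · have h0 : r < ‖y‖ := by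
          by_contra h; exact hyB (mem_closedBall_zero_iff.2 (not_lt.1 h))
        have h1 : 0 ≤ ‖y‖ ^ 2 - r ^ 2 := by nlinarith [norm_nonneg y]
        rw [indicator_of_notMem hyB]
        exact indicator_apply_nonneg fun _ => h1
  rw [integral_sub i2 i4, integral_sub i1 i3, setIntegral_const, setIntegral_const] at key
  have e1 : volume.real B = vol B := rfl
  have e2 : volume.real S = vol S := rfl
  rw [e1, e2, hv, hvB] at key
  linarith

/-- for `‖e‖ = 1`, `h_K(e) = 1` and `r = (area/κ_n)^{1/n}` -/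
theorem schwarz_moment (hn : 1 ≤ n) {K : Set (E (n + 1))} (hK : CB K) (hs' : ∀ x ∈ K, -x ∈ K)
    {e : E (n + 1)} (he : ‖e‖ = 1) (he1 : hs K e = 1) (r : ℝ → ℝ)
    (hr : ∀ s ∈ Icc (-1 : ℝ) 1, r s = (area K e s / κ n) ^ ((1 : ℝ) / n)) :
    ∫ x in K, ((n + 1) * (inner ℝ x e) ^ 2 - ‖x‖ ^ 2) ≤
      κ n * n * ∫ s in (-1 : ℝ)..1, (s ^ 2 * r s ^ n - r s ^ (n + 2) / (n + 2)) := by
  obtain ⟨F⟩ := exists_frame e he
  have hκ := κ_pos n
  have hn0 : (n : ℝ) ≠ 0 := by positivity
  have hm : MeasurableSet (F.Φ ⁻¹' K) := F.continuous_Φ.measurable hK.isCompact.measurableSet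
  have hcomp : IsCompact (F.Φ ⁻¹' K) := F.isCompact_preimage he hK.isCompact
  -- coordinates
  have h1 : ∫ x in K, ((n + 1) * (inner ℝ x e) ^ 2 - ‖x‖ ^ 2)
      = ∫ p in F.Φ ⁻¹' K, (n * p.1 ^ 2 - ‖p.2‖ ^ 2) ∂(volume.prod volume) := by
    rw [← F.mp'.setIntegral_preimage_emb (F.measurableEmbedding_Φ he)]
    apply setIntegral_congr_fun hm
    intro p _
    simp only [F.inner_Φ he, F.norm_Φ_sq he]
    ring
  have hint : IntegrableOn (fun p : ℝ × E n => n * p.1 ^ 2 - ‖p.2‖ ^ 2) (F.Φ ⁻¹' K)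
      ((volume : Measure ℝ).prod (volume : Measure (E n))) := by
    have hc : ContinuousOn (fun p : ℝ × E n => n * p.1 ^ 2 - ‖p.2‖ ^ 2) (F.Φ ⁻¹' K) := by
      apply Continuous.continuousOn; fun_prop
    exact hc.integrableOn_compact hcomp
  have hint' := (integrable_indicator_iff hm).2 hint
  set J : ℝ → ℝ := fun t => ∫ y, (F.Φ ⁻¹' K).indicator (fun p : ℝ × E n => n * p.1 ^ 2 - ‖p.2‖ ^ 2) (t, y)
    with hJ
  have hJint : Integrable J := hint'.integral_prod_left
  have hJeq : ∀ t, J t = ∫ y in F.slice K t, (n * t ^ 2 - ‖y‖ ^ 2) := by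
    intro t
    rw [← integral_indicator (F.isCompact_slice hK.isCompact t).measurableSet]
    refine integral_congr_ae (Filter.Eventually.of_forall fun y => ?_)
    simp only
    by_cases hy : y ∈ F.slice K t
    · rw [indicator_of_mem hy, indicator_of_mem (show (t, y) ∈ F.Φ ⁻¹' K from hy)]
    · rw [indicator_of_notMem hy, indicator_of_notMem (show (t, y) ∉ F.Φ ⁻¹' K from hy)]
  have h2 : ∫ x in K, ((n + 1) * (inner ℝ x e) ^ 2 - ‖x‖ ^ 2) = ∫ s in (-1 : ℝ)..1, J s := by
    rw [h1, ← integral_indicator hm, integral_prod _ hint', intervalIntegral.integral_of_le (by norm_num),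
      ← integral_Icc_eq_integral_Ioc]
    symm
    apply setIntegral_eq_integral_of_forall_compl_eq_zero
    intro t ht
    rw [mem_Icc, ← abs_le, not_le] at ht
    have : F.slice K t = ∅ := by
      ext y
      simp only [mem_empty_iff_false, iff_false]
      intro hy
      have hy' : F.Φ (t, y) ∈ K := hy
      have g1 := le_hs hK.isCompact hy' e
      have g2 := le_hs hK.isCompact (hs' _ hy') e
      rw [inner_neg_left] at g2
      rw [F.inner_Φ he, he1] at g1 g2
      exact absurd (abs_le'.2 ⟨g1, g2⟩) (not_le.2 ht)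
    change J t = 0
    rw [hJeq, this]; simp
  rw [h2, ← intervalIntegral.integral_const_mul]
  -- area facts
  have hrn : ∀ s ∈ Icc (-1 : ℝ) 1, 0 ≤ r s ∧ vol (F.slice K s) = κ n * r s ^ n := by
    intro s hs
    rw [hr s hs, area_eq he F]
    have hA : 0 ≤ vol (F.slice K s) / κ n := div_nonneg (vol_nonneg _) hκ.le
    refine ⟨Real.rpow_nonneg hA _, ?_⟩
    rw [← Real.rpow_natCast, ← Real.rpow_mul hA, one_div, inv_mul_cancel₀ hn0, Real.rpow_one]
    field_simp
  -- measurability and bound of the slice volume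
  have hvm : Measurable fun s : ℝ => vol (F.slice K s) :=
    (measurable_measure_prodMk_left hm).ennreal_toReal
  obtain ⟨V, hV⟩ : ∃ V, ∀ s, vol (F.slice K s) ≤ V := by
    refine ⟨vol (F.shadow K), fun s => vol_mono (F.isCompact_shadow he hK.isCompact) ?_⟩
    intro y hy; exact ⟨s, hy⟩
  set R : ℝ → ℝ := fun s => (vol (F.slice K s) / κ n) ^ ((1 : ℝ) / n) with hR
  have hRm : Measurable R := (hvm.div_const _).pow_const _
  have hRr : ∀ s ∈ Icc (-1 : ℝ) 1, r s = R s := by
    intro s hs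
    rw [hr s hs, area_eq he F]
  have hR0 : ∀ s, 0 ≤ R s := fun s => Real.rpow_nonneg (div_nonneg (vol_nonneg _) hκ.le) _
  have hRb : ∀ s, R s ≤ (V / κ n) ^ ((1 : ℝ) / n) := fun s =>
    Real.rpow_le_rpow (div_nonneg (vol_nonneg _) hκ.le) (by gcongr; exact hV s) (by positivity)
  set M := (V / κ n) ^ ((1 : ℝ) / n) with hM
  have hM0 : 0 ≤ M := (hR0 0).trans (hRb 0)
  have hI : IntervalIntegrable (fun s => s ^ 2 * r s ^ n - r s ^ (n + 2) / (n + 2)) volume (-1) 1 := by
    rw [intervalIntegrable_iff_integrableOn_Icc_of_le (by norm_num)]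
    have hcongr : EqOn (fun s => s ^ 2 * R s ^ n - R s ^ (n + 2) / (n + 2))
        (fun s => s ^ 2 * r s ^ n - r s ^ (n + 2) / (n + 2)) (Icc (-1 : ℝ) 1) := by
      intro s hs
      simp only [hRr s hs]
    refine IntegrableOn.congr_fun ?_ hcongr measurableSet_Icc
    refine Measure.integrableOn_of_bounded (M := 1 * M ^ n + M ^ (n + 2) / (n + 2)) (by simp)
      (by fun_prop) ?_
    filter_upwards [ae_restrict_mem measurableSet_Icc] with s hs
    have e1 : s ^ 2 ≤ 1 := by nlinarith [hs.1, hs.2]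
    have e2 : R s ^ n ≤ M ^ n := pow_le_pow_left₀ (hR0 s) (hRb s) _
    have e3 : R s ^ (n + 2) ≤ M ^ (n + 2) := pow_le_pow_left₀ (hR0 s) (hRb s) _
    have e4 : 0 ≤ R s ^ n := pow_nonneg (hR0 s) _
    have e5 : 0 ≤ R s ^ (n + 2) := pow_nonneg (hR0 s) _
    rw [Real.norm_eq_abs]
    refine (abs_sub _ _).trans ?_
    rw [abs_of_nonneg (by positivity), abs_of_nonneg (by positivity)]
    gcongr
  refine intervalIntegral.integral_mono_on (by norm_num) hJint.intervalIntegrable (hI.const_mul _) ?_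
  intro s hs
  obtain ⟨hr0, hv⟩ := hrn s hs
  have hSc := F.isCompact_slice hK.isCompact s
  have hb := sch_bathtub hn hSc hr0 hv
  rw [hJeq, integral_sub, setIntegral_const]
  · have e2 : volume.real (F.slice K s) = vol (F.slice K s) := rfl
    rw [e2, hv, smul_eq_mul]
    have : κ n * ↑n * (s ^ 2 * r s ^ n - r s ^ (n + 2) / (↑n + 2))
      = κ n * r s ^ n * (↑n * s ^ 2) - κ n * n * (r s ^ (n + 2) / (n + 2)) := by ring
    rw [this]
    linarith
  · exact integrableOn_const (hs := hSc.measure_lt_top.ne)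
  · exact (by fun_prop : Continuous fun y : E n => ‖y‖ ^ 2).continuousOn.integrableOn_compact hSc

theorem sqrt_le_prof (hn : 1 ≤ n) {K : Set (E (n + 1))} (hK : CB K) (hB : Metric.closedBall 0 1 ⊆ K)
    {e : E (n + 1)} (he : ‖e‖ = 1) (s : ℝ) (hs : s ∈ Icc (-1 : ℝ) 1) :
    Real.sqrt (1 - s ^ 2) ≤ (area K e s / κ n) ^ ((1 : ℝ) / n) := by
  obtain ⟨F⟩ := exists_frame e he
  have hκ := κ_pos n
  have hn0 : (n : ℝ) ≠ 0 := by positivity
  have hs2 : 0 ≤ 1 - s ^ 2 := by nlinarith [hs.1, hs.2]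
  have hsub : Metric.closedBall (0 : E n) (Real.sqrt (1 - s ^ 2)) ⊆ F.slice K s := by
    intro y hy
    rw [mem_closedBall_zero_iff, Real.le_sqrt (norm_nonneg _) hs2] at hy
    apply hB
    rw [mem_closedBall_zero_iff]
    have h := F.norm_Φ_sq he (s, y)
    simp only at h
    change ‖F.Φ (s, y)‖ ≤ 1
    nlinarith [norm_nonneg (F.Φ (s, y))]
  have hv := vol_mono (F.isCompact_slice hK.isCompact s) hsub
  rw [vol_closedBall_radius n (Real.sqrt_nonneg _), ← area_eq he F] at hv
  have h1 : Real.sqrt (1 - s ^ 2) ^ n ≤ area K e s / κ n := by rwa [le_div_iff₀ hκ]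
  have h2 := Real.rpow_le_rpow (by positivity) h1 (show (0 : ℝ) ≤ 1 / n by positivity)
  refine le_trans (le_of_eq ?_) h2
  rw [← Real.rpow_natCast (Real.sqrt (1 - s ^ 2)) n, ← Real.rpow_mul (Real.sqrt_nonneg _),
    mul_one_div_cancel hn0, Real.rpow_one]

end Crest.Agent.R230
end

-- ▼ part R230/AssemblyE
section

/-!
# Row 230: the crux `(E)` from the one dimensional statements (assembly)
-/

set_option autoImplicit false

open MeasureTheory Set
open scoped Pointwise ENNReal

namespace Crest.Agent.R230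

variable {n : ℕ}

theorem crux_of_OneD (hn : 2 ≤ n) (h1 : OneD n) : CruxE n := by
  obtain ⟨c, η, hc, hηc, hηv, hηa, hmain⟩ := h1
  intro K hK hsym hE
  have h0 := zero_mem_interior_of_symm hK hsym
  have hvol := hK.vol_pos
  have hn1 : 1 ≤ n := by omega
  obtain ⟨G, hGc, hGint, hG⟩ := lyz hn1 hK h0
  set J : E (n + 1) → ℝ := fun y =>
    ∫ x in K, η (inner ℝ x (nu K y) / gauge K x) (inner ℝ (nu K x) y / gauge K y) with hJ
  have hJi : IntegrableOn J K := swap_integrable hK hsym η hηc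
  have hJn : ∫ y in K, J y ≤ 0 := swap_nonpos hK hsym η hηc hηa
  obtain ⟨C, hC⟩ := norm_nu_le hK h0
  have hGi : IntegrableOn (fun y => G (nu K y)) K := by
    obtain ⟨D, hD⟩ := (isCompact_closedBall (0 : E (n + 1)) C).exists_bound_of_continuousOn hGc.continuousOn
    refine Measure.integrableOn_of_bounded (M := D) hK.isCompact.measure_lt_top.ne
      (hGc.measurable.comp (measurable_nu K)).aestronglyMeasurable ?_
    refine Filter.Eventually.of_forall fun y => hD _ ?_
    simpa using hC y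
  set U : E (n + 1) → ℝ := fun y => c * (1 - G (nu K y) / (n + 1)) + (n + 1) / vol K * J y with hU
  have hUi : IntegrableOn U K := by
    refine Integrable.add ?_ (hJi.const_mul _)
    refine Integrable.const_mul ?_ _
    exact (integrableOn_const (hs := hK.isCompact.measure_lt_top.ne)).sub (hGi.div_const _)
  have hUle : ∫ y in K, U y ≤ 0 := by
    have e1 : ∫ y in K, U y = c * (vol K - (vol K * (n + 1)) / (n + 1)) + (n + 1) / vol K * ∫ y in K, J y := by
      rw [hU]
      have i1 : Integrable (fun _ : E (n + 1) => (1 : ℝ)) (volume.restrict K) :=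
        integrableOn_const (hs := hK.isCompact.measure_lt_top.ne)
      have i2 : Integrable (fun y => 1 - G (nu K y) / (n + 1)) (volume.restrict K) :=
        i1.sub (hGi.div_const _)
      rw [integral_add (i2.const_mul c) (hJi.const_mul _), integral_const_mul, integral_const_mul,
        integral_sub i1 (hGi.div_const _), integral_div, hGint]
      simp [vol, Measure.real]
    rw [e1]
    have e2 : vol K - (vol K * (n + 1)) / (n + 1) = 0 := by field_simp; ring
    rw [e2, mul_zero, zero_add]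
    exact mul_nonpos_of_nonneg_of_nonpos (by positivity) hJn
  -- pointwise comparison
  have hpt : ∀ᵐ y ∂(volume.restrict K), nu K y ≠ 0 ∧ hs K (nu K y) = 1 ∧
      0 ≤ TT n c η (prof K (nu K y)) ∧ TT n c η (prof K (nu K y)) ≤ U y := by
    filter_upwards [ae_good hK hsym] with y hy
    obtain ⟨hy0, hν0, hh, hgy, hEul, hbd⟩ := hy
    have hPr := prof_Prof hn1 hK hsym hν0
    have hN := NleB_prof hn hK hsym hE hν0
    refine ⟨hν0, hh, (hmain _ hPr hN).1, ?_⟩
    have hv1 : inner ℝ (nu K y) ((gauge K y)⁻¹ • y) = 1 := by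
      rw [inner_smul_right, hEul, inv_mul_cancel₀ hgy.ne']
    have hj := jensen hn1 hK hsym hh hv1 (R := 1) le_rfl hbd η hηc hηv
    have hj' : ∫ x in K, η (inner ℝ x (nu K y) / gauge K x) (inner ℝ (nu K x) ((gauge K y)⁻¹ • y)) = J y := by
      rw [hJ]
      simp only [inner_smul_right]
      congr 1
      ext x
      congr 1
      rw [div_eq_inv_mul]
    rw [hj'] at hj
    obtain ⟨hGpos, v, hev, hGv⟩ := hG (nu K y) hν0
    have hbd2 : ∀ᵐ x ∂(volume.restrict K), |inner ℝ (nu K x) v| ≤ max 1 (C * ‖v‖) := by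
      refine Filter.Eventually.of_forall fun x => ?_
      refine (abs_real_inner_le_norm _ _).trans (le_trans ?_ (le_max_right _ _))
      exact mul_le_mul_of_nonneg_right (hC x) (norm_nonneg _)
    have hj2 := jensen hn1 hK hsym hh hev (R := max 1 (C * ‖v‖)) (le_max_left _ _) hbd2 (fun _ p => p ^ 2)
      (by fun_prop) (fun t _ => (Even.convexOn_pow (by decide : Even 2)).subset (subset_univ _) (convex_Icc _ _))
    rw [hGv] at hj2
    have hEPpos := EP_sq_pos hn1 hPr
    have hEPle : EP n (prof K (nu K y)) (fun _ p => p ^ 2) ≤ (G (nu K y))⁻¹ :=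
      le_of_mul_le_mul_left hj2 hvol
    have hF : G (nu K y) / (n + 1) ≤ 1 / ((n + 1) * EP n (prof K (nu K y)) (fun _ p => p ^ 2)) := by
      rw [div_le_div_iff₀ (by positivity) (by positivity)]
      have := mul_le_mul_of_nonneg_left hEPle hGpos.le
      rw [mul_inv_cancel₀ hGpos.ne'] at this
      have h3 : (0 : ℝ) < n + 1 := by positivity
      nlinarith
    have hη2 : (n + 1) * EP n (prof K (nu K y)) η ≤ (n + 1) / vol K * J y := by
      rw [div_mul_eq_mul_div, le_div_iff₀ hvol]
      have h3 : (0 : ℝ) < n + 1 := by positivity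
      nlinarith
    show TT n c η (prof K (nu K y)) ≤ c * (1 - G (nu K y) / (n + 1)) + (n + 1) / vol K * J y
    unfold TT
    have := mul_le_mul_of_nonneg_left (sub_le_sub_left hF 1) hc
    linarith
  have hU0 : U =ᵐ[volume.restrict K] 0 := by
    have hUnn : 0 ≤ᵐ[volume.restrict K] U := by
      filter_upwards [hpt] with y hy
      exact hy.2.2.1.trans hy.2.2.2
    have : ∫ y in K, U y = 0 := le_antisymm hUle (integral_nonneg_of_ae hUnn)
    exact (integral_eq_zero_iff_of_nonneg_ae hUnn hUi).1 this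
  apply ellipsoid_of_second_moment hK h0
  filter_upwards [hpt, hU0] with y hy hy2
  obtain ⟨hν0, hh, hT0, hTU⟩ := hy
  have hT : TT n c η (prof K (nu K y)) = 0 := by
    apply le_antisymm _ hT0
    rw [hy2] at hTU; exact hTU
  obtain ⟨a, ha⟩ := (hmain _ (prof_Prof hn1 hK hsym hν0) (NleB_prof hn hK hsym hE hν0)).2 hT
  have f1 := integral_inner_prof hn1 hK hsym hh (fun s => s ^ 2) (by fun_prop)
  have f2 := integral_inner_prof hn1 hK hsym hh (fun _ => 1) (by fun_prop)
  have g2 : ∫ s in (-1 : ℝ)..1, (1 : ℝ) * prof K (nu K y) s ^ n = a ^ n * w n := by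
    unfold w
    rw [← intervalIntegral.integral_const_mul]
    apply intervalIntegral.integral_congr
    intro s hs
    rw [uIcc_of_le (by norm_num)] at hs
    simp only [ha s hs, mul_pow, one_mul]
  have g1 : ∫ s in (-1 : ℝ)..1, s ^ 2 * prof K (nu K y) s ^ n
      = a ^ n * ∫ s in (-1 : ℝ)..1, s ^ 2 * Real.sqrt (1 - s ^ 2) ^ n := by
    rw [← intervalIntegral.integral_const_mul]
    apply intervalIntegral.integral_congr
    intro s hs
    rw [uIcc_of_le (by norm_num)] at hs
    simp only [ha s hs, mul_pow]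
    ring
  simp only [g1] at f1
  rw [g2] at f2
  have f3 : ∫ x in K, (1 : ℝ) = vol K := by simp [vol, Measure.real]
  rw [f3] at f2
  rw [f1, f2, ← w_moment n]
  ring

/-- the `SDL` route -/
theorem crux_of_SDL (hn : 2 ≤ n) (h1 : SDL n) : CruxE n := by
  intro K0 hK0 hsym0 hE0
  obtain ⟨T, hB, u, hu, hu1, hmom⟩ := john hK0 hsym0
  set K := T '' K0 with hKdef
  have hn1 : 1 ≤ n := by omega
  have hK : CB K := hK0.image T
  have hsym : ∀ x ∈ K, -x ∈ K := by
    rintro _ ⟨x, hx, rfl⟩
    exact ⟨-x, hsym0 x hx, by simp⟩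
  have hE : HypE K := HypE_image hn hK0 hE0 T
  have hu0 : u ≠ 0 := by rintro rfl; simp at hu
  set r : ℝ → ℝ := fun s => (area K u s / κ n) ^ ((1 : ℝ) / n) with hr
  have hκ := κ_pos n
  -- r is a multiple of prof K u
  have hrp : ∀ s, r s = (κ n ^ ((1 : ℝ) / n))⁻¹ * prof K u s := by
    intro s
    have hA : 0 ≤ area K u s := ENNReal.toReal_nonneg
    simp only [hr, prof, hu, inv_one, one_smul, hu1, mul_one]
    rw [Real.div_rpow hA hκ.le, div_eq_inv_mul]
  set lam := (κ n ^ ((1 : ℝ) / n))⁻¹ with hlam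
  have hlampos : 0 < lam := by positivity
  have hP := prof_Prof hn1 hK hsym hu0
  have hrP : Prof r := by
    have hre : r = fun s => lam * prof K u s := funext hrp
    rw [hre]
    refine ⟨hP.conc.smul hlampos.le, ?_, ?_, hP.cont.const_smul lam⟩
    · intro s hs; simp only [hP.even s hs]
    · intro s hs; exact mul_pos hlampos (hP.pos s hs)
  have hmomr : ∀ k, mom k r = lam ^ k * mom k (prof K u) := by
    intro k
    unfold mom
    rw [← intervalIntegral.integral_const_mul]
    congr 1; ext s; rw [hrp, mul_pow]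
  have hrN : NleB n r := by
    have := NleB_prof hn hK hsym hE hu0
    unfold NleB at this ⊢
    rw [hmomr, hmomr, mul_pow, mul_pow, ← pow_mul, ← pow_mul]
    have e1 : (n - 1) * n = n * (n - 1) := Nat.mul_comm _ _
    rw [e1]
    have := mul_le_mul_of_nonneg_left this (pow_nonneg hlampos.le (n * (n - 1)))
    linarith
  have hC : 0 ≤ ∫ s in (-1 : ℝ)..1, (s ^ 2 * r s ^ n - r s ^ (n + 2) / (n + 2)) := by
    have h2 := schwarz_moment hn1 hK hsym hu hu1 r (fun s _ => rfl)
    have h3 := hmom.trans h2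
    have h4 : 0 < κ n * n := by
      have : (0 : ℝ) < n := by exact_mod_cast (by omega : 0 < n)
      positivity
    by_contra hneg
    push Not at hneg
    have := mul_neg_of_pos_of_neg h4 hneg
    linarith
  have heq := h1 r hrP (fun s hs => sqrt_le_prof hn1 hK hB hu s hs) hrN hC
  -- volume of K is that of the ball
  have hV : vol K = κ (n + 1) := by
    have f2 := integral_inner_prof hn1 hK hsym hu1 (fun _ => 1) (by fun_prop)
    have f3 : ∫ x in K, (1 : ℝ) = vol K := by simp [vol, Measure.real]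
    rw [f3] at f2
    simp only [hu, inv_one, one_smul, hu1, one_mul] at f2
    rw [f2, κ_succ]
    unfold w
    rw [← intervalIntegral.integral_const_mul]
    apply intervalIntegral.integral_congr
    intro s hs
    rw [uIcc_of_le (by norm_num)] at hs
    have h5 := heq s hs
    rw [hrp] at h5
    have h6 : prof K u s = κ n ^ ((1 : ℝ) / n) * Real.sqrt (1 - s ^ 2) := by
      rw [← h5, hlam]; field_simp
    simp only [h6, mul_pow]
    rw [← Real.rpow_natCast (κ n ^ ((1 : ℝ) / n)), ← Real.rpow_mul hκ.le]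
    rw [one_div, inv_mul_cancel₀ (by positivity), Real.rpow_one]
  have hKB : K = Metric.closedBall 0 1 := by
    refine Subset.antisymm ?_ hB
    by_contra hne
    rw [not_subset] at hne
    obtain ⟨x, hxK, hxB⟩ := hne
    -- an open subset of K outside the ball
    have hopen : ((Metric.closedBall (0 : E (n + 1)) 1)ᶜ ∩ interior K).Nonempty := by
      have h7 : x ∈ closure (interior K) := by
        rw [hK.convex.closure_interior_eq_closure_of_nonempty_interior hK.interior_nonempty]
        exact subset_closure hxK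
      exact mem_closure_iff.1 h7 _ Metric.isClosed_closedBall.isOpen_compl hxB
    have h8 : 0 < volume ((Metric.closedBall (0 : E (n + 1)) 1)ᶜ ∩ interior K) :=
      ((Metric.isClosed_closedBall.isOpen_compl).inter isOpen_interior).measure_pos volume hopen
    have h9 : volume (Metric.closedBall (0 : E (n + 1)) 1) + volume ((Metric.closedBall (0 : E (n + 1)) 1)ᶜ ∩ interior K)
        ≤ volume K := by
      rw [← measure_union (by
        rw [Set.disjoint_left]; intro y hy hy2; exact hy2.1 hy)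
        ((Metric.isClosed_closedBall.isOpen_compl).inter isOpen_interior).measurableSet]
      exact measure_mono (union_subset hB (inter_subset_right.trans interior_subset))
    have hball := vol_closedBall (n + 1)
    have hvb : volume K = volume (Metric.closedBall (0 : E (n + 1)) 1) := by
      rw [← ENNReal.toReal_eq_toReal_iff' hK.isCompact.measure_lt_top.ne measure_closedBall_lt_top.ne]
      exact hV.trans hball.symm
    rw [hvb] at h9
    have h10 : volume (Metric.closedBall (0 : E (n + 1)) 1) ≠ ∞ := measure_closedBall_lt_top.ne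
    have h11 := ENNReal.lt_add_right h10 h8.ne'
    exact absurd h9 (not_le.2 h11)
  refine ⟨T.symm, ?_⟩
  rw [← hKB, hKdef, ← image_comp]
  simp

end Crest.Agent.R230
end

-- ▼ part R230/SDL2
section

/-!
# Row 230: `SDL 2`
-/

set_option autoImplicit false
set_option maxHeartbeats 1000000

open MeasureTheory Set Filter Topology Real

namespace Crest.Agent.R230

open SD in
theorem sdl_two : SDL 2 := by
  intro r hr hge hN hM
  have hc := ext_cont hr
  have hmain := main3 hr hge
  set I1 := ∫ s in (0 : ℝ)..1, ext r s ^ 1 with hI1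
  set I2 := ∫ s in (0 : ℝ)..1, ext r s ^ 2 with hI2
  set J := ∫ s in (0 : ℝ)..1, (s ^ 2 * ext r s ^ 2 - ext r s ^ 4 / 4) with hJ
  have hD : ∫ s in (0 : ℝ)..1, (ext r s - √(1 - s ^ 2)) = I1 - π / 4 := by
    rw [intervalIntegral.integral_sub (hc.intervalIntegrable _ _)
      ((by fun_prop : Continuous fun s : ℝ => √(1 - s ^ 2)).intervalIntegrable _ _)]
    have hI := int_sqrt (α := π / 2) (by positivity) le_rfl
    rw [Real.sin_pi_div_two, Real.cos_pi_div_two] at hI
    rw [hI, hI1]
    simp only [pow_one]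
    ring
  have hV : ∫ s in (0 : ℝ)..1, PV3 s (ext r s) = 3 / 2 * I2 + 3 / 4 * J := by
    have e : ∀ s : ℝ, PV3 s (ext r s) =
        3 / 2 * ext r s ^ 2 + 3 / 4 * (s ^ 2 * ext r s ^ 2 - ext r s ^ 4 / 4) := by
      intro s; unfold PV3; ring
    simp only [e]
    rw [intervalIntegral.integral_add
      ((by fun_prop : Continuous fun s : ℝ => 3 / 2 * ext r s ^ 2).intervalIntegrable _ _)
      ((by fun_prop : Continuous fun s : ℝ =>
        3 / 4 * (s ^ 2 * ext r s ^ 2 - ext r s ^ 4 / 4)).intervalIntegrable _ _),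
      intervalIntegral.integral_const_mul, intervalIntegral.integral_const_mul]
  have hJ0 : 0 ≤ J := by
    have e1 : ∫ s in (-1 : ℝ)..1, (s ^ 2 * r s ^ 2 - r s ^ (2 + 2) / (((2 : ℕ) : ℝ) + 2)) =
        ∫ s in (-1 : ℝ)..1, (s ^ 2 * ext r s ^ 2 - ext r s ^ 4 / 4) := by
      apply intervalIntegral.integral_congr
      intro s hs
      rw [uIcc_of_le (by norm_num)] at hs
      simp only [ext_eq hs]
      norm_num
    rw [e1, even_int (by fun_prop)] at hM
    · linarith
    · intro s hs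
      rw [ext_even hr hs]; ring
  have hm1 : mom 1 r = 2 * I1 := mom_eq hr 1
  have hm2 : mom 2 r = 2 * I2 := mom_eq hr 2
  have hN' : (2 * I1) ^ 2 * (4 / 3) ≤ (π / 2) ^ 2 * (2 * I2) := by
    have := hN
    unfold NleB at this
    simp only [show 2 - 1 = 1 from rfl, hm1, hm2, w_two, w_one] at this
    linarith
  have hI1n : 0 ≤ I1 := intervalIntegral.integral_nonneg zero_le_one fun s _ =>
    pow_nonneg (ext_nonneg hge s) 1
  have hpi := Real.pi_pos
  have e3 : 1 + 4 / π * (I1 - π / 4) = 4 / π * I1 := by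
    field_simp
    ring
  rw [hD, hV, e3] at hmain
  have hkey : (4 / π * I1) ^ 2 ≤ 3 / 2 * I2 := by
    have : (4 / π * I1) ^ 2 = 16 * I1 ^ 2 / π ^ 2 := by
      field_simp
      ring
    rw [this, div_le_iff₀ (by positivity)]
    nlinarith
  have hD0 : I1 - π / 4 ≤ 0 := by
    have h1 : 4 / π * (I1 - π / 4) ≤ 0 := by linarith
    by_contra h
    push Not at h
    have : 0 < 4 / π * (I1 - π / 4) := by positivity
    linarith
  have hz := zero_of_int (f := fun s => ext r s - √(1 - s ^ 2)) (by fun_prop) ?_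
    (by rw [hD]; exact hD0)
  · have key : ∀ s ∈ Icc (0 : ℝ) 1, r s = √(1 - s ^ 2) := by
      intro s hs
      have hs' : s ∈ Icc (-1 : ℝ) 1 := ⟨by linarith [hs.1], hs.2⟩
      have h1 := hz s hs
      simp only [ext_eq hs'] at h1
      linarith
    intro s hs
    rcases le_total 0 s with h0 | h0
    · exact key s ⟨h0, hs.2⟩
    · have h1 := key (-s) ⟨by linarith, by linarith [hs.1]⟩
      rw [hr.even s hs] at h1
      rw [h1]; congr 1; ring
  · intro s hs
    have hs' : s ∈ Icc (-1 : ℝ) 1 := ⟨by linarith [hs.1], hs.2⟩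
    simp only [ext_eq hs']
    linarith [hge s hs']

end Crest.Agent.R230
end

-- ▼ part R230/SDL3

/-!
# Row 230: `SDL 3`
-/

set_option autoImplicit false
set_option maxHeartbeats 1000000

open MeasureTheory Set Filter Topology Real

namespace Crest.Agent.R230

open SD in
theorem sdl_three : SDL 3 := by
  intro r hr hge hN hM
  have hc := ext_cont hr
  have hmain := main4 hr hge
  -- `D`
  set I2 := ∫ s in (0 : ℝ)..1, ext r s ^ 2 with hI2
  set I3 := ∫ s in (0 : ℝ)..1, ext r s ^ 3 with hI3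
  set J := ∫ s in (0 : ℝ)..1, (s ^ 2 * ext r s ^ 3 - ext r s ^ 5 / 5) with hJ
  have hD : ∫ s in (0 : ℝ)..1, 3 / 2 * (ext r s ^ 2 - (1 - s ^ 2)) = 3 / 2 * I2 - 1 := by
    have e : ∀ s : ℝ, 3 / 2 * (ext r s ^ 2 - (1 - s ^ 2)) =
        3 / 2 * ext r s ^ 2 - (3 / 2 - 3 / 2 * s ^ 2) := by
      intro s; ring
    simp only [e]
    rw [intervalIntegral.integral_sub
      ((by fun_prop : Continuous fun s : ℝ => 3 / 2 * ext r s ^ 2).intervalIntegrable _ _)
      ((by fun_prop : Continuous fun s : ℝ => 3 / 2 - 3 / 2 * s ^ 2).intervalIntegrable _ _),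
      intervalIntegral.integral_const_mul,
      intervalIntegral.integral_sub (by simp)
        ((by fun_prop : Continuous fun s : ℝ => 3 / 2 * s ^ 2).intervalIntegrable _ _),
      intervalIntegral.integral_const, intervalIntegral.integral_const_mul, integral_pow]
    simp only [smul_eq_mul]
    push_cast
    ring
  have hV : ∫ s in (0 : ℝ)..1, 16 / π * PV4 s (ext r s) = 16 / π * (I3 / 3 + J / 6) := by
    rw [intervalIntegral.integral_const_mul]
    congr 1
    have e : ∀ s : ℝ, PV4 s (ext r s) =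
        1 / 3 * ext r s ^ 3 + 1 / 6 * (s ^ 2 * ext r s ^ 3 - ext r s ^ 5 / 5) := by
      intro s; unfold PV4; ring
    simp only [e]
    rw [intervalIntegral.integral_add
      ((by fun_prop : Continuous fun s : ℝ => 1 / 3 * ext r s ^ 3).intervalIntegrable _ _)
      ((by fun_prop : Continuous fun s : ℝ =>
        1 / 6 * (s ^ 2 * ext r s ^ 3 - ext r s ^ 5 / 5)).intervalIntegrable _ _),
      intervalIntegral.integral_const_mul, intervalIntegral.integral_const_mul]
    ring
  have hJ0 : 0 ≤ J := by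
    have e1 : ∫ s in (-1 : ℝ)..1, (s ^ 2 * r s ^ 3 - r s ^ (3 + 2) / (((3 : ℕ) : ℝ) + 2)) =
        ∫ s in (-1 : ℝ)..1, (s ^ 2 * ext r s ^ 3 - ext r s ^ 5 / 5) := by
      apply intervalIntegral.integral_congr
      intro s hs
      rw [uIcc_of_le (by norm_num)] at hs
      simp only [ext_eq hs]
      norm_num
    rw [e1, even_int (by fun_prop)] at hM
    · linarith
    · intro s hs
      rw [ext_even hr hs]; ring
  have hm2 : mom 2 r = 2 * I2 := mom_eq hr 2
  have hm3 : mom 3 r = 2 * I3 := mom_eq hr 3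
  have hN' : (2 * I2) ^ 3 * (3 * π / 8) ^ 2 ≤ (4 / 3) ^ 3 * (2 * I3) ^ 2 := by
    have := hN
    unfold NleB at this
    simp only [show 3 - 1 = 2 from rfl, hm2, hm3, w_two, w_three] at this
    exact this
  have hI3 : 0 ≤ I3 := intervalIntegral.integral_nonneg zero_le_one fun s _ =>
    pow_nonneg (ext_nonneg hge s) 3
  have hI2 : 0 ≤ I2 := intervalIntegral.integral_nonneg zero_le_one fun s _ =>
    pow_nonneg (ext_nonneg hge s) 2
  rw [hD, hV, show 1 + (3 / 2 * I2 - 1) = 3 / 2 * I2 by ring] at hmain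
  have hpi := Real.pi_pos
  have hkey : 3 / 2 * I2 * √(3 / 2 * I2) ≤ 16 / π * (I3 / 3) := by
    have h1 : (3 / 2 * I2 * √(3 / 2 * I2)) ^ 2 ≤ (16 / π * (I3 / 3)) ^ 2 := by
      rw [mul_pow, Real.sq_sqrt (by positivity)]
      have e2 : (16 / π * (I3 / 3)) ^ 2 = (256 / 9) * I3 ^ 2 / π ^ 2 := by
        field_simp
        ring
      rw [e2, le_div_iff₀ (by positivity)]
      nlinarith
    exact (abs_le_of_sq_le_sq' h1 (by positivity)).2
  have hD0 : 3 / 2 * I2 - 1 ≤ 0 := by
    have h1 : 16 / π * (I3 / 3 + J / 6) = 16 / π * (I3 / 3) + 16 / π * (J / 6) := by ring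
    have h2 : 0 ≤ 16 / π * (J / 6) := by positivity
    linarith
  have hz := zero_of_int (f := fun s => 3 / 2 * (ext r s ^ 2 - (1 - s ^ 2))) (by fun_prop) ?_
    (by rw [hD]; exact hD0)
  · have key : ∀ s ∈ Icc (0 : ℝ) 1, r s = √(1 - s ^ 2) := by
      intro s hs
      have hs' : s ∈ Icc (-1 : ℝ) 1 := ⟨by linarith [hs.1], hs.2⟩
      have h1 := hz s hs
      simp only [ext_eq hs'] at h1
      have h2 : r s ^ 2 = 1 - s ^ 2 := by linarith
      rw [← h2, Real.sqrt_sq ((Real.sqrt_nonneg _).trans (hge s hs'))]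
    intro s hs
    rcases le_total 0 s with h0 | h0
    · exact key s ⟨h0, hs.2⟩
    · have h1 := key (-s) ⟨by linarith, by linarith [hs.1]⟩
      rw [hr.even s hs] at h1
      rw [h1]; congr 1; ring
  · intro s hs
    have hs' : s ∈ Icc (-1 : ℝ) 1 := ⟨by linarith [hs.1], hs.2⟩
    simp only [ext_eq hs']
    have h1 := hge s hs'
    have h3 : √(1 - s ^ 2) ^ 2 = 1 - s ^ 2 := Real.sq_sqrt (by nlinarith [hs.1, hs.2])
    have h4 : √(1 - s ^ 2) ^ 2 ≤ r s ^ 2 := by
      have := Real.sqrt_nonneg (1 - s ^ 2)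
      gcongr
    linarith

end Crest.Agent.R230
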