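import Crest.Agent.R230.Apriori
import Crest.Agent.R230.Cyl90
import Crest.Agent.R230.ConeCmp
import Crest.Agent.R230.Kappa6

-- ▼ part R230/APLin
section

/-!
Exact extremal principle for the a-priori bound of `tau n r s` (helper941, after helper91):
every concave profile is dominated, at fixed masses of `[0,t]` and `[t,1]`, by a truncated linear one.
-/

set_option autoImplicit false

open MeasureTheory Set Filter Topology

namespace Crest.Agent.R230

open Tr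

/-- mean of the first `k` powers of `q` -/
noncomputable def SA (k : ℕ) (q : ℝ) : ℝ := (∑ j ∈ Finset.range k, q ^ j) / k

lemma SA_one (k : ℕ) (hk : 1 ≤ k) : SA k 1 = 1 := by
  have : (k : ℝ) ≠ 0 := by positivity
  simp [SA, this]

lemma SA_pos (k : ℕ) (hk : 1 ≤ k) {q : ℝ} (hq : 0 ≤ q) : 0 < SA k q := by
  have hk' : (0 : ℝ) < k := by exact_mod_cast hk
  refine div_pos ?_ hk'
  have h0 : (0 : ℕ) ∈ Finset.range k := Finset.mem_range.2 hk
  have : (1 : ℝ) = ∑ j ∈ Finset.range k, if j = 0 then (1 : ℝ) else 0 := by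
    rw [Finset.sum_ite_eq' ]; simp [h0]
  have h2 : (∑ j ∈ Finset.range k, if j = 0 then (1 : ℝ) else 0) ≤ ∑ j ∈ Finset.range k, q ^ j := by
    refine Finset.sum_le_sum fun j _ => ?_
    split_ifs with h
    · simp [h]
    · positivity
  linarith

lemma one_sub_mul_SA (k : ℕ) (q : ℝ) : (1 - q) * SA k q = (1 - q ^ k) / k := by
  have h := geom_sum_mul q k
  unfold SA
  rw [mul_div_assoc']
  congr 1
  linarith

lemma amgm2 (k : ℕ) {x y : ℝ} (hx : 0 ≤ x) (hy : 0 ≤ y) :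
    ((k : ℝ) + 1) * (x * y ^ k) ≤ x ^ (k + 1) + k * y ^ (k + 1) := by
  induction k with
  | zero => simp
  | succ k ih =>
    have h1 := mul_le_mul_of_nonneg_right ih hy
    have h2 : 0 ≤ (x - y) * (x ^ (k + 1) - y ^ (k + 1)) := by
      rcases le_total x y with h | h
      · exact mul_nonneg_of_nonpos_of_nonpos (by linarith)
          (by linarith [pow_le_pow_left₀ hx h (k + 1)])
      · exact mul_nonneg (by linarith) (by linarith [pow_le_pow_left₀ hy h (k + 1)])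
    push_cast
    have e1 : (x - y) * (x ^ (k + 1) - y ^ (k + 1)) =
        x ^ (k + 1 + 1) - x * y ^ (k + 1) - x ^ (k + 1) * y + y ^ (k + 1 + 1) := by ring
    have e2 : ((k : ℝ) + 1) * (x * y ^ k) * y = ((k : ℝ) + 1) * (x * y ^ (k + 1)) := by ring
    have e3 : (x ^ (k + 1) + k * y ^ (k + 1)) * y = x ^ (k + 1) * y + k * y ^ (k + 1 + 1) := by ring
    rw [e2, e3] at h1
    rw [e1] at h2
    linarith

lemma apl_psi_mono (k : ℕ) {ρ x y : ℝ} (hx : 0 ≤ x) (hy : 0 ≤ y)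
    (h : (ρ ≤ x ∧ x ≤ y) ∨ (y ≤ x ∧ x ≤ ρ)) :
    ((k : ℝ) + 1) * ρ * y ^ k - k * y ^ (k + 1) ≤ ((k : ℝ) + 1) * ρ * x ^ k - k * x ^ (k + 1) := by
  have h1 := amgm2 k hx hy
  have h2 : 0 ≤ (ρ - x) * (x ^ k - y ^ k) := by
    rcases h with ⟨ha, hb⟩ | ⟨ha, hb⟩
    · exact mul_nonneg_of_nonpos_of_nonpos (by linarith)
        (by linarith [pow_le_pow_left₀ hx hb k])
    · exact mul_nonneg (by linarith) (by linarith [pow_le_pow_left₀ hy ha k])
  have h3 : 0 ≤ ((k : ℝ) + 1) * ((ρ - x) * (x ^ k - y ^ k)) := mul_nonneg (by positivity) h2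
  have e : ((k : ℝ) + 1) * ρ * x ^ k - k * x ^ (k + 1) -
      (((k : ℝ) + 1) * ρ * y ^ k - k * y ^ (k + 1)) =
      ((k : ℝ) + 1) * ((ρ - x) * (x ^ k - y ^ k)) +
        (x ^ (k + 1) + k * y ^ (k + 1) - ((k : ℝ) + 1) * (x * y ^ k)) := by ring
  linarith

lemma apl_psi_int (k : ℕ) {f g : ℝ → ℝ} {x y ρ : ℝ} (hxy : x ≤ y)
    (hf : IntervalIntegrable (fun u => f u ^ k) volume x y)
    (hf' : IntervalIntegrable (fun u => f u ^ (k + 1)) volume x y)
    (hg : IntervalIntegrable (fun u => g u ^ k) volume x y)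
    (hg' : IntervalIntegrable (fun u => g u ^ (k + 1)) volume x y)
    (h : ∀ u ∈ Icc x y, ((k : ℝ) + 1) * ρ * g u ^ k - k * g u ^ (k + 1) ≤
      ((k : ℝ) + 1) * ρ * f u ^ k - k * f u ^ (k + 1)) :
    ((k : ℝ) + 1) * ρ * (∫ u in x..y, g u ^ k) - k * (∫ u in x..y, g u ^ (k + 1)) ≤
      ((k : ℝ) + 1) * ρ * (∫ u in x..y, f u ^ k) - k * ∫ u in x..y, f u ^ (k + 1) := by
  have := intervalIntegral.integral_mono_on hxy ((hg.const_mul (((k : ℝ) + 1) * ρ)).sub (hg'.const_mul (k : ℝ)))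
    ((hf.const_mul (((k : ℝ) + 1) * ρ)).sub (hf'.const_mul (k : ℝ))) h
  rwa [intervalIntegral.integral_sub (hg.const_mul _) (hg'.const_mul _),
    intervalIntegral.integral_sub (hf.const_mul _) (hf'.const_mul _),
    intervalIntegral.integral_const_mul, intervalIntegral.integral_const_mul,
    intervalIntegral.integral_const_mul, intervalIntegral.integral_const_mul] at this

/-- integral of a power of an affine function -/
lemma int_line_SA (k : ℕ) {B β t x y e : ℝ} (hA : B - β * (x - t) ≠ 0)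
    (he : (B - β * (x - t)) * e = B - β * (y - t)) :
    ∫ u in x..y, (B - β * (u - t)) ^ k = (y - x) * (B - β * (x - t)) ^ k * SA (k + 1) e := by
  rcases eq_or_ne β 0 with h | h
  · subst h
    have hB : B ≠ 0 := by simpa using hA
    have he1 : e = 1 := by
      have : B * e = B * 1 := by simpa using he
      exact mul_left_cancel₀ hB this
    rw [he1, SA_one _ (by omega)]
    simp
  · have hn : (k : ℝ) + 1 ≠ 0 := by positivity
    have hd : ∀ u ∈ uIcc x y, HasDerivAt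
        (fun u => -(B - β * (u - t)) ^ (k + 1) / ((k + 1) * β)) ((B - β * (u - t)) ^ k) u := by
      intro u _
      have h1 : HasDerivAt (fun u => B - β * (u - t)) (-β) u := by
        have := (((hasDerivAt_id u).sub_const t).const_mul β).const_sub B
        exact this.congr_deriv (by simp)
      have h2 := ((h1.fun_pow (k + 1)).fun_neg).div_const (((k : ℝ) + 1) * β)
      refine h2.congr_deriv ?_
      simp only [Nat.add_sub_cancel]
      push_cast
      field_simp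
    rw [intervalIntegral.integral_eq_sub_of_hasDerivAt hd
      (Continuous.intervalIntegrable (by fun_prop) _ _), ← he]
    set A := B - β * (x - t) with hAdef
    have h3 := one_sub_mul_SA (k + 1) e
    have h4 : A * (1 - e) = β * (y - x) := by
      have : A - A * e = β * (y - x) := by rw [he, hAdef]; ring
      linarith
    have h5 : (y - x) = A * (1 - e) / β := by rw [h4]; field_simp
    rw [h5]
    have h6 : A * (1 - e) / β * A ^ k * SA (k + 1) e = A ^ (k + 1) / β * ((1 - e) * SA (k + 1) e) := by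
      ring
    rw [h6, h3]
    push_cast
    field_simp
    ring

theorem trunc_exists {r : ℝ → ℝ} (hr : Prof r) {K : ℕ} (hK : 1 ≤ K) {t : ℝ}
    (ht : t ∈ Ioo (0 : ℝ) 1) :
    ∃ β R : ℝ, 0 ≤ β ∧ t ≤ R ∧ R ≤ 1 ∧ 0 ≤ r t - β * (R - t) ∧
      ∫ u in (0 : ℝ)..t, (r t - β * (u - t)) ^ (K + 1) = ∫ u in (0 : ℝ)..t, r u ^ (K + 1) ∧
      ∫ u in t..R, (r t - β * (u - t)) ^ (K + 1) = ∫ u in t..1, r u ^ (K + 1) ∧
      ∫ u in (0 : ℝ)..R, (r t - β * (u - t)) ^ K ≤ ∫ u in (0 : ℝ)..1, r u ^ K := by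
  have htI : t ∈ Icc (-1 : ℝ) 1 := ⟨by linarith [ht.1], ht.2.le⟩
  have h0I : (0 : ℝ) ∈ Icc (-1 : ℝ) 1 := by norm_num
  have h1I : (1 : ℝ) ∈ Icc (-1 : ℝ) 1 := by norm_num
  have hB : 0 < r t := hr.pos t ⟨by linarith [ht.1], ht.2⟩
  obtain ⟨β₀, hβ₀, hline⟩ := prof_support hr ht
  set B := r t with hBdef
  -- IVT for β
  have hF : Continuous (fun β : ℝ => ∫ u in (0 : ℝ)..t, (B - β * (u - t)) ^ (K + 1)) := by
    apply intervalIntegral.continuous_parametric_intervalIntegral_of_continuous'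
    fun_prop
  have h0 : ∫ u in (0 : ℝ)..t, (B - 0 * (u - t)) ^ (K + 1) ≤ ∫ u in (0 : ℝ)..t, r u ^ (K + 1) := by
    have := le_integral_left hr (K + 1) (x := t) ⟨ht.1.le, ht.2.le⟩
    simpa using this
  have h1 : ∫ u in (0 : ℝ)..t, r u ^ (K + 1) ≤ ∫ u in (0 : ℝ)..t, (B - β₀ * (u - t)) ^ (K + 1) := by
    refine intervalIntegral.integral_mono_on ht.1.le (prof_intervalIntegrable hr _ h0I htI)
      (Continuous.intervalIntegrable (by fun_prop) _ _) ?_
    intro u hu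
    have hu' : u ∈ Icc (-1 : ℝ) 1 := ⟨by linarith [hu.1], by linarith [hu.2, ht.2]⟩
    exact pow_le_pow_left₀ (hr.nonneg' hu') (hline u hu') _
  obtain ⟨β, hβ, hβe⟩ := intermediate_value_Icc hβ₀ hF.continuousOn ⟨h0, h1⟩
  simp only at hβe
  have hcl : ∀ k : ℕ, Continuous (fun u : ℝ => (B - β * (u - t)) ^ k) := fun k => by fun_prop
  have hil : ∀ (k : ℕ) (a b : ℝ), IntervalIntegrable (fun u : ℝ => (B - β * (u - t)) ^ k) volume a b :=
    fun k a b => (hcl k).intervalIntegrable _ _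
  -- r ≤ ℓ on [t,1]
  have hright : ∀ u ∈ Icc t 1, r u ≤ B - β * (u - t) := by
    intro u hu
    have h2 := hline u ⟨by linarith [hu.1, ht.1], hu.2⟩
    have h3 : β * (u - t) ≤ β₀ * (u - t) := mul_le_mul_of_nonneg_right hβ.2 (by linarith [hu.1])
    linarith
  have hrnn : ∀ u ∈ Icc (0 : ℝ) 1, 0 ≤ r u := fun u hu => hr.nonneg' ⟨by linarith [hu.1], hu.2⟩
  have hlnn : ∀ u ∈ Icc (0 : ℝ) 1, 0 ≤ B - β * (u - t) := by
    intro u hu
    have h2 := hright 1 ⟨ht.2.le, le_rfl⟩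
    have h3 := hrnn 1 (by norm_num)
    have h4 : β * (u - t) ≤ β * (1 - t) := mul_le_mul_of_nonneg_left (by linarith [hu.2]) hβ.1
    linarith
  -- IVT for R
  have hG : Continuous (fun x : ℝ => ∫ u in t..x, (B - β * (u - t)) ^ (K + 1)) :=
    intervalIntegral.continuous_primitive (hil (K + 1)) t
  have hG0 : (∫ u in t..t, (B - β * (u - t)) ^ (K + 1)) ≤ ∫ u in t..1, r u ^ (K + 1) := by
    rw [intervalIntegral.integral_same]
    exact intervalIntegral.integral_nonneg ht.2.le fun u hu =>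
      pow_nonneg (hrnn u ⟨by linarith [hu.1, ht.1], hu.2⟩) _
  have hG1 : ∫ u in t..1, r u ^ (K + 1) ≤ ∫ u in t..1, (B - β * (u - t)) ^ (K + 1) := by
    refine intervalIntegral.integral_mono_on ht.2.le (prof_intervalIntegrable hr _ htI h1I)
      (hil _ _ _) ?_
    intro u hu
    exact pow_le_pow_left₀ (hrnn u ⟨by linarith [hu.1, ht.1], hu.2⟩) (hright u hu) _
  obtain ⟨R, hR, hRe⟩ := intermediate_value_Icc ht.2.le hG.continuousOn ⟨hG0, hG1⟩
  simp only at hRe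
  have hR0 : R ∈ Icc (0 : ℝ) 1 := ⟨by linarith [hR.1, ht.1], hR.2⟩
  have hRI : R ∈ Icc (-1 : ℝ) 1 := ⟨by linarith [hR.1, ht.1], hR.2⟩
  refine ⟨β, R, hβ.1, hR.1, hR.2, hlnn R hR0, hβe, hRe, ?_⟩
  -- left crossing
  have hleft : ∫ u in (0 : ℝ)..t, (B - β * (u - t)) ^ K ≤ ∫ u in (0 : ℝ)..t, r u ^ K := by
    have hcg : ContinuousOn (fun u => r u - (B - β * (u - t))) (Icc 0 t) := by
      refine ContinuousOn.sub (hr.cont.mono ?_) (by fun_prop)
      intro u hu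
      exact ⟨by linarith [hu.1], by linarith [hu.2, ht.2]⟩
    have hcomp : IsCompact (Icc (0 : ℝ) t ∩ (fun u => r u - (B - β * (u - t))) ⁻¹' Ici 0) :=
      isCompact_Icc.of_isClosed_subset (hcg.preimage_isClosed_of_isClosed isClosed_Icc isClosed_Ici)
        inter_subset_left
    have hne : (Icc (0 : ℝ) t ∩ (fun u => r u - (B - β * (u - t))) ⁻¹' Ici 0).Nonempty :=
      ⟨t, ⟨ht.1.le, le_rfl⟩, by simp [← hBdef]⟩
    obtain ⟨a, ha⟩ := hcomp.exists_isLeast hne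
    have haI : a ∈ Icc (0 : ℝ) t := ha.1.1
    have hag : B - β * (a - t) ≤ r a := by
      have : 0 ≤ r a - (B - β * (a - t)) := ha.1.2
      linarith
    have hρ : B ≤ r a := hr.antitoneOn_right ⟨haI.1, by linarith [haI.2, ht.2]⟩ ⟨ht.1.le, ht.2.le⟩ haI.2
    have hpt : ∀ u ∈ Icc (0 : ℝ) t, ((K : ℝ) + 1) * r a * (B - β * (u - t)) ^ K -
        K * (B - β * (u - t)) ^ (K + 1) ≤
        ((K : ℝ) + 1) * r a * r u ^ K - K * r u ^ (K + 1) := by
      intro u hu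
      have hu1 : u ∈ Icc (0 : ℝ) 1 := ⟨hu.1, by linarith [hu.2, ht.2]⟩
      have ha1 : a ∈ Icc (0 : ℝ) 1 := ⟨haI.1, by linarith [haI.2, ht.2]⟩
      refine apl_psi_mono K (hrnn u hu1) (hlnn u hu1) ?_
      rcases lt_or_ge u a with hua | hua
      · left
        refine ⟨hr.antitoneOn_right hu1 ha1 hua.le, ?_⟩
        by_contra hcon
        push Not at hcon
        have : a ≤ u := ha.2 ⟨hu, by
          show (0 : ℝ) ≤ r u - (B - β * (u - t))
          linarith⟩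
        linarith
      · right
        refine ⟨?_, hr.antitoneOn_right ha1 hu1 hua⟩
        rcases hu.2.eq_or_lt with hut | hut
        · rw [hut]; simp [← hBdef]
        · have hta : 0 < t - a := by linarith
          have hc := hr.conc.2 (show a ∈ Icc (-1 : ℝ) 1 from ⟨by linarith [haI.1], ha1.2⟩) htI
            (show 0 ≤ (t - u) / (t - a) from div_nonneg (by linarith) hta.le)
            (show 0 ≤ (u - a) / (t - a) from div_nonneg (by linarith) hta.le)
            (by field_simp; ring)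
          simp only [smul_eq_mul] at hc
          have e1 : (t - u) / (t - a) * a + (u - a) / (t - a) * t = u := by
            field_simp; ring
          rw [e1, ← hBdef] at hc
          have e2 : (t - u) / (t - a) * (B - β * (a - t)) + (u - a) / (t - a) * B =
              B - β * (u - t) := by
            field_simp; ring
          have h5 : (t - u) / (t - a) * (B - β * (a - t)) ≤ (t - u) / (t - a) * r a :=
            mul_le_mul_of_nonneg_left hag (div_nonneg (by linarith) hta.le)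
          linarith
    have hI := apl_psi_int K (f := r) (g := fun u => B - β * (u - t)) (ρ := r a) ht.1.le
      (prof_intervalIntegrable hr _ h0I htI) (prof_intervalIntegrable hr _ h0I htI)
      (hil _ _ _) (hil _ _ _) hpt
    rw [hβe] at hI
    have h6 : ((K : ℝ) + 1) * r a * (∫ u in (0 : ℝ)..t, (B - β * (u - t)) ^ K) ≤
        ((K : ℝ) + 1) * r a * ∫ u in (0 : ℝ)..t, r u ^ K := by linarith
    exact le_of_mul_le_mul_left h6 (by have : 0 < r a := by linarith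
                                       positivity)
  -- right crossing
  have hrt : ∫ u in t..R, (B - β * (u - t)) ^ K ≤ ∫ u in t..1, r u ^ K := by
    rcases hR.2.eq_or_lt with hR1 | hR1
    · -- R = 1 : equality
      subst hR1
      have hall : ∀ u ∈ Icc t 1, B - β * (u - t) ≤ r u := by
        by_contra hcon
        push Not at hcon
        obtain ⟨c, hc, hcl'⟩ := hcon
        have := intervalIntegral.integral_lt_integral_of_continuousOn_of_le_of_exists_lt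
          (f := fun u => r u ^ (K + 1)) (g := fun u => (B - β * (u - t)) ^ (K + 1)) ht.2
          ((hr.cont.mono (fun u hu => ⟨by linarith [hu.1, ht.1], hu.2⟩)).pow _)
          (hcl _).continuousOn
          (fun u hu => pow_le_pow_left₀ (hrnn u ⟨by linarith [hu.1, ht.1], hu.2⟩)
            (hright u ⟨hu.1.le, hu.2⟩) _)
          ⟨c, hc, pow_lt_pow_left₀ hcl' (hrnn c ⟨by linarith [hc.1, ht.1], hc.2⟩) (by omega)⟩
        linarith
      refine intervalIntegral.integral_mono_on ht.2.le (hil _ _ _)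
        (prof_intervalIntegrable hr _ htI h1I) ?_
      intro u hu
      exact pow_le_pow_left₀ (hlnn u ⟨by linarith [hu.1, ht.1], hu.2⟩) (hall u hu) _
    · have hρ : 0 < r R := hr.pos R ⟨by linarith [hR0.1], hR1⟩
      have hI1 := apl_psi_int K (f := r) (g := fun u => B - β * (u - t)) (ρ := r R) hR.1
        (prof_intervalIntegrable hr _ htI hRI) (prof_intervalIntegrable hr _ htI hRI)
        (hil _ _ _) (hil _ _ _) (fun u hu => by
          have hu1 : u ∈ Icc (0 : ℝ) 1 := ⟨by linarith [hu.1, ht.1], by linarith [hu.2, hR.2]⟩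
          exact apl_psi_mono K (hrnn u hu1) (hlnn u hu1)
            (Or.inl ⟨hr.antitoneOn_right hu1 hR0 hu.2, hright u ⟨hu.1, hu1.2⟩⟩))
      have hI2 := apl_psi_int K (f := r) (g := fun _ => (0 : ℝ)) (ρ := r R) hR.2
        (prof_intervalIntegrable hr _ hRI h1I) (prof_intervalIntegrable hr _ hRI h1I)
        (Continuous.intervalIntegrable (by fun_prop) _ _)
        (Continuous.intervalIntegrable (by fun_prop) _ _) (fun u hu => by
          have hu1 : u ∈ Icc (0 : ℝ) 1 := ⟨by linarith [hu.1, hR0.1], hu.2⟩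
          exact apl_psi_mono K (hrnn u hu1) le_rfl
            (Or.inr ⟨hrnn u hu1, hr.antitoneOn_right hR0 hu1 hu.1⟩))
      rw [hRe] at hI1
      have z1 : ∫ _u in R..1, (0 : ℝ) ^ K = 0 := by
        rw [zero_pow (by omega)]; simp
      have z2 : ∫ _u in R..1, (0 : ℝ) ^ (K + 1) = 0 := by
        rw [zero_pow (by omega)]; simp
      rw [z1, z2] at hI2
      have a1 := intervalIntegral.integral_add_adjacent_intervals
        (prof_intervalIntegrable hr K htI hRI) (prof_intervalIntegrable hr K hRI h1I)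
      have a2 := intervalIntegral.integral_add_adjacent_intervals
        (prof_intervalIntegrable hr (K + 1) htI hRI) (prof_intervalIntegrable hr (K + 1) hRI h1I)
      rw [← a1]
      rw [← a2] at hI1
      have h6 : ((K : ℝ) + 1) * r R * (∫ u in t..R, (B - β * (u - t)) ^ K) ≤
          ((K : ℝ) + 1) * r R * ((∫ u in t..R, r u ^ K) + ∫ u in R..1, r u ^ K) := by
        nlinarith
      exact le_of_mul_le_mul_left h6 (by positivity)
  rw [← intervalIntegral.integral_add_adjacent_intervals (hil K 0 t) (hil K t R),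
    ← intervalIntegral.integral_add_adjacent_intervals (prof_intervalIntegrable hr K h0I htI)
      (prof_intervalIntegrable hr K htI h1I)]
  exact add_le_add hleft hrt

/-- **exact a-priori principle** for `T = tau n r s`, `p = lB n s / hB n 0`, in the class `NleB n r` -/
theorem trunc_lin {n : ℕ} (hn : 2 ≤ n) {r : ℝ → ℝ} (hr : Prof r) (hN : NleB n r) {s : ℝ}
    (hs : s ∈ Ioo (0 : ℝ) 1) :
    ∃ e b R : ℝ, 0 ≤ e ∧ e ≤ b ∧ b ≤ 1 ∧ 0 < b ∧ tau n r s ≤ R ∧ R ≤ 1 ∧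
      tau n r s * (1 - e) = R * (1 - b) ∧
      tau n r s * SA (n + 1) b * hB n 0 = lB n s * (R * SA (n + 1) e) ∧
      R * SA n e ^ n * hB n 0 ^ (n - 1) ≤ hB (n - 1) 0 ^ n * SA (n + 1) e ^ (n - 1) := by
  obtain ⟨K, rfl⟩ : ∃ K, n = K + 1 := ⟨n - 1, by omega⟩
  have hK : 1 ≤ K := by omega
  rw [Nat.add_sub_cancel]
  have hs' : s ∈ Icc (-1 : ℝ) 1 := ⟨by linarith [hs.1], hs.2.le⟩
  have hT : tau (K + 1) r s ∈ Ioo (0 : ℝ) 1 :=
    ⟨tau_pos hr _ ⟨hs.1, hs.2.le⟩, tau_lt_one hr _ ⟨hs.1.le, hs.2⟩⟩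
  obtain ⟨β, R, hβ, hTR, hR1, hE, h1, h2, h3⟩ := trunc_exists hr hK hT
  have i1 := integral_zero_tau hr (K + 1) hs'
  have i2 := integral_tau_one hr (K + 1) hs'
  set T := tau (K + 1) r s with hTdef
  have hR0 : 0 < R := lt_of_lt_of_le hT.1 hTR
  have hBp : 0 < r T := hr.pos T ⟨by linarith [hT.1], hT.2⟩
  set B := r T with hBdef
  set A := B - β * (0 - T) with hAdef
  have hBA : B ≤ A := by
    have : 0 ≤ β * T := mul_nonneg hβ hT.1.le
    rw [hAdef]; linarith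
  have hA : 0 < A := by linarith
  set E := B - β * (R - T) with hEdef
  have hEB : E ≤ B := by
    have : 0 ≤ β * (R - T) := mul_nonneg hβ (by linarith)
    rw [hEdef]; linarith
  have hcl : ∀ (k : ℕ) (a b : ℝ), IntervalIntegrable (fun u : ℝ => (B - β * (u - T)) ^ k) volume a b :=
    fun k a b => Continuous.intervalIntegrable (by fun_prop) _ _
  have hm := hr.mom_pos' (K + 1)
  have hw := w_pos' (K + 1)
  have hq : 0 < mom (K + 1) r / w (K + 1) := by positivity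
  have hW := w_eq_two_hB (K + 1)
  have hW' := w_eq_two_hB K
  have hH := hB_zero_pos (K + 1)
  have hH' := hB_zero_pos K
  -- the three line integrals
  have l1 : ∫ u in (0 : ℝ)..T, (B - β * (u - T)) ^ (K + 1) =
      T * A ^ (K + 1) * SA (K + 1 + 1) (B / A) := by
    have := int_line_SA (K + 1) (B := B) (β := β) (t := T) (x := 0) (y := T) (e := B / A)
      (by rw [← hAdef]; exact hA.ne') (by rw [← hAdef]; field_simp; ring)
    rw [this, ← hAdef, sub_zero]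
  have hAe : A * (E / A) = E := by field_simp
  have l2 : ∫ u in (0 : ℝ)..R, (B - β * (u - T)) ^ (K + 1) =
      R * A ^ (K + 1) * SA (K + 1 + 1) (E / A) := by
    have := int_line_SA (K + 1) (B := B) (β := β) (t := T) (x := 0) (y := R) (e := E / A)
      (by rw [← hAdef]; exact hA.ne') (by rw [← hAdef, hAe])
    rw [this, ← hAdef, sub_zero]
  have l3 : ∫ u in (0 : ℝ)..R, (B - β * (u - T)) ^ K = R * A ^ K * SA (K + 1) (E / A) := by
    have := int_line_SA K (B := B) (β := β) (t := T) (x := 0) (y := R) (e := E / A)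
      (by rw [← hAdef]; exact hA.ne') (by rw [← hAdef, hAe])
    rw [this, ← hAdef, sub_zero]
  have hM : R * A ^ (K + 1) * SA (K + 1 + 1) (E / A) = mom (K + 1) r / w (K + 1) * hB (K + 1) 0 := by
    rw [← l2, ← intervalIntegral.integral_add_adjacent_intervals (hcl (K + 1) 0 T) (hcl (K + 1) T R),
      h1, h2, i1, i2, ← lB_add_hB (K + 1) s]
    ring
  rw [l1, i1] at h1
  rw [l3] at h3
  have hm1 : mom (K + 1) r = 2 * (R * A ^ (K + 1) * SA (K + 1 + 1) (E / A)) := by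
    rw [hM, hW]; field_simp
  have hm2 : 2 * (R * A ^ K * SA (K + 1) (E / A)) ≤ mom K r := by
    rw [mom_eq_two hr K]
    linarith
  have hSA : 0 < SA (K + 1) (E / A) := SA_pos _ (by omega) (div_nonneg hE hA.le)
  have hSA' : 0 < SA (K + 1 + 1) (E / A) := SA_pos _ (by omega) (div_nonneg hE hA.le)
  refine ⟨E / A, B / A, R, div_nonneg hE hA.le, div_le_div_of_nonneg_right hEB hA.le,
    (div_le_one hA).2 hBA, div_pos hBp hA, hTR, hR1, ?_, ?_, ?_⟩
  · have e1 : T * (A - E) = R * (A - B) := by rw [hEdef, hAdef]; ring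
    field_simp
    linarith
  · have h5 : A ^ (K + 1) * (mom (K + 1) r / w (K + 1)) *
        (T * SA (K + 1 + 1) (B / A) * hB (K + 1) 0) =
        A ^ (K + 1) * (mom (K + 1) r / w (K + 1)) *
          (lB (K + 1) s * (R * SA (K + 1 + 1) (E / A))) := by
      calc A ^ (K + 1) * (mom (K + 1) r / w (K + 1)) *
        (T * SA (K + 1 + 1) (B / A) * hB (K + 1) 0) =
        (T * A ^ (K + 1) * SA (K + 1 + 1) (B / A)) * (mom (K + 1) r / w (K + 1) * hB (K + 1) 0) := by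
            ring
        _ = (mom (K + 1) r / w (K + 1) * lB (K + 1) s) *
            (R * A ^ (K + 1) * SA (K + 1 + 1) (E / A)) := by rw [h1, hM]
        _ = _ := by ring
    exact mul_left_cancel₀ (by positivity) h5
  · -- Renyi constraint
    have hN' : mom K r ^ (K + 1) * w (K + 1) ^ K ≤ w K ^ (K + 1) * mom (K + 1) r ^ K := hN
    rw [hW, hW', hm1] at hN'
    have h6 : (2 * (R * A ^ K * SA (K + 1) (E / A))) ^ (K + 1) ≤ mom K r ^ (K + 1) :=
      pow_le_pow_left₀ (by positivity) hm2 _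
    have h7 : (2 * (R * A ^ K * SA (K + 1) (E / A))) ^ (K + 1) * (2 * hB (K + 1) 0) ^ K ≤
        (2 * hB K 0) ^ (K + 1) * (2 * (R * A ^ (K + 1) * SA (K + 1 + 1) (E / A))) ^ K :=
      (mul_le_mul_of_nonneg_right h6 (by positivity)).trans hN'
    have e1 : (2 * (R * A ^ K * SA (K + 1) (E / A))) ^ (K + 1) * (2 * hB (K + 1) 0) ^ K =
        (2 ^ (K + 1) * 2 ^ K * R ^ K * (A ^ K) ^ (K + 1)) *
          (R * SA (K + 1) (E / A) ^ (K + 1) * hB (K + 1) 0 ^ K) := by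
      simp only [mul_pow, pow_succ]
      ring
    have e2 : (2 * hB K 0) ^ (K + 1) * (2 * (R * A ^ (K + 1) * SA (K + 1 + 1) (E / A))) ^ K =
        (2 ^ (K + 1) * 2 ^ K * R ^ K * (A ^ K) ^ (K + 1)) *
          (hB K 0 ^ (K + 1) * SA (K + 1 + 1) (E / A) ^ K) := by
      have : (A ^ (K + 1)) ^ K = (A ^ K) ^ (K + 1) := by rw [← pow_mul, ← pow_mul, mul_comm]
      rw [mul_pow, mul_pow, mul_pow, mul_pow, this]
      ring
    rw [e1, e2] at h7
    exact le_of_mul_le_mul_left h7 (by positivity)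

end Crest.Agent.R230
end

-- ▼ part R230/TSix

/-!
# Row 230 (helper941): bounds on the transport in dimension 6 (`n = 5`)

* `tsix1` : `τ(s) ≤ 1.5141 s (1 - 2 s²/3)` for `s ≤ 11/20`;
* `tsix2` : `τ(s) ≤ 3/4` or `1 + 63 F̄₀(s) ≤ (2 - τ(s))^6`.
-/

set_option autoImplicit false

open MeasureTheory Set Filter Topology
open scoped Pointwise ENNReal

namespace Crest.Agent.R230

namespace TSix

set_option maxHeartbeats 2000000 in
lemma P1_nonneg {x : ℝ} (hx : 0 ≤ x) (hx2 : x ≤ 1 / 2) :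
    0 ≤ (1 + 127 / 100 * x ^ 2) * (1 - 2 * x + 2 * x ^ 2 - x ^ 3 + x ^ 4 / 5) ^ 5 -
      9912 / 10000 * (1 - 5 / 2 * x + 10 / 3 * x ^ 2 - 5 / 2 * x ^ 3 + x ^ 4 - x ^ 5 / 6) ^ 4 := by
  have h0 : 0 ≤ 1 / 2 - x := by linarith
  have h1 : (1 + 127 / 100 * x ^ 2) * (1 - 2 * x + 2 * x ^ 2 - x ^ 3 + x ^ 4 / 5) ^ 5 -
      9912 / 10000 * (1 - 5 / 2 * x + 10 / 3 * x ^ 2 - 5 / 2 * x ^ 3 + x ^ 4 - x ^ 5 / 6) ^ 4 =
      (23068672/625 : ℝ) * (1 / 2 - x) ^ 22 +
      (392167424/625 : ℝ) * x ^ 1 * (1 / 2 - x) ^ 21 +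
      (3485990912/625 : ℝ) * x ^ 2 * (1 / 2 - x) ^ 20 +
      (4137811968/125 : ℝ) * x ^ 3 * (1 / 2 - x) ^ 19 +
      (89093644288/625 : ℝ) * x ^ 4 * (1 / 2 - x) ^ 18 +
      (290646540288/625 : ℝ) * x ^ 5 * (1 / 2 - x) ^ 17 +
      (6652933357568/5625 : ℝ) * x ^ 6 * (1 / 2 - x) ^ 16 +
      (13472409100288/5625 : ℝ) * x ^ 7 * (1 / 2 - x) ^ 15 +
      (66192132353024/16875 : ℝ) * x ^ 8 * (1 / 2 - x) ^ 14 +
      (17732871723008/3375 : ℝ) * x ^ 9 * (1 / 2 - x) ^ 13 +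
      (97879525363712/16875 : ℝ) * x ^ 10 * (1 / 2 - x) ^ 12 +
      (5962378059776/1125 : ℝ) * x ^ 11 * (1 / 2 - x) ^ 11 +
      (4514929265632/1125 : ℝ) * x ^ 12 * (1 / 2 - x) ^ 10 +
      (4713295597376/1875 : ℝ) * x ^ 13 * (1 / 2 - x) ^ 9 +
      (161937353888/125 : ℝ) * x ^ 14 * (1 / 2 - x) ^ 8 +
      (340126862112/625 : ℝ) * x ^ 15 * (1 / 2 - x) ^ 7 +
      (114759753476/625 : ℝ) * x ^ 16 * (1 / 2 - x) ^ 6 +
      (30415963544/625 : ℝ) * x ^ 17 * (1 / 2 - x) ^ 5 +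
      (30603680838/3125 : ℝ) * x ^ 18 * (1 / 2 - x) ^ 4 +
      (4427581594/3125 : ℝ) * x ^ 19 * (1 / 2 - x) ^ 3 +
      (3345535981/25000 : ℝ) * x ^ 20 * (1 / 2 - x) ^ 2 +
      (83960087/12500 : ℝ) * x ^ 21 * (1 / 2 - x) ^ 1 +
      (54880279/625000 : ℝ) * x ^ 22 := by ring
  rw [h1]
  positivity

set_option maxHeartbeats 2000000 in
lemma P2_nonneg {x : ℝ} (hx : 0 ≤ x) (hx2 : x ≤ 1 / 2) :
    0 ≤ (1 + 127 / 100 * x ^ 2) ^ 6 * (183 / 4096 + 3913 / 4096 * (1 - x) ^ 6) -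
      (1 + 127 / 100 * x ^ 2 - x) ^ 6 := by
  have h0 : 0 ≤ 1 / 2 - x := by linarith
  have h1 : (1 + 127 / 100 * x ^ 2) ^ 6 * (183 / 4096 + 3913 / 4096 * (1 - x) ^ 6) -
      (1 + 127 / 100 * x ^ 2 - x) ^ 6 =
      (35136 : ℝ) * x ^ 1 * (1 / 2 - x) ^ 17 +
      (553392 : ℝ) * x ^ 2 * (1 / 2 - x) ^ 16 +
      (98057448/25 : ℝ) * x ^ 3 * (1 / 2 - x) ^ 15 +
      (84247458/5 : ℝ) * x ^ 4 * (1 / 2 - x) ^ 14 +
      (24708963711/500 : ℝ) * x ^ 5 * (1 / 2 - x) ^ 13 +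
      (1682231613/16 : ℝ) * x ^ 6 * (1 / 2 - x) ^ 12 +
      (1676752144533/10000 : ℝ) * x ^ 7 * (1 / 2 - x) ^ 11 +
      (20364353825433/100000 : ℝ) * x ^ 8 * (1 / 2 - x) ^ 10 +
      (15109537596778111/80000000 : ℝ) * x ^ 9 * (1 / 2 - x) ^ 9 +
      (42355370091525873/320000000 : ℝ) * x ^ 10 * (1 / 2 - x) ^ 8 +
      (5448612285158532789/80000000000 : ℝ) * x ^ 11 * (1 / 2 - x) ^ 7 +
      (7738017474518322937/320000000000 : ℝ) * x ^ 12 * (1 / 2 - x) ^ 6 +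
      (326792858258477539029/64000000000000 : ℝ) * x ^ 13 * (1 / 2 - x) ^ 5 +
      (18981553037436808887/51200000000000 : ℝ) * x ^ 14 * (1 / 2 - x) ^ 4 +
      (40365366536979621/25600000000000 : ℝ) * x ^ 15 * (1 / 2 - x) ^ 3 +
      (489324398207110923/8192000000000 : ℝ) * x ^ 16 * (1 / 2 - x) ^ 2 +
      (27139168407160326699/1024000000000000 : ℝ) * x ^ 17 * (1 / 2 - x) ^ 1 +
      (14222761172909552809/4096000000000000 : ℝ) * x ^ 18 := by ring
  rw [h1]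
  positivity


lemma hB4_zero : hB 4 0 = 8 / 15 := by
  have h0 : w 0 = 2 := by
    unfold w
    simp
    norm_num
  have h2 := w_rec 0
  have h4 := w_rec 2
  have h5 := w_eq_two_hB 4
  norm_num at h2 h4
  rw [h0] at h2
  linarith

/-- the algebraic core: at the point with `F̄₀ = 183/4096` every truncated linear profile gives `T ≤ 3/4` -/
lemma core {T R e b : ℝ} (he0 : 0 ≤ e) (heb : e ≤ b) (hb1 : b ≤ 1) (hT0 : 0 < T) (hTR : T ≤ R) (hR1 : R ≤ 1)
    (h2 : T * (1 - e) = R * (1 - b))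
    (h3 : T * SA 6 b = 3913 / 4096 * (R * SA 6 e))
    (h4 : R * SA 5 e ^ 5 ≤ 7434 / 10000 * SA 6 e ^ 4) : T ≤ 3 / 4 := by
  have hR0 : 0 < R := hT0.trans_le hTR
  have hb6 : e < 1 → b ^ 6 = 183 / 4096 + 3913 / 4096 * e ^ 6 := by
    intro he
    have h5 : (1 - b) * SA 6 b = (1 - b ^ 6) / ((6 : ℕ) : ℝ) := one_sub_mul_SA 6 b
    have h6 : (1 - e) * SA 6 e = (1 - e ^ 6) / ((6 : ℕ) : ℝ) := one_sub_mul_SA 6 e
    have h7 : R * ((1 - b) * SA 6 b) = R * (3913 / 4096 * ((1 - e) * SA 6 e)) := by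
      calc R * ((1 - b) * SA 6 b) = (R * (1 - b)) * SA 6 b := by ring
        _ = (1 - e) * (T * SA 6 b) := by rw [← h2]; ring
        _ = _ := by rw [h3]; ring
    have h8 := mul_left_cancel₀ hR0.ne' h7
    rw [h5, h6] at h8
    push_cast at h8
    linarith
  rcases le_or_gt e (1 / 2) with he2 | he2
  · -- `R ≤ 1`
    have h5 := hb6 (by linarith)
    have h6 : ((1 + 3 * e) / 4) ^ 6 ≤ b ^ 6 := by
      rw [h5]
      have h7 : 183 / 4096 + 3913 / 4096 * e ^ 6 - ((1 + 3 * e) / 4) ^ 6 =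
          (1 - 2 * e) * (182 + 346 * e + 557 * e ^ 2 + 574 * e ^ 3 - 67 * e ^ 4 - 1592 * e ^ 5) / 4096 := by
        ring
      have h8 : 0 ≤ 182 + 346 * e + 557 * e ^ 2 + 574 * e ^ 3 - 67 * e ^ 4 - 1592 * e ^ 5 := by
        have e1 : e ^ 5 ≤ (1 / 2 : ℝ) ^ 5 := pow_le_pow_left₀ he0 he2 5
        have e2 : e ^ 4 ≤ (1 / 2 : ℝ) ^ 4 := pow_le_pow_left₀ he0 he2 4
        have e3 : 0 ≤ e ^ 2 := by positivity
        have e4 : 0 ≤ e ^ 3 := by positivity
        norm_num at e1 e2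
        linarith
      have h9 : 0 ≤ (1 - 2 * e) * (182 + 346 * e + 557 * e ^ 2 + 574 * e ^ 3 - 67 * e ^ 4 - 1592 * e ^ 5) / 4096 :=
        div_nonneg (mul_nonneg (by linarith) h8) (by norm_num)
      linarith
    have h7 : (1 + 3 * e) / 4 ≤ b := le_of_pow_le_pow_left₀ (by norm_num) (he0.trans heb) h6
    have h8 : T * (1 - e) ≤ 3 / 4 * (1 - e) := by
      rw [h2]
      have : R * (1 - b) ≤ 1 * (1 - b) := mul_le_mul_of_nonneg_right hR1 (by linarith)
      linarith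
    exact le_of_mul_le_mul_right h8 (by linarith)
  · rcases eq_or_lt_of_le (heb.trans hb1) with he1 | he1
    · -- flat profile
      have hb : b = 1 := le_antisymm hb1 (he1 ▸ heb)
      rw [hb, he1, SA_one _ (by norm_num)] at h3
      rw [he1, SA_one _ (by norm_num), SA_one _ (by norm_num)] at h4
      linarith
    · set x := 1 - e with hx
      have hx0 : 0 < x := by linarith
      have hx2 : x ≤ 1 / 2 := by linarith
      have hex : e = 1 - x := by rw [hx]; ring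
      have h5 := hb6 he1
      have hP1 := P1_nonneg hx0.le hx2
      have hP2 := P2_nonneg hx0.le hx2
      have hS5 : SA 5 e = 1 - 2 * x + 2 * x ^ 2 - x ^ 3 + x ^ 4 / 5 := by
        rw [hex]; unfold SA; simp only [Finset.sum_range_succ, Finset.sum_range_zero]; push_cast; ring
      have hS6 : SA 6 e = 1 - 5 / 2 * x + 10 / 3 * x ^ 2 - 5 / 2 * x ^ 3 + x ^ 4 - x ^ 5 / 6 := by
        rw [hex]; unfold SA; simp only [Finset.sum_range_succ, Finset.sum_range_zero]; push_cast; ring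
      rw [← hS5, ← hS6] at hP1
      have hS5pos : 0 < SA 5 e := SA_pos 5 (by norm_num) he0
      set q := 1 + 127 / 100 * x ^ 2 with hq
      have hqpos : 0 < q := by positivity
      have hRq : R ≤ 3 / 4 * q := by
        have : R * SA 5 e ^ 5 ≤ (3 / 4 * q) * SA 5 e ^ 5 := by nlinarith
        exact le_of_mul_le_mul_right this (by positivity)
      by_contra hcon
      push Not at hcon
      have h6 : x < (1 - b) * q := by
        have h7 : 3 / 4 * x < R * (1 - b) := by rw [← h2]; nlinarith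
        have h8 : R * (1 - b) ≤ (3 / 4 * q) * (1 - b) := mul_le_mul_of_nonneg_right hRq (by linarith)
        linarith
      have h7 : b * q < q - x := by linarith
      have h8 : (b * q) ^ 6 < (q - x) ^ 6 :=
        pow_lt_pow_left₀ h7 (mul_nonneg (he0.trans heb) hqpos.le) (by norm_num)
      rw [mul_pow, h5, hex] at h8
      have : q ^ 6 * (183 / 4096 + 3913 / 4096 * (1 - x) ^ 6) - (q - x) ^ 6 < 0 := by linarith
      linarith

end TSix

open TSix

/-- `τ ≤ 3/4` at the point with `F̄₀ = 183/4096` -/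
theorem tau_le_star {r : ℝ → ℝ} (hr : Prof r) (hN : NleB 5 r) {s : ℝ} (hs : s ∈ Ioo (0 : ℝ) 1)
    (hp : hB 5 s = 183 / 4096 * hB 5 0) : tau 5 r s ≤ 3 / 4 := by
  obtain ⟨e, b, R, he0, heb, hb1, hb0, hTR, hR1, h2, h3, h4⟩ := trunc_lin (by norm_num) hr hN hs
  have hT : 0 < tau 5 r s := tau_pos hr 5 ⟨hs.1, hs.2.le⟩
  have hH := hB_zero_pos 5
  have hl : lB 5 s = 3913 / 4096 * hB 5 0 := by
    have := lB_add_hB 5 s
    linarith
  refine core he0 heb hb1 hT hTR hR1 h2 ?_ ?_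
  · have h5 : (tau 5 r s * SA 6 b) * hB 5 0 = (3913 / 4096 * (R * SA 6 e)) * hB 5 0 := by
      calc (tau 5 r s * SA 6 b) * hB 5 0 = tau 5 r s * SA (5 + 1) b * hB 5 0 := rfl
        _ = lB 5 s * (R * SA (5 + 1) e) := h3
        _ = _ := by rw [hl]; ring
    exact mul_right_cancel₀ hH.ne' h5
  · have h5 : R * SA 5 e ^ 5 * hB 5 0 ^ 4 ≤ hB 4 0 ^ 5 * SA 6 e ^ 4 := h4
    rw [hB5_zero, hB4_zero] at h5
    have hpi := Real.pi_gt_d4
    have hS5 : 0 < SA 5 e := SA_pos 5 (by norm_num) he0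
    have hS6 : 0 < SA 6 e := SA_pos 6 (by norm_num) he0
    have hR0 : 0 < R := hT.trans_le hTR
    have h6 : (5 * 3.1415 / 32 : ℝ) ^ 4 ≤ (5 * Real.pi / 32) ^ 4 :=
      pow_le_pow_left₀ (by norm_num) (by linarith) 4
    have h7 : R * SA 5 e ^ 5 * (5 * 3.1415 / 32 : ℝ) ^ 4 ≤ R * SA 5 e ^ 5 * (5 * Real.pi / 32) ^ 4 :=
      mul_le_mul_of_nonneg_left h6 (by positivity)
    have h8 : (8 / 15 : ℝ) ^ 5 ≤ 7434 / 10000 * (5 * 3.1415 / 32 : ℝ) ^ 4 := by norm_num
    have h9 : (8 / 15 : ℝ) ^ 5 * SA 6 e ^ 4 ≤ 7434 / 10000 * (5 * 3.1415 / 32 : ℝ) ^ 4 * SA 6 e ^ 4 :=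
      mul_le_mul_of_nonneg_right h8 (by positivity)
    have h10 : (R * SA 5 e ^ 5) * (5 * 3.1415 / 32 : ℝ) ^ 4 ≤
        (7434 / 10000 * SA 6 e ^ 4) * (5 * 3.1415 / 32 : ℝ) ^ 4 := by linarith
    exact le_of_mul_le_mul_right h10 (by norm_num)

/-- the special point exists -/
lemma exists_star : ∃ s ∈ Ioo (0 : ℝ) 1, hB 5 s = 183 / 4096 * hB 5 0 := by
  have hH := hB_zero_pos 5
  have hc : ContinuousOn (hB 5) (Icc 0 1) := fun x _ => (hasDerivAt_hB 5 x).continuousAt.continuousWithinAt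
  have h := intermediate_value_Ioo' (zero_le_one) hc
  have hmem : 183 / 4096 * hB 5 0 ∈ Ioo (hB 5 1) (hB 5 0) := by
    rw [hB_one]
    exact ⟨by positivity, by linarith⟩
  obtain ⟨s, hs, hse⟩ := h hmem
  exact ⟨s, hs, hse⟩

/-- **dimension 6**: `τ ≤ 3/4` or the cone bound -/
theorem tsix2 {r : ℝ → ℝ} (hr : Prof r) (hN : NleB 5 r) {s : ℝ} (hs : s ∈ Ioo (0 : ℝ) 1) :
    tau 5 r s ≤ 3 / 4 ∨ hB 5 0 + 63 * hB 5 s ≤ (2 - tau 5 r s) ^ 6 * hB 5 0 := by
  obtain ⟨s₁, hs₁, hp⟩ := exists_star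
  have hT₁ := tau_le_star hr hN hs₁ hp
  have hH := hB_zero_pos 5
  rcases le_total s s₁ with h | h
  · left
    exact ((tau_strictMonoOn hr 5).monotoneOn ⟨by linarith [hs.1], hs.2.le⟩ ⟨by linarith [hs₁.1], hs₁.2.le⟩ h).trans
      hT₁
  · right
    have h1 := cone_tau hr (n := 5) (by norm_num) (e := 1 / 2) (s₁ := s₁) (s := s) (by norm_num) (by norm_num)
      hs₁.1 h hs.2.le (by
        rw [hp]
        have hTn := (tau_pos hr 5 ⟨hs₁.1, hs₁.2.le⟩).le
        have h2 : (1 - (1 - 1 / 2 : ℝ) * (3 / 4)) ^ (5 + 1) ≤ (1 - (1 - 1 / 2) * tau 5 r s₁) ^ (5 + 1) :=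
          pow_le_pow_left₀ (by norm_num) (by linarith) _
        have h3 : ((1 - (1 - 1 / 2 : ℝ) * (3 / 4)) ^ (5 + 1) - (1 / 2) ^ (5 + 1)) * hB 5 0 ≤
            ((1 - (1 - 1 / 2) * tau 5 r s₁) ^ (5 + 1) - (1 / 2) ^ (5 + 1)) * hB 5 0 :=
          mul_le_mul_of_nonneg_right (by linarith) hH.le
        refine le_trans (le_of_eq ?_) h3
        ring)
    have h2 : (1 - (1 - 1 / 2 : ℝ) * tau 5 r s) ^ (5 + 1) = (2 - tau 5 r s) ^ 6 / 64 := by ring
    rw [h2] at h1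
    norm_num at h1
    linarith

/-- explicit form of `tsix2` -/
theorem tsix2' {r : ℝ → ℝ} (hr : Prof r) (hN : NleB 5 r) {s : ℝ} (hs : s ∈ Ioo (0 : ℝ) 1) :
    tau 5 r s ≤ 3 / 4 ∨ 1 + 63 * (Real.sqrt (1 - s ^ 2) ^ 7 / (3.437 * s + Real.sqrt (1 - s ^ 2))) ≤
      (2 - tau 5 r s) ^ 6 := by
  rcases tsix2 hr hN hs with h | h
  · exact Or.inl h
  · right
    have hH := hB_zero_pos 5
    have hc : 0 < Real.sqrt (1 - s ^ 2) := sqrt_pos_of_mem ⟨by linarith [hs.1], hs.2⟩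
    have h1 := haz2 5 (s := s) ⟨hs.1.le, hs.2.le⟩
    have hBp := hB_pos 5 ⟨hs.1.le, hs.2⟩
    have h2 : hB 5 0 * Real.sqrt (1 - s ^ 2) ^ 7 ≤ (3.437 * s + Real.sqrt (1 - s ^ 2)) * hB 5 s := by
      refine le_trans (by simpa using h1) (mul_le_mul_of_nonneg_right ?_ hBp.le)
      have h3 : 7 * hB 5 0 ≤ 3.437 := by
        rw [hB5_zero]
        have := Real.pi_lt_d4
        norm_num
        linarith
      have := mul_le_mul_of_nonneg_right h3 hs.1.le
      norm_num at this ⊢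
      linarith
    have hD : 0 < 3.437 * s + Real.sqrt (1 - s ^ 2) := by have := hs.1; positivity
    have h3 : Real.sqrt (1 - s ^ 2) ^ 7 / (3.437 * s + Real.sqrt (1 - s ^ 2)) * hB 5 0 ≤ hB 5 s := by
      rw [div_mul_eq_mul_div, div_le_iff₀ hD]
      linarith
    have h4 : (1 + 63 * (Real.sqrt (1 - s ^ 2) ^ 7 / (3.437 * s + Real.sqrt (1 - s ^ 2)))) * hB 5 0 ≤
        (2 - tau 5 r s) ^ 6 * hB 5 0 := by linarith
    exact le_of_mul_le_mul_right h4 hH

lemma sqrt_pow5_le {x : ℝ} (hx : x ∈ Icc (0 : ℝ) 1) :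
    Real.sqrt (1 - x ^ 2) ^ 5 ≤ 1 - 5 / 2 * x ^ 2 + 15 / 8 * x ^ 4 := by
  have h0 : 0 ≤ 1 - x ^ 2 := by nlinarith [hx.1, hx.2]
  have hs := Real.sqrt_nonneg (1 - x ^ 2)
  have hpos : 0 ≤ 1 - 5 / 2 * x ^ 2 + 15 / 8 * x ^ 4 := by nlinarith [sq_nonneg (x ^ 2 - 2 / 3)]
  refine le_of_pow_le_pow_left₀ (n := 2) (by norm_num) hpos ?_
  have h1 : (Real.sqrt (1 - x ^ 2) ^ 5) ^ 2 = (1 - x ^ 2) ^ 5 := by
    rw [← pow_mul, mul_comm, pow_mul, Real.sq_sqrt h0]
  rw [h1]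
  have h2 : (1 - 5 / 2 * x ^ 2 + 15 / 8 * x ^ 4) ^ 2 - (1 - x ^ 2) ^ 5 =
      x ^ 6 * (5 / 8 - 95 / 64 * x ^ 2 + x ^ 4) := by ring
  have h3 : 0 ≤ 5 / 8 - 95 / 64 * x ^ 2 + x ^ 4 := by nlinarith [sq_nonneg (x ^ 2 - 95 / 128)]
  have h4 : 0 ≤ x ^ 6 * (5 / 8 - 95 / 64 * x ^ 2 + x ^ 4) := by positivity
  linarith

lemma lB5_le {s : ℝ} (hs : s ∈ Icc (0 : ℝ) 1) : lB 5 s ≤ s - 5 / 6 * s ^ 3 + 3 / 8 * s ^ 5 := by
  have h1 : lB 5 s ≤ ∫ x in (0 : ℝ)..s, (1 - 5 / 2 * x ^ 2 + 15 / 8 * x ^ 4) := by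
    refine intervalIntegral.integral_mono_on hs.1 (intervalIntegrable_cpow 5 _ _)
      (Continuous.intervalIntegrable (by fun_prop) _ _) ?_
    intro x hx
    exact sqrt_pow5_le ⟨hx.1, hx.2.trans hs.2⟩
  have h2 : ∫ x in (0 : ℝ)..s, (1 - 5 / 2 * x ^ 2 + 15 / 8 * x ^ 4) = s - 5 / 6 * s ^ 3 + 3 / 8 * s ^ 5 := by
    have hd : ∀ x ∈ uIcc (0 : ℝ) s, HasDerivAt (fun x : ℝ => x - 5 / 6 * x ^ 3 + 3 / 8 * x ^ 5)
        (1 - 5 / 2 * x ^ 2 + 15 / 8 * x ^ 4) x := by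
      intro x _
      have := ((hasDerivAt_id x).sub ((hasDerivAt_pow 3 x).const_mul (5 / 6))).add
        ((hasDerivAt_pow 5 x).const_mul (3 / 8))
      refine this.congr_deriv ?_
      norm_num
      ring
    rw [intervalIntegral.integral_eq_sub_of_hasDerivAt hd (Continuous.intervalIntegrable (by fun_prop) _ _)]
    norm_num
  linarith

/-- **dimension 6**, small `s` -/
theorem tsix1 {r : ℝ → ℝ} (hr : Prof r) (hN : NleB 5 r) {s : ℝ} (hs : s ∈ Ioc (0 : ℝ) (11 / 20)) :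
    tau 5 r s ≤ 1.5141 * s * (1 - 2 * s ^ 2 / 3) := by
  have hs0 := hs.1
  have hs1 := hs.2
  have h1 := lB5_le (s := s) ⟨hs0.le, by linarith⟩
  have h2 : lB 5 s ≤ s * (1 - 2 * s ^ 2 / 3) := by
    have h3 : 0 ≤ s ^ 3 * (1 / 6 - 3 / 8 * s ^ 2) := by
      have : 0 ≤ 1 / 6 - 3 / 8 * s ^ 2 := by nlinarith
      positivity
    nlinarith
  have hpi := Real.pi_gt_d6
  have h4 : lB 5 s ≤ 9 / 10 * hB 5 0 := by
    rw [hB5_zero]
    have h5 : s * (1 - 2 * s ^ 2 / 3) ≤ 44 / 100 := by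
      nlinarith [sq_nonneg (s - 11 / 20), mul_nonneg hs0.le (sub_nonneg.2 hs1), mul_nonneg (sq_nonneg s) (sub_nonneg.2 hs1)]
    linarith
  have h5 := tau_le_of_NleB90 hr (n := 5) (by norm_num) hN (s := s) ⟨hs0, by linarith⟩ h4
  have h6 : (w (5 - 1) / w 5) ^ 5 ≤ 1.5141 := by
    rw [w_eq_two_hB, w_eq_two_hB, mul_div_mul_left _ _ (by norm_num : (2 : ℝ) ≠ 0), hB5_zero]
    have h7 : hB (5 - 1) 0 = 8 / 15 := hB4_zero
    rw [h7]
    have h8 : (8 / 15 : ℝ) / (5 * Real.pi / 32) ≤ (8 / 15 : ℝ) / (5 * 3.141592 / 32) :=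
      div_le_div_of_nonneg_left (by norm_num) (by norm_num) (by linarith)
    have h9 : 0 ≤ (8 / 15 : ℝ) / (5 * Real.pi / 32) := by positivity
    refine (pow_le_pow_left₀ h9 h8 5).trans ?_
    norm_num
  have h7 : 0 ≤ lB 5 s := lB_nonneg 5 ⟨hs0.le, by linarith⟩
  calc tau 5 r s ≤ (w (5 - 1) / w 5) ^ 5 * lB 5 s := h5
    _ ≤ 1.5141 * lB 5 s := mul_le_mul_of_nonneg_right h6 h7
    _ ≤ 1.5141 * (s * (1 - 2 * s ^ 2 / 3)) := mul_le_mul_of_nonneg_left h2 (by norm_num)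
    _ = _ := by ring

end Crest.Agent.R230
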