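import Crest.Agent.R230.FarNegBox
import Crest.Agent.R230.FarNegC1
import Crest.Agent.R230.FarNegC2
import Crest.Agent.R230.FarNegC3
import Crest.Agent.R230.FarNegC4
import Crest.Agent.R230.SDL3_Mg
import Crest.Agent.R230.BSix
import Crest.Agent.R230.TSix
import Crest.Agent.R230.BFive6
import Crest.Agent.R230.Kappa6
import Crest.Agent.R230.CaseIProf
import Crest.Agent.R230.OneDAsm
import Crest.Agent.R230.B6large
import Crest.Agent.R230.CaseIIpp
import Crest.Agent.R230.SDL4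
import Crest.Agent.R230.OneDFin
import Crest.Agent.R230.FarMu
import Crest.Agent.R230.FarF4b
import Crest.Agent.R230.B6tools
import Crest.Agent.R230.B6Star
import Crest.Agent.R230.B6P7
import Crest.Agent.R230.Cyl89
import Crest.Agent.R230.ConeCmp
import Crest.Agent.R230.LPath
import Crest.Agent.R230.Apriori4
import Mathlib.Analysis.Real.Pi.Bounds
import Crest.Agent.R230.B6N6
import Crest.Agent.R230.FarTailNeg
import Crest.Agent.R230.FarTail_Mg

-- ▼ part R230/FarNegPos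
section

/-!
# Row 230: the far block for `k ≤ 0`, `l ≤ 7/5` (helper237)
-/

set_option autoImplicit false

open MeasureTheory Set Filter Topology

namespace Crest.Agent.R230.WR

open IA FN

/-- **far block, `k ≤ 0`, `l ≤ 7/5`**, both corners `μ` -/
theorem PStar_neg_box {n : ℕ} {s l k : ℝ} (hn : 23 ≤ n) (h : FarC n s l k) (hk : k ≤ 0)
    (hl : l ≤ 7 / 5) : 0 < PStar n s l k := by
  have hs := h.hs
  have hT0 : 0 < s * Real.exp l := mul_pos hs.1 (Real.exp_pos _)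
  have hl3 : 63 / 200 < l := by
    have h1 := h.hcap
    have h2 : (s * Real.exp l) ^ 8 ≤ 1 := pow_le_one₀ hT0.le h.hT.le
    unfold capF at h1
    linarith
  have hs7 : s ≤ 735 / 1000 := by
    have h1 := Real.quadratic_le_exp_of_nonneg (x := 63 / 200) (by norm_num)
    have h2 : Real.exp (63 / 200) ≤ Real.exp l := Real.exp_le_exp.2 hl3.le
    have h3 : 1364 / 1000 ≤ Real.exp l := by norm_num at h1; linarith
    by_contra hc
    push Not at hc
    have h4 : (735 / 1000 : ℝ) * (1364 / 1000) ≤ s * Real.exp l :=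
      mul_le_mul hc.le h3 (by norm_num) hs.1.le
    have := h.hT
    norm_num at h4
    linarith
  have bl1 : LB 340848604610 l := by unfold LB; norm_num; linarith
  have bl2 : UB l 1539316278887 := by unfold UB; norm_num; linarith
  have key : ∀ s1 s2 : ℕ, rec ev 25 s1 s2 340848604610 1539316278887 = true → LB s1 s → UB s s2 →
      0 < PStar n s l k := by
    intro s1 s2 hr c1 c2
    have := rec_sound (P := fun s' l' => s' = s → l' = l → 0 < PStar n s l k)
      (fun a b c d hev s' l' d1 d2 d3 d4 e1 e2 => by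
        subst e1 e2
        exact ev_sound hn h hk (by linarith) d1 d2 d3 d4 hev) 25 s1 s2 _ _ hr s l c1 c2 bl1 bl2
    exact this rfl rfl
  have hs0 : LB 0 s := LB_zero hs.1.le
  have hsU : UB s 808141046416 := by unfold UB; norm_num; linarith
  have sp : ∀ m : ℕ, UB s m ∨ LB m s := fun m => le_total _ _
  rcases sp 404070523208 with a | a
  · exact key _ _ cert1a hs0 a
  rcases sp 505088154010 with b | b
  · exact key _ _ cert1b a b
  rcases sp 606105784812 with c | c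
  · exact key _ _ cert2 b c
  rcases sp 656614600213 with d | d
  · exact key _ _ cert3 c d
  rcases sp 707123415614 with e | e
  · exact key _ _ cert4 d e
  · exact key _ _ cert1c e hsU


end Crest.Agent.R230.WR
end

-- ▼ part R230/BSixProf
section

/-!
# Row 230: block B6, `N = 6`, on profiles
-/

set_option autoImplicit false

open Set

namespace Crest.Agent.R230.WR

theorem B6six_prof {r : ℝ → ℝ} (hr : Prof r) (hN : NleB 5 r) {s lm : ℝ} (hs : s ∈ Ioo (0 : ℝ) 1)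
    (hl : 0 < ll 5 r s) (hk : kk 5 r s < 0) :
    0 < PP 5 (27 / 16) 3 1 0 lm s (ll 5 r s) (kk 5 r s) := by
  have ht : tau 5 r s = s * Real.exp (ll 5 r s) := tau_eq hr 5 ⟨hs.1.le, hs.2.le⟩
  have h1k := one_add_kk_pos hr 5 hs
  have htle : tau 5 r s ≤ 1 := (tau_lt_one hr 5 ⟨hs.1.le, hs.2⟩).le
  have hs2 := tsix2' hr hN hs
  refine BSix.B6six hs hl (by linarith) hk (ht ▸ htle) (fun h => ?_) ?_
  · have h1 := tsix1 hr hN (s := s) ⟨hs.1, by linarith⟩
    rw [ht] at h1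
    have h2 : s * Real.exp (ll 5 r s) ≤ s * (15141 / 10000 * (1 - 2 * s ^ 2 / 3)) := by
      norm_num at h1 ⊢
      linarith
    exact le_of_mul_le_mul_left h2 hs.1
  · rw [ht] at hs2
    rcases hs2 with h | h
    · left; norm_num at h ⊢; exact h
    · right
      have hcc : cc s = Real.sqrt (1 - s ^ 2) := rfl
      rw [hcc]
      norm_num at h ⊢
      rw [mul_div_assoc]
      exact h

end Crest.Agent.R230.WR
end

-- ▼ part R230/PosAsm
section

/-!
# Row 230: `PosBlock n` from the two sign cases of `k`; the case `k < 0` for `n = 5` and `n ≥ 8`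
-/

set_option autoImplicit false

open MeasureTheory Set Filter Topology
open scoped Pointwise ENNReal

namespace Crest.Agent.R230

open WR

variable {n : ℕ} {r : ℝ → ℝ}

/-- block B6: `l > 0`, `k < 0` -/
def PosNeg (n : ℕ) : Prop := ∀ r : ℝ → ℝ, Prof r → NleB n r → ∀ s ∈ Ioo (0 : ℝ) 1, 0 < ll n r s →
  kk n r s < 0 →
  0 < PP n (((n : ℝ) + 1 + 3 * (1 / 4)) / ((n : ℝ) - 1)) 3 1 0 0 s (ll n r s) (kk n r s)

/-- block B5: `l > 0`, `k ≥ 0` -/
def PosPos (n : ℕ) : Prop := ∀ r : ℝ → ℝ, Prof r → NleB n r → ∀ s ∈ Ioo (0 : ℝ) 1, 0 < ll n r s →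
  0 ≤ kk n r s →
  0 < PP n (((n : ℝ) + 1 + 3 * (1 / 4)) / ((n : ℝ) - 1)) 3 1 0 0 s (ll n r s) (kk n r s)

theorem posBlock_of (h1 : PosPos n) (h2 : PosNeg n) : PosBlock n := by
  intro r hr hN s hs hl
  rcases le_or_gt 0 (kk n r s) with h | h
  · exact h1 r hr hN s hs hl h
  · exact h2 r hr hN s hs hl h

theorem tau_le_one' (hr : Prof r) {s : ℝ} (hs : s ∈ Ioo (0 : ℝ) 1) : s * Real.exp (ll n r s) ≤ 1 := by
  rw [mul_exp_ll hr hs]
  exact (tau_lt_one hr n ⟨hs.1.le, hs.2⟩).le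

theorem posNeg_nine (h9 : 9 ≤ n) (h22 : n ≤ 22) : PosNeg n := by
  intro r hr hN s hs hl hk
  obtain ⟨h1, h2⟩ := ll_le_of_legal hr hs (legal_all (by omega) h22 hr hN s hs)
  exact B6_nine h9 hs hl (tau_le_one' hr hs) h1 h2 (kk_pos hr hs) hk.le

theorem posNeg_eight : PosNeg 8 := by
  intro r hr hN s hs hl hk
  exact B6_eight (n := 8) le_rfl hs hl (tau_le_one' hr hs)
    (ll_simple_all (by norm_num) (by norm_num) hr hN s hs) (kk_pos hr hs) hk.le

theorem posNeg_five : PosNeg 5 := by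
  intro r hr hN s hs hl hk
  have h := B6six_prof hr hN (lm := 0) hs hl hk
  have e : ((((5 : ℕ) : ℝ) + 1 + 3 * (1 / 4)) / (((5 : ℕ) : ℝ) - 1)) = 27 / 16 := by norm_num
  rw [e]
  exact h



/-- `OneD n` for `n ≤ 22` from the two blocks -/
theorem oneD_of_pos (h5 : 5 ≤ n) (h22 : n ≤ 22) (h1 : PosPos n) (h2 : PosNeg n) : OneD n :=
  oneD_small h5 h22 (posBlock_of h1 h2)

end Crest.Agent.R230
end

-- ▼ part R230/FinalStar
section

/-!
# Row 230: everything up to `PosNeg 6`, `PosNeg 7` and the single far inequality `0 < PStar` on `FarC`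
-/

set_option autoImplicit false

open MeasureTheory Set
open scoped Pointwise ENNReal

namespace Crest.Agent.R230

theorem oneD_ge_23 (h : ∀ n, 23 ≤ n → ∀ s l k : ℝ, WR.FarC n s l k → 0 < WR.PStar n s l k) :
    ∀ n, 23 ≤ n → OneD n := fun n hn =>
  WR.oneD_far_star hn (fun _ hr hN => F4.farApr hn hr hN) (h n hn)


end Crest.Agent.R230
end

-- ▼ part R230/B6N7
section

/-!
# Row 230, block B6 (case II, `l ≥ 0`, `-1 < k ≤ 0`), dimension 8 (Lean `n = 7`)
-/

set_option autoImplicit false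
set_option maxHeartbeats 4000000

open MeasureTheory Set Filter Topology

namespace Crest.Agent.R230.WR

theorem B6_seven {s l k lm μ : ℝ} (hμ : μ * 6 = 35 / 4) (hs : s ∈ Ioo (0 : ℝ) 1) (hl : 0 ≤ l)
    (hT : s * Real.exp l ≤ 1) (hl1 : l * (1 + cc s) ≤ cc s ^ 2) (hk : 0 < 1 + k) (hk0 : k ≤ 0) :
    0 ≤ PP 7 μ 3 1 0 lm s l k ∧ (PP 7 μ 3 1 0 lm s l k = 0 → l = 0) := by
  have hu0 : 0 ≤ -k := by linarith
  have hu1 : -k ≤ 1 := by linarith
  have hc := cc_pos' hs
  have hc2 := cc_sq' hs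
  have hs0 := hs.1
  have hc1 : cc s < 1 := by nlinarith
  have hl1' : l * (1 + cc s) ≤ 1 * cc s ^ 2 := by linarith
  have hR0 : 0 ≤ 1 - 38 / 100 * -k - 176 / 1000 * (-k) ^ 2 - 1 / 10 * (-k) ^ 3 := by
    have h2 : (-k) ^ 2 ≤ 1 := by nlinarith
    have h3 : (-k) ^ 3 ≤ 1 := pow_le_one₀ hu0 hu1
    nlinarith
  have hμ' : μ * (((7 : ℕ) : ℝ) - 1) = ((7 : ℕ) : ℝ) + 7 / 4 := by push_cast; linarith
  have hvar : 13 / 20 ≤ cc s → -(((47 / 100) + (55 / 100) * Y s) * (Y s * l ^ 2)) ≤ cR s l := by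
    intro h1
    have hlow : 1 - (1 - cc s) * (137 / 50 - 23 / 20 * (1 - cc s)) ≤ cc (s * Real.exp l) := by
      refine cc_low hs (ζ := 1) (by norm_num) (by norm_num) hl1' ?_
      have h := B6.expc7_1 (e := 1 - cc s) (by linarith) (by linarith)
      exact lt_of_lt_of_eq h (by ring)
    refine cR_ge_var hs hl hT (by norm_num) (by norm_num) (mb := 137 / 50 - 23 / 20 * (1 - cc s)) (by linarith) hlow ?_
    intro t ht0 ht1
    exact lt_of_lt_of_eq (B6.star7_1 (e := 1 - cc s) (by linarith) (by linarith) ht0 ht1) (by ring)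
  rcases le_total (cc s) (2 / 5) with h1 | h1'
  · exact boxc (n := 7) (a := 0) (b := 2 / 5) (ζ := 1) (g := (5 / 8)) (β := 1 / 6) (N3 := 4)
      (A := 8857 / 5000) (zm := 1 / 2) (L := 953 / 10000) (M := 6337 / 10000) (κ := 1869 / 500) (τ := 11 / 4) (ρ := 2) (by norm_num) hμ' hs hl hT (by norm_num) hl1' hk hk0
      (by norm_num) (by norm_num) (by norm_num) hR0 (rr_seven hu0) hc.le h1 (sc_two hc (by linarith)) (by norm_num)
      (by norm_num) (by norm_num) (by norm_num) (Or.inl (by norm_num)) (Or.inr ⟨by norm_num, by norm_num⟩) (by norm_num) (by norm_num)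
      (by norm_num) (by norm_num) (by norm_num) (by norm_num) (B6b.P7_1 hu0 hu1)
  rcases le_total (cc s) (51 / 100) with h2 | h2'
  · exact boxc (n := 7) (a := 2 / 5) (b := 51 / 100) (ζ := 1) (g := (5 / 8)) (β := 1 / 6) (N3 := 4)
      (A := 8277 / 5000) (zm := 4579 / 10000) (L := 161 / 1000) (M := 3199 / 5000) (κ := 1767 / 500) (τ := 13 / 5) (ρ := 39 / 20) (by norm_num) hμ' hs hl hT (by norm_num) hl1' hk hk0
      (by norm_num) (by norm_num) (by norm_num) hR0 (rr_seven hu0) h1' h2 (sc_39 (by linarith) (by linarith)) (by norm_num)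
      (by norm_num) (by norm_num) (by norm_num) (Or.inl (by norm_num)) (Or.inr ⟨by norm_num, by norm_num⟩) (by norm_num) (by norm_num)
      (by norm_num) (by norm_num) (by norm_num) (by norm_num) (B6b.P7_2 hu0 hu1)
  rcases le_total (cc s) (287 / 500) with h3 | h3'
  · exact boxc (n := 7) (a := 51 / 100) (b := 287 / 500) (ζ := 1) (g := (5 / 8)) (β := 1 / 6) (N3 := 4)
      (A := 15813 / 10000) (zm := 2147 / 5000) (L := 1047 / 5000) (M := 6443 / 10000) (κ := 831 / 250) (τ := 12 / 5) (ρ := 2) (by norm_num) hμ' hs hl hT (by norm_num) hl1' hk hk0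
      (by norm_num) (by norm_num) (by norm_num) hR0 (rr_seven hu0) h2' h3 (sc_two hc (by linarith)) (by norm_num)
      (by norm_num) (by norm_num) (by norm_num) (Or.inl (by norm_num)) (Or.inl (by norm_num)) (by norm_num) (by norm_num)
      (by norm_num) (by norm_num) (by norm_num) (by norm_num) (B6b.P7_3 hu0 hu1)
  rcases le_total (cc s) (59 / 100) with h4 | h4'
  · exact boxc (n := 7) (a := 287 / 500) (b := 59 / 100) (ζ := 1) (g := (5 / 8)) (β := 1 / 6) (N3 := 4)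
      (A := 15621 / 10000) (zm := 2043 / 5000) (L := 1091 / 5000) (M := 1613 / 2500) (κ := 653 / 200) (τ := 12 / 5) (ρ := 2) (by norm_num) hμ' hs hl hT (by norm_num) hl1' hk hk0
      (by norm_num) (by norm_num) (by norm_num) hR0 (rr_seven hu0) h3' h4 (sc_two hc (by linarith)) (by norm_num)
      (by norm_num) (by norm_num) (by norm_num) (Or.inl (by norm_num)) (Or.inr ⟨by norm_num, by norm_num⟩) (by norm_num) (by norm_num)
      (by norm_num) (by norm_num) (by norm_num) (by norm_num) (B6b.P7_4 hu0 hu1)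
  rcases le_total (cc s) (77 / 125) with h5 | h5'
  · exact boxc (n := 7) (a := 59 / 100) (b := 77 / 125) (ζ := 1) (g := (5 / 8)) (β := 1 / 6) (N3 := 4)
      (A := 15303 / 10000) (zm := 4029 / 10000) (L := 2349 / 10000) (M := 1617 / 2500) (κ := 3159 / 1000) (τ := 47 / 20) (ρ := 2) (by norm_num) hμ' hs hl hT (by norm_num) hl1' hk hk0
      (by norm_num) (by norm_num) (by norm_num) hR0 (rr_seven hu0) h4' h5 (sc_two hc (by linarith)) (by norm_num)
      (by norm_num) (by norm_num) (by norm_num) (Or.inl (by norm_num)) (Or.inl (by norm_num)) (by norm_num) (by norm_num)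
      (by norm_num) (by norm_num) (by norm_num) (by norm_num) (B6b.P7_5 hu0 hu1)
  rcases le_total (cc s) (321 / 500) with h6 | h6'
  · exact boxc (n := 7) (a := 77 / 125) (b := 321 / 500) (ζ := 1) (g := (5 / 8)) (β := 1 / 6) (N3 := 4)
      (A := 14979 / 10000) (zm := 48 / 125) (L := 2511 / 10000) (M := 6483 / 10000) (κ := 3) (τ := 9 / 4) (ρ := 41 / 20) (by norm_num) hμ' hs hl hT (by norm_num) hl1' hk hk0
      (by norm_num) (by norm_num) (by norm_num) hR0 (rr_seven hu0) h5' h6 (sc_41 (by linarith) (by linarith)) (by norm_num)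
      (by norm_num) (by norm_num) (by norm_num) (Or.inr (by norm_num)) (Or.inl (by norm_num)) (by norm_num) (by norm_num)
      (by norm_num) (by norm_num) (by norm_num) (by norm_num) (B6b.P7_6 hu0 hu1)
  rcases le_total (cc s) (13 / 20) with h7 | h7'
  · exact boxc (n := 7) (a := 321 / 500) (b := 13 / 20) (ζ := 1) (g := (5 / 8)) (β := 1 / 6) (N3 := 4)
      (A := 7439 / 5000) (zm := 179 / 500) (L := 2561 / 10000) (M := 811 / 1250) (κ := 2957 / 1000) (τ := 9 / 4) (ρ := 41 / 20) (by norm_num) hμ' hs hl hT (by norm_num) hl1' hk hk0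
      (by norm_num) (by norm_num) (by norm_num) hR0 (rr_seven hu0) h6' h7 (sc_41 (by linarith) (by linarith)) (by norm_num)
      (by norm_num) (by norm_num) (by norm_num) (Or.inr (by norm_num)) (Or.inl (by norm_num)) (by norm_num) (by norm_num)
      (by norm_num) (by norm_num) (by norm_num) (by norm_num) (B6b.P7_7 hu0 hu1)
  rcases le_total (cc s) (29 / 40) with h8 | h8'
  · exact boxv (n := 7) (a := 13 / 20) (b := 29 / 40) (ζ := 1) (g := (5 / 8)) (β := 1 / 6) (N3 := 4)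
      (A := 2781 / 2000) (zm := 7 / 20) (L := 381 / 1250) (M := 1307 / 2000) (κ := 3563 / 1000) (τ := 9 / 4) (by norm_num) hμ' hs hl hT (by norm_num) hl1' hk hk0
      (by norm_num) (by norm_num) (by norm_num) hR0 (rr_seven hu0) h7' h8 (hvar (by linarith))
      (by norm_num) (by norm_num) (by norm_num) (by norm_num) (Or.inr (by norm_num)) (Or.inl (by norm_num)) (by norm_num) (by norm_num)
      (by norm_num) (by norm_num) (by norm_num) (by norm_num) (B6b.P7_8 hu0 hu1)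
  rcases le_total (cc s) (419 / 500) with h9 | h9'
  · exact boxv (n := 7) (a := 29 / 40) (b := 419 / 500) (ζ := 1) (g := (5 / 8)) (β := 1 / 6) (N3 := 4)
      (A := 6179 / 5000) (zm := 11 / 40) (L := 3821 / 10000) (M := 6611 / 10000) (κ := 3621 / 1000) (τ := 19 / 10) (by norm_num) hμ' hs hl hT (by norm_num) hl1' hk hk0
      (by norm_num) (by norm_num) (by norm_num) hR0 (rr_seven hu0) h8' h9 (hvar (by linarith))
      (by norm_num) (by norm_num) (by norm_num) (by norm_num) (Or.inr (by norm_num)) (Or.inl (by norm_num)) (by norm_num) (by norm_num)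
      (by norm_num) (by norm_num) (by norm_num) (by norm_num) (B6b.P7_9 hu0 hu1)
  rcases le_total (cc s) (487 / 500) with h10 | h10'
  · exact boxv (n := 7) (a := 419 / 500) (b := 487 / 500) (ζ := 1) (g := (5 / 8)) (β := 1 / 6) (N3 := 4)
      (A := 2597 / 2500) (zm := 81 / 500) (L := 2403 / 5000) (M := 6711 / 10000) (κ := 763 / 200) (τ := 3 / 2) (by norm_num) hμ' hs hl hT (by norm_num) hl1' hk hk0
      (by norm_num) (by norm_num) (by norm_num) hR0 (rr_seven hu0) h9' h10 (hvar (by linarith))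
      (by norm_num) (by norm_num) (by norm_num) (by norm_num) (Or.inr (by norm_num)) (Or.inl (by norm_num)) (by norm_num) (by norm_num)
      (by norm_num) (by norm_num) (by norm_num) (by norm_num) (B6b.P7_10 hu0 hu1)
  · exact boxv (n := 7) (a := 487 / 500) (b := 1) (ζ := 1) (g := (5 / 8)) (β := 1 / 6) (N3 := 4)
      (A := 1) (zm := 13 / 500) (L := 1 / 2) (M := 6731 / 10000) (κ := 1263 / 200) (τ := 1) (by norm_num) hμ' hs hl hT (by norm_num) hl1' hk hk0
      (by norm_num) (by norm_num) (by norm_num) hR0 (rr_seven hu0) h10' hc1.le (hvar (by linarith))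
      (by norm_num) (by norm_num) (by norm_num) (by norm_num) (Or.inr (by norm_num)) (Or.inl (by norm_num)) (by norm_num) (by norm_num)
      (by norm_num) (by norm_num) (by norm_num) (by norm_num) (B6b.P7_11 hu0 hu1)

end Crest.Agent.R230.WR
end

-- ▼ part R230/LTailBase
section

/-!
# Row 230 (helper91): tools for explicit bounds `l (1+c) ≤ ρ c²`
-/

set_option autoImplicit false

open MeasureTheory Set Filter Topology
open scoped Pointwise ENNReal

namespace Crest.Agent.R230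

/-- `V ρ s = s exp (ρ c²/(1+c))` -/
noncomputable def Vr (ρ s : ℝ) : ℝ := s * Real.exp (ρ * (cc s ^ 2 / (1 + cc s)))

lemma cc_of_sq {a c : ℝ} (hc : 0 ≤ c) (h : a ^ 2 + c ^ 2 = 1) : cc a = c := by
  unfold cc
  rw [show 1 - a ^ 2 = c ^ 2 by linarith]
  exact Real.sqrt_sq hc

lemma ll_eq {n : ℕ} {r : ℝ → ℝ} {s : ℝ} (hs : 0 < s) : ll n r s = Real.log (tau n r s / s) := by
  unfold ll
  rw [if_neg hs.ne']

/-- from a bound of `τ` to a bound of `l` -/
lemma ll_le_of_tau_le {n : ℕ} {r : ℝ → ℝ} (hr : Prof r) {ρ s : ℝ} (hs : s ∈ Ioo (0 : ℝ) 1)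
    (h : tau n r s ≤ Vr ρ s) : ll n r s * (1 + cc s) ≤ ρ * cc s ^ 2 := by
  have hT : 0 < tau n r s := tau_pos hr n ⟨hs.1, hs.2.le⟩
  have hc : 0 ≤ cc s := Real.sqrt_nonneg _
  rw [ll_eq hs.1]
  have h1 : tau n r s / s ≤ Real.exp (ρ * (cc s ^ 2 / (1 + cc s))) := by
    rw [div_le_iff₀ hs.1]
    unfold Vr at h
    linarith
  have h2 : Real.log (tau n r s / s) ≤ ρ * (cc s ^ 2 / (1 + cc s)) := by
    calc Real.log (tau n r s / s) ≤ Real.log (Real.exp (ρ * (cc s ^ 2 / (1 + cc s)))) :=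
          Real.log_le_log (div_pos hT hs.1) h1
      _ = _ := Real.log_exp _
  calc Real.log (tau n r s / s) * (1 + cc s) ≤ ρ * (cc s ^ 2 / (1 + cc s)) * (1 + cc s) :=
        mul_le_mul_of_nonneg_right h2 (by linarith)
    _ = ρ * cc s ^ 2 := by field_simp

lemma Vr_mono {ρ : ℝ} (hρ : ρ ≤ 7 / 8) : MonotoneOn (Vr ρ) (Icc 0 (93 / 100)) := by
  have hder : ∀ x ∈ Ioo (0 : ℝ) (93 / 100), HasDerivAt (Vr ρ) (Real.exp (ρ * (cc x ^ 2 / (1 + cc x))) *
      (1 - ρ * x ^ 2 * (2 + cc x) / (1 + cc x) ^ 2)) x := by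
    intro x hx
    have hx' : x ∈ Ioo (-1 : ℝ) 1 := ⟨by linarith [hx.1], by linarith [hx.2]⟩
    have h1 : HasDerivAt cc (-x / cc x) x := hasDerivAt_cs hx'
    have hc : 0 < cc x := sqrt_pos_of_mem hx'
    have h2 := ((h1.fun_pow 2).fun_div (h1.const_add 1) (by positivity)).const_mul ρ
    have h3 := (hasDerivAt_id x).fun_mul h2.exp
    refine h3.congr_deriv ?_
    simp only [id]
    field_simp
    ring
  refine monotoneOn_of_deriv_nonneg (convex_Icc _ _) ?_ ?_ ?_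
  · unfold Vr
    have : Continuous cc := by unfold cc; fun_prop
    have h2 : ∀ x, 1 + cc x ≠ 0 := fun x => by
      have : 0 ≤ cc x := Real.sqrt_nonneg _
      positivity
    exact (continuous_id.mul (Real.continuous_exp.comp (continuous_const.mul
      ((this.pow 2).div (continuous_const.add this) h2)))).continuousOn
  · intro x hx
    rw [interior_Icc] at hx
    exact (hder x hx).differentiableAt.differentiableWithinAt
  · intro x hx
    rw [interior_Icc] at hx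
    rw [(hder x hx).deriv]
    have hx' : x ∈ Ioo (-1 : ℝ) 1 := ⟨by linarith [hx.1], by linarith [hx.2]⟩
    have hc : 0 < cc x := sqrt_pos_of_mem hx'
    have hc2 : cc x ^ 2 = 1 - x ^ 2 := cs_sq ⟨hx.1.le, by linarith [hx.2]⟩
    apply mul_nonneg (Real.exp_pos _).le
    rw [sub_nonneg, div_le_one (by positivity)]
    have hx0 := hx.1
    have hx1 := hx.2
    have hc1 : 0.3675 ≤ cc x := by
      by_contra hcon
      push Not at hcon
      nlinarith
    have hx2 : x ^ 2 = (1 - cc x) * (1 + cc x) := by ring_nf; linarith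
    rw [show ρ * x ^ 2 * (2 + cc x) = ρ * (x ^ 2 * (2 + cc x)) by ring, hx2]
    have hc1' : cc x ≤ 1 := cc_le_one x
    have h4 : 0 ≤ (1 - cc x) * (1 + cc x) * (2 + cc x) := by
      have : 0 ≤ 1 - cc x := by linarith
      positivity
    have h5 := mul_le_mul_of_nonneg_right hρ h4
    nlinarith [mul_nonneg hc.le (sub_nonneg.2 hc1'), sq_nonneg (cc x)]

/-- numerical lower bound of `V` -/
lemma Vr_ge {ρ a c τ : ℝ} (hρ : 0 ≤ ρ) (ha : 0 ≤ a) (hc : 0 ≤ c) (h : a ^ 2 + c ^ 2 = 1)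
    (hτ : τ ≤ a * (1 + ρ * (c ^ 2 / (1 + c)) + (ρ * (c ^ 2 / (1 + c))) ^ 2 / 2 +
      (ρ * (c ^ 2 / (1 + c))) ^ 3 / 6 + (ρ * (c ^ 2 / (1 + c))) ^ 4 / 24)) : τ ≤ Vr ρ a := by
  unfold Vr
  rw [cc_of_sq hc h]
  have hx : 0 ≤ ρ * (c ^ 2 / (1 + c)) := by positivity
  have h1 := Real.sum_le_exp_of_nonneg hx 5
  simp only [Finset.sum_range_succ, Finset.sum_range_zero, Nat.factorial, pow_zero, pow_one] at h1
  refine hτ.trans (mul_le_mul_of_nonneg_left ?_ ha)
  norm_num at h1 ⊢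
  linarith

/-- one piece -/
lemma ll_piece {n : ℕ} {r : ℝ → ℝ} (hr : Prof r) {ρ a b τ s : ℝ} (hρ : ρ ≤ 7 / 8)
    (ha : 0 < a) (hb : b ≤ 1) (hs : s ∈ Icc a b) (hs1 : s ≤ 93 / 100) (hT : tau n r b ≤ τ)
    (hV : τ ≤ Vr ρ a) : ll n r s * (1 + cc s) ≤ ρ * cc s ^ 2 := by
  have hs0 : 0 < s := ha.trans_le hs.1
  refine ll_le_of_tau_le hr ⟨hs0, by linarith⟩ ?_
  have h1 : tau n r s ≤ tau n r b := (tau_strictMonoOn hr n).monotoneOn ⟨by linarith, by linarith⟩
    ⟨by linarith [hs.1, hs.2], hb⟩ hs.2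
  have h2 : Vr ρ a ≤ Vr ρ s := Vr_mono hρ ⟨ha.le, by linarith [hs.1]⟩ ⟨hs0.le, hs1⟩ hs.1
  linarith

/-- near `s = 1` the trivial bound `τ ≤ 1` suffices -/
lemma ll_end {n : ℕ} {r : ℝ → ℝ} (hr : Prof r) {ρ c₀ s : ℝ} (hs : s ∈ Ioo (0 : ℝ) 1)
    (hc : cc s ≤ c₀) (hc0 : c₀ ≤ 1 / 2)
    (h : (1 / 2 + c₀ ^ 2 / 4 + c₀ ^ 4 / 6 + c₀ ^ 6 / (2 * (1 - c₀ ^ 2))) * (1 + c₀) ≤ ρ) :
    ll n r s * (1 + cc s) ≤ ρ * cc s ^ 2 := by
  have hcp : 0 < cc s := sqrt_pos_of_mem ⟨by linarith [hs.1], hs.2⟩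
  have hc2 : cc s ^ 2 = 1 - s ^ 2 := cs_sq ⟨hs.1.le, hs.2.le⟩
  have hT : 0 < tau n r s := tau_pos hr n ⟨hs.1, hs.2.le⟩
  have hT1 : tau n r s ≤ 1 := (tau_lt_one hr n ⟨hs.1.le, hs.2⟩).le
  rw [ll_eq hs.1]
  have h1 : Real.log (tau n r s / s) ≤ -Real.log s := by
    rw [Real.log_div hT.ne' hs.1.ne']
    have := Real.log_nonpos hT.le hT1
    linarith
  have hs2 : Real.log (s ^ 2) = 2 * Real.log s := by rw [Real.log_pow]; norm_num
  set c := cc s with hcdef
  have hsc : s ^ 2 = 1 - c ^ 2 := by linarith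
  rw [hsc] at hs2
  have hu1 : c ^ 2 ≤ 1 / 4 := by nlinarith
  have hu2 : c₀ ^ 2 ≤ 1 / 4 := by nlinarith
  have hcc : c ^ 2 ≤ c₀ ^ 2 := by nlinarith
  have h3 : -Real.log (1 - c ^ 2) ≤ c ^ 2 + (c ^ 2) ^ 2 / 2 + (c ^ 2) ^ 3 / 3 + (c ^ 2) ^ 4 / (1 - c ^ 2) := by
    have hu0 : 0 < c ^ 2 := by positivity
    have h4 := Real.abs_log_sub_add_sum_range_le (x := c ^ 2) (by rw [abs_of_pos hu0]; linarith) 3
    rw [abs_of_pos hu0] at h4
    have h5 := (abs_le.1 h4).1
    simp only [Finset.sum_range_succ, Finset.sum_range_zero] at h5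
    norm_num at h5
    linarith
  have h6 : -Real.log s ≤ c ^ 2 * (1 / 2 + c ^ 2 / 4 + c ^ 4 / 6 + c ^ 6 / (2 * (1 - c ^ 2))) := by
    have hne : (1 - c ^ 2) ≠ 0 := by linarith
    have h7 : c ^ 2 * (1 / 2 + c ^ 2 / 4 + c ^ 4 / 6 + c ^ 6 / (2 * (1 - c ^ 2))) =
        (c ^ 2 + (c ^ 2) ^ 2 / 2 + (c ^ 2) ^ 3 / 3 + (c ^ 2) ^ 4 / (1 - c ^ 2)) / 2 := by
      field_simp
      ring
    rw [h7]
    linarith
  have h8 : 1 / 2 + c ^ 2 / 4 + c ^ 4 / 6 + c ^ 6 / (2 * (1 - c ^ 2)) ≤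
      1 / 2 + c₀ ^ 2 / 4 + c₀ ^ 4 / 6 + c₀ ^ 6 / (2 * (1 - c₀ ^ 2)) := by
    have h9 : 0 < 2 * (1 - c₀ ^ 2) := by linarith
    gcongr
  have h10 : 0 ≤ 1 / 2 + c ^ 2 / 4 + c ^ 4 / 6 + c ^ 6 / (2 * (1 - c ^ 2)) := by
    have : 0 < 1 - c ^ 2 := by linarith
    positivity
  calc Real.log (tau n r s / s) * (1 + c) ≤
        (c ^ 2 * (1 / 2 + c ^ 2 / 4 + c ^ 4 / 6 + c ^ 6 / (2 * (1 - c ^ 2)))) * (1 + c) :=
        mul_le_mul_of_nonneg_right (h1.trans h6) (by positivity)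
    _ = c ^ 2 * ((1 / 2 + c ^ 2 / 4 + c ^ 4 / 6 + c ^ 6 / (2 * (1 - c ^ 2))) * (1 + c)) := by ring
    _ ≤ c ^ 2 * ((1 / 2 + c₀ ^ 2 / 4 + c₀ ^ 4 / 6 + c₀ ^ 6 / (2 * (1 - c₀ ^ 2))) * (1 + c₀)) := by
        apply mul_le_mul_of_nonneg_left _ (by positivity)
        exact mul_le_mul h8 (by linarith) (by positivity) (h10.trans h8)
    _ ≤ c ^ 2 * ρ := mul_le_mul_of_nonneg_left h (by positivity)
    _ = ρ * c ^ 2 := by ring

end Crest.Agent.R230
end

-- ▼ part R230/LTail7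
section

/-!
# Row 230 (helper91): `l (1+c) ≤ (7/8) c²` for `n = 6` (dimension 7)
-/

set_option autoImplicit false

open MeasureTheory Set Filter Topology
open scoped Pointwise ENNReal

namespace Crest.Agent.R230

namespace LT7

lemma w_one : w 1 = Real.pi / 2 := by
  unfold w
  have := integral_sqrt_one_sub_sq
  simpa using this

lemma w_zero : w 0 = 2 := by
  unfold w
  simp
  norm_num

lemma w_five : w 5 = 5 * Real.pi / 16 := by
  have h3 := w_rec 1
  have h5 := w_rec 3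
  norm_num at h3 h5
  rw [w_one] at h3
  linarith

lemma w_six : w 6 = 32 / 35 := by
  have h2 := w_rec 0
  have h4 := w_rec 2
  have h6 := w_rec 4
  norm_num at h2 h4 h6
  rw [w_zero] at h2
  linarith

lemma lB_six {s : ℝ} (hs : s ∈ Icc (0 : ℝ) 1) : lB 6 s = s - s ^ 3 + 3 / 5 * s ^ 5 - s ^ 7 / 7 := by
  unfold lB
  have h1 : ∫ x in (0 : ℝ)..s, Real.sqrt (1 - x ^ 2) ^ 6 = ∫ x in (0 : ℝ)..s, (1 - 3 * x ^ 2 + 3 * x ^ 4 - x ^ 6) := by
    apply intervalIntegral.integral_congr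
    intro x hx
    rw [uIcc_of_le hs.1] at hx
    have h2 : Real.sqrt (1 - x ^ 2) ^ 2 = 1 - x ^ 2 := Real.sq_sqrt (by nlinarith [hx.1, hx.2, hs.2])
    show Real.sqrt (1 - x ^ 2) ^ 6 = 1 - 3 * x ^ 2 + 3 * x ^ 4 - x ^ 6
    calc Real.sqrt (1 - x ^ 2) ^ 6 = (Real.sqrt (1 - x ^ 2) ^ 2) ^ 3 := by ring
      _ = _ := by rw [h2]; ring
  rw [h1]
  have hd : ∀ x ∈ uIcc (0 : ℝ) s, HasDerivAt (fun x : ℝ => x - x ^ 3 + 3 / 5 * x ^ 5 - x ^ 7 / 7)
      (1 - 3 * x ^ 2 + 3 * x ^ 4 - x ^ 6) x := by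
    intro x _
    have h3 := (((hasDerivAt_id x).fun_sub ((hasDerivAt_id x).fun_pow 3)).fun_add
      (((hasDerivAt_id x).fun_pow 5).const_mul (3 / 5))).fun_sub (((hasDerivAt_id x).fun_pow 7).div_const 7)
    refine h3.congr_deriv ?_
    simp only [id]
    push_cast
    ring
  rw [intervalIntegral.integral_eq_sub_of_hasDerivAt hd (Continuous.intervalIntegrable (by fun_prop) _ _)]
  simp

lemma hB_six_zero : hB 6 0 = 16 / 35 := by
  have h := w_eq_two_hB 6
  rw [w_six] at h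
  linarith

lemma hB_six {s : ℝ} (hs : s ∈ Icc (0 : ℝ) 1) :
    hB 6 s = 16 / 35 - (s - s ^ 3 + 3 / 5 * s ^ 5 - s ^ 7 / 7) := by
  have h := lB_add_hB 6 s
  rw [lB_six hs, hB_six_zero] at h
  linarith

lemma R_le : (w 5 / w 6) ^ 6 ≤ (7664501 / 5000000) := by
  rw [w_five, w_six]
  have h := Real.pi_lt_d4
  have hp := Real.pi_pos
  have h1 : 5 * Real.pi / 16 / (32 / 35) ≤ (27489 / 25600) := by
    linarith
  calc (5 * Real.pi / 16 / (32 / 35)) ^ 6 ≤ ((27489 / 25600) : ℝ) ^ 6 :=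
        pow_le_pow_left₀ (by positivity) h1 6
    _ ≤ _ := by norm_num

/-- cylinder bound, `n = 6` -/
lemma cyl {r : ℝ → ℝ} (hr : Prof r) (hN : NleB 6 r) {s : ℝ} (hs : s ∈ Ioo (0 : ℝ) 1)
    (hs1 : s ≤ 28 / 53) : tau 6 r s ≤ (7664501 / 5000000) * (s - s ^ 3 + 3 / 5 * s ^ 5 - s ^ 7 / 7) := by
  have hI : s ∈ Icc (0 : ℝ) 1 := ⟨hs.1.le, hs.2.le⟩
  have hmono : lB 6 s ≤ lB 6 (28 / 53) := by
    have h1 : lB 6 (28 / 53) - lB 6 s = ∫ x in s..(28 / 53), Real.sqrt (1 - x ^ 2) ^ 6 := by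
      unfold lB
      rw [intervalIntegral.integral_interval_sub_left (intervalIntegrable_cpow 6 _ _)
        (intervalIntegrable_cpow 6 _ _)]
    have h2 : 0 ≤ ∫ x in s..(28 / 53), Real.sqrt (1 - x ^ 2) ^ 6 :=
      intervalIntegral.integral_nonneg hs1 fun x _ => by positivity
    linarith
  have h1 := tau_le_of_NleB hr (n := 6) (by norm_num) hN hs (by
    refine hmono.trans ?_
    rw [lB_six (by norm_num), hB_six_zero]
    norm_num)
  rw [lB_six hI] at h1
  have h3 : 0 ≤ s - s ^ 3 + 3 / 5 * s ^ 5 - s ^ 7 / 7 := by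
    rw [← lB_six hI]; exact lB_nonneg 6 hI
  exact h1.trans (mul_le_mul_of_nonneg_right R_le h3)

/-- near region -/
lemma near {r : ℝ → ℝ} (hr : Prof r) (hN : NleB 6 r) {s : ℝ} (hs : s ∈ Ioo (0 : ℝ) 1)
    (hs1 : s ≤ 28 / 53) : ll 6 r s * (1 + cc s) ≤ 7 / 8 * cc s ^ 2 := by
  have hT : 0 < tau 6 r s := tau_pos hr 6 ⟨hs.1, hs.2.le⟩
  have h1 := cyl hr hN hs hs1
  have hs0 := hs.1
  have hpos : 0 < 1 - s ^ 2 + 3 / 5 * s ^ 4 - s ^ 6 / 7 := by
    have : s ^ 2 ≤ 1 / 2 := by nlinarith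
    nlinarith [sq_nonneg (s ^ 2), pow_pos hs0 2, pow_pos hs0 4, mul_nonneg (pow_pos hs0 4).le (sub_nonneg.2 this)]
  have h2 : Real.log (tau 6 r s / s) ≤ 0.4272 + ((1 - s ^ 2 + 3 / 5 * s ^ 4 - s ^ 6 / 7) - 1) := by
    have h3 : tau 6 r s / s ≤ (7664501 / 5000000) * (1 - s ^ 2 + 3 / 5 * s ^ 4 - s ^ 6 / 7) := by
      rw [div_le_iff₀ hs0]
      calc tau 6 r s ≤ _ := h1
        _ = _ := by ring
    have h4 : ((7664501 / 5000000) : ℝ) ≤ Real.exp 0.4272 := by
      have := Real.sum_le_exp_of_nonneg (show (0 : ℝ) ≤ 0.4272 by norm_num) 7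
      simp only [Finset.sum_range_succ, Finset.sum_range_zero, Nat.factorial] at this
      norm_num at this ⊢
      linarith
    have h5 : Real.log ((7664501 / 5000000) * (1 - s ^ 2 + 3 / 5 * s ^ 4 - s ^ 6 / 7)) ≤
        0.4272 + ((1 - s ^ 2 + 3 / 5 * s ^ 4 - s ^ 6 / 7) - 1) := by
      rw [Real.log_mul (by norm_num) hpos.ne']
      have h6 := Real.log_le_sub_one_of_pos hpos
      have h7 : Real.log ((7664501 / 5000000)) ≤ 0.4272 := by
        calc Real.log ((7664501 / 5000000)) ≤ Real.log (Real.exp 0.4272) :=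
              Real.log_le_log (by norm_num) h4
          _ = _ := Real.log_exp _
      linarith
    exact (Real.log_le_log (div_pos hT hs0) h3).trans h5
  rw [ll_eq hs0]
  have hc2 : cc s ^ 2 = 1 - s ^ 2 := cs_sq ⟨hs.1.le, hs.2.le⟩
  have hc0 : 0 ≤ cc s := Real.sqrt_nonneg _
  have hc1 : cc s ≤ 1 - s ^ 2 / 2 := by
    have h8 : 0 ≤ 1 - s ^ 2 / 2 := by nlinarith [hs.2]
    refine abs_le_of_sq_le_sq' ?_ h8 |>.2
    rw [hc2]
    nlinarith [sq_nonneg (s ^ 2)]
  rw [hc2]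
  set A := 0.4272 + ((1 - s ^ 2 + 3 / 5 * s ^ 4 - s ^ 6 / 7) - 1) with hA
  have h9 : Real.log (tau 6 r s / s) * (1 + cc s) ≤ A * (1 + cc s) :=
    mul_le_mul_of_nonneg_right h2 (by linarith)
  have hu1 : s ^ 2 ≤ 0.28 := by nlinarith
  have hu0 : 0 ≤ s ^ 2 := by positivity
  rcases le_or_gt 0 A with hA0 | hA0
  · have h10 : A * (1 + cc s) ≤ A * (1 + (1 - s ^ 2 / 2)) := mul_le_mul_of_nonneg_left (by linarith) hA0
    have h11 : A * (1 + (1 - s ^ 2 / 2)) ≤ 7 / 8 * (1 - s ^ 2) := by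
      rw [hA]
      have : s ^ 4 = (s ^ 2) ^ 2 := by ring
      have h6' : s ^ 6 = (s ^ 2) ^ 3 := by ring
      rw [this, h6']
      set u := s ^ 2
      nlinarith [mul_nonneg hu0 (sub_nonneg.2 hu1), mul_nonneg (mul_nonneg hu0 hu0) (sub_nonneg.2 hu1),
        pow_nonneg hu0 3, pow_nonneg hu0 4]
    linarith
  · have h10 : A * (1 + cc s) ≤ 0 := mul_nonpos_of_nonpos_of_nonneg hA0.le (by linarith)
    nlinarith

lemma start {r : ℝ → ℝ} (hr : Prof r) (hN : NleB 6 r) : tau 6 r (28 / 53) ≤ (12383 / 20000) := by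
  refine (cyl hr hN (by norm_num) (by norm_num)).trans ?_
  norm_num

lemma cone {r : ℝ → ℝ} (hr : Prof r) (hN : NleB 6 r) {b τ : ℝ} (hb : (28 / 53) ≤ b) (hb1 : b ≤ 1)
    (h : ((1 - (1 - (61 / 100)) * τ) ^ 7 - (61 / 100) ^ 7) * (16 / 35) ≤
      (16 / 35 - (b - b ^ 3 + 3 / 5 * b ^ 5 - b ^ 7 / 7)) * (1 - (61 / 100) ^ 7)) : tau 6 r b ≤ τ := by
  have hs1 : (0 : ℝ) < (28 / 53) := by norm_num
  refine tau_le_of_cone hr (n := 6) (by norm_num) (e := (61 / 100)) (by norm_num) (by norm_num) hs1 hb hb1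
    (start hr hN) (by norm_num) ?_ ?_
  · rw [hB_six (by norm_num), hB_six_zero]
    norm_num
  · rw [hB_six ⟨by linarith, hb1⟩, hB_six_zero]
    exact h

lemma piece0 {r : ℝ → ℝ} (hr : Prof r) (hN : NleB 6 r) {s : ℝ} (hs : s ∈ Icc ((28 / 53) : ℝ) (3 / 5))
    (hs1 : s ≤ 93 / 100) : ll 6 r s * (1 + cc s) ≤ 7 / 8 * cc s ^ 2 := by
  refine ll_piece hr (by norm_num) (by norm_num) (by norm_num) hs hs1
    (cone hr hN (b := (3 / 5)) (τ := (37153 / 50000)) (by norm_num) (by norm_num) (by norm_num)) ?_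
  exact Vr_ge (c := (45 / 53)) (by norm_num) (by norm_num) (by norm_num) (by norm_num) (by norm_num)

lemma piece1 {r : ℝ → ℝ} (hr : Prof r) (hN : NleB 6 r) {s : ℝ} (hs : s ∈ Icc ((3 / 5) : ℝ) (48 / 73))
    (hs1 : s ≤ 93 / 100) : ll 6 r s * (1 + cc s) ≤ 7 / 8 * cc s ^ 2 := by
  refine ll_piece hr (by norm_num) (by norm_num) (by norm_num) hs hs1
    (cone hr hN (b := (48 / 73)) (τ := (40947 / 50000)) (by norm_num) (by norm_num) (by norm_num)) ?_
  exact Vr_ge (c := (4 / 5)) (by norm_num) (by norm_num) (by norm_num) (by norm_num) (by norm_num)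

lemma piece2 {r : ℝ → ℝ} (hr : Prof r) (hN : NleB 6 r) {s : ℝ} (hs : s ∈ Icc ((48 / 73) : ℝ) (396 / 565))
    (hs1 : s ≤ 93 / 100) : ll 6 r s * (1 + cc s) ≤ 7 / 8 * cc s ^ 2 := by
  refine ll_piece hr (by norm_num) (by norm_num) (by norm_num) hs hs1
    (cone hr hN (b := (396 / 565)) (τ := (21821 / 25000)) (by norm_num) (by norm_num) (by norm_num)) ?_
  exact Vr_ge (c := (55 / 73)) (by norm_num) (by norm_num) (by norm_num) (by norm_num) (by norm_num)

lemma piece3 {r : ℝ → ℝ} (hr : Prof r) (hN : NleB 6 r) {s : ℝ} (hs : s ∈ Icc ((396 / 565) : ℝ) (460 / 629))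
    (hs1 : s ≤ 93 / 100) : ll 6 r s * (1 + cc s) ≤ 7 / 8 * cc s ^ 2 := by
  refine ll_piece hr (by norm_num) (by norm_num) (by norm_num) hs hs1
    (cone hr hN (b := (460 / 629)) (τ := (90883 / 100000)) (by norm_num) (by norm_num) (by norm_num)) ?_
  exact Vr_ge (c := (403 / 565)) (by norm_num) (by norm_num) (by norm_num) (by norm_num) (by norm_num)

lemma piece4 {r : ℝ → ℝ} (hr : Prof r) (hN : NleB 6 r) {s : ℝ} (hs : s ∈ Icc ((460 / 629) : ℝ) (55 / 73))
    (hs1 : s ≤ 93 / 100) : ll 6 r s * (1 + cc s) ≤ 7 / 8 * cc s ^ 2 := by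
  refine ll_piece hr (by norm_num) (by norm_num) (by norm_num) hs hs1
    (cone hr hN (b := (55 / 73)) (τ := (93153 / 100000)) (by norm_num) (by norm_num) (by norm_num)) ?_
  exact Vr_ge (c := (429 / 629)) (by norm_num) (by norm_num) (by norm_num) (by norm_num) (by norm_num)

lemma piece5 {r : ℝ → ℝ} (hr : Prof r) (hN : NleB 6 r) {s : ℝ} (hs : s ∈ Icc ((55 / 73) : ℝ) (272 / 353))
    (hs1 : s ≤ 93 / 100) : ll 6 r s * (1 + cc s) ≤ 7 / 8 * cc s ^ 2 := by
  refine ll_piece hr (by norm_num) (by norm_num) (by norm_num) hs hs1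
    (cone hr hN (b := (272 / 353)) (τ := (47329 / 50000)) (by norm_num) (by norm_num) (by norm_num)) ?_
  exact Vr_ge (c := (48 / 73)) (by norm_num) (by norm_num) (by norm_num) (by norm_num) (by norm_num)

lemma piece6 {r : ℝ → ℝ} (hr : Prof r) (hN : NleB 6 r) {s : ℝ} (hs : s ∈ Icc ((272 / 353) : ℝ) (1056 / 1345))
    (hs1 : s ≤ 93 / 100) : ll 6 r s * (1 + cc s) ≤ 7 / 8 * cc s ^ 2 := by
  refine ll_piece hr (by norm_num) (by norm_num) (by norm_num) hs hs1
    (cone hr hN (b := (1056 / 1345)) (τ := (95737 / 100000)) (by norm_num) (by norm_num) (by norm_num)) ?_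
  exact Vr_ge (c := (225 / 353)) (by norm_num) (by norm_num) (by norm_num) (by norm_num) (by norm_num)

lemma piece7 {r : ℝ → ℝ} (hr : Prof r) (hN : NleB 6 r) {s : ℝ} (hs : s ∈ Icc ((1056 / 1345) : ℝ) (4 / 5))
    (hs1 : s ≤ 93 / 100) : ll 6 r s * (1 + cc s) ≤ 7 / 8 * cc s ^ 2 := by
  refine ll_piece hr (by norm_num) (by norm_num) (by norm_num) hs hs1
    (cone hr hN (b := (4 / 5)) (τ := (48297 / 50000)) (by norm_num) (by norm_num) (by norm_num)) ?_
  exact Vr_ge (c := (833 / 1345)) (by norm_num) (by norm_num) (by norm_num) (by norm_num) (by norm_num)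

lemma piece8 {r : ℝ → ℝ} (hr : Prof r) (hN : NleB 6 r) {s : ℝ} (hs : s ∈ Icc ((4 / 5) : ℝ) (435 / 533))
    (hs1 : s ≤ 93 / 100) : ll 6 r s * (1 + cc s) ≤ 7 / 8 * cc s ^ 2 := by
  refine ll_piece hr (by norm_num) (by norm_num) (by norm_num) hs hs1
    (cone hr hN (b := (435 / 533)) (τ := (97407 / 100000)) (by norm_num) (by norm_num) (by norm_num)) ?_
  exact Vr_ge (c := (3 / 5)) (by norm_num) (by norm_num) (by norm_num) (by norm_num) (by norm_num)

lemma piece9 {r : ℝ → ℝ} (hr : Prof r) (hN : NleB 6 r) {s : ℝ} (hs : s ∈ Icc ((435 / 533) : ℝ) (840 / 1009))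
    (hs1 : s ≤ 93 / 100) : ll 6 r s * (1 + cc s) ≤ 7 / 8 * cc s ^ 2 := by
  refine ll_piece hr (by norm_num) (by norm_num) (by norm_num) hs hs1
    (cone hr hN (b := (840 / 1009)) (τ := (12277 / 12500)) (by norm_num) (by norm_num) (by norm_num)) ?_
  exact Vr_ge (c := (308 / 533)) (by norm_num) (by norm_num) (by norm_num) (by norm_num) (by norm_num)

lemma piece10 {r : ℝ → ℝ} (hr : Prof r) (hN : NleB 6 r) {s : ℝ} (hs : s ∈ Icc ((840 / 1009) : ℝ) (288 / 337))
    (hs1 : s ≤ 93 / 100) : ll 6 r s * (1 + cc s) ≤ 7 / 8 * cc s ^ 2 := by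
  refine ll_piece hr (by norm_num) (by norm_num) (by norm_num) hs hs1
    (cone hr hN (b := (288 / 337)) (τ := (24739 / 25000)) (by norm_num) (by norm_num) (by norm_num)) ?_
  exact Vr_ge (c := (559 / 1009)) (by norm_num) (by norm_num) (by norm_num) (by norm_num) (by norm_num)

lemma piece11 {r : ℝ → ℝ} (hr : Prof r) (hN : NleB 6 r) {s : ℝ} (hs : s ∈ Icc ((288 / 337) : ℝ) (77 / 85))
    (hs1 : s ≤ 93 / 100) : ll 6 r s * (1 + cc s) ≤ 7 / 8 * cc s ^ 2 := by
  refine ll_piece hr (by norm_num) (by norm_num) (by norm_num) hs hs1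
    (cone hr hN (b := (77 / 85)) (τ := (49909 / 50000)) (by norm_num) (by norm_num) (by norm_num)) ?_
  exact Vr_ge (c := (175 / 337)) (by norm_num) (by norm_num) (by norm_num) (by norm_num) (by norm_num)

end LT7

/-- **LT7**: `l (1+c) ≤ (7/8) c²` in dimension 7 -/
theorem ll_seven {r : ℝ → ℝ} (hr : Prof r) (hN : NleB 6 r) {s : ℝ} (hs : s ∈ Ioo (0 : ℝ) 1) :
    ll 6 r s * (1 + cc s) ≤ 7 / 8 * cc s ^ 2 := by
  rcases le_or_gt s (28 / 53) with h0 | h0
  · exact LT7.near hr hN hs h0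
  rcases le_or_gt s (3 / 5) with h1 | h1
  · exact LT7.piece0 hr hN ⟨h0.le, h1⟩ (by linarith)
  rcases le_or_gt s (48 / 73) with h2 | h2
  · exact LT7.piece1 hr hN ⟨h1.le, h2⟩ (by linarith)
  rcases le_or_gt s (396 / 565) with h3 | h3
  · exact LT7.piece2 hr hN ⟨h2.le, h3⟩ (by linarith)
  rcases le_or_gt s (460 / 629) with h4 | h4
  · exact LT7.piece3 hr hN ⟨h3.le, h4⟩ (by linarith)
  rcases le_or_gt s (55 / 73) with h5 | h5
  · exact LT7.piece4 hr hN ⟨h4.le, h5⟩ (by linarith)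
  rcases le_or_gt s (272 / 353) with h6 | h6
  · exact LT7.piece5 hr hN ⟨h5.le, h6⟩ (by linarith)
  rcases le_or_gt s (1056 / 1345) with h7 | h7
  · exact LT7.piece6 hr hN ⟨h6.le, h7⟩ (by linarith)
  rcases le_or_gt s (4 / 5) with h8 | h8
  · exact LT7.piece7 hr hN ⟨h7.le, h8⟩ (by linarith)
  rcases le_or_gt s (435 / 533) with h9 | h9
  · exact LT7.piece8 hr hN ⟨h8.le, h9⟩ (by linarith)
  rcases le_or_gt s (840 / 1009) with h10 | h10
  · exact LT7.piece9 hr hN ⟨h9.le, h10⟩ (by linarith)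
  rcases le_or_gt s (288 / 337) with h11 | h11
  · exact LT7.piece10 hr hN ⟨h10.le, h11⟩ (by linarith)
  rcases le_or_gt s (168 / 193) with h12 | h12
  · exact LT7.piece11 hr hN ⟨h11.le, by linarith⟩ (by linarith)
  · have hc2 : cc s ^ 2 = 1 - s ^ 2 := cs_sq ⟨hs.1.le, hs.2.le⟩
    have hc0 : 0 ≤ cc s := Real.sqrt_nonneg _
    refine ll_end hr hs (c₀ := 95 / 193) ?_ (by norm_num) (by norm_num)
    refine abs_le_of_sq_le_sq' ?_ (by norm_num) |>.2
    rw [hc2]
    nlinarith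

end Crest.Agent.R230
end

-- ▼ part R230/B6Prof
section

/-!
# Row 230: block B6 for Lean `n = 6, 7` (profiles) and `OneD n` for `5 ≤ n ≤ 22`
-/

set_option autoImplicit false

open MeasureTheory Set Filter Topology
open scoped Pointwise ENNReal

namespace Crest.Agent.R230

open WR

theorem posNeg_six : PosNeg 6 := by
  intro r hr hN s hs hl hk
  have hμ : (((6 : ℕ) : ℝ) + 1 + 3 * (1 / 4)) / (((6 : ℕ) : ℝ) - 1) * 5 = 31 / 4 := by norm_num
  obtain ⟨h1, h2⟩ := B6_six (lm := 0) hμ hs hl.le (tau_le_one' hr hs) (ll_seven hr hN hs)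
    (kk_pos hr hs) hk.le
  exact lt_of_le_of_ne h1 fun h => hl.ne' (h2 h.symm)

theorem posNeg_seven : PosNeg 7 := by
  intro r hr hN s hs hl hk
  have hμ : (((7 : ℕ) : ℝ) + 1 + 3 * (1 / 4)) / (((7 : ℕ) : ℝ) - 1) * 6 = 35 / 4 := by norm_num
  obtain ⟨h1, h2⟩ := B6_seven (lm := 0) hμ hs hl.le (tau_le_one' hr hs)
    (ll_simple_all (by norm_num) (by norm_num) hr hN s hs) (kk_pos hr hs) hk.le
  exact lt_of_le_of_ne h1 fun h => hl.ne' (h2 h.symm)

theorem posNeg_all {n : ℕ} (h5 : 5 ≤ n) (h22 : n ≤ 22) : PosNeg n := by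
  rcases Nat.lt_or_ge n 9 with h | h
  · interval_cases n
    · exact posNeg_five
    · exact posNeg_six
    · exact posNeg_seven
    · exact posNeg_eight
  · exact posNeg_nine h h22

theorem posPos_le_19 {n : ℕ} (h5 : 5 ≤ n) (h19 : n ≤ 19) : PosPos n := by
  intro r hr hN s hs hl hk
  obtain ⟨h1, h2⟩ := caseII_pp h5 h19 hr hs hl.le (ll_half_all h5 (by omega) hr hN s hs) hk
  exact lt_of_le_of_ne h1 fun h => hl.ne' (h2 h.symm)

/-- the one-dimensional lemma in dimensions `6, …, 23` -/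
theorem oneD_le_22 {n : ℕ} (h5 : 5 ≤ n) (h22 : n ≤ 22) : OneD n := by
  rcases Nat.lt_or_ge n 16 with h | h
  · exact oneD_of_pos h5 h22 (posPos_le_19 h5 (by omega)) (posNeg_all h5 h22)
  · exact WR.oneD_16_22 h h22

end Crest.Agent.R230
end

-- ▼ part R230/S0354Pre
section

/-!
# Row 230: the crux in all dimensions from `OneD n`, `n ≥ 23`
-/

set_option autoImplicit false

open MeasureTheory Set
open scoped Pointwise ENNReal

namespace Crest.Agent.R230

/-- the crux for Lean `2 ≤ n ≤ 22` (body dimensions 3 to 23) -/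
theorem crux_le_22 {n : ℕ} (h2 : 2 ≤ n) (h22 : n ≤ 22) : CruxE n := by
  rcases lt_or_ge n 5 with h | h
  · interval_cases n
    · exact crux_of_SDL (by norm_num) sdl_two
    · exact crux_of_SDL (by norm_num) sdl_three
    · exact crux_of_SDL (by norm_num) sdl_four
  · exact crux_of_OneD h2 (oneD_le_22 h h22)

/-- the crux in all dimensions from the one-dimensional lemma for `n ≥ 23` -/
theorem crux_of_far (hfar : ∀ n, 23 ≤ n → OneD n) : ∀ n, 2 ≤ n → CruxE n := by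
  intro n hn
  rcases Nat.lt_or_ge n 23 with h | h
  · exact crux_le_22 hn (by omega)
  · exact crux_of_OneD hn (hfar n h)

end Crest.Agent.R230
end

-- ▼ part R230/FarAll

/-!
# Row 230: `PStar > 0` for all `n ≥ 23` (all blocks) and the crux in every dimension
-/

set_option autoImplicit false

namespace Crest.Agent.R230

theorem PStar_pos {n : ℕ} (hn : 23 ≤ n) {s l k : ℝ} (h : WR.FarC n s l k) :
    0 < WR.PStar n s l k := by
  rcases le_total k 0 with hk | hk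
  · rcases le_total l (9 / 10) with hl | hl
    · exact WR.PStar_neg_box hn h hk (by linarith)
    · exact WR.PStar_pos_tailneg hn h hl hk
  · rcases le_total l (9 / 10) with hl | hl
    · exact WR.PStar_pos_box hn h hk hl
    · exact WR.PStar_pos_tail hn h hk hl

theorem crux_every {n : ℕ} (hn : 2 ≤ n) : CruxE n :=
  crux_of_far (oneD_ge_23 fun _ hm _ _ _ h => PStar_pos hm h) n hn

end Crest.Agent.R230
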