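import Crest.Agent.R230.FarBoxS
import Crest.Agent.R230.OneDFar

/-!
# Row 230: block F1 (`k ≥ 0`, `l ≤ 9/10`) of the far region by a kernel-checked box certificate (helper782)
-/

set_option autoImplicit false

open Set

namespace Crest.Agent.R230.FB

open Crest.Agent.R230.IA Crest.Agent.R230.WR

lemma split_pt (m : ℕ) (x : ℝ) : UB x m ∨ LB m x := by
  unfold UB LB
  exact le_total _ _

theorem bis_sound : ∀ (n s0 s1 l0 l1 : ℕ), bis n s0 s1 l0 l1 = true → ∀ {s l : ℝ}, LB s0 s → UB s s1 →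
    LB l0 l → UB l l1 → ∃ a b c d : ℕ, box a b c d = true ∧ LB a s ∧ UB s b ∧ LB c l ∧ UB l d := by
  intro n
  induction n with
  | zero =>
    intro s0 s1 l0 l1 h s l h1 h2 h3 h4
    exact ⟨s0, s1, l0, l1, h, h1, h2, h3, h4⟩
  | succ n ih =>
    intro s0 s1 l0 l1 h s l h1 h2 h3 h4
    unfold bis at h
    rw [Bool.or_eq_true] at h
    rcases h with h | h
    · exact ⟨s0, s1, l0, l1, h, h1, h2, h3, h4⟩
    · cases hb : Nat.blt (l1 - l0) (s1 - s0) with
      | true =>
        rw [hb] at h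
        simp only [cond_true, Bool.and_eq_true] at h
        rcases split_pt ((s0 + s1) / 2) s with h5 | h5
        · exact ih _ _ _ _ h.1 h1 h5 h3 h4
        · exact ih _ _ _ _ h.2 h5 h2 h3 h4
      | false =>
        rw [hb] at h
        simp only [cond_false, Bool.and_eq_true] at h
        rcases split_pt ((l0 + l1) / 2) l with h5 | h5
        · exact ih _ _ _ _ h.1 h1 h2 h3 h5
        · exact ih _ _ _ _ h.2 h1 h2 h5 h4

theorem cert1 : bis 22 0 274877906944 329853488332 989560464999 = true := by decide +kernel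
theorem cert2 : bis 22 274877906944 549755813888 329853488332 989560464999 = true := by decide +kernel
theorem cert3 : bis 22 549755813888 824633720832 329853488332 989560464999 = true := by decide +kernel

theorem cert_all {s l : ℝ} (hs0 : 0 ≤ s) (hs : s ≤ 3 / 4) (hl0 : 3 / 10 ≤ l) (hl : l ≤ 9 / 10) :
    ∃ a b c d : ℕ, box a b c d = true ∧ LB a s ∧ UB s b ∧ LB c l ∧ UB l d := by
  have h1 : LB 329853488332 l := LB_q (by norm_num; linarith)
  have h2 : UB l 989560464999 := UB_q (by norm_num; linarith)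
  have h3 : UB s 824633720832 := UB_q (by norm_num; linarith)
  rcases split_pt 274877906944 s with h | h
  · exact bis_sound _ _ _ _ _ cert1 (LB_zero hs0) h h1 h2
  rcases split_pt 549755813888 s with h' | h'
  · exact bis_sound _ _ _ _ _ cert2 h h' h1 h2
  · exact bis_sound _ _ _ _ _ cert3 h' h3 h1 h2

/-- `μ e^{l/n} ≤ (1.07 + 1.86/(N-2)) (N-1)/(N-1-l)` -/
lemma mu_exp_le {n : ℕ} (hn : 23 ≤ n) {μ l : ℝ} (hμ0 : 0 ≤ μ) (hμ : μ ≤ muF n) (hl0 : 0 ≤ l)
    (hl : l ≤ 1) : μ * Real.exp (l / n) ≤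
      (107 / 100 + 186 / 100 / ((n : ℝ) + 1 - 2)) * (((n : ℝ) + 1 - 1) / ((n : ℝ) + 1 - 1 - l)) := by
  have hn' : (23 : ℝ) ≤ n := by exact_mod_cast hn
  have h1 : muF n = 107 / 100 + 186 / 100 / ((n : ℝ) + 1 - 2) := by
    unfold muF
    have e : (n : ℝ) + 1 - 2 = n - 1 := by ring
    rw [e]
    have : (n : ℝ) - 1 ≠ 0 := by linarith
    field_simp
    ring
  rw [h1] at hμ
  have h0 : 0 ≤ l / n := by positivity
  have h2 : l / n < 1 := by rw [div_lt_one (by linarith)]; linarith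
  have h3 := Real.exp_bound_div_one_sub_of_interval h0 h2
  have h4 : 1 / (1 - l / n) = ((n : ℝ) + 1 - 1) / ((n : ℝ) + 1 - 1 - l) := by
    have : (n : ℝ) ≠ 0 := by linarith
    have e : (n : ℝ) + 1 - 1 = n := by ring
    rw [e]
    have h5 : (n : ℝ) - l ≠ 0 := by linarith
    have h6 : 1 - l / n ≠ 0 := by linarith
    rw [div_eq_div_iff h6 h5]
    field_simp
  rw [h4] at h3
  exact mul_le_mul hμ h3 (Real.exp_pos _).le (hμ0.trans hμ)


end Crest.Agent.R230.FB
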