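import Crest.Agent.R230.FarForm

/-!
# Row 230: lower bound of the far density, `k ≥ 0`, in the form evaluated by the box checker
(helper640, for helper782)

`N = n + 1`, `z = s²`, `c = cc s`, `ch = cc (s e^u)`, `cT = cc (s e^l)`, `E = e^{2u}`.
The bound is an identity up to `Gm ≥ 0` and `hm ≤ k - log (1+k)`.
-/

set_option autoImplicit false

open MeasureTheory Set Filter Topology
open scoped Pointwise ENNReal

namespace Crest.Agent.R230.WR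

/-- coefficient of `N z` -/
noncomputable def Lg (z c ch E l u : ℝ) : ℝ :=
  (l - u) * ((1 / ch) ^ 2 + (1 / c) ^ 2 + (1 / ch) * (1 / c) - 3) * (E - 1) * (1 / ch) / (c + ch) +
    l ^ 2 * (1 / c) ^ 2 * (z / c ^ 2 + 7 / 25) + 1 / 2000 * (E - 1) * (1 / c) ^ 2 -
    1 / 2 * z * (E - 1) ^ 2 * (2 * c + ch) * (1 / c) ^ 2 * (1 / ch) / (c + ch) ^ 2 -
    u * z * (1 + 2 * c) * (1 / c) ^ 2 / (1 + c) ^ 2

/-- coefficient of `5/N` -/
noncomputable def LG2 (z c E V1 tp k : ℝ) : ℝ :=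
  E * V1 * (k + tp * (1 + k)) + 1 / 2 * (E - 1) * (1 + 2 * (z / c ^ 2))

/-- `c Ŵ` -/
noncomputable def LWh (z c ch E l u : ℝ) : ℝ :=
  2 * c * (1 / ch - ch / (1 + ch)) - 3 * c * (l - u) * z * E * (1 / ch) ^ 3

/-- coefficient of `k` -/
noncomputable def LBp (z c E l V1 tp : ℝ) : ℝ :=
  (2 - 2 * c ^ 2 / (1 + c)) - 2 * (z / c ^ 2) * l - (1 + 1 / 1000) * E * V1 * (1 + tp)

/-- constant part -/
noncomputable def LP0 (z c ch cT E l u V1 tp : ℝ) : ℝ :=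
  -(4 * (z / c ^ 2) ^ 2 + 103 / 25 * (z / c ^ 2)) * l ^ 2 - c * (ch / (1 + ch) - cT / (1 + cT)) +
    u * (1 + 4 * (z / c ^ 2) + (1 - c) / (1 + c)) +
    (l - u) * ((1 + 4 * (z / c ^ 2) + (1 - c) / (1 + c)) - c * (1 / ch) ^ 3 * (1 + 3 * z * E)) -
    1 / 2 * (E - 1) * ((1 + 1 / 1000) * (1 + 2 * (z / c ^ 2)) + 5 * (z / c ^ 2)) +
    V1 * tp * (LWh z c ch E l u - (1 + 1 / 1000) * E)

/-- `h_n(k) ≤ k - log (1+k)` -/
lemma hm_le_log1 {n : ℕ} (hn : 0 < n) {k : ℝ} (hk : 0 < 1 + k) : hm n k ≤ k - Real.log (1 + k) := by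
  have hn' : (0 : ℝ) < n := by exact_mod_cast hn
  unfold hm
  have h1 : (1 + k) ^ ((1 : ℝ) / n) = Real.exp (Real.log (1 + k) / n) := by
    rw [Real.rpow_def_of_pos hk]
    congr 1
    ring
  have h2 := Real.add_one_le_exp (Real.log (1 + k) / n)
  rw [h1]
  have h3 : Real.log (1 + k) / n ≤ Real.exp (Real.log (1 + k) / n) - 1 := by linarith
  have h4 := mul_le_mul_of_nonneg_left h3 hn'.le
  rw [mul_div_cancel₀ _ hn'.ne'] at h4
  linarith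

lemma Gm_nonneg1 {n : ℕ} (hn : 0 < n) (l : ℝ) : 0 ≤ Gm n l := by
  have hn' : (0 : ℝ) < n := by exact_mod_cast hn
  unfold Gm
  have h2 := Real.add_one_le_exp (l / n)
  have h3 : l / n ≤ Real.exp (l / n) - 1 := by linarith
  have h4 := mul_le_mul_of_nonneg_left h3 hn'.le
  rw [mul_div_cancel₀ _ hn'.ne'] at h4
  linarith

/-- `N`-part, `z = 1 - c²`, `E = (1-d²)/z` -/
lemma low_N {c d l u : ℝ} (hc : 0 < c) (hd : 0 < d) (hz : 0 < 1 - c ^ 2) :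
    c * ((l - u) * rq (1 / d) - l * rq (1 / c) - (1 / d - 1 / c)) +
      1 / 2 * ((1 - c ^ 2) / c ^ 2 * ((1 - d ^ 2) / (1 - c ^ 2) - 1)) =
    (1 - c ^ 2) * ((l - u) * ((1 / d) ^ 2 + (1 / c) ^ 2 + (1 / d) * (1 / c) - 3) *
        ((1 - d ^ 2) / (1 - c ^ 2) - 1) * (1 / d) / (c + d) -
      1 / 2 * (1 - c ^ 2) * ((1 - d ^ 2) / (1 - c ^ 2) - 1) ^ 2 * (2 * c + d) * (1 / c) ^ 2 * (1 / d) /
        (c + d) ^ 2 -
      u * (1 - c ^ 2) * (1 + 2 * c) * (1 / c) ^ 2 / (1 + c) ^ 2) := by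
  have h1 : 1 + c ≠ 0 := by positivity
  have h3 : c ≠ 0 := hc.ne'
  have h4 : d ≠ 0 := hd.ne'
  have h7 : c + d ≠ 0 := by positivity
  have h8 : (1 - c ^ 2) ≠ 0 := hz.ne'
  unfold rq
  field_simp
  ring

/-- constant part -/
lemma low_C {c d l u P1 : ℝ} (hc : 0 < c) (hd : 0 < d) (hz : 0 < 1 - c ^ 2) :
    (c * (P1 - c / (1 + c)) + l * ((1 - c) / (1 + c))) +
      c * ((1 / d) / (1 + 1 / d) - (1 / c) / (1 + 1 / c)) -
      c * ((l - u) * (4 * (1 / d) ^ 3 - 3 * (1 / d)) - l * (4 * (1 / c) ^ 3 - 3 * (1 / c))) =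
    -c * (d / (1 + d) - P1) + u * (1 + 4 * ((1 - c ^ 2) / c ^ 2) + (1 - c) / (1 + c)) +
      (l - u) * ((1 + 4 * ((1 - c ^ 2) / c ^ 2) + (1 - c) / (1 + c)) -
        c * (1 / d) ^ 3 * (1 + 3 * (1 - c ^ 2) * ((1 - d ^ 2) / (1 - c ^ 2)))) := by
  have h1 : 1 + c ≠ 0 := by positivity
  have h2 : 1 + d ≠ 0 := by positivity
  have h3 : c ≠ 0 := hc.ne'
  have h4 : d ≠ 0 := hd.ne'
  have h5 : c + 1 ≠ 0 := by positivity
  have h6 : d + 1 ≠ 0 := by positivity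
  have h8 : (1 - c ^ 2) ≠ 0 := hz.ne'
  have e1 : (1 / d) / (1 + 1 / d) = 1 / (1 + d) := by
    field_simp
    rw [add_comm]
  have e2 : (1 / c) / (1 + 1 / c) = 1 / (1 + c) := by
    field_simp
    rw [add_comm]
  have e3 : 3 * (1 - c ^ 2) * ((1 - d ^ 2) / (1 - c ^ 2)) = 3 * (1 - d ^ 2) := by
    field_simp
  rw [e1, e2, e3]
  field_simp
  ring

lemma low_W {c d l u : ℝ} (hc : 0 < c) (hd : 0 < d) (hz : 0 < 1 - c ^ 2) :
    c * Wq (1 / d) (l - u) = LWh (1 - c ^ 2) c d ((1 - d ^ 2) / (1 - c ^ 2)) l u := by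
  have h2 : 1 + d ≠ 0 := by positivity
  have h4 : d ≠ 0 := hd.ne'
  have h6 : d + 1 ≠ 0 := by positivity
  have h8 : (1 - c ^ 2) ≠ 0 := hz.ne'
  have h10 : 1 + 1 / d ≠ 0 := by positivity
  unfold Wq LWh
  field_simp
  ring

/-- the algebraic identity -/
theorem far_low_eq {n : ℕ} {μ s l k u V1 tp : ℝ} (hs : s ∈ Ioo (0 : ℝ) 1)
    (hu : s * Real.exp u < 1) (hk : 0 < 1 + k) :
    farP0 n μ (7 / 50) (((n : ℝ) - 4) / ((n : ℝ) + 1) + 1 / 1000) s l u V1 tp +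
      farB (((n : ℝ) - 4) / ((n : ℝ) + 1) + 1 / 1000) s l u V1 tp * k + farA2 s l u V1 * KK k =
    ((n : ℝ) + 1) * (s ^ 2 * Lg (s ^ 2) (cc s) (cc (s * Real.exp u)) (Real.exp (2 * u)) l u) +
      5 / ((n : ℝ) + 1) * LG2 (s ^ 2) (cc s) (Real.exp (2 * u)) V1 tp k +
      LP0 (s ^ 2) (cc s) (cc (s * Real.exp u)) (cc (s * Real.exp l)) (Real.exp (2 * u)) l u V1 tp +
      LBp (s ^ 2) (cc s) (Real.exp (2 * u)) l V1 tp * k -
      (1 - V1) * LWh (s ^ 2) (cc s) (cc (s * Real.exp u)) (Real.exp (2 * u)) l u * (1 - 1 / (1 + k)) +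
      μ * (((n : ℝ) - 1) * Y s * Gm n l) := by
  have hc := cc_pos' hs
  have hp : s * Real.exp u ∈ Ioo (0 : ℝ) 1 := ⟨mul_pos hs.1 (Real.exp_pos _), hu⟩
  have hd := cc_pos' hp
  have hs0 : 0 < s ^ 2 := pow_pos hs.1 2
  have hd2 : cc (s * Real.exp u) ^ 2 = 1 - s ^ 2 * Real.exp (2 * u) := by
    rw [cc_sq' hp, mul_pow, ← Real.exp_nat_mul]
    push_cast
    ring_nf
  have hs2 : s ^ 2 = 1 - cc s ^ 2 := by rw [cc_sq' hs]; ring
  have hE : Real.exp (2 * u) = (1 - cc (s * Real.exp u) ^ 2) / (1 - cc s ^ 2) := by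
    rw [← hs2, hd2, eq_div_iff hs0.ne']
    ring
  have hz : 0 < 1 - cc s ^ 2 := by rw [← hs2]; exact hs0
  have hN := low_N (l := l) (u := u) hc hd hz
  have hC := low_C (l := l) (u := u) (P1 := cc (s * Real.exp l) / (1 + cc (s * Real.exp l))) hc hd hz
  have hW := low_W (l := l) (u := u) hc hd hz
  unfold farP0 farB farA2 Lg LG2 LBp LP0 KK aq cR Phi
  rw [Y_eq hs, hW, hE]
  simp only [hs2]
  generalize LWh (1 - cc s ^ 2) (cc s) (cc (s * Real.exp u))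
    ((1 - cc (s * Real.exp u) ^ 2) / (1 - cc s ^ 2)) l u = WW
  generalize Gm n l = G
  generalize cc (s * Real.exp l) / (1 + cc (s * Real.exp l)) = P1 at hC ⊢
  generalize cc (s * Real.exp u) = d at *
  generalize cc s = c at *
  generalize (1 - d ^ 2) / (1 - c ^ 2) = E at *
  have hn1 : (n : ℝ) + 1 ≠ 0 := by positivity
  have h9 : 1 + k ≠ 0 := hk.ne'
  have e0 : ((n : ℝ) - 4) / ((n : ℝ) + 1) + 1 / 1000 = 1 + 1 / 1000 - 5 / ((n : ℝ) + 1) := by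
    field_simp
    ring
  have ek : k ^ 2 / (1 + k) = k - (1 - 1 / (1 + k)) := by
    field_simp
    ring
  have en : 5 / ((n : ℝ) + 1) * ((n : ℝ) + 1) = 5 := by field_simp
  rw [e0, ek]
  set a := 5 / ((n : ℝ) + 1) with ha
  set N := (n : ℝ) + 1 with hNd
  have hnN : (n : ℝ) = N - 1 := by rw [hNd]; ring
  rw [hnN]
  generalize 1 / (1 + k) = i
  generalize 2 * c ^ 2 / (1 + c) = A
  linear_combination (N) * hN + hC + (-(1 / 2) * (1 - c ^ 2) / c ^ 2 * (E - 1)) * en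

/-- **lower bound of the far density, `k ≥ 0`** -/
theorem far_lower {n : ℕ} (hn : 1 ≤ n) {μ Mu lm s l k u V1 tp : ℝ} (hs : s ∈ Ioo (0 : ℝ) 1)
    (hu : s * Real.exp u < 1) (hk : 0 ≤ k) (hμ : 0 ≤ μ) (hM : μ * Real.exp (l / n) ≤ Mu) :
    ((n : ℝ) + 1) * (s ^ 2 * Lg (s ^ 2) (cc s) (cc (s * Real.exp u)) (Real.exp (2 * u)) l u) +
      5 / ((n : ℝ) + 1) * LG2 (s ^ 2) (cc s) (Real.exp (2 * u)) V1 tp k +
      LP0 (s ^ 2) (cc s) (cc (s * Real.exp u)) (cc (s * Real.exp l)) (Real.exp (2 * u)) l u V1 tp +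
      LBp (s ^ 2) (cc s) (Real.exp (2 * u)) l V1 tp * k -
      (1 - V1) * LWh (s ^ 2) (cc s) (cc (s * Real.exp u)) (Real.exp (2 * u)) l u * (1 - 1 / (1 + k)) -
      7 / 50 * cc s ^ 2 * k ^ 2 - Mu * (k - Real.log (1 + k)) ≤
    PQ n μ 0 (7 / 50) 1 0 lm s l k + (lineC n s l k u (V1 * (k + tp * (1 + k))) +
      softG n (((n : ℝ) - 4) / ((n : ℝ) + 1) + 1 / 1000) 0 s u (V1 * (k + tp * (1 + k)))) := by
  have hk1 : 0 < 1 + k := by linarith
  rw [far_eq hs hu hk1, far_low_eq hs hu hk1]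
  have hn' : (0 : ℝ) < n := by exact_mod_cast (by omega : 0 < n)
  have hn1 : (1 : ℝ) ≤ n := by exact_mod_cast hn
  have hG := Gm_nonneg1 (n := n) (by omega) l
  have hY : 0 ≤ Y s := by
    unfold Y
    have := one_sub_sq_pos hs
    positivity
  have h1 : 0 ≤ μ * (((n : ℝ) - 1) * Y s * Gm n l) :=
    mul_nonneg hμ (mul_nonneg (mul_nonneg (by linarith) hY) hG)
  have hh := hm_le_log1 (n := n) (by omega) hk1
  have hlog : 0 ≤ k - Real.log (1 + k) := by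
    have := Real.log_le_sub_one_of_pos hk1
    linarith
  have h2 : μ * (Real.exp (l / n) * hm n k) ≤ Mu * (k - Real.log (1 + k)) := by
    calc μ * (Real.exp (l / n) * hm n k) = (μ * Real.exp (l / n)) * hm n k := by ring
      _ ≤ (μ * Real.exp (l / n)) * (k - Real.log (1 + k)) :=
        mul_le_mul_of_nonneg_left hh (mul_nonneg hμ (Real.exp_pos _).le)
      _ ≤ Mu * (k - Real.log (1 + k)) := mul_le_mul_of_nonneg_right hM hlog
  linarith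


/-- `SU` of the frozen design -/
lemma SU_eq (s l k : ℝ) :
    Vq' (7 / 100) (l - capF (s * Real.exp l)) *
      (k - capF' (s * Real.exp l) * (s * Real.exp l * (1 + k))) =
    Vq' (7 / 100) (l - capF (s * Real.exp l)) *
      (k + 23 / 25 * (s * Real.exp l) ^ 8 * (1 + k)) := by
  unfold capF'
  ring

end Crest.Agent.R230.WR
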