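import Crest.Agent.R230.IA
import Crest.Agent.R230.PLargeAux
import Crest.Agent.R230.FarLow

-- ▼ part R230/FarBoxDef
section

/-!
# Row 230: box checker for the far block, `k ≥ 0` (helper782): the computation

`box s0 s1 l0 l1` certifies positivity of the far density on `s ∈ [s0,s1]`, `l ∈ [l0,l1]` (scale `2^40`).
-/

set_option autoImplicit false

namespace Crest.Agent.R230.FB

open Crest.Agent.R230.IA

/-- numbers of a box -/
structure Nb where
  X : ℕ      -- lower bound of N s²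
  g : ℕ      -- lower bound of g
  z0 : ℕ
  z1 : ℕ
  P : ℕ      -- positive part of P0 (lower)
  Q : ℕ      -- negative part of P0 (upper)
  a0 : ℕ     -- lower bound of a
  b1 : ℕ     -- upper bound of 2Yl + (1+e) E V (1+tp)
  A : ℕ      -- upper bound of A2
  c1 : ℕ
  ga : ℕ     -- E0 V0 (1+tp0): coefficient of k in G (lower)
  gb : ℕ     -- E0 V0 tp0 + Em0 (1+2Y0)/2 (lower)
  Ga : ℕ     -- upper
  Gb : ℕ     -- upper
  hz : ℕ     -- lower bound of c² T / (1-T)
  l1 : ℕ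

/-- upper bound of `k - log (1+k)` -/
def hU (k : ℕ) : ℕ := dU (mU (mU k k) (k + 3298534883328)) (mD k k + 6 * k + 6597069766656)

/-- value test at an end point `k` of a `k`-interval with reference point `κ* = ks` -/
def kend (b : Nb) (X M ks bc : ℕ) (k : ℕ) : Bool :=
  Nat.blt (b.Q + mU b.b1 k + mU b.A (1099511627776 + mU (dU 1099511627776 ks) (dU (1099511627776 + k) ks)) +
      mU (mU b.c1 b.c1) (7 * mU k k / 50 + 1) + mU M (hU k))
    (mD X b.g + mD bc (mD b.ga k + b.gb) + b.P + mD b.a0 k + mD b.A (dD 2199023255552 ks))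

/-- the test on the `k`-interval `[k0,k1]` -/
def kint (b : Nb) (k0 k1 : ℕ) : Bool :=
  let X := max b.X (mD (1099511627776 + k0) b.hz - 1099511627776)
  let N := max 26388279066624 (dD X b.z1)
  let M := mU (1176477441722 + dU 2045091627664 (N - 2199023255552))
      (dU (N - 1099511627776) (N - 1099511627776 - b.l1))
  let G1 := mU b.Ga k1 + b.Gb
  let bc := bif Nat.ble (5 * mU b.z1 G1) (mD (mD X X) b.g) then dD (5 * b.z0) X else 0
  let ks := (k0 + k1) / 2 + 1099511627776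
  kend b X M ks bc k0 && kend b X M ks bc k1

def box (s0 s1 l0 l1 : ℕ) : Bool :=
  let z0 := mD s0 s0
  let z1 := mU s1 s1
  let c0 := sqD (1099511627776 - z1)
  let c1 := sqU (1099511627776 - z0)
  let el0 := expD l0
  let T0 := mD s0 el0
  let T1 := min (mU s1 (expU l1)) 1099511627776
  let T80 := p8D T0
  let T81 := p8U T1
  let cap0 := 472789999943 - (23 * T81 / 200 + 1)
  let cap1 := 472789999944 - 23 * T80 / 200
  let v0 := l0 - cap1
  let v1 := l1 - cap0
  let y0 := dD v0 (v0 + 76965813945)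
  let y1 := dU v1 (v1 + 76965813944)
  let u0 := mD v0 y0
  let u1 := mU v1 y1
  let om0 := 1099511627776 - y1
  let om1 := 1099511627776 - y0
  let V0 := 1099511627776 - mU om1 om1
  let V1 := 1099511627776 - mD om0 om0
  let lh0 := cap0 + mD 76965813944 y0
  let lh1 := cap1 + mU 76965813945 y1
  let E0 := expD (2 * u0)
  let E1 := expU (2 * u1)
  let Em0 := E0 - 1099511627776
  let Em1 := E1 - 1099511627776
  let Sh0 := mD z0 E0
  let Sh1 := mU z1 E1
  let h0 := sqD (1099511627776 - Sh1)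
  let h1 := sqU (1099511627776 - Sh0)
  let q0 := dD 1099511627776 c1
  let q1 := dU 1099511627776 c0
  let qh0 := dD 1099511627776 h1
  let qh1 := dU 1099511627776 h0
  let q02 := mD q0 q0
  let q12 := mU q1 q1
  let Y0 := mD z0 q02
  let Y1 := mU z1 q12
  let B0 := mD qh0 qh0 + q02 + mD qh0 q0 - 3298534883328
  let gp := dD (mD (mD lh0 B0) (mD Em0 qh0)) (c1 + h1) + mD (mD l0 l0) (mD q02 (Y0 + 307863255777)) +
    mD (Em0 / 2000) q02
  let r1 := dU 1099511627776 (c0 + h0)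
  let gn := mU (mU (mU z1 (mU Em1 Em1) / 2 + 1) (mU (2 * c1 + h1) q12)) (mU qh1 (mU r1 r1)) +
    mU (mU (mU u1 z1) (mU (1099511627776 + 2 * c1) q12))
      (dU 1099511627776 (mD (1099511627776 + c0) (1099511627776 + c0)))
  let cT0 := sqD (1099511627776 - mU T1 T1)
  let qh13 := mU qh1 (mU qh1 qh1)
  let qh03 := mD qh0 (mD qh0 qh0)
  -- c Wh = w1 - w2
  let w1D := 2 * mD c0 (qh0 - dU h1 (1099511627776 + h1))
  let w1U := 2 * mU c1 (qh1 - dD h0 (1099511627776 + h0))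
  let w2U := 3 * mU (mU c1 lh1) (mU Sh1 qh13)
  let w2D := 3 * mD (mD c0 lh0) (mD Sh0 qh03)
  let A := mU (mU om1 om1) (w1U - w2D)
  let tp0 := 23 * T80 / 25
  let tp1 := 23 * T81 / 25 + 1
  let a0 := 2199023255552 - dU (2 * mU c1 c1) (1099511627776 + c1)
  let EV1 := mU (E1 + (E1 / 1000 + 1)) V1
  let b1 := 2 * mU Y1 l1 + mU EV1 (1099511627776 + tp1)
  let bb0 := 1099511627776 + 4 * Y0 + dD (1099511627776 - c1) (1099511627776 + c1)
  let t3 := mU c1 (mU qh13 (1099511627776 + 3 * Sh1))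
  let P := mD u0 bb0 + mD lh0 (bb0 - t3)
  let Q := mU (mU l1 l1) (mU Y1 (4 * Y1 + 4529987906438)) +
    mU c1 (dU h1 (1099511627776 + h1) - dD cT0 (1099511627776 + cT0)) +
    mU lh1 (t3 - bb0) +
    (mU Em1 (1100611139404 + 7 * Y1 + (2 * Y1 / 1000 + 1)) / 2 + 1) +
    mU (mU V1 tp1) (E1 + (E1 / 1000 + 1) + w2U - w1D)
  let x := max (dD (el0 - (659706976666 + (z1 / 4 + 1))) 401321744139)
    (max (dD (el0 - 659706976666) 424228236384) 2199023255552)
  let Xm := bif Nat.ble x 3848290697216 then mD x x else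
    max 13469017440256 (25 * mD el0 el0 / 9)
  let X := max (24 * z0) Xm
  let hz := dD (mD (mD c0 c0) T0) (1099511627776 - T0)
  let b : Nb := ⟨X, gp - gn, z0, z1, P, Q, a0, b1, A, c1, mD (mD E0 V0) (1099511627776 + tp0),
    mD (mD E0 V0) tp0 + mD Em0 (1099511627776 + 2 * Y0) / 2,
    mU (mU E1 V1) (1099511627776 + tp1),
    mU (mU E1 V1) tp1 + (mU Em1 (1099511627776 + 2 * Y1) / 2 + 1), hz, l1⟩
  Nat.ble 1099511627776 T0 || Nat.ble v1 0 ||
  (Nat.blt Sh1 1099511627776 && Nat.ble gn gp && Nat.blt 0 c0 && Nat.blt 0 h0 &&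
   Nat.ble l1 1099511627776 &&
   kint b 0 274877906944 && kint b 274877906944 549755813888 &&
   kint b 549755813888 824633720832 && kint b 824633720832 1099511627776 &&
   kint b 1099511627776 q1)

/-- bisection -/
def bis : ℕ → ℕ → ℕ → ℕ → ℕ → Bool
  | 0, s0, s1, l0, l1 => box s0 s1 l0 l1
  | n + 1, s0, s1, l0, l1 => box s0 s1 l0 l1 ||
      (bif Nat.blt (l1 - l0) (s1 - s0) then
        bis n s0 ((s0 + s1) / 2) l0 l1 && bis n ((s0 + s1) / 2) s1 l0 l1
      else
        bis n s0 s1 l0 ((l0 + l1) / 2) && bis n s0 s1 ((l0 + l1) / 2) l1)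

end Crest.Agent.R230.FB
private theorem rz_45c9d2e5d5 : type_of% @_root_.Crest.Agent.R230.FB.bis.eq_def := @_root_.Crest.Agent.R230.FB.bis.eq_def -- L141
end

-- ▼ part R230/FarBoxK
section

/-!
# Row 230: box checker for the far block, `k ≥ 0` (helper782): soundness of the `k`-part
-/

set_option autoImplicit false

open Set

namespace Crest.Agent.R230.FB

open Crest.Agent.R230.IA Crest.Agent.R230.WR

lemma hconv {a b k : ℝ} (ha : 0 ≤ a) (h1 : a ≤ k) (h2 : k ≤ b) :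
    (b - a) * (k - Real.log (1 + k)) ≤
      (b - k) * (a - Real.log (1 + a)) + (k - a) * (b - Real.log (1 + b)) := by
  rcases eq_or_lt_of_le (h1.trans h2) with h | h
  · have e1 : k = a := le_antisymm (h ▸ h2) h1
    rw [← h, e1]; simp
  have hba : 0 < b - a := by linarith
  have hA : 1 + a ∈ Ioi (0 : ℝ) := mem_Ioi.2 (by linarith)
  have hB : 1 + b ∈ Ioi (0 : ℝ) := mem_Ioi.2 (by linarith)
  have hab1 : (b - k) / (b - a) + (k - a) / (b - a) = 1 := by field_simp; ring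
  have hc := strictConcaveOn_log_Ioi.concaveOn.2 hA hB
    (div_nonneg (show 0 ≤ b - k by linarith) hba.le)
    (div_nonneg (show 0 ≤ k - a by linarith) hba.le) hab1
  simp only [smul_eq_mul] at hc
  have e : (b - k) / (b - a) * (1 + a) + (k - a) / (b - a) * (1 + b) = 1 + k := by
    field_simp; ring
  rw [e] at hc
  have h3 := mul_le_mul_of_nonneg_left hc hba.le
  have e2 : (b - a) * ((b - k) / (b - a) * Real.log (1 + a) + (k - a) / (b - a) * Real.log (1 + b)) =
      (b - k) * Real.log (1 + a) + (k - a) * Real.log (1 + b) := by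
    field_simp
  rw [e2] at h3
  nlinarith [h3]

lemma h_nonneg {k : ℝ} (hk : 0 ≤ k) : 0 ≤ k - Real.log (1 + k) := by
  have := Real.log_le_sub_one_of_pos (show 0 < 1 + k by linarith)
  linarith

lemma h_le {k : ℝ} (hk : 0 ≤ k) :
    k - Real.log (1 + k) ≤ k * k * (k + 3) / (k * k + 6 * k + 6) := by
  refine (PL.h_le_pos hk).trans (le_of_eq ?_)
  unfold KK
  have : 1 + k ≠ 0 := by positivity
  have : k ^ 2 + 6 * k + 6 ≠ 0 := by positivity
  have : k * k + 6 * k + 6 ≠ 0 := by positivity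
  field_simp
  ring

lemma hU_spec {k : ℕ} {x : ℝ} (hx : x = (k : ℝ) / 1099511627776) :
    UB (x * x * (x + 3) / (x * x + 6 * x + 6)) (hU k) := by
  have hx0 : 0 ≤ x := by rw [hx]; positivity
  have h1 : UB x k := by rw [hx]; exact UB_self k
  have h2 : LB k x := by rw [hx]; exact LB_self k
  have e3 : UB 3 3298534883328 := UB_q (by norm_num)
  have e6 : LB 6597069766656 6 := LB_q (by norm_num)
  have h3 : UB (x * x * (x + 3)) (mU (mU k k) (k + 3298534883328)) :=
    UB_mul (UB_mul h1 h1 hx0 hx0) (UB_add h1 e3) (by positivity) (by positivity)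
  have h4 : LB (mD k k + 6 * k + 6597069766656) (x * x + 6 * x + 6) := by
    have := LB_add (LB_add (LB_mul h2 h2) (LB_nmul 6 h2)) e6
    exact_mod_cast this
  unfold hU
  exact UB_div h3 h4 (by omega) (by positivity)

/-- linear interpolation of concave lower bounds -/
lemma interp {a b k La Lb Lk : ℝ} (h1 : a ≤ k) (h2 : k ≤ b) (hab : a < b) (hLa : 0 < La) (hLb : 0 < Lb)
    (h : (b - k) * La + (k - a) * Lb ≤ (b - a) * Lk) : 0 < Lk := by
  have h3 : 0 < (b - k) * La + (k - a) * Lb := by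
    rcases eq_or_lt_of_le h2 with h4 | h4
    · rw [h4]; nlinarith [mul_pos (sub_pos.2 hab) hLb]
    · have := mul_pos (sub_pos.2 h4) hLa
      have := mul_nonneg (sub_nonneg.2 h1) hLb.le
      linarith
  have h5 : 0 < (b - a) * Lk := lt_of_lt_of_le h3 h
  by_contra hh
  push Not at hh
  nlinarith [mul_nonneg (sub_nonneg.2 hab.le) (neg_nonneg.2 hh)]

/-- N-elimination -/
lemma Nelim {X X' g G z : ℝ} (hX : 0 < X) (hXX : X ≤ X') (hg0 : 0 ≤ g) (h : 5 * (z * G) ≤ X * X * g) :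
    X * g + 5 * z / X * G ≤ X' * g + 5 * z / X' * G := by
  have hX' : 0 < X' := by linarith
  have e : X' * g + 5 * z / X' * G - (X * g + 5 * z / X * G) =
      (X' - X) * (X * X' * g - 5 * (z * G)) / (X * X') := by
    field_simp
    ring
  have hg : 0 ≤ X * X' * g - 5 * (z * G) := by
    have : X * X * g ≤ X * X' * g := by
      apply mul_le_mul_of_nonneg_right _ hg0
      exact mul_le_mul_of_nonneg_left hXX hX.le
    linarith
  have : 0 ≤ (X' - X) * (X * X' * g - 5 * (z * G)) / (X * X') := by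
    apply div_nonneg (mul_nonneg (by linarith) hg) (by positivity)
  linarith

/-- the `k`-part: lower bound with all coefficients fixed -/
noncomputable def LL (α β A ks γ M k : ℝ) (H : ℝ) : ℝ :=
  α + β * k - A * (1 - 2 / ks + (1 + k) / (ks * ks)) - γ * (k * k) - M * H

lemma LL_interp {α β A ks γ M a b k : ℝ} (_hA : 0 ≤ A) (hγ : 0 ≤ γ) (hM : 0 ≤ M) (ha : 0 ≤ a)
    (h1 : a ≤ k) (h2 : k ≤ b) (hab : a < b)
    (hLa : 0 < LL α β A ks γ M a (a * a * (a + 3) / (a * a + 6 * a + 6)))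
    (hLb : 0 < LL α β A ks γ M b (b * b * (b + 3) / (b * b + 6 * b + 6))) :
    0 < LL α β A ks γ M k (k - Real.log (1 + k)) := by
  refine interp h1 h2 hab hLa hLb ?_
  have hb : 0 ≤ b := by linarith
  have e1 := h_le ha
  have e2 := h_le hb
  have e3 := hconv ha h1 h2
  have e4 : (b - a) * (k * k) ≤ (b - k) * (a * a) + (k - a) * (b * b) := by
    have : (b - k) * (a * a) + (k - a) * (b * b) - (b - a) * (k * k) = (b - k) * (k - a) * (b - a) := by
      ring
    have h5 : 0 ≤ (b - k) * (k - a) * (b - a) :=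
      mul_nonneg (mul_nonneg (by linarith) (by linarith)) (by linarith)
    linarith
  have e5 := mul_le_mul_of_nonneg_left e4 hγ
  have e6 : (b - k) * (a - Real.log (1 + a)) ≤ (b - k) * (a * a * (a + 3) / (a * a + 6 * a + 6)) :=
    mul_le_mul_of_nonneg_left e1 (by linarith)
  have e7 : (k - a) * (b - Real.log (1 + b)) ≤ (k - a) * (b * b * (b + 3) / (b * b + 6 * b + 6)) :=
    mul_le_mul_of_nonneg_left e2 (by linarith)
  have e8 := mul_le_mul_of_nonneg_left (e3.trans (add_le_add e6 e7)) hM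
  unfold LL
  generalize a * a * (a + 3) / (a * a + 6 * a + 6) = ha' at *
  generalize b * b * (b + 3) / (b * b + 6 * b + 6) = hb' at *
  generalize k - Real.log (1 + k) = hk' at *
  generalize 2 / ks = w at *
  have e9 : (b - k) * (A * (1 - w + (1 + a) / (ks * ks))) + (k - a) * (A * (1 - w + (1 + b) / (ks * ks))) =
      (b - a) * (A * (1 - w + (1 + k) / (ks * ks))) := by
    ring
  linarith

/-- reference point inequality -/
lemma inv_ge {κ ks : ℝ} (hκ : 0 < κ) (hks : 0 < ks) : 2 / ks - κ / (ks * ks) ≤ 1 / κ := by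
  have e : 1 / κ - (2 / ks - κ / (ks * ks)) = (κ - ks) ^ 2 / (κ * (ks * ks)) := by
    field_simp
    ring
  have : 0 ≤ (κ - ks) ^ 2 / (κ * (ks * ks)) := by positivity
  linarith

/-- soundness of the end point test -/
lemma kend_sound {b : Nb} {X M ks bc k : ℕ} (h : kend b X M ks bc k = true)
    {g Pp Pn a b1 c ga gb : ℝ} (hg : LB b.g g) (hPp : LB b.P Pp) (hPn : UB Pn b.Q)
    (ha : LB b.a0 a) (hb1 : UB b1 b.b1) (hb10 : 0 ≤ b1) (hc : UB c b.c1) (hc0 : 0 ≤ c)
    (hga : LB b.ga ga) (hgb : LB b.gb gb) (hks : 0 < ks) {x : ℝ} (hx : x = (k : ℝ) / 1099511627776) :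
    0 < LL ((X : ℝ) / 1099511627776 * g + (bc : ℝ) / 1099511627776 * gb + (Pp - Pn))
      (a - b1 + (bc : ℝ) / 1099511627776 * ga) ((b.A : ℝ) / 1099511627776)
      ((ks : ℝ) / 1099511627776) (7 / 50 * (c * c)) ((M : ℝ) / 1099511627776) x
      (x * x * (x + 3) / (x * x + 6 * x + 6)) := by
  unfold kend at h
  rw [Nat.blt_eq] at h
  have hx0 : 0 ≤ x := by rw [hx]; positivity
  have h1 : UB x k := by rw [hx]; exact UB_self k
  have h2 : LB k x := by rw [hx]; exact LB_self k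
  obtain ⟨Xr, hXr⟩ : ∃ Xr : ℝ, Xr = (X : ℝ) / 1099511627776 := ⟨_, rfl⟩
  obtain ⟨Br, hBr⟩ : ∃ Xr : ℝ, Xr = (bc : ℝ) / 1099511627776 := ⟨_, rfl⟩
  obtain ⟨Ar, hAr⟩ : ∃ Xr : ℝ, Xr = (b.A : ℝ) / 1099511627776 := ⟨_, rfl⟩
  obtain ⟨Kr, hKr⟩ : ∃ Xr : ℝ, Xr = (ks : ℝ) / 1099511627776 := ⟨_, rfl⟩
  obtain ⟨Mr, hMr⟩ : ∃ Xr : ℝ, Xr = (M : ℝ) / 1099511627776 := ⟨_, rfl⟩
  have lX : LB X Xr := by rw [hXr]; exact LB_self X
  have lB : LB bc Br := by rw [hBr]; exact LB_self bc
  have lA : LB b.A Ar := by rw [hAr]; exact LB_self _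
  have uA : UB Ar b.A := by rw [hAr]; exact UB_self _
  have lK : LB ks Kr := by rw [hKr]; exact LB_self _
  have uK : UB Kr ks := by rw [hKr]; exact UB_self _
  have uM : UB Mr M := by rw [hMr]; exact UB_self _
  have Ar0 : 0 ≤ Ar := lA.nonneg
  have Mr0 : 0 ≤ Mr := by rw [hMr]; positivity
  have Kr0 : 0 < Kr := lK.pos hks
  rw [← hXr, ← hBr, ← hAr, ← hKr, ← hMr]
  have e2 : LB 2199023255552 2 := LB_q (by norm_num)
  -- positive part
  have p1 := LB_add (LB_add (LB_add (LB_add (LB_mul lX hg) (LB_mul lB (LB_add (LB_mul hga h2) hgb))) hPp)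
    (LB_mul ha h2)) (LB_mul lA (LB_div e2 uK Kr0))
  -- negative part
  have n1 : UB (1 / Kr * ((1 + x) / Kr)) (mU (dU 1099511627776 ks) (dU (1099511627776 + k) ks)) :=
    UB_mul (UB_div UB_one lK hks (by norm_num)) (UB_div (UB_add UB_one h1) lK hks (by positivity))
      (by positivity) (by positivity)
  have n2 : UB (7 * (x * x) / (50 : ℕ)) (7 * mU k k / 50 + 1) :=
    UB_ndiv (by norm_num) (by exact_mod_cast UB_nmul 7 (UB_mul h1 h1 hx0 hx0))
  have n3 := UB_add (UB_add (UB_add (UB_add hPn (UB_mul hb1 h1 hb10 hx0))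
    (UB_mul uA (UB_add UB_one n1) Ar0 (by positivity)))
    (UB_mul (UB_mul hc hc hc0 hc0) n2 (by positivity) (by positivity)))
    (UB_mul uM (hU_spec hx) Mr0 (by positivity))
  have hfin := LB.lt p1 n3 h
  unfold LL
  push_cast at hfin
  have e3 : 1 / Kr * ((1 + x) / Kr) = (1 + x) / (Kr * Kr) := by
    field_simp
  rw [e3] at hfin
  nlinarith [hfin]

/-- **soundness of the test on a `k`-interval** -/
theorem kint_sound {b : Nb} {k0 k1 : ℕ} (h : kint b k0 k1 = true)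
    {N z g Pp Pn a b1 A2 c ga gb hz' l k Mu : ℝ} (hN : 24 ≤ N) (hz : 0 < z) (hX : LB b.X (N * z))
    (hX0 : 0 < b.X) (hg : LB b.g g) (hz0 : LB b.z0 z) (hz1 : UB z b.z1) (hPp : LB b.P Pp)
    (hPn : UB Pn b.Q) (ha : LB b.a0 a) (hb1 : UB b1 b.b1) (hb10 : 0 ≤ b1) (hA : UB A2 b.A)
    (hc : UB c b.c1) (hc0 : 0 ≤ c) (hga : LB b.ga ga) (hgb : LB b.gb gb) (hGa : UB ga b.Ga)
    (hGb : UB gb b.Gb) (hhz : LB b.hz hz') (hhaz : (1 + k) * hz' ≤ 1 + N * z) (hl1 : UB l b.l1)
    (hl0 : 0 ≤ l) (hl1' : b.l1 ≤ 1099511627776) (hk0 : (k0 : ℝ) / 1099511627776 ≤ k)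
    (hk1 : k ≤ (k1 : ℝ) / 1099511627776) (hk01 : k0 < k1)
    (hMu : Mu ≤ (107 / 100 + 186 / 100 / (N - 2)) * ((N - 1) / (N - 1 - l))) :
    0 < N * z * g + 5 / N * (ga * k + gb) + (Pp - Pn) + (a - b1) * k - A2 * (1 - 1 / (1 + k)) -
      7 / 50 * (c ^ 2 * k ^ 2) - Mu * (k - Real.log (1 + k)) := by
  have hkn : 0 ≤ k := le_trans (by positivity) hk0
  unfold kint at h
  extract_lets X Nn M G1 bc ks at h
  rw [Bool.and_eq_true] at h
  obtain ⟨hA1, hA2⟩ := h
  have hN0 : 0 < N := by linarith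
  -- X
  have lX : LB X (N * z) := by
    refine LB_max hX ?_
    have h1 : LB (mD (1099511627776 + k0) b.hz) ((1 + (k0 : ℝ) / 1099511627776) * hz') :=
      LB_mul (LB_add LB_one (LB_self k0)) hhz
    refine (LB_sub' h1 UB_one).le (max_le ?_ (by positivity))
    have h2 := hhz.nonneg
    have h3 : (1 + (k0 : ℝ) / 1099511627776) * hz' ≤ (1 + k) * hz' :=
      mul_le_mul_of_nonneg_right (by linarith) h2
    linarith
  have hXpos : 0 < X := lt_of_lt_of_le hX0 (le_max_left _ _)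
  obtain ⟨Xr, hXr⟩ : ∃ Xr : ℝ, Xr = (X : ℝ) / 1099511627776 := ⟨_, rfl⟩
  have lXr : LB X Xr := by rw [hXr]; exact LB_self X
  have uXr : UB Xr X := by rw [hXr]; exact UB_self X
  have hXr0 : 0 < Xr := lXr.pos hXpos
  have hXX : Xr ≤ N * z := lX.le_of uXr le_rfl
  -- N
  have lN : LB Nn N := by
    refine LB_max (LB_q (by norm_num; linarith)) ?_
    have := LB_div lX hz1 hz
    rwa [mul_div_assoc, div_self hz.ne', mul_one] at this
  have hNn : 26388279066624 ≤ Nn := le_max_left _ _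
  obtain ⟨Nr, hNr⟩ : ∃ Xr : ℝ, Xr = (Nn : ℝ) / 1099511627776 := ⟨_, rfl⟩
  have lNr : LB Nn Nr := by rw [hNr]; exact LB_self Nn
  have uNr : UB Nr Nn := by rw [hNr]; exact UB_self Nn
  have hNN : Nr ≤ N := lN.le_of uNr le_rfl
  have hNr24 : 24 ≤ Nr := by
    rw [hNr, le_div_iff₀ (by norm_num)]
    have : ((26388279066624 : ℕ) : ℝ) ≤ Nn := by exact_mod_cast hNn
    norm_num at this ⊢
    exact this
  have hl1r : l ≤ 1 := by
    unfold UB at hl1
    have : (b.l1 : ℝ) ≤ 1099511627776 := by exact_mod_cast hl1'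
    nlinarith
  -- M
  have uM : UB ((107 / 100 + 186 / 100 / (Nr - 2)) * ((Nr - 1) / (Nr - 1 - l))) M := by
    have u1 : UB (186 / 100 / (Nr - 2)) (dU 2045091627664 (Nn - 2199023255552)) := by
      refine UB_div (UB_q (by norm_num)) ?_ (by omega) (by norm_num)
      exact LB_sub lNr (UB_q (by norm_num)) (by linarith)
    have u2 : UB ((Nr - 1) / (Nr - 1 - l)) (dU (Nn - 1099511627776) (Nn - 1099511627776 - b.l1)) := by
      refine UB_div (UB_sub uNr LB_one) ?_ (by omega) (by linarith)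
      exact LB_sub (LB_sub lNr UB_one (by linarith)) hl1 (by linarith)
    refine UB_mul (UB_add (UB_q (by norm_num)) u1) u2 ?_ ?_
    · have : 0 < Nr - 2 := by linarith
      positivity
    · exact div_nonneg (by linarith) (by linarith)
  have hMle : Mu ≤ (M : ℝ) / 1099511627776 := by
    have h1 : (107 / 100 + 186 / 100 / (N - 2)) * ((N - 1) / (N - 1 - l)) ≤
        (107 / 100 + 186 / 100 / (Nr - 2)) * ((Nr - 1) / (Nr - 1 - l)) := by
      apply mul_le_mul
      · have : 186 / 100 / (N - 2) ≤ 186 / 100 / (Nr - 2) :=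
          div_le_div_of_nonneg_left (by norm_num) (by linarith) (by linarith)
        linarith
      · rw [div_le_div_iff₀ (by linarith) (by linarith)]
        nlinarith
      · exact div_nonneg (by linarith) (by linarith)
      · have : 0 < Nr - 2 := by linarith
        positivity
    refine (hMu.trans h1).trans ?_
    rw [le_div_iff₀ (by norm_num)]
    exact uM
  -- bonus
  have hga0 := hga.nonneg
  have hgb0 := hgb.nonneg
  have hg0 := hg.nonneg
  have hG0 : 0 ≤ ga * k + gb := by positivity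
  have hbon : Xr * g + (bc : ℝ) / 1099511627776 * (ga * k + gb) ≤
      N * z * g + 5 / N * (ga * k + gb) := by
    have h5 : 5 / N = 5 * z / (N * z) := by field_simp
    by_cases hcond : Nat.ble (5 * mU b.z1 G1) (mD (mD X X) b.g) = true
    · have hbc : bc = dD (5 * b.z0) X := by
        show (bif Nat.ble (5 * mU b.z1 G1) (mD (mD X X) b.g) then dD (5 * b.z0) X else 0) = _
        rw [hcond]; rfl
      rw [Nat.ble_eq] at hcond
      have uG : UB (ga * k + gb) G1 :=
        UB_add (UB_mul hGa ((UB_self k1).ge hk1) hga0 hkn) hGb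
      have u5 : UB (5 * (z * (ga * k + gb))) (5 * mU b.z1 G1) := by
        have := UB_nmul 5 (UB_mul hz1 uG hz.le hG0)
        exact_mod_cast this
      have l5 := LB_mul (LB_mul lXr lXr) hg
      have hle := l5.le_of u5 hcond
      have h6 := Nelim hXr0 hXX hg0 hle
      have h7 : (bc : ℝ) / 1099511627776 ≤ 5 * z / Xr := by
        rw [hbc]
        have h8 : LB (dD (5 * b.z0) X) (5 * z / Xr) :=
          LB_div (by exact_mod_cast LB_nmul 5 hz0) uXr hXr0
        rw [div_le_iff₀ (by norm_num)]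
        exact h8
      have h9 := mul_le_mul_of_nonneg_right h7 hG0
      rw [h5]
      linarith
    · have hbc : bc = 0 := by
        show (bif Nat.ble (5 * mU b.z1 G1) (mD (mD X X) b.g) then dD (5 * b.z0) X else 0) = _
        rw [Bool.eq_false_of_not_eq_true hcond]; rfl
      rw [hbc]
      have h1 : Xr * g ≤ N * z * g := mul_le_mul_of_nonneg_right hXX hg0
      have h2 : 0 ≤ 5 / N * (ga * k + gb) := by positivity
      push_cast
      linarith
  -- end points
  have hks : 0 < ks := by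
    show 0 < (k0 + k1) / 2 + 1099511627776
    omega
  have K0 := kend_sound hA1 hg hPp hPn ha hb1 hb10 hc hc0 hga hgb hks rfl
  have K1 := kend_sound hA2 hg hPp hPn ha hb1 hb10 hc hc0 hga hgb hks rfl
  have hk01' : (k0 : ℝ) / 1099511627776 < (k1 : ℝ) / 1099511627776 := by
    have : (k0 : ℝ) < k1 := by exact_mod_cast hk01
    exact div_lt_div_of_pos_right this (by norm_num)
  have hfin := LL_interp (by positivity) (by positivity) (by positivity) (by positivity) hk0 hk1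
    hk01' K0 K1
  refine lt_of_lt_of_le hfin ?_
  unfold LL
  rw [← hXr]
  have hksr : (0 : ℝ) < (ks : ℝ) / 1099511627776 := by
    have : (0 : ℝ) < ks := by exact_mod_cast hks
    positivity
  have h1 := inv_ge (κ := 1 + k) (by linarith) hksr
  have hAr : A2 ≤ (b.A : ℝ) / 1099511627776 := by
    rw [le_div_iff₀ (by norm_num)]; exact hA
  have h1k : 0 ≤ 1 - 1 / (1 + k) := by
    have : 1 / (1 + k) ≤ 1 := by rw [div_le_one (by linarith)]; linarith
    linarith
  have h2 := mul_le_mul_of_nonneg_right hAr h1k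
  have hA0 : (0 : ℝ) ≤ (b.A : ℝ) / 1099511627776 := by positivity
  have h3 : (b.A : ℝ) / 1099511627776 * (1 - 1 / (1 + k)) ≤ (b.A : ℝ) / 1099511627776 *
      (1 - 2 / ((ks : ℝ) / 1099511627776) + (1 + k) / ((ks : ℝ) / 1099511627776 *
        ((ks : ℝ) / 1099511627776))) := mul_le_mul_of_nonneg_left (by linarith) hA0
  have h4 := mul_le_mul_of_nonneg_right hMle (h_nonneg hkn)
  nlinarith [hbon, h2, h3, h4]

end Crest.Agent.R230.FB
end

-- ▼ part R230/FarBoxS

/-!
# Row 230: box checker for the far block, `k ≥ 0` (helper782): soundness of a box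
-/

set_option autoImplicit false

open Set

namespace Crest.Agent.R230.FB

open Crest.Agent.R230.IA Crest.Agent.R230.WR

/-- `x/(x+w)` is increasing -/
lemma frac_mono {a b w : ℝ} (ha : 0 ≤ a) (hab : a ≤ b) (hw : 0 < w) : a / (a + w) ≤ b / (b + w) := by
  rw [div_le_div_iff₀ (by linarith) (by linarith)]
  nlinarith

/-- `x/(1+x)` is increasing -/
lemma frac1_mono {a b : ℝ} (ha : 0 ≤ a) (hab : a ≤ b) : a / (1 + a) ≤ b / (1 + b) := by
  rw [div_le_div_iff₀ (by linarith) (by linarith)]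
  nlinarith

lemma LB_frac1 {a : ℕ} {x : ℝ} (h : LB a x) : LB (dD a (1099511627776 + a)) (x / (1 + x)) := by
  have h0 : (0 : ℝ) ≤ (a : ℝ) / 1099511627776 := by positivity
  refine (LB_div (LB_self a) (UB_add UB_one (UB_self a)) (by positivity)).le
    (frac1_mono h0 ?_)
  rw [div_le_iff₀ (by norm_num)]; exact h

lemma UB_frac1 {a : ℕ} {x : ℝ} (hx : 0 ≤ x) (h : UB x a) :
    UB (x / (1 + x)) (dU a (1099511627776 + a)) := by
  have h0 : (0 : ℝ) ≤ (a : ℝ) / 1099511627776 := by positivity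
  refine (UB_div (UB_self a) (LB_add LB_one (LB_self a)) (by omega) h0).ge
    (frac1_mono hx ?_)
  rw [le_div_iff₀ (by norm_num)]; exact h

lemma LB_fracw {a : ℕ} {x : ℝ} (h : LB a x) : LB (dD a (a + 76965813945)) (x / (x + 7 / 100)) := by
  have h0 : (0 : ℝ) ≤ (a : ℝ) / 1099511627776 := by positivity
  refine (LB_div (LB_self a) (UB_add (UB_self a) (UB_q (by norm_num : (7 / 100 : ℝ) * 1099511627776 ≤
    ((76965813945 : ℕ) : ℝ)))) (by positivity)).le (frac_mono h0 ?_ (by norm_num))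
  rw [div_le_iff₀ (by norm_num)]; exact h

lemma UB_fracw {a : ℕ} {x : ℝ} (hx : 0 ≤ x) (h : UB x a) :
    UB (x / (x + 7 / 100)) (dU a (a + 76965813944)) := by
  have h0 : (0 : ℝ) ≤ (a : ℝ) / 1099511627776 := by positivity
  refine (UB_div (UB_self a) (LB_add (LB_self a) (LB_q (by norm_num :
    ((76965813944 : ℕ) : ℝ) ≤ (7 / 100 : ℝ) * 1099511627776))) (by omega) h0).ge
    (frac_mono hx ?_ (by norm_num))
  rw [le_div_iff₀ (by norm_num)]; exact h

/-- lower bound of `x = s √N` -/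
lemma x_lower {el0 z1 : ℕ} {e z x N : ℝ} (he : LB el0 e) (hz1 : UB z z1) (hx2 : 2 ≤ x)
    (hxN : x * x = N * z) (hN : 24 ≤ N) (hz : 0 ≤ z) (hx : x ≤ 7 / 2)
    (hC1 : e ≤ 3 / 5 + (73 / 200 + 1 / (2 * N)) * x) :
    LB (max (dD (el0 - (659706976666 + (z1 / 4 + 1))) 401321744139)
      (max (dD (el0 - 659706976666) 424228236384) 2199023255552)) x := by
  have u35 : UB (3 / 5) 659706976666 := UB_q (by norm_num)
  have hx0 : 0 ≤ x := by linarith
  refine LB_max ?_ (LB_max ?_ (LB_q (by norm_num; linarith)))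
  · have h1 := LB_sub' he (UB_add u35 (UB_ndiv (n := 4) (by norm_num) hz1))
    have h2 := LB_div h1 (UB_q (by norm_num) : UB (73 / 200) 401321744139) (by norm_num)
    refine h2.le ?_
    rw [div_le_iff₀ (by norm_num)]
    refine max_le ?_ (by positivity)
    have h3 : 1 / (2 * N) * x ≤ z / 4 := by
      have hN0 : 0 < N := by linarith
      have hx00 : 0 < x := by linarith
      have e1 : 1 / (2 * N) * x = z / (2 * x) := by
        have hz' : z = x * x / N := by rw [hxN]; field_simp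
        rw [hz']; field_simp
      rw [e1, div_le_div_iff₀ (by positivity) (by norm_num)]
      nlinarith
    push_cast
    nlinarith
  · have h1 := LB_sub' he u35
    have h2 := LB_div h1 (UB_q (by norm_num) : UB (73 / 200 + 1 / 48) 424228236384) (by norm_num)
    refine h2.le ?_
    rw [div_le_iff₀ (by norm_num)]
    refine max_le ?_ (by positivity)
    have h3 : 1 / (2 * N) ≤ 1 / 48 := one_div_le_one_div_of_le (by norm_num) (by linarith)
    have := mul_le_mul_of_nonneg_right h3 hx0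
    linarith

/-- part 1: cap and v -/
lemma part1 {s0 s1 l0 l1 : ℕ} {s l T cap : ℝ} (hs : 0 < s) (hsl : LB s0 s) (hsu : UB s s1)
    (hll : LB l0 l) (hlu : UB l l1) (hl1 : l ≤ 1) (hT : T = s * Real.exp l) (hT1 : T < 1)
    (hcap : cap = 43 / 100 - 23 / 200 * T ^ 8) :
    LB (mD s0 (expD l0)) T ∧ UB T (min (mU s1 (expU l1)) 1099511627776) ∧
    LB (472789999943 - (23 * p8U (min (mU s1 (expU l1)) 1099511627776) / 200 + 1)) cap ∧
    UB cap (472789999944 - 23 * p8D (mD s0 (expD l0)) / 200) ∧ 0 < T ∧ 0 < cap := by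
  have hl0 : 0 ≤ l := hll.nonneg
  have hel : 0 < Real.exp l := Real.exp_pos l
  have hT0' : 0 < T := by rw [hT]; positivity
  have le0 : LB (expD l0) (Real.exp l) := LB_exp hll
  have lT : LB (mD s0 (expD l0)) T := by rw [hT]; exact LB_mul hsl le0
  have hT8 : 0 < T ^ 8 := by positivity
  have hT81 : T ^ 8 < 1 := pow_lt_one₀ hT0'.le hT1 (by norm_num)
  have uT : UB T (min (mU s1 (expU l1)) 1099511627776) := by
    refine UB_min ?_ (UB_one.ge hT1.le)
    rw [hT]; exact UB_mul hsu (UB_exp hlu hl0 (by linarith)) hs.le hel.le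
  have lT8 := p8D_spec lT
  have uT8 := p8U_spec uT hT0'.le
  refine ⟨lT, uT, ?_, ?_, hT0', by rw [hcap]; linarith⟩
  · rw [hcap]
    have h1 : UB (23 * T ^ 8 / (200 : ℕ)) (23 * p8U (min (mU s1 (expU l1)) 1099511627776) / 200 + 1) :=
      UB_ndiv (by norm_num) (by exact_mod_cast UB_nmul 23 uT8)
    have h2 : LB 472789999943 (43 / 100) := LB_q (by norm_num)
    refine (LB_sub h2 h1 (by push_cast; linarith)).le (le_of_eq ?_)
    push_cast; ring
  · rw [hcap]
    have h1 : LB (23 * p8D (mD s0 (expD l0)) / 200) (23 * T ^ 8 / (200 : ℕ)) :=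
      LB_ndiv 200 (by exact_mod_cast LB_nmul 23 lT8)
    have h2 : UB (43 / 100) 472789999944 := UB_q (by norm_num)
    refine (UB_sub h2 h1).ge (le_of_eq ?_)
    push_cast; ring

/-- part 2: u, V, lh -/
lemma part2 {v0 v1 cap0 cap1 : ℕ} {l cap v y u V lh : ℝ} (lv : LB v0 v) (uv : UB v v1)
    (lcap : LB cap0 cap) (ucap : UB cap cap1) (hvd : v = l - cap) (hv0 : 0 < v) (hcap0 : 0 < cap)
    (hy : y = v / (v + 7 / 100)) (hu : u = v * y) (hV : V = 1 - (1 - y) * (1 - y))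
    (hlh : lh = l - u) :
    LB (mD v0 (dD v0 (v0 + 76965813945))) u ∧ UB u (mU v1 (dU v1 (v1 + 76965813944))) ∧
    LB (1099511627776 - mU (1099511627776 - dD v0 (v0 + 76965813945))
      (1099511627776 - dD v0 (v0 + 76965813945))) V ∧
    UB V (1099511627776 - mD (1099511627776 - dU v1 (v1 + 76965813944))
      (1099511627776 - dU v1 (v1 + 76965813944))) ∧
    UB (1 - y) (1099511627776 - dD v0 (v0 + 76965813945)) ∧
    LB (cap0 + mD 76965813944 (dD v0 (v0 + 76965813945))) lh ∧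
    UB lh (cap1 + mU 76965813945 (dU v1 (v1 + 76965813944))) ∧ 0 < u ∧ u < v ∧ 0 < V ∧ 0 < lh ∧
    0 < 1 - y := by
  have ly : LB (dD v0 (v0 + 76965813945)) y := by rw [hy]; exact LB_fracw lv
  have uy : UB y (dU v1 (v1 + 76965813944)) := by rw [hy]; exact UB_fracw hv0.le uv
  have hy0 : 0 < y := by rw [hy]; positivity
  have hy1 : y < 1 := by rw [hy, div_lt_one (by positivity)]; linarith
  have hu0 : 0 < u := by rw [hu]; positivity
  have huv : u < v := by rw [hu]; nlinarith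
  have hom0 : 0 < 1 - y := by linarith
  have lom := LB_sub LB_one uy hy1.le
  have uom := UB_sub UB_one ly
  have hoo : (1 - y) * (1 - y) < 1 := by nlinarith
  have hV0 : 0 < V := by rw [hV]; linarith
  have hlh2 : lh = cap + 7 / 100 * y := by
    have : v * (1 - y) = 7 / 100 * y := by rw [hy]; field_simp; ring
    rw [hlh, hu]
    have h2 : l = v + cap := by rw [hvd]; ring
    rw [h2]; linarith
  refine ⟨?_, ?_, ?_, ?_, uom, ?_, ?_, hu0, huv, hV0, by rw [hlh2]; positivity, hom0⟩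
  · rw [hu]; exact LB_mul lv ly
  · rw [hu]; exact UB_mul uv uy hv0.le hy0.le
  · rw [hV]; exact LB_sub LB_one (UB_mul uom uom hom0.le hom0.le) hoo.le
  · rw [hV]; exact UB_sub UB_one (LB_mul lom lom)
  · rw [hlh2]; exact LB_add lcap (LB_mul (LB_q (by norm_num)) ly)
  · rw [hlh2]; exact UB_add ucap (UB_mul (UB_q (by norm_num)) uy (by norm_num) hy0.le)

/-- part 3: `g` -/
lemma part3 {z0 z1 c0 c1 h0 h1 lh0 E0 E1 u1 l0 : ℕ} {z c ch E l u lh : ℝ}
    (lz : LB z0 z) (uz : UB z z1) (lc : LB c0 c) (uc : UB c c1) (lch : LB h0 ch) (uch : UB ch h1)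
    (lE : LB E0 E) (uE : UB E E1) (uu : UB u u1) (hll : LB l0 l) (llh : LB lh0 lh)
    (hlh : lh = l - u) (hcp : 0 < c) (hc1 : c ≤ 1) (hchp : 0 < ch) (hch1 : ch ≤ 1) (hz0 : 0 < z)
    (hu0 : 0 < u) (hlh0 : 0 < lh) (hE1 : 1 < E) (hc0 : 0 < c0) (hh0 : 0 < h0)
    {gp gn : ℕ}
    (hgp : gp = dD (mD (mD lh0 (mD (dD 1099511627776 h1) (dD 1099511627776 h1) +
      mD (dD 1099511627776 c1) (dD 1099511627776 c1) +
      mD (dD 1099511627776 h1) (dD 1099511627776 c1) - 3298534883328))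
      (mD (E0 - 1099511627776) (dD 1099511627776 h1))) (c1 + h1) +
      mD (mD l0 l0) (mD (mD (dD 1099511627776 c1) (dD 1099511627776 c1))
        (mD z0 (mD (dD 1099511627776 c1) (dD 1099511627776 c1)) + 307863255777)) +
      mD ((E0 - 1099511627776) / 2000) (mD (dD 1099511627776 c1) (dD 1099511627776 c1)))
    (hgn : gn = mU (mU (mU z1 (mU (E1 - 1099511627776) (E1 - 1099511627776)) / 2 + 1)
      (mU (2 * c1 + h1) (mU (dU 1099511627776 c0) (dU 1099511627776 c0))))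
      (mU (dU 1099511627776 h0) (mU (dU 1099511627776 (c0 + h0)) (dU 1099511627776 (c0 + h0)))) +
      mU (mU (mU u1 z1) (mU (1099511627776 + 2 * c1) (mU (dU 1099511627776 c0) (dU 1099511627776 c0))))
      (dU 1099511627776 (mD (1099511627776 + c0) (1099511627776 + c0))))
    (hle : gn ≤ gp) : LB (gp - gn) (Lg z c ch E l u) := by
  obtain ⟨q, hq⟩ : ∃ q : ℝ, q = 1 / c := ⟨_, rfl⟩
  obtain ⟨qh, hqh⟩ : ∃ q : ℝ, q = 1 / ch := ⟨_, rfl⟩
  have hq1 : 1 ≤ q := by rw [hq, le_div_iff₀ hcp]; linarith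
  have hqh1 : 1 ≤ qh := by rw [hqh, le_div_iff₀ hchp]; linarith
  have lq : LB (dD 1099511627776 c1) q := by rw [hq]; exact LB_div LB_one uc hcp
  have uq : UB q (dU 1099511627776 c0) := by rw [hq]; exact UB_div UB_one lc hc0 (by norm_num)
  have lqh : LB (dD 1099511627776 h1) qh := by rw [hqh]; exact LB_div LB_one uch hchp
  have uqh : UB qh (dU 1099511627776 h0) := by rw [hqh]; exact UB_div UB_one lch hh0 (by norm_num)
  have lq2 := LB_mul lq lq
  have uq2 := UB_mul uq uq (by linarith) (by linarith)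
  obtain ⟨Em, hEm⟩ : ∃ Em : ℝ, Em = E - 1 := ⟨_, rfl⟩
  have hEm0 : 0 < Em := by rw [hEm]; linarith
  have lEm : LB (E0 - 1099511627776) Em := by rw [hEm]; exact LB_sub lE UB_one hE1.le
  have uEm : UB Em (E1 - 1099511627776) := by rw [hEm]; exact UB_sub uE LB_one
  have hB0 : 0 ≤ qh * qh + q * q + qh * q - 3 := by nlinarith
  have lgp : LB gp (lh * (qh * qh + q * q + qh * q - 3) * (Em * qh) / (c + ch) +
      l * l * (q * q * (z * (q * q) + 7 / 25)) + Em / (2000 : ℕ) * (q * q)) := by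
    rw [hgp]
    refine LB_add (LB_add ?_ ?_) ?_
    · refine LB_div (LB_mul (LB_mul llh ?_) (LB_mul lEm lqh)) (UB_add uc uch) (by positivity)
      exact LB_sub (LB_add (LB_add (LB_mul lqh lqh) lq2) (LB_mul lqh lq)) (UB_q (by norm_num))
        (by linarith)
    · exact LB_mul (LB_mul hll hll) (LB_mul lq2 (LB_add (LB_mul lz lq2) (LB_q (by norm_num))))
    · exact LB_mul (LB_ndiv 2000 lEm) lq2
  have hr0 : 0 < 1 / (c + ch) := by positivity
  have ur : UB (1 / (c + ch)) (dU 1099511627776 (c0 + h0)) :=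
    UB_div UB_one (LB_add lc lch) (by omega) (by norm_num)
  have ugn : UB (z * (Em * Em) / (2 : ℕ) * ((2 * c + ch) * (q * q)) *
      (qh * (1 / (c + ch) * (1 / (c + ch)))) +
      u * z * ((1 + 2 * c) * (q * q)) * (1 / ((1 + c) * (1 + c)))) gn := by
    have hqq : 0 ≤ q * q := by positivity
    have hqh0 : 0 ≤ qh := by linarith
    rw [hgn]
    refine UB_add (UB_mul (UB_mul ?_ ?_ ?_ ?_) ?_ ?_ ?_) (UB_mul (UB_mul ?_ ?_ ?_ ?_) ?_ ?_ ?_)
    · exact UB_ndiv (by norm_num) (UB_mul uz (UB_mul uEm uEm hEm0.le hEm0.le) hz0.le (by positivity))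
    · exact UB_mul (UB_add (by exact_mod_cast UB_nmul 2 uc) uch) uq2 (by positivity) hqq
    · positivity
    · positivity
    · exact UB_mul uqh (UB_mul ur ur hr0.le hr0.le) hqh0 (by positivity)
    · positivity
    · positivity
    · exact UB_mul uu uz hu0.le hz0.le
    · exact UB_mul (UB_add UB_one (by exact_mod_cast UB_nmul 2 uc)) uq2 (by positivity) hqq
    · positivity
    · positivity
    · refine UB_div UB_one (LB_mul (LB_add LB_one lc) (LB_add LB_one lc)) ?_ (by norm_num)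
      unfold mD
      apply Nat.div_pos _ (by norm_num)
      nlinarith [Nat.zero_le c0]
    · positivity
    · positivity
  refine (LB_sub lgp ugn (lgp.le_of ugn hle)).le (le_of_eq ?_)
  unfold Lg
  rw [hlh, hEm, hq, hqh]
  have h3 : c + ch ≠ 0 := by positivity
  have h4 : 1 + c ≠ 0 := by positivity
  have h5 := hcp.ne'
  have h6 := hchp.ne'
  push_cast
  field_simp
  ring

/-- part 4: `c Ŵ = w1 - w2` -/
lemma part4 {c0 c1 h0 h1 lh0 lh1 S0 S1 : ℕ} {z c ch E l u lh : ℝ}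
    (lc : LB c0 c) (uc : UB c c1) (lch : LB h0 ch) (uch : UB ch h1) (llh : LB lh0 lh)
    (ulh : UB lh lh1) (lS : LB S0 (z * E)) (uS : UB (z * E) S1) (hlh : lh = l - u) (hcp : 0 < c)
    (hchp : 0 < ch) (hch1 : ch ≤ 1) (hlh0 : 0 < lh) (hS0 : 0 < z * E) (hh0 : 0 < h0) :
    ∃ w1 w2 : ℝ, LWh z c ch E l u = w1 - w2 ∧
      LB (2 * mD c0 (dD 1099511627776 h1 - dU h1 (1099511627776 + h1))) w1 ∧
      UB w1 (2 * mU c1 (dU 1099511627776 h0 - dD h0 (1099511627776 + h0))) ∧
      LB (3 * mD (mD c0 lh0) (mD S0 (mD (dD 1099511627776 h1)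
        (mD (dD 1099511627776 h1) (dD 1099511627776 h1))))) w2 ∧
      UB w2 (3 * mU (mU c1 lh1) (mU S1 (mU (dU 1099511627776 h0)
        (mU (dU 1099511627776 h0) (dU 1099511627776 h0))))) := by
  obtain ⟨qh, hqh⟩ : ∃ q : ℝ, q = 1 / ch := ⟨_, rfl⟩
  have hqh1 : 1 ≤ qh := by rw [hqh, le_div_iff₀ hchp]; linarith
  have hqh0 : 0 ≤ qh := by linarith
  have lqh : LB (dD 1099511627776 h1) qh := by rw [hqh]; exact LB_div LB_one uch hchp
  have uqh : UB qh (dU 1099511627776 h0) := by rw [hqh]; exact UB_div UB_one lch hh0 (by norm_num)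
  have hf0 : 0 ≤ ch / (1 + ch) := by positivity
  have hf1 : ch / (1 + ch) ≤ 1 := by rw [div_le_one (by positivity)]; linarith
  refine ⟨(2 : ℕ) * (c * (qh - ch / (1 + ch))), (3 : ℕ) * (c * lh * (z * E * (qh * (qh * qh)))),
    ?_, ?_, ?_, ?_, ?_⟩
  · unfold LWh
    rw [hlh, hqh]
    push_cast
    ring
  · exact LB_nmul 2 (LB_mul lc (LB_sub lqh (UB_frac1 hchp.le uch) (by linarith)))
  · exact UB_nmul 2 (UB_mul uc (UB_sub uqh (LB_frac1 lch)) hcp.le (by linarith))
  · exact LB_nmul 3 (LB_mul (LB_mul lc llh) (LB_mul lS (LB_mul lqh (LB_mul lqh lqh))))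
  · refine UB_nmul 3 (UB_mul (UB_mul uc ulh hcp.le hlh0.le) (UB_mul uS (UB_mul uqh
      (UB_mul uqh uqh hqh0 hqh0) hqh0 (by positivity)) hS0.le (by positivity)) (by positivity)
      (by positivity))

/-- part 5: `A2` -/
lemma part5 {om1 w1U w2D : ℕ} {W w1 w2 V om : ℝ} (hW : W = w1 - w2) (u1 : UB w1 w1U) (l2 : LB w2D w2)
    (uom : UB om om1) (hom : 0 < om) (hV : V = 1 - om * om) :
    UB ((1 - V) * W) (mU (mU om1 om1) (w1U - w2D)) := by
  have h := UB_mul (UB_mul uom uom hom.le hom.le) (UB_sub' u1 l2) (by positivity)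
    (le_max_right (w1 - w2) 0)
  refine h.ge ?_
  rw [hW, hV]
  have : (1 - (1 - om * om)) = om * om := by ring
  rw [this]
  exact mul_le_mul_of_nonneg_left (le_max_left _ _) (by positivity)

/-- part 6: the coefficient of `k` -/
lemma part6 {c1 Y1 l1 E1 V1 T81 : ℕ} {z c E l V T : ℝ}
    (uc : UB c c1) (uY : UB (z / c ^ 2) Y1) (ul : UB l l1) (uE : UB E E1) (uV : UB V V1)
    (uT8 : UB (T ^ 8) T81) (hcp : 0 < c) (hc1 : c ≤ 1) (hz0 : 0 < z) (hl0 : 0 ≤ l) (hE : 0 < E)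
    (hV : 0 < V) (hT : 0 < T) :
    ∃ a b : ℝ, LBp z c E l V (23 / 25 * T ^ 8) = a - b ∧ 0 ≤ b ∧
      LB (2199023255552 - dU (2 * mU c1 c1) (1099511627776 + c1)) a ∧
      UB b (2 * mU Y1 l1 + mU (mU (E1 + (E1 / 1000 + 1)) V1) (1099511627776 + (23 * T81 / 25 + 1))) := by
  have hY0 : 0 < z / c ^ 2 := by positivity
  refine ⟨2 - 2 * c ^ 2 / (1 + c), (2 : ℕ) * (z / c ^ 2 * l) +
    (E + E / (1000 : ℕ)) * V * (1 + 23 * T ^ 8 / (25 : ℕ)), ?_, by positivity, ?_, ?_⟩
  · unfold LBp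
    push_cast
    ring
  · obtain ⟨cr, hcr⟩ : ∃ cr : ℝ, cr = (c1 : ℝ) / 1099511627776 := ⟨_, rfl⟩
    have lcr : LB c1 cr := by rw [hcr]; exact LB_self _
    have ucr : UB cr c1 := by rw [hcr]; exact UB_self _
    have hccr : c ≤ cr := by
      rw [hcr, le_div_iff₀ (by norm_num)]; exact uc
    have hcr0 : 0 ≤ cr := by linarith
    have h1 : UB ((2 : ℕ) * (cr * cr) / (1 + cr)) (dU (2 * mU c1 c1) (1099511627776 + c1)) :=
      UB_div (UB_nmul 2 (UB_mul ucr ucr hcr0 hcr0)) (LB_add LB_one lcr) (by omega) (by positivity)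
    refine (LB_sub' (LB_q (by norm_num : ((2199023255552 : ℕ) : ℝ) ≤ 2 * 1099511627776)) h1).le
      (max_le ?_ ?_)
    · have h2 : 2 * c ^ 2 / (1 + c) ≤ (2 : ℕ) * (cr * cr) / (1 + cr) := by
        push_cast
        rw [div_le_div_iff₀ (by linarith) (by linarith)]
        have h3 : c * c ≤ cr * cr := mul_le_mul hccr hccr hcp.le hcr0
        have h4 : c * cr * c ≤ c * cr * cr := mul_le_mul_of_nonneg_left hccr (by positivity)
        nlinarith
      linarith
    · have h2 : 2 * c ^ 2 / (1 + c) ≤ 2 := by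
        rw [div_le_iff₀ (by linarith)]; nlinarith
      linarith
  · refine UB_add (UB_nmul 2 (UB_mul uY ul hY0.le hl0)) (UB_mul (UB_mul (UB_add uE
      (UB_ndiv (by norm_num) uE)) uV (by positivity) hV.le) (UB_add UB_one (UB_ndiv (by norm_num)
      (by exact_mod_cast UB_nmul 23 uT8))) (by positivity) (by positivity))

/-- part 7: the constant `P0` -/
lemma part7 {c0 c1 h0 h1 cT0 lh0 lh1 E1 u0 l1 Y0 Y1 V1 T81 S1 w1D w2U : ℕ}
    {z c ch cT E l u lh V T w1 w2 : ℝ}
    (lc : LB c0 c) (uc : UB c c1) (lch : LB h0 ch) (uch : UB ch h1) (lcT : LB cT0 cT)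
    (llh : LB lh0 lh) (ulh : UB lh lh1) (uE : UB E E1)
    (lu : LB u0 u) (ul : UB l l1) (lY : LB Y0 (z / c ^ 2)) (uY : UB (z / c ^ 2) Y1)
    (uV : UB V V1) (uT8 : UB (T ^ 8) T81) (uS : UB (z * E) S1) (hW : LWh z c ch E l u = w1 - w2)
    (lw1 : LB w1D w1) (uw2 : UB w2 w2U) (hlh : lh = l - u) (hcp : 0 < c) (hc1 : c ≤ 1)
    (hchp : 0 < ch) (hch1 : ch ≤ 1) (hz0 : 0 < z) (hl0 : 0 ≤ l) (hlh0 : 0 < lh) (hE1 : 1 < E)
    (hV : 0 < V) (hT : 0 < T) (hu0 : 0 < u) (hh0 : 0 < h0) :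
    ∃ Pp Pn : ℝ, Pp - Pn ≤ LP0 z c ch cT E l u V (23 / 25 * T ^ 8) ∧
      LB (mD u0 (1099511627776 + 4 * Y0 + dD (1099511627776 - c1) (1099511627776 + c1)) +
        mD lh0 (1099511627776 + 4 * Y0 + dD (1099511627776 - c1) (1099511627776 + c1) -
          mU c1 (mU (mU (dU 1099511627776 h0) (mU (dU 1099511627776 h0) (dU 1099511627776 h0)))
            (1099511627776 + 3 * S1)))) Pp ∧
      UB Pn (mU (mU l1 l1) (mU Y1 (4 * Y1 + 4529987906438)) +
        mU c1 (dU h1 (1099511627776 + h1) - dD cT0 (1099511627776 + cT0)) +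
        mU lh1 (mU c1 (mU (mU (dU 1099511627776 h0) (mU (dU 1099511627776 h0)
          (dU 1099511627776 h0))) (1099511627776 + 3 * S1)) -
          (1099511627776 + 4 * Y0 + dD (1099511627776 - c1) (1099511627776 + c1))) +
        (mU (E1 - 1099511627776) (1100611139404 + 7 * Y1 + (2 * Y1 / 1000 + 1)) / 2 + 1) +
        mU (mU V1 (23 * T81 / 25 + 1)) (E1 + (E1 / 1000 + 1) + w2U - w1D)) := by
  obtain ⟨qh, hqh⟩ : ∃ q : ℝ, q = 1 / ch := ⟨_, rfl⟩
  have hqh1 : 1 ≤ qh := by rw [hqh, le_div_iff₀ hchp]; linarith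
  have hqh0 : 0 ≤ qh := by linarith
  have uqh : UB qh (dU 1099511627776 h0) := by rw [hqh]; exact UB_div UB_one lch hh0 (by norm_num)
  have hY0 : 0 < z / c ^ 2 := by positivity
  obtain ⟨Yr, hYr⟩ : ∃ Yr : ℝ, Yr = z / c ^ 2 := ⟨_, rfl⟩
  rw [← hYr] at lY uY hY0
  obtain ⟨bb, hbb⟩ : ∃ bb : ℝ, bb = 1 + (4 : ℕ) * Yr + (1 - c) / (1 + c) := ⟨_, rfl⟩
  obtain ⟨t, ht⟩ : ∃ t : ℝ, t = c * (qh * (qh * qh) * (1 + (3 : ℕ) * (z * E))) := ⟨_, rfl⟩
  obtain ⟨Em, hEm⟩ : ∃ Em : ℝ, Em = E - 1 := ⟨_, rfl⟩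
  have hEm0 : 0 < Em := by rw [hEm]; linarith
  have uEm : UB Em (E1 - 1099511627776) := by rw [hEm]; exact UB_sub uE LB_one
  have lbb : LB (1099511627776 + 4 * Y0 + dD (1099511627776 - c1) (1099511627776 + c1)) bb := by
    rw [hbb]
    exact LB_add (LB_add LB_one (LB_nmul 4 lY)) (LB_div (LB_sub LB_one uc hc1) (UB_add UB_one uc)
      (by positivity))
  have hSE : 0 < z * E := mul_pos hz0 (by linarith)
  have ut : UB t (mU c1 (mU (mU (dU 1099511627776 h0) (mU (dU 1099511627776 h0)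
      (dU 1099511627776 h0))) (1099511627776 + 3 * S1))) := by
    rw [ht]
    exact UB_mul uc (UB_mul (UB_mul uqh (UB_mul uqh uqh hqh0 hqh0) hqh0 (by positivity))
      (UB_add UB_one (UB_nmul 3 uS)) (by positivity) (by positivity)) hcp.le (by positivity)
  have hcT0 : 0 ≤ cT := lcT.nonneg
  refine ⟨u * bb + lh * max (bb - t) 0,
    l * l * (Yr * ((4 : ℕ) * Yr + 103 / 25)) + c * max (ch / (1 + ch) - cT / (1 + cT)) 0 +
      lh * max (t - bb) 0 + Em * (1001 / 1000 + (7 : ℕ) * Yr + (2 : ℕ) * Yr / (1000 : ℕ)) / (2 : ℕ) +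
      V * (23 * T ^ 8 / (25 : ℕ)) * max (E + E / (1000 : ℕ) + w2 - w1) 0, ?_, ?_, ?_⟩
  · unfold LP0
    rw [hW, ← hYr]
    have e1 : 1 + 4 * Yr + (1 - c) / (1 + c) = bb := by rw [hbb]; push_cast; ring
    have e2 : c * (1 / ch) ^ 3 * (1 + 3 * z * E) = t := by rw [ht, hqh]; push_cast; ring
    rw [e1, e2, ← hlh]
    have i1 : ch / (1 + ch) - cT / (1 + cT) ≤ max (ch / (1 + ch) - cT / (1 + cT)) 0 := le_max_left _ _
    have i2 := mul_le_mul_of_nonneg_left i1 hcp.le
    have i3 : lh * (max (bb - t) 0 - max (t - bb) 0) = lh * (bb - t) := by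
      rcases le_total (bb - t) 0 with h | h
      · rw [max_eq_right h, max_eq_left (by linarith)]; ring
      · rw [max_eq_left h, max_eq_right (by linarith)]; ring
    have i4 : E + E / (1000 : ℕ) + w2 - w1 ≤ max (E + E / (1000 : ℕ) + w2 - w1) 0 := le_max_left _ _
    have hVT : 0 ≤ V * (23 * T ^ 8 / (25 : ℕ)) := by positivity
    have i5 := mul_le_mul_of_nonneg_left i4 hVT
    have e6 : V * (23 / 25 * T ^ 8) * (w1 - w2 - (1 + 1 / 1000) * E) =
        -(V * (23 * T ^ 8 / (25 : ℕ)) * (E + E / (1000 : ℕ) + w2 - w1)) := by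
      push_cast; ring
    rw [e6]
    have e7 : -(4 * Yr ^ 2 + 103 / 25 * Yr) * l ^ 2 = -(l * l * (Yr * ((4 : ℕ) * Yr + 103 / 25))) := by
      push_cast; ring
    have e8 : 1 / 2 * (E - 1) * ((1 + 1 / 1000) * (1 + 2 * Yr) + 5 * Yr) =
        Em * (1001 / 1000 + (7 : ℕ) * Yr + (2 : ℕ) * Yr / (1000 : ℕ)) / (2 : ℕ) := by
      rw [hEm]; push_cast; ring
    rw [e7, e8]
    linarith
  · exact LB_add (LB_mul lu lbb) (LB_mul llh (LB_sub' lbb ut))
  · have hYr := hY0.le
    refine UB_add (UB_add (UB_add (UB_add ?_ ?_) ?_) ?_) ?_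
    · exact UB_mul (UB_mul ul ul hl0 hl0) (UB_mul uY (UB_add (UB_nmul 4 uY) (UB_q (by norm_num)))
        hYr (by positivity)) (by positivity) (by positivity)
    · exact UB_mul uc (UB_sub' (UB_frac1 hchp.le uch) (LB_frac1 lcT)) hcp.le (le_max_right _ _)
    · exact UB_mul ulh (UB_sub' ut lbb) hlh0.le (le_max_right _ _)
    · exact UB_ndiv (by norm_num) (UB_mul uEm (UB_add (UB_add (UB_q (by norm_num)) (UB_nmul 7 uY))
        (UB_ndiv (by norm_num) (UB_nmul 2 uY))) hEm0.le (by positivity))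
    · refine UB_mul (UB_mul uV (UB_ndiv (by norm_num) (by exact_mod_cast UB_nmul 23 uT8)) hV.le
        (by positivity)) (UB_sub' (UB_add (UB_add uE (UB_ndiv (by norm_num) uE)) uw2) lw1)
        (by positivity) (le_max_right _ _)

/-- part 8: lower bound of `X = N z` -/
lemma part8 {z0 z1 el0 : ℕ} {z x N e : ℝ} (lz : LB z0 z) (uz : UB z z1) (he : LB el0 e)
    (hN : 24 ≤ N) (hz0 : 0 < z) (hx : x * x = N * z) (hx2 : 2 ≤ x)
    (hC1 : x ≤ 7 / 2 → e ≤ 3 / 5 + (73 / 200 + 1 / (2 * N)) * x) (hC2 : 7 / 2 ≤ x → e ≤ 3 / 5 * x)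
    {xx : ℕ} (hxx : xx = max (dD (el0 - (659706976666 + (z1 / 4 + 1))) 401321744139)
      (max (dD (el0 - 659706976666) 424228236384) 2199023255552)) :
    LB (max (24 * z0) (bif Nat.ble xx 3848290697216 then mD xx xx else
      max 13469017440256 (25 * mD el0 el0 / 9))) (N * z) ∧
    0 < max (24 * z0) (bif Nat.ble xx 3848290697216 then mD xx xx else
      max 13469017440256 (25 * mD el0 el0 / 9)) := by
  have hlow : x ≤ 7 / 2 → LB xx x := fun h => by
    rw [hxx]; exact x_lower he uz hx2 hx hN hz0.le h (hC1 h)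
  have hxx2 : 2199023255552 ≤ xx := by
    rw [hxx]; exact le_trans (le_max_right _ _) (le_max_right _ _)
  constructor
  · refine LB_max ?_ ?_
    · refine (LB_nmul 24 lz).le ?_
      push_cast
      exact mul_le_mul_of_nonneg_right hN hz0.le
    · by_cases hc : Nat.ble xx 3848290697216 = true
      · rw [hc]
        show LB (mD xx xx) (N * z)
        rw [Nat.ble_eq] at hc
        have h1 : LB xx x := by
          rcases le_total x (7 / 2) with h | h
          · exact hlow h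
          · unfold LB
            have : (xx : ℝ) ≤ 3848290697216 := by exact_mod_cast hc
            nlinarith
        rw [← hx]; exact LB_mul h1 h1
      · rw [Bool.eq_false_of_not_eq_true hc]
        show LB (max 13469017440256 (25 * mD el0 el0 / 9)) (N * z)
        rw [Nat.ble_eq] at hc
        push Not at hc
        have h72 : 7 / 2 ≤ x := by
          by_contra hcon
          push Not at hcon
          have h1 := hlow hcon.le
          unfold LB at h1
          have : (3848290697216 : ℝ) < xx := by exact_mod_cast hc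
          nlinarith
        have h2 := hC2 h72
        refine LB_max ?_ ?_
        · rw [← hx]
          refine LB_q ?_
          norm_num
          nlinarith
        · have h3 : LB (25 * mD el0 el0 / 9) ((25 : ℕ) * (e * e) / (9 : ℕ)) :=
            LB_ndiv 9 (LB_nmul 25 (LB_mul he he))
          refine h3.le ?_
          rw [← hx]
          have he0 := he.nonneg
          push_cast
          nlinarith
  · refine lt_max_of_lt_right ?_
    by_cases hc : Nat.ble xx 3848290697216 = true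
    · rw [hc]
      show 0 < mD xx xx
      unfold mD
      apply Nat.div_pos _ (by norm_num)
      nlinarith
    · rw [Bool.eq_false_of_not_eq_true hc]
      exact lt_max_of_lt_left (by norm_num)

/-- part 9: hazard -/
lemma part9 {s l T c N z k : ℝ} (_hs : 0 < s) (hT : T = s * Real.exp l) (hT1 : T < 1)
    (hk2 : (1 + k) * (s * c ^ 2) ≤ (1 + N * z) * (Real.exp (-l) - s)) :
    (1 + k) * (c * c * T / (1 - T)) ≤ 1 + N * z := by
  have he := Real.exp_pos l
  have h1 : 0 < 1 - T := by linarith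
  have h2 := mul_le_mul_of_nonneg_right hk2 he.le
  have h3 : (Real.exp (-l) - s) * Real.exp l = 1 - T := by
    rw [sub_mul, ← Real.exp_add, hT]; simp
  rw [mul_assoc (1 + N * z), h3] at h2
  rw [← mul_div_assoc, div_le_iff₀ h1]
  calc (1 + k) * (c * c * T) = (1 + k) * (s * c ^ 2) * Real.exp l := by rw [hT]; ring
    _ ≤ _ := h2


/-- **soundness of a box**, real variables -/
theorem box_real {s0 s1 l0 l1 : ℕ} (hb : box s0 s1 l0 l1 = true)
    {N s z l k Mu c ch cT E u V T cap y x : ℝ} (hN : 24 ≤ N) (hs : 0 < s) (hs1 : s < 1)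
    (hzd : z = s * s)
    (hsl : LB s0 s) (hsu : UB s s1) (hll : LB l0 l) (hlu : UB l l1) (hl1 : l ≤ 1)
    (hT : T = s * Real.exp l) (hT1 : T < 1) (hcap : cap = 43 / 100 - 23 / 200 * T ^ 8)
    (hv : cap < l) (hy : y = (l - cap) / (l - cap + 7 / 100)) (hu : u = (l - cap) * y)
    (hV : V = 1 - (1 - y) * (1 - y)) (hE : E = Real.exp (2 * u)) (hc : c = Real.sqrt (1 - z))
    (hSh : z * E < 1) (hch : ch = Real.sqrt (1 - z * E)) (hcT : cT = Real.sqrt (1 - T * T))
    (hx : x * x = N * z) (hx2 : 2 ≤ x)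
    (hC1 : x ≤ 7 / 2 → Real.exp l ≤ 3 / 5 + (73 / 200 + 1 / (2 * N)) * x)
    (hC2 : 7 / 2 ≤ x → Real.exp l ≤ 3 / 5 * x) (hk0 : 0 ≤ k) (hk1 : k * c ≤ 1)
    (hk2 : (1 + k) * (s * c ^ 2) ≤ (1 + N * z) * (Real.exp (-l) - s))
    (hMu : Mu ≤ (107 / 100 + 186 / 100 / (N - 2)) * ((N - 1) / (N - 1 - l))) :
    0 < N * (z * Lg z c ch E l u) + 5 / N * LG2 z c E V (23 / 25 * T ^ 8) k +
      LP0 z c ch cT E l u V (23 / 25 * T ^ 8) + LBp z c E l V (23 / 25 * T ^ 8) * k -
      (1 - V) * LWh z c ch E l u * (1 - 1 / (1 + k)) - 7 / 50 * c ^ 2 * k ^ 2 -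
      Mu * (k - Real.log (1 + k)) := by
  unfold box at hb
  extract_lets z0 z1 c0 c1 el0 T0 T1 T80 T81 cap0 cap1 v0 v1 y0 y1 u0 u1 om0 om1 V0 V1 lh0 lh1 E0 E1 Em0 Em1 Sh0 Sh1 h0 h1 q0 q1 qh0 qh1 q02 q12 Y0 Y1 B0 gp r1 gn cT0 qh13 qh03 w1D w1U w2U w2D A tp0 tp1 a0 EV1 b1 bb0 t3 P Q xx Xm X hz b at hb
  simp only [Bool.or_eq_true, Bool.and_eq_true, Nat.ble_eq, Nat.blt_eq] at hb
  have hl0 : 0 ≤ l := hll.nonneg
  have hz0 : 0 < z := by rw [hzd]; positivity
  have hz1 : z < 1 := by rw [hzd]; nlinarith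
  have lz : LB z0 z := by rw [hzd]; exact LB_mul hsl hsl
  have uz : UB z z1 := by rw [hzd]; exact UB_mul hsu hsu hs.le hs.le
  have lc : LB c0 c := by rw [hc]; exact LB_sqrt (LB_sub LB_one uz hz1.le)
  have uc : UB c c1 := by rw [hc]; exact UB_sqrt (UB_sub UB_one lz) (by linarith)
  have hcp : 0 < c := by rw [hc]; exact Real.sqrt_pos.2 (by linarith)
  have hc1 : c ≤ 1 := by
    rw [hc]; exact Real.sqrt_le_one.2 (by linarith)
  obtain ⟨lT, uT, lcap, ucap, hT0, hcap0⟩ := part1 hs hsl hsu hll hlu hl1 hT hT1 hcap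
  have lT8 : LB T80 (T ^ 8) := p8D_spec lT
  have uT8 : UB (T ^ 8) T81 := p8U_spec uT hT0.le
  obtain ⟨v, hvd⟩ : ∃ v : ℝ, v = l - cap := ⟨_, rfl⟩
  have hv0 : 0 < v := by rw [hvd]; linarith
  have lv : LB v0 v := by rw [hvd]; exact LB_sub hll ucap hv.le
  have uv : UB v v1 := by rw [hvd]; exact UB_sub hlu lcap
  rw [← hvd] at hy hu
  rcases hb with (h | h) | hb
  · exfalso
    have : (1 : ℝ) ≤ T := lT.le_of UB_one h
    linarith
  · exfalso
    have h1 := uv.pos hv0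
    exact absurd h1 (not_lt.2 h)
  obtain ⟨⟨⟨⟨⟨⟨⟨⟨⟨hbSh, hbg⟩, hbc0⟩, hbh0⟩, hbl1⟩, K1⟩, K2⟩, K3⟩, K4⟩, K5⟩ := hb
  obtain ⟨lh, hlh⟩ : ∃ lh : ℝ, lh = l - u := ⟨_, rfl⟩
  obtain ⟨lu, uu, lV, uV, uom, llh, ulh, hu0, huv, hV0, hlh0, hom0⟩ :=
    part2 lv uv lcap ucap hvd hv0 hcap0 hy hu hV hlh
  have lE : LB E0 E := by
    rw [hE]; exact LB_exp (by exact_mod_cast LB_nmul 2 lu)
  have uE : UB E E1 := by
    rw [hE]; exact UB_exp (by exact_mod_cast UB_nmul 2 uu) (by positivity) (by linarith)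
  have hE1 : 1 < E := by rw [hE]; exact Real.one_lt_exp_iff.2 (by positivity)
  have hE0 : 0 < E := by linarith
  have hSh0 : 0 < z * E := by positivity
  have lSh : LB Sh0 (z * E) := LB_mul lz lE
  have uSh : UB (z * E) Sh1 := UB_mul uz uE hz0.le hE0.le
  have lch : LB h0 ch := by rw [hch]; exact LB_sqrt (LB_sub LB_one uSh hSh.le)
  have uch : UB ch h1 := by rw [hch]; exact UB_sqrt (UB_sub UB_one lSh) (by linarith)
  have hchp : 0 < ch := by rw [hch]; exact Real.sqrt_pos.2 (by linarith)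
  have hch1 : ch ≤ 1 := by rw [hch]; exact Real.sqrt_le_one.2 (by linarith)
  have hTT : T * T < 1 := by nlinarith
  have lcT : LB cT0 cT := by
    rw [hcT]; exact LB_sqrt (LB_sub LB_one (UB_mul uT uT hT0.le hT0.le) hTT.le)
  have lq : LB q0 (1 / c) := LB_div LB_one uc hcp
  have uq : UB (1 / c) q1 := UB_div UB_one lc hbc0 (by norm_num)
  have hq0 : 0 < 1 / c := by positivity
  have hYe : z / c ^ 2 = z * (1 / c * (1 / c)) := by field_simp
  have lY : LB Y0 (z / c ^ 2) := by rw [hYe]; exact LB_mul lz (LB_mul lq lq)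
  have uY : UB (z / c ^ 2) Y1 := by
    rw [hYe]; exact UB_mul uz (UB_mul uq uq hq0.le hq0.le) hz0.le (by positivity)
  have hY0 : 0 < z / c ^ 2 := by positivity
  -- g
  have lg : LB (gp - gn) (Lg z c ch E l u) :=
    part3 lz uz lc uc lch uch lE uE uu hll llh hlh hcp hc1 hchp hch1 hz0 hu0 hlh0 hE1 hbc0 hbh0
      rfl rfl hbg
  -- W
  obtain ⟨w1, w2, hW, lw1, uw1, lw2, uw2⟩ :=
    part4 lc uc lch uch llh ulh lSh uSh hlh hcp hchp hch1 hlh0 hSh0 hbh0
  have uA : UB ((1 - V) * LWh z c ch E l u) A := part5 hW uw1 lw2 uom hom0 hV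
  obtain ⟨a, bq, hab, hb0, la, ub⟩ := part6 uc uY hlu uE uV uT8 hcp hc1 hz0 hl0 hE0 hV0 hT0
  obtain ⟨Pp, Pn, hP, lP, uP⟩ := part7 lc uc lch uch lcT llh ulh uE lu hlu lY uY uV uT8 uSh hW lw1
    uw2 hlh hcp hc1 hchp hch1 hz0 hl0 hlh0 hE1 hV0 hT0 hu0 hbh0
  obtain ⟨lX, hX0⟩ := part8 lz uz (LB_exp hll) hN hz0 hx hx2 hC1 hC2 (xx := xx) rfl
  have hhaz := part9 hs hT hT1 hk2
  have lhz : LB hz (c * c * T / (1 - T)) := by
    refine LB_div (LB_mul (LB_mul lc lc) lT) (UB_sub UB_one lT) (by linarith)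
  -- G
  have hN0 : 0 < N := by linarith
  have lga : LB (mD (mD E0 V0) (1099511627776 + tp0)) (E * V * (1 + 23 * T ^ 8 / (25 : ℕ))) :=
    LB_mul (LB_mul lE lV) (LB_add LB_one (LB_ndiv 25 (by exact_mod_cast LB_nmul 23 lT8)))
  have lgb : LB (mD (mD E0 V0) tp0 + mD Em0 (1099511627776 + 2 * Y0) / 2)
      (E * V * (23 * T ^ 8 / (25 : ℕ)) + (E - 1) * (1 + (2 : ℕ) * (z / c ^ 2)) / (2 : ℕ)) :=
    LB_add (LB_mul (LB_mul lE lV) (LB_ndiv 25 (by exact_mod_cast LB_nmul 23 lT8)))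
      (LB_ndiv 2 (LB_mul (LB_sub lE UB_one hE1.le) (LB_add LB_one (LB_nmul 2 lY))))
  have uT23 : UB (23 * T ^ 8 / (25 : ℕ)) tp1 := UB_ndiv (by norm_num) (by exact_mod_cast UB_nmul 23 uT8)
  have uga : UB (E * V * (1 + 23 * T ^ 8 / (25 : ℕ))) (mU (mU E1 V1) (1099511627776 + tp1)) :=
    UB_mul (UB_mul uE uV hE0.le hV0.le) (UB_add UB_one uT23) (by positivity) (by positivity)
  have ugb : UB (E * V * (23 * T ^ 8 / (25 : ℕ)) + (E - 1) * (1 + (2 : ℕ) * (z / c ^ 2)) / (2 : ℕ))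
      (mU (mU E1 V1) tp1 + (mU Em1 (1099511627776 + 2 * Y1) / 2 + 1)) :=
    UB_add (UB_mul (UB_mul uE uV hE0.le hV0.le) uT23 (by positivity) (by positivity))
      (UB_ndiv (by norm_num) (UB_mul (UB_sub uE LB_one) (UB_add UB_one (UB_nmul 2 uY)) (by linarith)
        (by positivity)))
  have key : ∀ k0 k1 : ℕ, kint b k0 k1 = true → (k0 : ℝ) / 1099511627776 ≤ k →
      k ≤ (k1 : ℝ) / 1099511627776 → k0 < k1 →
      0 < N * z * Lg z c ch E l u + 5 / N * ((E * V * (1 + 23 * T ^ 8 / (25 : ℕ))) * k +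
        (E * V * (23 * T ^ 8 / (25 : ℕ)) + (E - 1) * (1 + (2 : ℕ) * (z / c ^ 2)) / (2 : ℕ))) +
        (Pp - Pn) + (a - bq) * k - (1 - V) * LWh z c ch E l u * (1 - 1 / (1 + k)) -
        7 / 50 * (c ^ 2 * k ^ 2) - Mu * (k - Real.log (1 + k)) := by
    intro k0 k1 hk h1 h2 h3
    exact kint_sound hk hN hz0 lX hX0 lg lz uz lP uP la ub hb0 uA uc hcp.le lga lgb uga ugb lhz hhaz
      hlu hl0 hbl1 h1 h2 h3 hMu
  have hfin : 0 < N * z * Lg z c ch E l u + 5 / N * ((E * V * (1 + 23 * T ^ 8 / (25 : ℕ))) * k +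
        (E * V * (23 * T ^ 8 / (25 : ℕ)) + (E - 1) * (1 + (2 : ℕ) * (z / c ^ 2)) / (2 : ℕ))) +
        (Pp - Pn) + (a - bq) * k - (1 - V) * LWh z c ch E l u * (1 - 1 / (1 + k)) -
        7 / 50 * (c ^ 2 * k ^ 2) - Mu * (k - Real.log (1 + k)) := by
    rcases le_total k (1 / 4) with h | h
    · exact key _ _ K1 (by norm_num; exact hk0) (by norm_num; linarith) (by norm_num)
    rcases le_total k (1 / 2) with h' | h'
    · exact key _ _ K2 (by norm_num; linarith) (by norm_num; linarith) (by norm_num)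
    rcases le_total k (3 / 4) with h'' | h''
    · exact key _ _ K3 (by norm_num; linarith) (by norm_num; linarith) (by norm_num)
    rcases le_or_gt k 1 with h3 | h3
    · exact key _ _ K4 (by norm_num; linarith) (by norm_num; linarith) (by norm_num)
    have hkq : k ≤ 1 / c := by rw [le_div_iff₀ hcp]; exact hk1
    have hq1' : k ≤ (q1 : ℝ) / 1099511627776 := by
      rw [le_div_iff₀ (by norm_num)]; exact uq.ge hkq
    refine key _ _ K5 (by norm_num; linarith) hq1' ?_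
    have h4 : (1 : ℝ) < (q1 : ℝ) / 1099511627776 := by linarith
    rw [lt_div_iff₀ (by norm_num)] at h4
    have h5 : ((1099511627776 : ℕ) : ℝ) < q1 := by push_cast; linarith
    exact_mod_cast h5
  refine lt_of_lt_of_le hfin ?_
  rw [hab]
  have hG : LG2 z c E V (23 / 25 * T ^ 8) k = (E * V * (1 + 23 * T ^ 8 / (25 : ℕ))) * k +
        (E * V * (23 * T ^ 8 / (25 : ℕ)) + (E - 1) * (1 + (2 : ℕ) * (z / c ^ 2)) / (2 : ℕ)) := by
    unfold LG2; push_cast; ring
  rw [hG]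
  have e1 : N * (z * Lg z c ch E l u) = N * z * Lg z c ch E l u := by ring
  have e2 : 7 / 50 * c ^ 2 * k ^ 2 = 7 / 50 * (c ^ 2 * k ^ 2) := by ring
  rw [e1, e2]
  linarith


end Crest.Agent.R230.FB
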