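import Crest.Agent.R230.FarForm

/-!
# Row 230: elimination of `N` from the cost of the moved contact point (helper613)

`c ((l-u) r(Q) - l r(q) - (Q-q)) ≥ -(1/2)(1+9/10000) Y (e^{2u}-1)`, `q = 1/c`, `Q = 1/cc (s e^u)`,
`u = Vq (7/100) (l - capF (s e^l))`, for all `0 < s < 1`, `s e^l ≤ 1`, `capF (s e^l) < l`.
-/

set_option autoImplicit false

open MeasureTheory Set Filter Topology
open scoped Pointwise ENNReal

namespace Crest.Agent.R230.WR



lemma elim_case2_poly1 {b : ℝ} (h0 : 0 ≤ b) (h1 : b ≤ 21 / 100) :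
    0 ≤ 12 / 25 * (3 * b + b ^ 2) * (1 + b) ^ 4 - 201 / 2 * b ^ 4 * (3 * b + b ^ 2) -
      (b * (3 / 2 + b) - 9 / 10000) * (1 + b) ^ 2 := by
  have e : 12 / 25 * (3 * b + b ^ 2) * (1 + b) ^ 4 - 201 / 2 * b ^ 4 * (3 * b + b ^ 2) -
      (b * (3 / 2 + b) - 9 / 10000) * (1 + b) ^ 2 =
      (9 / 10000 - 582 / 10000 * b + b ^ 2) +
      b ^ 2 * (12409 / 10000 + 706 / 100 * b + 764 / 100 * b ^ 2 - 29814 / 100 * b ^ 3 -
        10002 / 100 * b ^ 4) := by ring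
  rw [e]
  have h2 : 0 ≤ 9 / 10000 - 582 / 10000 * b + b ^ 2 := by nlinarith [sq_nonneg (b - 291 / 10000)]
  have h3 : b ^ 3 ≤ 441 / 10000 * b := by
    have : b ^ 2 ≤ (21 / 100) ^ 2 := by gcongr
    nlinarith
  have h4 : b ^ 4 ≤ 21 / 100 * b ^ 3 := by
    have := mul_le_mul_of_nonneg_right h1 (pow_nonneg h0 3)
    linarith [show b ^ 4 = b * b ^ 3 by ring]
  have h5 : 0 ≤ 12409 / 10000 + 706 / 100 * b + 764 / 100 * b ^ 2 - 29814 / 100 * b ^ 3 -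
        10002 / 100 * b ^ 4 := by
    nlinarith [mul_nonneg h0 (sub_nonneg.2 h1)]
  have := mul_nonneg (sq_nonneg b) h5
  linarith

lemma elim_case2_poly2 {b : ℝ} (h0 : 21 / 100 ≤ b) :
    0 ≤ 73 / 200 * (3 + b) * (1 + b) ^ 2 - (3 / 2 + b) := by
  nlinarith [mul_nonneg (sub_nonneg.2 h0) (sub_nonneg.2 h0), pow_pos (by linarith : (0:ℝ) < b) 3]

/-- case `v ≥ 7/40` -/
lemma elim_B_case2 {a b lh : ℝ} (ha : 0 ≤ a) (hb : 0 ≤ b) (hb1 : b ≤ 54 / 100)
    (hl1 : 73 / 200 ≤ lh)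
    (hl2 : 12 / 25 - 201 / 2 * b ^ 4 / (1 + b) ^ 4 ≤ lh) :
    0 ≤ lh * (3 * (a + b) + a ^ 2 + a * b + b ^ 2) * (1 + b) ^ 2 * (2 + a) -
      b * ((2 + b) * (2 + a) - 1) + 9 / 10000 * 2 := by
  -- the case `a = 0`
  have h0 : 0 ≤ lh * (3 * b + b ^ 2) * (1 + b) ^ 2 - b * (3 / 2 + b) + 9 / 10000 := by
    rcases le_or_gt b (21 / 100) with h | h
    · have h1 := elim_case2_poly1 hb h
      have hp : 0 < (1 + b) ^ 2 := by positivity
      have h2 : (12 / 25 - 201 / 2 * b ^ 4 / (1 + b) ^ 4) * ((3 * b + b ^ 2) * (1 + b) ^ 4) ≤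
          lh * ((3 * b + b ^ 2) * (1 + b) ^ 4) :=
        mul_le_mul_of_nonneg_right hl2 (by positivity)
      have e1 : (12 / 25 - 201 / 2 * b ^ 4 / (1 + b) ^ 4) * ((3 * b + b ^ 2) * (1 + b) ^ 4) =
          12 / 25 * (3 * b + b ^ 2) * (1 + b) ^ 4 - 201 / 2 * b ^ 4 * (3 * b + b ^ 2) := by
        field_simp
      refine nonneg_of_mul_nonneg_right ?_ hp
      have e2 : (1 + b) ^ 2 * (lh * (3 * b + b ^ 2) * (1 + b) ^ 2 - b * (3 / 2 + b) + 9 / 10000) =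
          lh * ((3 * b + b ^ 2) * (1 + b) ^ 4) - (b * (3 / 2 + b) - 9 / 10000) * (1 + b) ^ 2 := by ring
      rw [e2]
      linarith
    · have h1 := elim_case2_poly2 h.le
      have h2 : 73 / 200 * ((3 + b) * (1 + b) ^ 2 * b) ≤ lh * ((3 + b) * (1 + b) ^ 2 * b) :=
        mul_le_mul_of_nonneg_right hl1 (by positivity)
      have h3 := mul_nonneg hb h1
      nlinarith
  -- the `a`-terms
  have h1 : 0 ≤ a * (lh * (3 * b + b ^ 2) * (1 + b) ^ 2 + lh * 3 * (1 + b) ^ 2 * (2 + a) -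
      b * (2 + b)) := by
    refine mul_nonneg ha ?_
    have h2 : 0 ≤ lh * (3 * b + b ^ 2) * (1 + b) ^ 2 := by positivity
    have h3 : 73 / 200 * 3 * 1 * 2 ≤ lh * 3 * (1 + b) ^ 2 * (2 + a) := by
      gcongr
      · nlinarith
      · linarith
    nlinarith
  have h2 : 0 ≤ lh * (a ^ 2 + a * b) * (1 + b) ^ 2 * (2 + a) := by positivity
  nlinarith


/-- basic facts on the soft contact point -/
lemma soft_facts {s l u : ℝ} (hs : s ∈ Ioo (0 : ℝ) 1) (hT : s * Real.exp l ≤ 1)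
    (hcap : capF (s * Real.exp l) < l) (hu : u = Vq (7 / 100) (l - capF (s * Real.exp l))) :
    0 < u ∧ l - u = capF (s * Real.exp l) + 7 / 100 * (l - capF (s * Real.exp l)) /
      (l - capF (s * Real.exp l) + 7 / 100) ∧ 63 / 200 ≤ capF (s * Real.exp l) ∧
      capF (s * Real.exp l) ≤ l - u ∧ l - u ≤ 1 / 2 ∧ s * Real.exp u < 1 ∧
      1 / cc (s * Real.exp u) ≤ 154 / 100 := by
  have hT0 : 0 < s * Real.exp l := mul_pos hs.1 (Real.exp_pos _)
  set T := s * Real.exp l with hTd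
  set v := l - capF T with hv
  have hv0 : 0 < v := by linarith
  have hu1 : u = v ^ 2 / (v + 7 / 100) := by rw [hu, Vq_of_nonneg hv0.le]
  have hu0 : 0 < u := by rw [hu1]; positivity
  have hc1 : 63 / 200 ≤ capF T := by
    unfold capF
    have : T ^ 8 ≤ 1 := pow_le_one₀ hT0.le hT
    linarith
  have hc2 : capF T ≤ 43 / 100 := by
    unfold capF
    have : 0 ≤ T ^ 8 := by positivity
    linarith
  have hlh : l - u = capF T + 7 / 100 * v / (v + 7 / 100) := by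
    have : l = capF T + v := by rw [hv]; ring
    rw [this, hu1]
    field_simp
    ring
  have h3 : 0 ≤ 7 / 100 * v / (v + 7 / 100) := by positivity
  have h4 : 7 / 100 * v / (v + 7 / 100) ≤ 7 / 100 := by
    rw [div_le_iff₀ (by positivity)]
    nlinarith
  have hphi : s * Real.exp u = T * Real.exp (-(l - u)) := by
    rw [hTd, mul_assoc, ← Real.exp_add]
    congr 2
    ring
  have hE : Real.exp (-(l - u)) * (1 + 63 / 200 + (63 / 200) ^ 2 / 2) ≤ 1 := by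
    have h5 : 1 + 63 / 200 + (63 / 200) ^ 2 / 2 ≤ Real.exp (l - u) := by
      have h6 := Real.quadratic_le_exp_of_nonneg (x := 63 / 200) (by norm_num)
      refine h6.trans (Real.exp_le_exp.2 ?_)
      linarith
    calc Real.exp (-(l - u)) * (1 + 63 / 200 + (63 / 200) ^ 2 / 2) ≤
        Real.exp (-(l - u)) * Real.exp (l - u) := by gcongr
      _ = 1 := by rw [← Real.exp_add]; simp
  have hEp := Real.exp_pos (-(l - u))
  have hp1 : s * Real.exp u ≤ 74 / 100 := by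
    rw [hphi]
    calc T * Real.exp (-(l - u)) ≤ 1 * Real.exp (-(l - u)) := by gcongr
      _ ≤ 74 / 100 := by linarith
  have hp0 : 0 < s * Real.exp u := mul_pos hs.1 (Real.exp_pos _)
  refine ⟨hu0, hlh, hc1, by linarith, by linarith, by linarith, ?_⟩
  have hp : s * Real.exp u ∈ Ioo (0 : ℝ) 1 := ⟨hp0, by linarith⟩
  have hd := cc_pos' hp
  have hd2 := cc_sq' hp
  rw [div_le_iff₀ hd]
  have h7 : (s * Real.exp u) ^ 2 ≤ (74 / 100) ^ 2 := by gcongr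
  have h8 : (100 / 154) ^ 2 ≤ cc (s * Real.exp u) ^ 2 := by rw [hd2]; linarith
  have h9 : 100 / 154 ≤ cc (s * Real.exp u) := abs_le_of_sq_le_sq' h8 hd.le |>.2
  linarith

lemma T8_bound {T p e Q : ℝ} (hT : T = p * e) (he : e ^ 2 ≤ Real.exp 1)
    (hp : p ^ 2 = 1 - 1 / Q ^ 2) (hQ : 1 ≤ Q) :
    23 / 200 * T ^ 8 ≤ 201 / 2 * (Q - 1) ^ 4 / Q ^ 4 := by
  have hQ0 : 0 < Q := by linarith
  have hb : 0 ≤ (Q - 1) / Q := div_nonneg (by linarith) hQ0.le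
  have hph : p ^ 2 ≤ 2 * ((Q - 1) / Q) := by
    have h4 : (Q + 1) / Q ≤ 2 := by
      rw [div_le_iff₀ hQ0]; linarith
    have h5 : p ^ 2 = ((Q - 1) / Q) * ((Q + 1) / Q) := by rw [hp]; field_simp; ring
    rw [h5]
    nlinarith
  have h4 : T ^ 2 ≤ 2 * ((Q - 1) / Q) * Real.exp 1 := by
    rw [hT, mul_pow]
    exact mul_le_mul hph he (sq_nonneg _) (by positivity)
  have h5 : (T ^ 2) ^ 4 ≤ (2 * ((Q - 1) / Q) * Real.exp 1) ^ 4 :=
    pow_le_pow_left₀ (sq_nonneg _) h4 4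
  have h6 : Real.exp 1 ^ 4 ≤ 546 / 10 := by
    have h7 : Real.exp 1 ≤ 27183 / 10000 := by
      have := Real.exp_one_lt_d9
      linarith
    calc Real.exp 1 ^ 4 ≤ (27183 / 10000) ^ 4 := pow_le_pow_left₀ (Real.exp_pos _).le h7 4
      _ ≤ 546 / 10 := by norm_num
  have h7 : 0 ≤ ((Q - 1) / Q) ^ 4 := pow_nonneg hb 4
  have e1 : (T ^ 2) ^ 4 = T ^ 8 := by ring
  have e2 : (2 * ((Q - 1) / Q) * Real.exp 1) ^ 4 = 16 * ((Q - 1) / Q) ^ 4 * Real.exp 1 ^ 4 := by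
    ring
  have e3 : 201 / 2 * (Q - 1) ^ 4 / Q ^ 4 = 201 / 2 * ((Q - 1) / Q) ^ 4 := by
    rw [div_pow]
    ring
  rw [e1, e2] at h5
  rw [e3]
  have h8 := mul_le_mul_of_nonneg_left h6 h7
  linarith

/-- relation between `q`, `Q` and `E = e^{2u}` -/
lemma soft_qQ {s u : ℝ} (hs : s ∈ Ioo (0 : ℝ) 1) (hu0 : 0 ≤ u) (hp : s * Real.exp u < 1) :
    1 < 1 / cc s ∧ 1 / cc s ≤ 1 / cc (s * Real.exp u) ∧
    ((1 / cc s) ^ 2 - 1) * (Real.exp (2 * u) - 1) * (1 / cc (s * Real.exp u)) ^ 2 =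
      (1 / cc (s * Real.exp u)) ^ 2 - (1 / cc s) ^ 2 ∧
    Y s = (1 / cc s) ^ 2 - 1 ∧
    (s * Real.exp u) ^ 2 = 1 - 1 / (1 / cc (s * Real.exp u)) ^ 2 := by
  have hc := cc_pos' hs
  have hc2 := cc_sq' hs
  have hpp : s * Real.exp u ∈ Ioo (0 : ℝ) 1 := ⟨mul_pos hs.1 (Real.exp_pos _), hp⟩
  have hd := cc_pos' hpp
  have hd2 := cc_sq' hpp
  have h1 : cc s < 1 := by
    have : 0 < s ^ 2 := by have := hs.1; positivity
    nlinarith
  have hE1 : 1 ≤ Real.exp u := by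
    rw [← Real.exp_zero]; exact Real.exp_le_exp.2 hu0
  have hdc : cc (s * Real.exp u) ≤ cc s := by
    refine cc_anti hs.1.le ?_
    nlinarith [hs.1]
  have hEE : Real.exp (2 * u) = Real.exp u ^ 2 := by
    rw [← Real.exp_nat_mul]; norm_num
  refine ⟨?_, ?_, ?_, ?_, ?_⟩
  · rw [lt_div_iff₀ hc]; linarith
  · exact one_div_le_one_div_of_le hd hdc
  · have h2 : s ^ 2 * Real.exp (2 * u) = 1 - cc (s * Real.exp u) ^ 2 := by
      rw [hd2, hEE]; ring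
    have h3 : s ^ 2 = 1 - cc s ^ 2 := by rw [hc2]; ring
    have h4 : (1 - cc s ^ 2) * Real.exp (2 * u) = 1 - cc (s * Real.exp u) ^ 2 := by rw [← h3, h2]
    field_simp
    linear_combination h4
  · rw [Y_eq hs]
    field_simp
  · have : 1 / (1 / cc (s * Real.exp u)) ^ 2 = cc (s * Real.exp u) ^ 2 := by
      field_simp
    rw [this, hd2]
    ring


end Crest.Agent.R230.WR
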