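import Mathlib
import Crest.Agent.R230.XlogWR
import Crest.Agent.R230.Cyl89
import Crest.Agent.R230.Apriori4
import Crest.Agent.R230.ConeCmp

-- ▼ part R230/CylReal
section

/-!
# Row 230 (helper91): the real inequality behind the cylinder bound

`S k q = (1/k) ∑_{j<k} q^j`.  For `n ≥ 5`, `0 ≤ e ≤ b < 1`, `1 - b^(n+1) = p (1 - e^(n+1))`, `p ≤ 7/8`:
`(S (n+1) e / S n e)^n ≤ S (n+1) b`.
-/

set_option autoImplicit false
open Real Finset

namespace Crest.Agent.R230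











lemma log_pade {y : ℝ} (hy : 0 < y) (hy1 : y ≤ 1) : Real.log y ≤ 2 * (y - 1) / (y + 1) := by
  have hanti : AntitoneOn (fun x : ℝ => 2 * (x - 1) / (x + 1) - Real.log x) (Set.Icc y 1) := by
    have hder : ∀ x : ℝ, 0 < x → HasDerivAt (fun x : ℝ => 2 * (x - 1) / (x + 1) - Real.log x)
        (-(1 - x) ^ 2 / (x * (x + 1) ^ 2)) x := by
      intro x hx
      have h1 := ((((hasDerivAt_id x).sub_const 1).const_mul (2 : ℝ)).fun_div
        ((hasDerivAt_id x).add_const 1) (by simp; linarith)).sub (Real.hasDerivAt_log hx.ne')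
      refine h1.congr_deriv ?_
      simp only [id]
      field_simp
      ring
    refine antitoneOn_of_deriv_nonpos (convex_Icc _ _) ?_ ?_ ?_
    · intro x hx
      exact (hder x (by linarith [hx.1])).continuousAt.continuousWithinAt
    · intro x hx
      rw [interior_Icc] at hx
      exact (hder x (by linarith [hx.1])).differentiableAt.differentiableWithinAt
    · intro x hx
      rw [interior_Icc] at hx
      have hx0 : 0 < x := by linarith [hx.1]
      rw [(hder x hx0).deriv]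
      apply div_nonpos_of_nonpos_of_nonneg
      · nlinarith [sq_nonneg (1 - x)]
      · positivity
  have h := hanti (Set.left_mem_Icc.2 hy1) (Set.right_mem_Icc.2 hy1) hy1
  simp at h
  linarith




end Crest.Agent.R230
end

-- ▼ part R230/LegalA
section

/-!
# Row 230: legality of the XLOG lines (helper446), part A: real analysis

`LG s t`: the line at `s` is legal for every `tau ≤ t`.
-/

set_option autoImplicit false

open MeasureTheory Set Filter Topology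
open scoped Pointwise ENNReal

namespace Crest.Agent.R230

/-- legality at `s` with the upper bound `t` of `tau` -/
def LG (s t : ℝ) : Prop :=
  Real.log (t / s) * ((1 - cc s) ^ 2 * (1 + 2 * cc s) + t) * (1 + cc s) ≤ cc s ^ 2 * (s ^ 2 + t)

lemma A_nonneg' (s : ℝ) : 0 ≤ (1 - cc s) ^ 2 * (1 + 2 * cc s) := by
  have := cc_nonneg s
  positivity

lemma A_le_sq {s : ℝ} (hs : s ∈ Icc (0 : ℝ) 1) : (1 - cc s) ^ 2 * (1 + 2 * cc s) ≤ s ^ 2 := by
  have hc0 := cc_nonneg s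
  have hc1 := cc_le_one s
  have hc2 : cc s ^ 2 = 1 - s ^ 2 := cc_sq ⟨by linarith [hs.1], hs.2⟩
  have : s ^ 2 = 1 - cc s ^ 2 := by linarith
  rw [this]
  nlinarith [mul_nonneg (sub_nonneg.2 hc1) (pow_nonneg hc0 2)]

/-- monotonicity in the bound -/
lemma LG_anti {s T t : ℝ} (hs : s ∈ Ioo (0 : ℝ) 1) (hT : 0 < T) (hTt : T ≤ t) (h : LG s t) : LG s T := by
  unfold LG at h ⊢
  have hc0 := cc_nonneg s
  have hA0 := A_nonneg' s
  have hA := A_le_sq (s := s) ⟨hs.1.le, hs.2.le⟩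
  set A := (1 - cc s) ^ 2 * (1 + 2 * cc s) with hAdef
  set c := cc s with hcdef
  have ht : 0 < t := hT.trans_le hTt
  have hs0 := hs.1
  by_cases hl : Real.log (T / s) ≤ 0
  · have h1 : Real.log (T / s) * (A + T) * (1 + c) ≤ 0 := by
      have : Real.log (T / s) * (A + T) ≤ 0 := mul_nonpos_of_nonpos_of_nonneg hl (by linarith)
      exact mul_nonpos_of_nonpos_of_nonneg this (by linarith)
    have h2 : 0 ≤ c ^ 2 * (s ^ 2 + T) := by positivity
    linarith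
  · push Not at hl
    have hle : Real.log (T / s) ≤ Real.log (t / s) :=
      Real.log_le_log (by positivity) (by gcongr)
    have hAt : 0 < A + t := by linarith
    have h1 : (A + t) * (Real.log (T / s) * (A + T) * (1 + c)) ≤ (A + t) * (c ^ 2 * (s ^ 2 + T)) := by
      calc (A + t) * (Real.log (T / s) * (A + T) * (1 + c)) =
          Real.log (T / s) * ((A + t) * (A + T) * (1 + c)) := by ring
        _ ≤ Real.log (t / s) * ((A + t) * (A + T) * (1 + c)) :=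
          mul_le_mul_of_nonneg_right hle (by positivity)
        _ = (A + T) * (Real.log (t / s) * (A + t) * (1 + c)) := by ring
        _ ≤ (A + T) * (c ^ 2 * (s ^ 2 + t)) := mul_le_mul_of_nonneg_left h (by positivity)
        _ ≤ (A + t) * (c ^ 2 * (s ^ 2 + T)) := by
          have h3 : 0 ≤ c ^ 2 * ((s ^ 2 - A) * (t - T)) :=
            mul_nonneg (sq_nonneg c) (mul_nonneg (by linarith) (by linarith))
          nlinarith
    exact le_of_mul_le_mul_left h1 hAt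

/-- the cap function -/
noncomputable def gcap (t x : ℝ) : ℝ :=
  1 / 2 * Real.log (1 - x ^ 2) + x ^ 2 / (1 + x) +
    2 * x ^ 4 * (1 - x) / ((1 + x) * (1 + t - 3 * x ^ 2 + 2 * x ^ 3))

lemma E_pos {t x : ℝ} (ht : 0 < t) (hx0 : 0 ≤ x) : 0 < 1 + t - 3 * x ^ 2 + 2 * x ^ 3 := by
  nlinarith [mul_nonneg (sq_nonneg (1 - x)) (by linarith : 0 ≤ 1 + 2 * x)]

lemma LG_iff {s t : ℝ} (hs : s ∈ Ioo (0 : ℝ) 1) (ht : 0 < t) : LG s t ↔ Real.log t ≤ gcap t (cc s) := by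
  have hc0 := cc_nonneg s
  have hc1 := cc_le_one s
  have hc2 : cc s ^ 2 = 1 - s ^ 2 := cc_sq ⟨by linarith [hs.1], hs.2.le⟩
  have hs0 := hs.1
  unfold LG gcap
  set c := cc s with hcdef
  have hE := E_pos ht hc0
  have hs2 : 1 - c ^ 2 = s ^ 2 := by linarith
  have hs2' : s ^ 2 = 1 - c ^ 2 := by linarith
  have hlog : 1 / 2 * Real.log (1 - c ^ 2) = Real.log s := by
    rw [hs2, Real.log_pow]
    push_cast
    ring
  have hAE : (1 - c) ^ 2 * (1 + 2 * c) + t = 1 + t - 3 * c ^ 2 + 2 * c ^ 3 := by ring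
  rw [hlog, Real.log_div ht.ne' hs0.ne', hAE]
  set E := 1 + t - 3 * c ^ 2 + 2 * c ^ 3 with hEdef
  have hc3 : 0 < 1 + c := by linarith
  have e1 : c ^ 2 / (1 + c) + 2 * c ^ 4 * (1 - c) / ((1 + c) * E) =
      c ^ 2 * (s ^ 2 + t) / (E * (1 + c)) := by
    rw [hs2', div_add_div _ _ hc3.ne' (by positivity), div_eq_div_iff (by positivity) (by positivity), hEdef]
    ring
  rw [add_assoc, e1, mul_assoc, ← le_div_iff₀ (by positivity), sub_le_iff_le_add']

lemma log_le_half {x : ℝ} (hx : 1 ≤ x) : Real.log x ≤ (x - x⁻¹) / 2 := by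
  rw [← Real.sinh_log (by linarith)]
  exact Real.self_le_sinh_iff.2 (Real.log_nonneg hx)

/-- `s ≥ 7/10`: legal for every `tau ≤ 1` -/
lemma LG_one {s : ℝ} (hs : s ∈ Ico (7 / 10 : ℝ) 1) : LG s 1 := by
  have hs0 : 0 < s := by linarith [hs.1]
  have hc0 := cc_nonneg s
  have hc1 := cc_le_one s
  have hc2 : cc s ^ 2 = 1 - s ^ 2 := cc_sq ⟨by linarith [hs.1], hs.2.le⟩
  unfold LG
  set c := cc s with hcdef
  have h1 : Real.log (1 / s) ≤ c ^ 2 / (2 * s) := by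
    have h := log_le_half (x := 1 / s) (by rw [le_div_iff₀ hs0]; linarith [hs.2])
    have e : (1 / s - (1 / s)⁻¹) / 2 = c ^ 2 / (2 * s) := by
      rw [hc2]; field_simp
    rwa [e] at h
  have hc : c ≤ (1 - s ^ 2) / (357 / 250) + 357 / 1000 := by
    rw [← hc2]
    nlinarith [sq_nonneg (c - 357 / 500)]
  have h2 : ((1 - c) ^ 2 * (1 + 2 * c) + 1) * (1 + c) = 1 - s ^ 2 + 2 * s ^ 4 + c * (1 + s ^ 2) := by
    have : s ^ 2 = 1 - c ^ 2 := by linarith
    have h4 : s ^ 4 = (1 - c ^ 2) ^ 2 := by rw [← this]; ring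
    rw [h4, this]
    ring
  have h3 : 1 - s ^ 2 + 2 * s ^ 4 + c * (1 + s ^ 2) ≤ 2 * s * (1 + s ^ 2) := by
    have h4 := mul_le_mul_of_nonneg_right hc (by positivity : 0 ≤ 1 + s ^ 2)
    have hs1 := hs.1
    have hs2 := hs.2
    nlinarith [mul_nonneg (sub_nonneg.2 hs1) (sub_nonneg.2 hs2.le),
      mul_nonneg (mul_nonneg (sub_nonneg.2 hs1) (sub_nonneg.2 hs2.le)) hs0.le,
      mul_nonneg (mul_nonneg (sub_nonneg.2 hs1) (sub_nonneg.2 hs2.le)) (sq_nonneg s)]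
  rw [mul_assoc, h2]
  have h5 : 0 ≤ 1 - s ^ 2 + 2 * s ^ 4 + c * (1 + s ^ 2) := by
    have : 0 ≤ 1 - s ^ 2 := by nlinarith [hs.2]
    positivity
  calc Real.log (1 / s) * (1 - s ^ 2 + 2 * s ^ 4 + c * (1 + s ^ 2)) ≤
      c ^ 2 / (2 * s) * (1 - s ^ 2 + 2 * s ^ 4 + c * (1 + s ^ 2)) := mul_le_mul_of_nonneg_right h1 h5
    _ ≤ c ^ 2 / (2 * s) * (2 * s * (1 + s ^ 2)) := mul_le_mul_of_nonneg_left h3 (by positivity)
    _ = c ^ 2 * (s ^ 2 + 1) := by field_simp; ring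

/-- numerical certificate for `LG` -/
lemma LG_num {a t c L : ℝ} (ha : 0 < a) (ha1 : a < 1) (ht : 0 < t) (hc0 : 0 ≤ c) (hc : 1 - a ^ 2 ≤ c ^ 2)
    (hL0 : 0 ≤ L) (hL : t ≤ a * (1 + L + L ^ 2 / 2 + L ^ 3 / 6 + L ^ 4 / 24))
    (h : L * (3 * a ^ 2 - 2 + 2 * (1 - a ^ 2) * c + t) * (1 + c) ≤ (1 - a ^ 2) * (a ^ 2 + t)) : LG a t := by
  have hcc0 := cc_nonneg a
  have hcc2 : cc a ^ 2 = 1 - a ^ 2 := cc_sq ⟨by linarith, ha1.le⟩
  have hcc : cc a ≤ c := abs_le_of_sq_le_sq' (by linarith) hc0 |>.2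
  have ha2 : 0 < 1 - a ^ 2 := by nlinarith
  unfold LG
  have hA : (1 - cc a) ^ 2 * (1 + 2 * cc a) = 3 * a ^ 2 - 2 + 2 * (1 - a ^ 2) * cc a := by
    have e : (1 - cc a) ^ 2 * (1 + 2 * cc a) = 1 - 3 * cc a ^ 2 + 2 * cc a ^ 2 * cc a := by ring
    rw [e, hcc2]
    ring
  have hlog : Real.log (t / a) ≤ L := by
    rw [Real.log_le_iff_le_exp (by positivity), div_le_iff₀' ha]
    refine hL.trans (mul_le_mul_of_nonneg_left ?_ ha.le)
    have := Real.sum_le_exp_of_nonneg hL0 5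
    simp only [Finset.sum_range_succ, Finset.sum_range_zero, Nat.factorial] at this
    norm_num at this
    linarith
  have hA0 := A_nonneg' a
  have h1 : (1 - cc a) ^ 2 * (1 + 2 * cc a) + t ≤ 3 * a ^ 2 - 2 + 2 * (1 - a ^ 2) * c + t := by
    rw [hA]
    have := mul_le_mul_of_nonneg_left hcc ha2.le
    linarith
  calc Real.log (t / a) * ((1 - cc a) ^ 2 * (1 + 2 * cc a) + t) * (1 + cc a) ≤
      L * ((1 - cc a) ^ 2 * (1 + 2 * cc a) + t) * (1 + cc a) := by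
        gcongr
    _ ≤ L * (3 * a ^ 2 - 2 + 2 * (1 - a ^ 2) * c + t) * (1 + c) := by
        have h3 : 0 ≤ L * (3 * a ^ 2 - 2 + 2 * (1 - a ^ 2) * c + t) := mul_nonneg hL0 (by linarith)
        gcongr
    _ ≤ (1 - a ^ 2) * (a ^ 2 + t) := h
    _ = _ := by rw [hcc2]

lemma hasDerivAt_gcap {t x : ℝ} (ht : 0 < t) (hx0 : 0 < x) (hx1 : x < 1) :
    HasDerivAt (gcap t) (-(x / (1 - x ^ 2)) + (2 * x + x ^ 2) / (1 + x) ^ 2 +
      (2 * x ^ 3 * (4 - 2 * x - 4 * x ^ 2) * (1 + t - 3 * x ^ 2 + 2 * x ^ 3)⁻¹ +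
        12 * x ^ 5 * (1 - x) ^ 2 * (1 + x) * ((1 + t - 3 * x ^ 2 + 2 * x ^ 3)⁻¹) ^ 2) / (1 + x) ^ 2) x := by
  have hE := E_pos ht hx0.le
  have hx2 : 0 < 1 - x ^ 2 := by nlinarith
  have h1 : HasDerivAt (fun x : ℝ => 1 - x ^ 2) (-(2 * x)) x := by
    have := ((hasDerivAt_id x).fun_pow 2).const_sub 1
    exact this.congr_deriv (by simp)
  have h2 := (h1.log hx2.ne').const_mul (1 / 2)
  have h3 : HasDerivAt (fun x : ℝ => x ^ 2) (2 * x) x := by
    have := (hasDerivAt_id x).fun_pow 2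
    exact this.congr_deriv (by simp)
  have h4 : HasDerivAt (fun x : ℝ => 1 + x) 1 x := by
    simpa using (hasDerivAt_id x).const_add 1
  have h5 := h3.fun_div h4 (by positivity)
  have h6 : HasDerivAt (fun x : ℝ => 2 * x ^ 4 * (1 - x)) (8 * x ^ 3 - 10 * x ^ 4) x := by
    have ha := ((hasDerivAt_id x).fun_pow 4).const_mul 2
    have hb := (hasDerivAt_id x).const_sub 1
    refine (ha.fun_mul hb).congr_deriv ?_
    simp
    ring
  have h7 : HasDerivAt (fun x : ℝ => (1 + x) * (1 + t - 3 * x ^ 2 + 2 * x ^ 3))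
      ((1 + t - 3 * x ^ 2 + 2 * x ^ 3) + (1 + x) * (-6 * x + 6 * x ^ 2)) x := by
    have ha : HasDerivAt (fun x : ℝ => 1 + t - 3 * x ^ 2 + 2 * x ^ 3) (-6 * x + 6 * x ^ 2) x := by
      have hb := ((h3.const_mul 3).const_sub (1 + t)).fun_add
        (((hasDerivAt_id x).fun_pow 3).const_mul 2)
      refine hb.congr_deriv ?_
      simp
      ring
    refine (h4.fun_mul ha).congr_deriv ?_
    ring
  have h8 := h6.fun_div h7 (by positivity)
  have h9 := (h2.fun_add h5).fun_add h8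
  unfold gcap
  refine h9.congr_deriv ?_
  have h1x : (1 + x) ≠ 0 := by positivity
  have hE' := hE.ne'
  set E := 1 + t - 3 * x ^ 2 + 2 * x ^ 3 with hEdef
  have e1 : 1 / 2 * (-(2 * x) / (1 - x ^ 2)) = -(x / (1 - x ^ 2)) := by ring
  have e2 : (2 * x * (1 + x) - x ^ 2 * 1) / (1 + x) ^ 2 = (2 * x + x ^ 2) / (1 + x) ^ 2 := by ring
  rw [e1, e2]
  congr 1
  field_simp
  ring

lemma gcap_anti {t : ℝ} (ht : 1 / 2 ≤ t) : AntitoneOn (gcap t) (Ico (71 / 100 : ℝ) 1) := by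
  have ht0 : 0 < t := by linarith
  refine antitoneOn_of_deriv_nonpos (convex_Ico _ _) ?_ ?_ ?_
  · intro x hx
    exact (hasDerivAt_gcap ht0 (by linarith [hx.1]) hx.2).continuousAt.continuousWithinAt
  · intro x hx
    rw [interior_Ico] at hx
    exact (hasDerivAt_gcap ht0 (by linarith [hx.1]) hx.2).differentiableAt.differentiableWithinAt
  · intro x hx
    rw [interior_Ico] at hx
    have hx0 : 0 < x := by linarith [hx.1]
    rw [(hasDerivAt_gcap ht0 hx0 hx.2).deriv]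
    have hE := E_pos ht0 hx0.le
    have hx1 := hx.1
    have hx2 := hx.2
    have hEh : 1 / 2 ≤ 1 + t - 3 * x ^ 2 + 2 * x ^ 3 := by
      nlinarith [mul_nonneg (sq_nonneg (1 - x)) (by linarith : 0 ≤ 1 + 2 * x)]
    set E := 1 + t - 3 * x ^ 2 + 2 * x ^ 3 with hEdef
    have hi0 : 0 < E⁻¹ := by positivity
    have hi2 : E⁻¹ ≤ 2 := by
      rw [inv_le_comm₀ hE (by norm_num)]
      linarith
    have hi3 : x ≤ 4 / 5 → E⁻¹ ≤ 5 / 3 := by
      intro h
      rw [inv_le_comm₀ hE (by norm_num)]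
      nlinarith [mul_nonneg (sub_nonneg.2 hx1.le) (sub_nonneg.2 h),
        mul_nonneg (mul_nonneg (sub_nonneg.2 hx1.le) (sub_nonneg.2 h)) hx0.le]
    set i := E⁻¹ with hidef
    -- the polynomial inequality
    have key : (1 - x) * (2 + x) + 2 * x ^ 2 * (1 - x) * (4 - 2 * x - 4 * x ^ 2) * i +
        12 * x ^ 4 * (1 - x) ^ 3 * (1 + x) * i ^ 2 ≤ 1 + x := by
      rcases le_total x (4 / 5) with h | h
      · have hi := hi3 h
        have hi' : i ^ 2 ≤ 25 / 9 := by nlinarith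
        have a1 : (1 - x) * (2 + x) ≤ 79 / 100 := by nlinarith
        have a2 : x ^ 2 * (1 - x) ≤ 147 / 1000 := by
          nlinarith [mul_nonneg (sub_nonneg.2 hx1.le) (sub_nonneg.2 h),
            mul_nonneg (sub_nonneg.2 hx1.le) (sq_nonneg x)]
        have a2' : 0 ≤ x ^ 2 * (1 - x) := mul_nonneg (sq_nonneg x) (by linarith)
        have a3 : 4 - 2 * x - 4 * x ^ 2 ≤ 57 / 100 := by nlinarith
        have a4 : 2 * x ^ 2 * (1 - x) * (4 - 2 * x - 4 * x ^ 2) * i ≤ 28 / 100 := by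
          rcases le_total (4 - 2 * x - 4 * x ^ 2) 0 with h0 | h0
          · have : 2 * x ^ 2 * (1 - x) * (4 - 2 * x - 4 * x ^ 2) * i ≤ 0 := by
              have h5 : x ^ 2 * (1 - x) * (4 - 2 * x - 4 * x ^ 2) ≤ 0 :=
                mul_nonpos_of_nonneg_of_nonpos a2' h0
              nlinarith
            linarith
          · calc 2 * x ^ 2 * (1 - x) * (4 - 2 * x - 4 * x ^ 2) * i =
                2 * ((x ^ 2 * (1 - x)) * (4 - 2 * x - 4 * x ^ 2) * i) := by ring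
              _ ≤ 2 * (147 / 1000 * (57 / 100) * (5 / 3)) := by gcongr
              _ ≤ 28 / 100 := by norm_num
        have a5 : x ^ 4 * (1 - x) ^ 3 ≤ 63 / 10000 := by
          have h6 : x ^ 4 * (1 - x) ^ 3 = (x ^ 2 * (1 - x)) ^ 2 * (1 - x) := by ring
          rw [h6]
          calc (x ^ 2 * (1 - x)) ^ 2 * (1 - x) ≤ (147 / 1000) ^ 2 * (29 / 100) := by
                gcongr
                linarith
            _ ≤ 63 / 10000 := by norm_num
        have a6 : 12 * x ^ 4 * (1 - x) ^ 3 * (1 + x) * i ^ 2 ≤ 38 / 100 := by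
          have h7 : 0 ≤ x ^ 4 * (1 - x) ^ 3 := mul_nonneg (by positivity) (pow_nonneg (by linarith) 3)
          calc 12 * x ^ 4 * (1 - x) ^ 3 * (1 + x) * i ^ 2 =
              12 * ((x ^ 4 * (1 - x) ^ 3) * (1 + x) * i ^ 2) := by ring
            _ ≤ 12 * (63 / 10000 * (9 / 5) * (25 / 9)) := by
                gcongr
                linarith
            _ ≤ 38 / 100 := by norm_num
        linarith
      · have a1 : (1 - x) * (2 + x) ≤ 56 / 100 := by nlinarith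
        have a2' : 0 ≤ x ^ 2 * (1 - x) := mul_nonneg (sq_nonneg x) (by linarith)
        have h0 : 4 - 2 * x - 4 * x ^ 2 ≤ 0 := by nlinarith
        have a4 : 2 * x ^ 2 * (1 - x) * (4 - 2 * x - 4 * x ^ 2) * i ≤ 0 := by
          have h5 : x ^ 2 * (1 - x) * (4 - 2 * x - 4 * x ^ 2) ≤ 0 :=
            mul_nonpos_of_nonneg_of_nonpos a2' h0
          nlinarith
        have hi' : i ^ 2 ≤ 4 := by nlinarith
        have a6 : 12 * x ^ 4 * (1 - x) ^ 3 * (1 + x) * i ^ 2 ≤ 77 / 100 := by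
          have h8 : x ^ 4 ≤ 1 := pow_le_one₀ hx0.le hx2.le
          have h9 : (1 - x) ^ 3 ≤ (1 / 5) ^ 3 := pow_le_pow_left₀ (by linarith) (by linarith) 3
          have h10 : 0 ≤ (1 - x) ^ 3 := pow_nonneg (by linarith) 3
          calc 12 * x ^ 4 * (1 - x) ^ 3 * (1 + x) * i ^ 2 ≤ 12 * 1 * (1 / 5) ^ 3 * 2 * 4 := by
                gcongr
                linarith
            _ ≤ 77 / 100 := by norm_num
        linarith
    have h1x : 0 < 1 - x := by linarith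
    have e : -(x / (1 - x ^ 2)) + (2 * x + x ^ 2) / (1 + x) ^ 2 +
        (2 * x ^ 3 * (4 - 2 * x - 4 * x ^ 2) * i + 12 * x ^ 5 * (1 - x) ^ 2 * (1 + x) * i ^ 2) /
          (1 + x) ^ 2 =
        -(x * ((1 + x) - ((1 - x) * (2 + x) + 2 * x ^ 2 * (1 - x) * (4 - 2 * x - 4 * x ^ 2) * i +
          12 * x ^ 4 * (1 - x) ^ 3 * (1 + x) * i ^ 2))) / ((1 - x) * (1 + x) ^ 2) := by
      have h2x : 1 - x ^ 2 = (1 - x) * (1 + x) := by ring
      rw [h2x]
      field_simp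
      ring
    rw [e]
    apply div_nonpos_of_nonpos_of_nonneg
    · have := mul_nonneg hx0.le (sub_nonneg.2 key)
      linarith
    · positivity

/-- monotonicity in `s` -/
lemma LG_mono {a s t : ℝ} (ha : 0 < a) (has : a ≤ s) (hs : s ≤ 7 / 10) (ht : 1 / 2 ≤ t) (h : LG a t) :
    LG s t := by
  have ht0 : 0 < t := by linarith
  have hs' : s ∈ Ioo (0 : ℝ) 1 := ⟨by linarith, by linarith⟩
  have ha' : a ∈ Ioo (0 : ℝ) 1 := ⟨ha, by linarith⟩
  rw [LG_iff ha' ht0] at h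
  rw [LG_iff hs' ht0]
  refine h.trans (gcap_anti ht ⟨?_, ?_⟩ ⟨?_, ?_⟩ (cc_anti ha.le has))
  · have hc0 := cc_nonneg s
    have hc2 : cc s ^ 2 = 1 - s ^ 2 := cc_sq ⟨by linarith [hs'.1], hs'.2.le⟩
    nlinarith
  · have hc0 := cc_nonneg s
    have hc2 : cc s ^ 2 = 1 - s ^ 2 := cc_sq ⟨by linarith [hs'.1], hs'.2.le⟩
    nlinarith [hs'.1]
  · have hc0 := cc_nonneg a
    have hc2 : cc a ^ 2 = 1 - a ^ 2 := cc_sq ⟨by linarith [ha'.1], ha'.2.le⟩
    nlinarith
  · have hc0 := cc_nonneg a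
    have hc2 : cc a ^ 2 = 1 - a ^ 2 := cc_sq ⟨by linarith [ha'.1], ha'.2.le⟩
    nlinarith [ha'.1]

end Crest.Agent.R230
end

-- ▼ part R230/LegalB

/-!
# Row 230: legality of the XLOG lines (helper446), part B: the region `F₀ ≤ 89/100` and the grid step
-/

set_option autoImplicit false

open MeasureTheory Set Filter Topology
open scoped Pointwise ENNReal

namespace Crest.Agent.R230

open WR

lemma lB_mono (n : ℕ) {a b : ℝ} (hab : a ≤ b) : lB n a ≤ lB n b := by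
  have h : lB n a + ∫ x in a..b, Real.sqrt (1 - x ^ 2) ^ n = lB n b :=
    intervalIntegral.integral_add_adjacent_intervals (intervalIntegrable_cpow n _ _)
      (intervalIntegrable_cpow n _ _)
  have h2 : 0 ≤ ∫ x in a..b, Real.sqrt (1 - x ^ 2) ^ n :=
    intervalIntegral.integral_nonneg hab fun x _ => by positivity
  linarith

lemma lB_le_quintic {n : ℕ} (hn : 4 ≤ n) {s : ℝ} (hs : s ∈ Icc (0 : ℝ) 1) :
    lB n s ≤ s - 2 * s ^ 3 / 3 + s ^ 5 / 5 := by
  have h : lB n s ≤ ∫ x in (0 : ℝ)..s, (1 - x ^ 2) ^ 2 := by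
    refine intervalIntegral.integral_mono_on hs.1 (intervalIntegrable_cpow n _ _)
      (Continuous.intervalIntegrable (by fun_prop) _ _) fun x hx => ?_
    have hx1 : Real.sqrt (1 - x ^ 2) ≤ 1 := by
      rw [Real.sqrt_le_left (by norm_num)]
      nlinarith [sq_nonneg x]
    have hx2 : Real.sqrt (1 - x ^ 2) ^ 2 = 1 - x ^ 2 := Real.sq_sqrt (by nlinarith [hx.1, hx.2, hs.2])
    calc Real.sqrt (1 - x ^ 2) ^ n ≤ Real.sqrt (1 - x ^ 2) ^ 4 :=
          pow_le_pow_of_le_one (Real.sqrt_nonneg _) hx1 hn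
      _ = (Real.sqrt (1 - x ^ 2) ^ 2) ^ 2 := by ring
      _ = _ := by rw [hx2]
  refine h.trans (le_of_eq ?_)
  have hd : ∀ u ∈ uIcc (0 : ℝ) s, HasDerivAt (fun u => u - 2 * u ^ 3 / 3 + u ^ 5 / 5) ((1 - u ^ 2) ^ 2) u := by
    intro u _
    have h3 := (((hasDerivAt_id u).fun_pow 3).const_mul 2).div_const 3
    have h5 := ((hasDerivAt_id u).fun_pow 5).div_const 5
    refine (((hasDerivAt_id u).sub h3).add h5).congr_deriv ?_
    simp
    ring
  rw [intervalIntegral.integral_eq_sub_of_hasDerivAt hd]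
  · ring
  · exact Continuous.intervalIntegrable (by fun_prop) _ _

section

variable {n : ℕ} {r : ℝ → ℝ}

/-- logarithmic form of the cylinder bound -/
lemma ll_le_of_cyl (hn : 5 ≤ n) (hr : Prof r) (hN : NleB n r) {s : ℝ} (hs : s ∈ Ioo (0 : ℝ) 1)
    (hp : lB n s ≤ 89 / 100 * hB n 0) : ll n r s ≤ 1 / 2 + Real.log (lB n s / s) := by
  have hT := tau_pos hr n (s := s) ⟨hs.1, hs.2.le⟩
  have hl := lB_pos n (s := s) ⟨hs.1, hs.2.le⟩
  have h1 := tau_le_of_NleB hr (by omega) hN hs hp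
  have h2 := R_le n (by omega)
  have h3 : tau n r s ≤ Real.exp (1 / 2) * lB n s := h1.trans (mul_le_mul_of_nonneg_right h2 hl.le)
  rw [ll_eq_log hs]
  have h4 : tau n r s / s ≤ Real.exp (1 / 2) * (lB n s / s) := by
    rw [← mul_div_assoc]
    exact div_le_div_of_nonneg_right h3 hs.1.le
  have hq : 0 < lB n s / s := div_pos hl hs.1
  calc Real.log (tau n r s / s) ≤ Real.log (Real.exp (1 / 2) * (lB n s / s)) :=
        Real.log_le_log (div_pos hT hs.1) h4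
    _ = _ := by rw [Real.log_mul (Real.exp_pos _).ne' hq.ne', Real.log_exp]

/-- the region `F₀ ≤ 89/100`: `l (1+c) ≤ c²` -/
theorem ll_le_regA (hn : 5 ≤ n) (hr : Prof r) (hN : NleB n r) {s : ℝ} (hs : s ∈ Ioo (0 : ℝ) 1)
    (hp : lB n s ≤ 89 / 100 * hB n 0) : ll n r s * (1 + cc s) ≤ cc s ^ 2 := by
  have h1 := ll_le_of_cyl hn hr hN hs hp
  have hl := lB_pos n (s := s) ⟨hs.1, hs.2.le⟩
  have h2 := lB_le_quintic (n := n) (by omega) (s := s) ⟨hs.1.le, hs.2.le⟩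
  have hs0 := hs.1
  have hs1 := hs.2
  set y := s ^ 2 with hy
  have hy0 : 0 < y := by positivity
  have hy1 : y < 1 := by rw [hy]; nlinarith
  set x := 2 / 3 * y - 1 / 5 * y ^ 2 with hx
  have hx0 : 0 < x := by rw [hx]; nlinarith
  have hx1 : x < 1 := by rw [hx]; nlinarith
  have h3 : lB n s / s ≤ 1 - x := by
    rw [div_le_iff₀ hs0]
    refine h2.trans (le_of_eq ?_)
    rw [hx, hy]
    ring
  have h4 : Real.log (lB n s / s) ≤ -(2 * x) / (2 - x) := by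
    have h5 := Real.log_le_log (div_pos hl hs0) h3
    have h6 := log_pade (y := 1 - x) (by linarith) (by linarith)
    refine h5.trans (h6.trans (le_of_eq ?_))
    congr 1 <;> ring
  have hc0 := cc_nonneg s
  have hc2 : cc s ^ 2 = 1 - y := cc_sq ⟨by linarith, hs1.le⟩
  set c := cc s with hcdef
  have h7 : 1 + c ≤ (4 - y) / 2 := by nlinarith [sq_nonneg (1 - c)]
  have h8 : 1 / 2 + -(2 * x) / (2 - x) ≤ 2 * (1 - y) / (4 - y) := by
    have h9 : 0 < 2 - x := by linarith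
    have h10 : 0 < 4 - y := by linarith
    rw [div_add_div _ _ (by norm_num) h9.ne', div_le_div_iff₀ (by positivity) h10]
    have : 6 * y ≤ x * (16 - y) := by
      have h11 : x * (16 - y) - 6 * y = y * ((2 / 3 - 1 / 5 * y) * (16 - y) - 6) := by rw [hx]; ring
      have h12 : 0 ≤ (2 / 3 - 1 / 5 * y) * (16 - y) - 6 := by nlinarith
      nlinarith [mul_nonneg hy0.le h12]
    nlinarith
  have h9 : ll n r s ≤ 2 * (1 - y) / (4 - y) := by linarith
  have h10 : 0 < 4 - y := by linarith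
  calc ll n r s * (1 + c) ≤ 2 * (1 - y) / (4 - y) * (1 + c) :=
        mul_le_mul_of_nonneg_right h9 (by linarith)
    _ ≤ 2 * (1 - y) / (4 - y) * ((4 - y) / 2) :=
        mul_le_mul_of_nonneg_left h7 (div_nonneg (by linarith) h10.le)
    _ = c ^ 2 := by rw [hc2]; field_simp

/-- the cone inequality beyond `F₀ = 89/100` -/
def ConeUB (n : ℕ) (r : ℝ → ℝ) (e : ℝ) : Prop :=
  ∀ s ∈ Icc (0 : ℝ) 1, 89 / 100 * hB n 0 ≤ lB n s →
    hB n s * (1 - e ^ (n + 1)) ≤ ((1 - (1 - e) * tau n r s) ^ (n + 1) - e ^ (n + 1)) * hB n 0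

theorem coneUB_of (hn : 5 ≤ n) (hr : Prof r) (hN : NleB n r) {e T₁ : ℝ} (he0 : 0 ≤ e) (he : e < 1)
    (hT₁ : 89 / 200 * w (n - 1) ^ n ≤ T₁ * w n ^ (n - 1)) (hT₁' : T₁ ≤ 1)
    (h8 : 11 / 100 * (1 - e ^ (n + 1)) ≤ (1 - (1 - e) * T₁) ^ (n + 1) - e ^ (n + 1)) : ConeUB n r e := by
  have hH := hB_zero_pos n
  -- the point with F₀ = 89/100
  obtain ⟨s₁, hs₁, hs₁e⟩ : ∃ s₁ ∈ Icc (0 : ℝ) 1, lB n s₁ = 89 / 100 * hB n 0 := by
    have hc : ContinuousOn (lB n) (Icc 0 1) := fun x _ => (hasDerivAt_lB n x).continuousAt.continuousWithinAt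
    have h := intermediate_value_Icc (zero_le_one) hc
    have h0 := lB_zero n
    have h1 := lB_add_hB n 1
    rw [hB_one, add_zero] at h1
    obtain ⟨x, hx, hxe⟩ := h (show 89 / 100 * hB n 0 ∈ Icc (lB n 0) (lB n 1) by
      rw [h0, h1]; constructor <;> linarith)
    exact ⟨x, hx, hxe⟩
  have hs₁0 : 0 < s₁ := by
    rcases hs₁.1.eq_or_lt with h | h
    · rw [← h, lB_zero] at hs₁e; linarith
    · exact h
  have hs₁1 : s₁ < 1 := by
    rcases hs₁.2.eq_or_lt with h | h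
    · have h1 := lB_add_hB n 1
      rw [hB_one, add_zero] at h1
      rw [h, h1] at hs₁e; linarith
    · exact h
  have hw := w_pos' n
  have hT : tau n r s₁ ≤ T₁ := by
    refine (tau_le_of_NleB hr (by omega) hN ⟨hs₁0, hs₁1⟩ hs₁e.le).trans ?_
    rw [hs₁e, div_pow, div_mul_eq_mul_div, div_le_iff₀ (pow_pos hw n)]
    have e1 : hB n 0 = w n / 2 := by have := w_eq_two_hB n; linarith
    have e2 : w n ^ n = w n ^ (n - 1) * w n := by rw [← pow_succ]; congr 1; omega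
    rw [e1, e2]
    have := mul_le_mul_of_nonneg_right hT₁ hw.le
    linarith
  have hhB : hB n s₁ = 11 / 100 * hB n 0 := by have := lB_add_hB n s₁; linarith
  intro s hs hsF
  have h12 : s₁ ≤ s := by
    by_contra hcon
    push Not at hcon
    have h1 : lB n s < lB n s₁ := by
      have h : lB n s + ∫ x in s..s₁, Real.sqrt (1 - x ^ 2) ^ n = lB n s₁ :=
        intervalIntegral.integral_add_adjacent_intervals (intervalIntegrable_cpow n _ _)
          (intervalIntegrable_cpow n _ _)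
      have h2 : 0 < ∫ x in s..s₁, Real.sqrt (1 - x ^ 2) ^ n := by
        refine intervalIntegral.intervalIntegral_pos_of_pos_on (intervalIntegrable_cpow n _ _) ?_ hcon
        intro x hx
        exact pow_pos (sqrt_pos_of_mem ⟨by linarith [hx.1, hs.1], by linarith [hx.2]⟩) n
      linarith
    linarith
  refine cone_tau hr (by omega) he0 he hs₁0 h12 hs.2 ?_
  rw [hhB]
  have h1 : (1 - (1 - e) * T₁) ^ (n + 1) ≤ (1 - (1 - e) * tau n r s₁) ^ (n + 1) := by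
    refine pow_le_pow_left₀ (by nlinarith) ?_ _
    have := mul_le_mul_of_nonneg_left hT (show 0 ≤ 1 - e by linarith)
    linarith
  have h2 : 11 / 100 * (1 - e ^ (n + 1)) ≤ (1 - (1 - e) * tau n r s₁) ^ (n + 1) - e ^ (n + 1) := by linarith
  have h3 := mul_le_mul_of_nonneg_right h2 hH.le
  linarith

/-- numerical check: upper bound of `tau` at `b` -/
theorem tau_le_of_chk (hr : Prof r) {e b t c H : ℝ} (hU : ConeUB n r e) (he0 : 0 ≤ e) (he : e < 1)
    (hb : b ∈ Ioo (0 : ℝ) 1) (hF : 89 / 100 * hB n 0 ≤ lB n b) (ht1 : t ≤ 1)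
    (hH : hB n 0 ≤ H) (hc0 : 0 ≤ c) (hc : c ^ 2 ≤ 1 - b ^ 2)
    (hchk : ((1 - (1 - e) * t) ^ (n + 1) - e ^ (n + 1)) * H * (1 + (n + 1) * b ^ 2) ≤
      (1 - e ^ (n + 1)) * (b * c ^ (n + 2))) : tau n r b ≤ t := by
  have hH0 := hB_zero_pos n
  have h1 := hU b ⟨hb.1.le, hb.2.le⟩ hF
  have hT := (tau_mem_Icc hr n (s := b) ⟨by linarith [hb.1], hb.2.le⟩).2
  have he1 : e ^ (n + 1) < 1 := pow_lt_one₀ he0 he (by omega)
  have hz := haz1 n (s := b) ⟨hb.1.le, hb.2.le⟩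
  have hcs : c ≤ Real.sqrt (1 - b ^ 2) := Real.le_sqrt_of_sq_le hc
  have hD : 0 < 1 + ((n : ℝ) + 1) * b ^ 2 := by positivity
  by_contra hcon
  push Not at hcon
  have h5 : (1 - (1 - e) * tau n r b) ^ (n + 1) < (1 - (1 - e) * t) ^ (n + 1) := by
    refine pow_lt_pow_left₀ ?_ (by nlinarith) (by omega)
    have := mul_lt_mul_of_pos_left hcon (show 0 < 1 - e by linarith)
    linarith
  have h6 : hB n b * (1 - e ^ (n + 1)) < ((1 - (1 - e) * t) ^ (n + 1) - e ^ (n + 1)) * hB n 0 :=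
    lt_of_le_of_lt h1 (mul_lt_mul_of_pos_right (by linarith) hH0)
  have h7 : 0 ≤ (1 - (1 - e) * t) ^ (n + 1) - e ^ (n + 1) := by
    have : e ^ (n + 1) ≤ (1 - (1 - e) * t) ^ (n + 1) := by
      refine pow_le_pow_left₀ he0 ?_ _
      nlinarith
    linarith
  have h8 : b * c ^ (n + 2) ≤ (1 + (n + 1) * b ^ 2) * hB n b := by
    refine le_trans (mul_le_mul_of_nonneg_left (pow_le_pow_left₀ hc0 hcs _) hb.1.le) hz
  have h9 : (1 - e ^ (n + 1)) * (b * c ^ (n + 2)) ≤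
      (1 - e ^ (n + 1)) * ((1 + (n + 1) * b ^ 2) * hB n b) :=
    mul_le_mul_of_nonneg_left h8 (by linarith)
  have h10 : ((1 - (1 - e) * t) ^ (n + 1) - e ^ (n + 1)) * hB n 0 * (1 + (n + 1) * b ^ 2) ≤
      ((1 - (1 - e) * t) ^ (n + 1) - e ^ (n + 1)) * H * (1 + (n + 1) * b ^ 2) := by
    gcongr
  have h11 : (1 + (n + 1) * b ^ 2) * (hB n b * (1 - e ^ (n + 1))) <
      (1 + (n + 1) * b ^ 2) * (((1 - (1 - e) * t) ^ (n + 1) - e ^ (n + 1)) * hB n 0) :=
    mul_lt_mul_of_pos_left h6 hD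
  linarith

/-- start of the chain -/
theorem legal_start (hn : 5 ≤ n) (hr : Prof r) (hN : NleB n r) {a c H : ℝ} (ha : a ∈ Ioo (0 : ℝ) 1)
    (hH : hB n 0 ≤ H) (hc0 : 0 ≤ c) (hc : c ^ 2 ≤ 1 - a ^ 2)
    (hchk : 11 * (H * (1 + (n + 1) * a ^ 2)) ≤ 100 * (a * c ^ (n + 2))) :
    ∀ s ∈ Ioc (0 : ℝ) a, Legal n r s := by
  intro s hs
  have hs' : s ∈ Ioo (0 : ℝ) 1 := ⟨hs.1, hs.2.trans_lt ha.2⟩
  have hcs : c ≤ Real.sqrt (1 - a ^ 2) := Real.le_sqrt_of_sq_le hc
  have hz := haz1 n (s := a) ⟨ha.1.le, ha.2.le⟩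
  have hD : 0 < 1 + ((n : ℝ) + 1) * a ^ 2 := by positivity
  have h8 : a * c ^ (n + 2) ≤ (1 + (n + 1) * a ^ 2) * hB n a := by
    refine le_trans (mul_le_mul_of_nonneg_left (pow_le_pow_left₀ hc0 hcs _) ha.1.le) hz
  have h9 : (1 + ((n : ℝ) + 1) * a ^ 2) * hB n 0 ≤ (1 + (n + 1) * a ^ 2) * (100 / 11 * hB n a) := by
    have := mul_le_mul_of_nonneg_right hH hD.le
    linarith
  have h10 := le_of_mul_le_mul_left h9 hD
  have h11 := lB_add_hB n a
  have h12 := lB_mono n hs.2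
  exact Legal.of_le hr hs' (ll_le_regA hn hr hN hs' (by linarith))

lemma legal_of_LG (hr : Prof r) {s t : ℝ} (hs : s ∈ Ioo (0 : ℝ) 1) (hT : tau n r s ≤ t) (h : LG s t) :
    Legal n r s := by
  have := LG_anti hs (tau_pos hr n ⟨hs.1, hs.2.le⟩) hT h
  unfold LG at this
  unfold Legal
  rw [ll_eq_log hs]
  exact this

/-- one step of the chain -/
theorem legal_step (hn : 5 ≤ n) (hr : Prof r) (hN : NleB n r) {e H : ℝ} (hU : ConeUB n r e)
    (he0 : 0 ≤ e) (he : e < 1) (hH : hB n 0 ≤ H) {a b t c : ℝ} (ha : 0 < a) (hb : b ≤ 7 / 10)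
    (hLG : LG a t) (ht : 1 / 2 ≤ t) (ht1 : t ≤ 1) (hc0 : 0 ≤ c) (hc : c ^ 2 ≤ 1 - b ^ 2)
    (hchk : ((1 - (1 - e) * t) ^ (n + 1) - e ^ (n + 1)) * H * (1 + (n + 1) * b ^ 2) ≤
      (1 - e ^ (n + 1)) * (b * c ^ (n + 2)))
    (hprev : ∀ s ∈ Ioc (0 : ℝ) a, Legal n r s) : ∀ s ∈ Ioc (0 : ℝ) b, Legal n r s := by
  intro s hs
  rcases le_total s a with h | h
  · exact hprev s ⟨hs.1, h⟩
  have hs' : s ∈ Ioo (0 : ℝ) 1 := ⟨hs.1, by linarith [hs.2]⟩
  rcases le_total (lB n s) (89 / 100 * hB n 0) with hF | hF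
  · exact Legal.of_le hr hs' (ll_le_regA hn hr hN hs' hF)
  · have hb' : b ∈ Ioo (0 : ℝ) 1 := ⟨by linarith [hs.1, hs.2], by linarith⟩
    have hFb : 89 / 100 * hB n 0 ≤ lB n b := hF.trans (lB_mono n hs.2)
    have h1 := tau_le_of_chk hr hU he0 he hb' hFb ht1 hH hc0 hc hchk
    have h2 : tau n r s ≤ tau n r b := (tau_strictMonoOn hr n).monotoneOn
      ⟨by linarith [hs.1], hs'.2.le⟩ ⟨by linarith [hb'.1], hb'.2.le⟩ hs.2
    exact legal_of_LG hr hs' (h2.trans h1) (LG_mono ha h (hs.2.trans hb) ht hLG)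

/-- end of the chain -/
theorem legal_end (hr : Prof r) (hprev : ∀ s ∈ Ioc (0 : ℝ) (7 / 10), Legal n r s) :
    ∀ s ∈ Ioo (0 : ℝ) 1, Legal n r s := by
  intro s hs
  rcases le_total s (7 / 10) with h | h
  · exact hprev s ⟨hs.1, h⟩
  · exact legal_of_LG hr hs (tau_mem_Icc hr n (s := s) ⟨by linarith [hs.1], hs.2.le⟩).2 (LG_one ⟨h, hs.2⟩)

end

end Crest.Agent.R230
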