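import Crest.Agent.R230.OneDAll

-- ▼ part R230/OneDGauge
section

/-!
# Row 230: case lemmas with an additional gauge `g(l)` (`C¹`)

The extra density is `gz n g g' s l k = -(3 Y g(l) - (n-3) Y² g(l) + Y g'(l) k)` (null Lagrangian).
-/

set_option autoImplicit false

open MeasureTheory Set Filter Topology
open scoped Pointwise ENNReal

namespace Crest.Agent.R230

open WR

/-- additional gauge density -/
noncomputable def WR.gz (n : ℕ) (g g' : ℝ → ℝ) (s l k : ℝ) : ℝ :=
  -(3 * (Y s * g l) - ((n : ℝ) - 3) * (Y s ^ 2 * g l) + Y s * (g' l * k))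

variable {n : ℕ} {r : ℝ → ℝ}








end Crest.Agent.R230
end

-- ▼ part R230/WTail
section

/-!
# Row 230: tools for kinked null Lagrangians (capped region)
-/

set_option autoImplicit false

open MeasureTheory Set Filter Topology
open scoped Pointwise ENNReal

namespace Crest.Agent.R230.WR


/-- bounded measurable times integrable -/
lemma NI.bdd_mul {n : ℕ} {f g : ℝ → ℝ} (hg : NI n g)
    (hf : AEStronglyMeasurable f (volume.restrict (Ioo 0 1))) {C : ℝ}
    (hC : ∀ s ∈ Ioo (0 : ℝ) 1, |f s| ≤ C) : NI n (fun s => f s * g s) := by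
  unfold NI at *
  rw [intervalIntegrable_iff_integrableOn_Ioo_of_le (by norm_num)] at hg ⊢
  have h : Integrable (fun s => f s * (cc s ^ (n - 1) * g s)) (volume.restrict (Ioo 0 1)) := by
    refine Integrable.bdd_mul (c := C) hg hf ?_
    rw [ae_restrict_iff' measurableSet_Ioo]
    exact Eventually.of_forall fun s hs => by rw [Real.norm_eq_abs]; exact hC s hs
  refine h.congr (Eventually.of_forall fun s => ?_)
  simp only
  ring


end Crest.Agent.R230.WR
end

-- ▼ part R230/WTailRed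
section

/-!
# Row 230: reduction for capped lines

Contact parameter `φ = s e^u` (`u = 0`: uncapped), gauge `-Ω` (`f₀`-normalised).
`tail_concl` : general `u`, `Ω`;
`tailV_concl` : `u = V (l - cap(τ))`, `Ω = u + ε E(l)` on `[s₁, 1)`, `0` on `(0, s₁)`.
-/

set_option autoImplicit false

open MeasureTheory Set Filter Topology
open scoped Pointwise ENNReal

namespace Crest.Agent.R230.WR

/-- line correction in terms of `s, l, k, u, su' = s u'` -/
noncomputable def lineC (n : ℕ) (s l k u su : ℝ) : ℝ :=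
  cc s * (((n : ℝ) + 1) * xA (1 / cc (s * Real.exp u)) (l - u) +
      (1 + 1 / (1 + 1 / cc (s * Real.exp u)) - 2 * (1 / cc (s * Real.exp u)) -
        (l - u) * (1 / cc (s * Real.exp u)) ^ 3) +
      (1 + su) * (1 + k)⁻¹ *
        (2 * (1 / cc (s * Real.exp u) - 1 / (1 + 1 / cc (s * Real.exp u))) -
          3 * (l - u) * (s * Real.exp u) ^ 2 * (1 / cc (s * Real.exp u)) ^ 3) - rawL n s l k)

lemma lineC_zero (n : ℕ) (s l k : ℝ) : lineC n s l k 0 0 = 0 := by
  unfold lineC rawL xA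
  simp only [Real.exp_zero, mul_one, sub_zero, add_zero, one_mul, one_div]
  ring


variable {n : ℕ} {r : ℝ → ℝ}


/-- **general capped lines**: `φ = s e^u` -/
theorem tail_hU (hn : 3 ≤ n) (hr : Prof r) {u u' : ℝ → ℝ}
    (hu : ContinuousOn u (Icc 0 1))
    (hu' : ∀ s ∈ Ioo (0 : ℝ) 1, HasDerivWithinAt u (u' s) (Ioi s) s)
    (hum : AEStronglyMeasurable u' (volume.restrict (Ioo 0 1)))
    (hub : ∃ K, ∀ s ∈ Ioo (0 : ℝ) 1, |u' s| ≤ K)
    (hu1 : ∀ s ∈ Ioo (0 : ℝ) 1, s * Real.exp (u s) < 1)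
    (h0 : ∃ δ > 0, ∀ s ∈ Icc (0 : ℝ) δ, u s = 0)
    (h1 : ∃ δ < 1, ∀ s ∈ Icc δ (1 : ℝ), u s = 0)
    (hadm : ∀ s ∈ Ioo (0 : ℝ) 1, xA (1 / cc (s * Real.exp (u s))) (ll n r s - u s) ≤
      xB (tau n r s) (1 / cc (s * Real.exp (u s))) (ll n r s - u s)) :
    NI n (fun s => lineC n s (ll n r s) (kk n r s) (u s) (s * u' s)) ∧
    2 * ((∫ s in (0 : ℝ)..1, cc s ^ n *
      (rawL n s (ll n r s) (kk n r s) + (Phi (tau n r s) - Phi s))) +
      JJ n (fun s => lineC n s (ll n r s) (kk n r s) (u s) (s * u' s))) ≤ w n * UX n r := by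
  set φ : ℝ → ℝ := fun s => s * Real.exp (u s) with hφ
  set φ' : ℝ → ℝ := fun s => Real.exp (u s) * (1 + s * u' s) with hφ'
  have hCX : CX φ φ' := by
    refine ⟨?_, ?_, ?_, ?_, ?_, hu1, ?_, ?_⟩
    · exact continuousOn_id.mul hu.rexp
    · intro s hs
      have h := (hasDerivAt_id s).hasDerivWithinAt (s := Ioi s) |>.fun_mul (hu' s hs).exp
      refine h.congr_deriv ?_
      simp only [hφ', id]
      ring
    · have hum' : AEStronglyMeasurable (fun s => Real.exp (u s)) (volume.restrict (Ioo 0 1)) :=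
        ((hu.mono Ioo_subset_Icc_self).rexp).aestronglyMeasurable measurableSet_Ioo
      exact hum'.mul (aestronglyMeasurable_const.add (measurable_id.aestronglyMeasurable.mul hum))
    · obtain ⟨K, hK⟩ := hub
      obtain ⟨C, hC⟩ := isCompact_Icc.exists_bound_of_continuousOn (hu.rexp)
      refine ⟨C * (1 + K), fun s hs => ?_⟩
      have h2 := hC s ⟨hs.1.le, hs.2.le⟩
      have h3 := hK s hs
      rw [Real.norm_eq_abs] at h2
      simp only [hφ']
      rw [abs_mul]
      have h4 : |1 + s * u' s| ≤ 1 + K := by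
        refine (abs_add_le _ _).trans ?_
        rw [abs_one, abs_mul, abs_of_pos hs.1]
        have : s * |u' s| ≤ 1 * K := mul_le_mul hs.2.le h3 (abs_nonneg _) zero_le_one
        linarith
      exact mul_le_mul h2 h4 (abs_nonneg _) ((abs_nonneg _).trans h2)
    · intro s hs
      exact mul_pos hs.1 (Real.exp_pos _)
    · obtain ⟨δ, hδ, h⟩ := h0
      exact ⟨δ, hδ, fun s hs => by simp only [hφ, h s hs, Real.exp_zero, mul_one]⟩
    · obtain ⟨δ, hδ, h⟩ := h1
      exact ⟨δ, hδ, fun s hs => by simp only [hφ, h s hs, Real.exp_zero, mul_one]⟩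
  have hL : ∀ s ∈ Ioo (0 : ℝ) 1, LX n r φ s = ll n r s - u s := by
    intro s hs
    have hT := (tau_mem_half hr n hs).1
    unfold LX
    rw [ll_of_ne n hs.1.ne', Real.log_div hT.ne' (mul_pos hs.1 (Real.exp_pos _)).ne',
      Real.log_div hT.ne' hs.1.ne', Real.log_mul hs.1.ne' (Real.exp_pos _).ne', Real.log_exp]
    ring
  have hZ : ∀ s ∈ Ioo (0 : ℝ) 1, ZG n r φ φ' s = lineC n s (ll n r s) (kk n r s) (u s) (s * u' s) := by
    intro s hs
    unfold ZG lineC
    rw [RawG_exp hr hs (u := u s) (u' := u' s) rfl rfl]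
  have hadm' : ∀ s ∈ Ioo (0 : ℝ) 1, xA (QX φ s) (LX n r φ s) ≤ xB (tau n r s) (QX φ s) (LX n r φ s) := by
    intro s hs
    rw [hL s hs]
    exact hadm s hs
  have h2 := hU_of_contact hn hr hCX hadm'
  rw [JJ_congr hZ] at h2
  exact ⟨(NI_ZG hn hr hCX).congr hZ, h2⟩



end Crest.Agent.R230.WR
end

-- ▼ part R230/WSoft

/-!
# Row 230: reduction for the soft contact (B9, helper58's design)

`u = V (l - cap(τ))` on `[s₁,1)`, `0` on `(0,s₁)`; gauge `-(1/2) (e₀ + e₁ (n-1) Y) (e^{2u} - 1)`.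
-/

set_option autoImplicit false

open MeasureTheory Set Filter Topology
open scoped Pointwise ENNReal

namespace Crest.Agent.R230.WR

variable {n : ℕ} {r : ℝ → ℝ}

/-- the data of the contact `φ = s e^u`, `u = V (l - cap τ)` on `[s₁,1)`. -/
theorem uV_pack (hr : Prof r) {V V' cap cap' : ℝ → ℝ} {x0 s1 : ℝ}
    (hV : ∀ x, HasDerivAt V (V' x) x) (hVc : Continuous V') (hV0 : ∀ x ≤ x0, V x = 0)
    (hcap : ∀ t, HasDerivAt cap (cap' t) t) (hcapc : Continuous cap')
    (hs1 : s1 ∈ Ioo (0 : ℝ) 1) (hx1 : ll n r s1 - cap (tau n r s1) ≤ x0)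
    (hcap1 : -cap 1 < x0) :
    (∀ x ≤ x0, V' x = 0) ∧
    ∃ u u' : ℝ → ℝ, ContinuousOn u (Icc 0 1) ∧
      (∀ s ∈ Ioo (0 : ℝ) 1, HasDerivWithinAt u (u' s) (Ioi s) s) ∧
      AEStronglyMeasurable u' (volume.restrict (Ioo 0 1)) ∧
      (∃ K, ∀ s ∈ Ioo (0 : ℝ) 1, |u' s| ≤ K) ∧
      (∃ δ > 0, ∀ s ∈ Icc (0 : ℝ) δ, u s = 0) ∧
      (∃ δ < 1, ∀ s ∈ Icc δ (1 : ℝ), u s = 0) ∧
      (∀ s ∈ Ioo (0 : ℝ) 1, s < s1 → u s = 0 ∧ u' s = 0) ∧
      (∀ s ∈ Ioo (0 : ℝ) 1, s1 ≤ s → u s = V (ll n r s - cap (tau n r s)) ∧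
        s * u' s = V' (ll n r s - cap (tau n r s)) *
          (kk n r s - cap' (tau n r s) * (tau n r s * (1 + kk n r s)))) := by
  classical
  have hl := continuousOn_ll hr n
  have hVcont : Continuous V := continuous_iff_continuousAt.2 fun x => (hV x).continuousAt
  have hcapcont : Continuous cap := continuous_iff_continuousAt.2 fun x => (hcap x).continuousAt
  have hT := tau_continuous hr n
  have hV'0' : ∀ x ≤ x0, V' x = 0 := by
    have hV'0 : ∀ x < x0, V' x = 0 := by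
      intro x hx
      have h2 : V =ᶠ[𝓝 x] fun _ => 0 := by
        filter_upwards [Iio_mem_nhds hx] with y hy
        exact hV0 y (le_of_lt hy)
      exact (hV x).unique ((hasDerivAt_const x (0 : ℝ)).congr_of_eventuallyEq h2)
    intro x hx
    rcases hx.eq_or_lt with h2 | h2
    · subst h2
      have hcl : IsClosed {y : ℝ | V' y = 0} := isClosed_eq hVc continuous_const
      have hsub : closure (Iio x) ⊆ {y : ℝ | V' y = 0} :=
        hcl.closure_subset_iff.2 fun y hy => hV'0 y hy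
      rw [closure_Iio] at hsub
      exact hsub (mem_Iic.2 le_rfl)
    · exact hV'0 x h2
  refine ⟨hV'0', ?_⟩
  set X : ℝ → ℝ := fun s => ll n r s - cap (tau n r s) with hX
  have hXc : ContinuousOn X (Icc 0 1) := hl.sub (hcapcont.comp hT).continuousOn
  set m : ℝ → ℝ := fun s => max s s1 with hm
  have hmc : Continuous m := continuous_id.max continuous_const
  have hmaps : MapsTo m (Icc 0 1) (Icc 0 1) := fun s hs =>
    ⟨hs.1.trans (le_max_left _ _), max_le hs.2 hs1.2.le⟩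
  have hm_lt : ∀ s, s < s1 → m s = s1 := fun s h => max_eq_right h.le
  have hm_ge : ∀ s, s1 ≤ s → m s = s := fun s h => max_eq_left h
  set h : ℝ → ℝ := fun s => V' (X s) * (kk n r s / s - cap' (tau n r s) * dtau n r s) with hh
  have hXd : ∀ s ∈ Ioo (0 : ℝ) 1, HasDerivAt X (kk n r s / s - cap' (tau n r s) * dtau n r s) s := by
    intro s hs
    have h1 := (hcap (tau n r s)).comp s (hasDerivAt_tau hr n (s := s) ⟨by linarith [hs.1], hs.2⟩)
    exact (hasDerivAt_ll hr n hs).sub h1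
  have hVX : ∀ s ∈ Ioo (0 : ℝ) 1, HasDerivAt (fun s => V (X s)) (h s) s := fun s hs =>
    (hV (X s)).comp s (hXd s hs)
  have hright : ∀ {f : ℝ → ℝ} {f' s : ℝ}, s1 ≤ s → HasDerivAt f f' s →
      HasDerivWithinAt (fun x => f (m x)) f' (Ioi s) s := by
    intro f f' s h1 hd
    refine hd.hasDerivWithinAt.congr (fun x hx => ?_) ?_
    · rw [hm_ge x (h1.trans (le_of_lt hx))]
    · rw [hm_ge s h1]
  have hleft : ∀ {f : ℝ → ℝ} {s : ℝ}, s < s1 → HasDerivWithinAt (fun x => f (m x)) 0 (Ioi s) s := by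
    intro f s h1
    have h2 : (fun x => f (m x)) =ᶠ[𝓝 s] fun _ => f s1 := by
      filter_upwards [Iio_mem_nhds h1] with x hx
      rw [hm_lt x hx]
    exact ((hasDerivAt_const s (f s1)).congr_of_eventuallyEq h2).hasDerivWithinAt
  have hnear1 : ∃ δ < 1, ∀ s ∈ Icc δ (1 : ℝ), X (m s) ≤ x0 := by
    have hc : ContinuousWithinAt (fun s => X (m s)) (Icc 0 1) 1 :=
      (hXc.comp hmc.continuousOn hmaps) 1 ⟨zero_le_one, le_rfl⟩
    have hv : X (m 1) < x0 := by
      rw [hm_ge 1 hs1.2.le]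
      simp only [hX]
      rw [ll_one hr n, tau_one hr n]
      linarith
    have h2 := hc.eventually_lt_const hv
    rw [eventually_nhdsWithin_iff] at h2
    obtain ⟨e, he, h3⟩ := Metric.eventually_nhds_iff.1 h2
    refine ⟨max (1 - e / 2) 0, max_lt (by linarith) one_pos, fun s hs => ?_⟩
    have hs0 : 0 ≤ s := (le_max_right _ _).trans hs.1
    have hs2 : 1 - e / 2 ≤ s := (le_max_left _ _).trans hs.1
    refine (h3 ?_ ⟨hs0, hs.2⟩).le
    rw [Real.dist_eq, abs_of_nonpos (by linarith [hs.2])]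
    linarith
  obtain ⟨δ, hδ, hδ1⟩ := hnear1
  have hhc : ContinuousOn h (Ioo 0 1) := by
    refine (hVc.comp_continuousOn (hXc.mono Ioo_subset_Icc_self)).mul ?_
    refine ContinuousOn.sub ?_ ?_
    · exact (continuousOn_kk hr n).div continuousOn_id fun s hs => hs.1.ne'
    · exact (hcapc.comp hT).continuousOn.mul
        ((continuousOn_dtau hr n).mono (Ioo_subset_Ioo_left (by norm_num)))
  refine ⟨fun s => V (X (m s)), fun s => if s < s1 then 0 else h s, ?_, ?_, ?_, ?_, ?_, ?_, ?_, ?_⟩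
  · exact hVcont.comp_continuousOn (hXc.comp hmc.continuousOn hmaps)
  · intro s hs
    simp only
    split_ifs with h1
    · exact hleft (f := fun s => V (X s)) h1
    · exact hright (f := fun s => V (X s)) (not_lt.1 h1) (hVX s hs)
  · have h1 : AEStronglyMeasurable h (volume.restrict (Ioo 0 1)) :=
      hhc.aestronglyMeasurable measurableSet_Ioo
    have h2 := h1.indicator (measurableSet_Ici (a := s1))
    refine h2.congr (Eventually.of_forall fun s => ?_)
    by_cases h3 : s < s1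
    · simp [h3]
    · simp [h3, not_lt.1 h3]
  · have hsub : Icc s1 (max δ s1) ⊆ Ioo 0 1 := fun s hs =>
      ⟨hs1.1.trans_le hs.1, hs.2.trans_lt (max_lt hδ hs1.2)⟩
    obtain ⟨K, hK⟩ := (isCompact_Icc (a := s1) (b := max δ s1)).exists_bound_of_continuousOn
      (hhc.mono hsub)
    refine ⟨max K 0, fun s hs => ?_⟩
    simp only
    split_ifs with h1
    · simp
    · push Not at h1
      by_cases h2 : s ≤ max δ s1
      · exact (hK s ⟨h1, h2⟩).trans (le_max_left _ _)
      · push Not at h2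
        have h3 := hδ1 s ⟨(le_max_left _ _).trans h2.le, hs.2.le⟩
        rw [hm_ge s h1] at h3
        simp only [hh]
        rw [hV'0' _ h3, zero_mul, abs_zero]
        exact le_max_right _ _
  · refine ⟨s1, hs1.1, fun s hs => ?_⟩
    simp only
    rw [show m s = s1 from max_eq_right hs.2]
    exact hV0 _ hx1
  · exact ⟨δ, hδ, fun s hs => hV0 _ (hδ1 s hs)⟩
  · intro s hs h1
    simp only
    rw [if_pos h1, hm_lt s h1]
    exact ⟨hV0 _ hx1, rfl⟩
  · intro s hs h1
    simp only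
    rw [if_neg (not_lt.2 h1), hm_ge s h1]
    refine ⟨rfl, ?_⟩
    have h3 := hs.1.ne'
    have h2 := (tau_mem_half hr n hs).1.ne'
    have h4 : X s = ll n r s - cap (tau n r s) := rfl
    simp only [hh]
    rw [one_add_kk, ← h4]
    field_simp

/-- density of the gauge `-(1/2) (e₀ + e₁ (n-1) Y) (e^{2u} - 1)`, `su = s u'` -/
noncomputable def softG (n : ℕ) (e0 e1 s u su : ℝ) : ℝ :=
  1 / 2 * (((((n : ℝ) - 1) * Y s - 1) * (e0 + e1 * (((n : ℝ) - 1) * Y s)) -
      2 * e1 * (((n : ℝ) - 1) * Y s) * (1 + Y s)) * (Real.exp (2 * u) - 1) -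
    2 * (e0 + e1 * (((n : ℝ) - 1) * Y s)) * Real.exp (2 * u) * su)

lemma softG_zero (n : ℕ) (e0 e1 s : ℝ) : softG n e0 e1 s 0 0 = 0 := by
  unfold softG
  simp

lemma null_softG (hn : 5 ≤ n) {e0 e1 : ℝ} {u u' : ℝ → ℝ} (hu : ContinuousOn u (Icc 0 1))
    (hu' : ∀ s ∈ Ioo (0 : ℝ) 1, HasDerivWithinAt u (u' s) (Ioi s) s)
    (hum : AEStronglyMeasurable u' (volume.restrict (Ioo 0 1)))
    (hub : ∃ K, ∀ s ∈ Ioo (0 : ℝ) 1, |u' s| ≤ K) :
    NI n (fun s => softG n e0 e1 s (u s) (s * u' s)) ∧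
      JJ n (fun s => softG n e0 e1 s (u s) (s * u' s)) = 0 := by
  set G : ℝ → ℝ := fun s => -(1 / 2) * (Real.exp (2 * u s) - 1) with hG
  set G' : ℝ → ℝ := fun s => -(1 / 2) * (Real.exp (2 * u s) * (2 * u' s)) with hG'
  have hGc : ContinuousOn G (Icc 0 1) :=
    continuousOn_const.mul (((continuousOn_const.mul hu).rexp).sub continuousOn_const)
  have hGd : ∀ s ∈ Ioo (0 : ℝ) 1, HasDerivWithinAt G (G' s) (Ioi s) s := fun s hs =>
    (((hu' s hs).const_mul 2).exp.sub_const 1).const_mul _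
  obtain ⟨K, hK⟩ := hub
  have hexp : ContinuousOn (fun s => -(1 / 2) * (Real.exp (2 * u s) * 2)) (Icc 0 1) :=
    continuousOn_const.mul (((continuousOn_const.mul hu).rexp).mul continuousOn_const)
  have nG1 : NI n (fun s => s * G' s) := by
    have := NI.bdd_mul (n := n) (f := u')
      (NI_cont (n := n) (g := fun s => s * (-(1 / 2) * (Real.exp (2 * u s) * 2)))
        (continuousOn_id.mul hexp)) hum hK
    exact this.congr fun s _ => by simp only [hG']; ring
  have nG2 : NI n (fun s => Y s * (s * G' s)) := by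
    have := NI.bdd_mul (n := n) (f := u')
      (NI_Y (n := n) (by omega) (g := fun s => s * (-(1 / 2) * (Real.exp (2 * u s) * 2)))
        (continuousOn_id.mul hexp)) hum hK
    exact this.congr fun s _ => by simp only [hG']; ring
  have h1 := null_GR (n := n) (by omega) hGc hGd nG1
  have h2 := null_YR (n := n) hn hGc hGd nG2
  have n1 : NI n (fun s => G s + s * G' s - ((n : ℝ) - 1) * (Y s * G s)) :=
    ((NI_cont hGc).add nG1).sub ((NI_Y (by omega) hGc).smul _)
  have n2 : NI n (fun s => 3 * (Y s * G s) - ((n : ℝ) - 3) * (Y s ^ 2 * G s) + Y s * (s * G' s)) :=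
    (((NI_Y (by omega) hGc).smul 3).sub ((NI_Y2 hn hGc).smul _)).add nG2
  have e : ∀ s ∈ Ioo (0 : ℝ) 1, e0 * (G s + s * G' s - ((n : ℝ) - 1) * (Y s * G s)) +
      (e1 * ((n : ℝ) - 1)) * (3 * (Y s * G s) - ((n : ℝ) - 3) * (Y s ^ 2 * G s) + Y s * (s * G' s)) =
      softG n e0 e1 s (u s) (s * u' s) := by
    intro s _
    unfold softG
    simp only [hG, hG']
    ring
  refine ⟨((n1.smul e0).add (n2.smul _)).congr e, ?_⟩
  rw [← JJ_congr e, JJ_add (n1.smul e0) (n2.smul _), JJ_smul, JJ_smul, h1, h2]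
  ring

/-- **Conclusion for the soft contact.** `P` is any certificate density of the path (`PQ`, `PP`, ...). -/
theorem soft_concl (hn : 5 ≤ n) (hr : Prof r) {P : ℝ → ℝ} (nP : NI n P)
    (hPle : JJ n P ≤ JJ n (fun s => clo n s (ll n r s) (kk n r s)))
    {V V' cap cap' : ℝ → ℝ} {e0 e1 s1 : ℝ}
    (hV : ∀ x, HasDerivAt V (V' x) x) (hVc : Continuous V') (hV0 : ∀ x ≤ 0, V x = 0)
    (hcap : ∀ t, HasDerivAt cap (cap' t) t) (hcapc : Continuous cap')
    (hs1 : s1 ∈ Ioo (0 : ℝ) 1) (hx1 : ll n r s1 ≤ cap (tau n r s1)) (hcap1 : 0 < cap 1)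
    (hnear : ∀ s ∈ Ioo (0 : ℝ) 1, (s < s1 ∨ ll n r s ≤ cap (tau n r s)) →
      Legal n r s ∧ 0 ≤ P s ∧ (P s = 0 → ll n r s = 0))
    (hfar : ∀ s ∈ Ico s1 (1 : ℝ), cap (tau n r s) < ll n r s →
      s * Real.exp (V (ll n r s - cap (tau n r s))) < 1 ∧
      xA (1 / cc (s * Real.exp (V (ll n r s - cap (tau n r s)))))
        (ll n r s - V (ll n r s - cap (tau n r s))) ≤
      xB (tau n r s) (1 / cc (s * Real.exp (V (ll n r s - cap (tau n r s)))))
        (ll n r s - V (ll n r s - cap (tau n r s))) ∧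
      0 < P s + (lineC n s (ll n r s) (kk n r s) (V (ll n r s - cap (tau n r s)))
          (V' (ll n r s - cap (tau n r s)) *
            (kk n r s - cap' (tau n r s) * (tau n r s * (1 + kk n r s)))) +
        softG n e0 e1 s (V (ll n r s - cap (tau n r s)))
          (V' (ll n r s - cap (tau n r s)) *
            (kk n r s - cap' (tau n r s) * (tau n r s * (1 + kk n r s)))))) : Concl n r := by
  obtain ⟨hV'0, u, u', hu, hu', hum, hub, hn0, hn1, hlow, hhigh⟩ :=
    uV_pack (n := n) hr hV hVc hV0 hcap hcapc hs1 (by linarith) (x0 := 0) (by linarith)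
  -- on the near part u = 0 and s u' = 0
  have hz : ∀ s ∈ Ioo (0 : ℝ) 1, (s < s1 ∨ ll n r s ≤ cap (tau n r s)) → u s = 0 ∧ s * u' s = 0 := by
    intro s hs h
    by_cases h1 : s < s1
    · obtain ⟨a, b⟩ := hlow s hs h1
      exact ⟨a, by rw [b, mul_zero]⟩
    · have h2 := h.resolve_left h1
      obtain ⟨a, b⟩ := hhigh s hs (not_lt.1 h1)
      rw [a, b, hV0 _ (by linarith), hV'0 _ (by linarith), zero_mul]
      exact ⟨rfl, rfl⟩
  have hcase : ∀ s ∈ Ioo (0 : ℝ) 1, (s < s1 ∨ ll n r s ≤ cap (tau n r s)) ∨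
      (s ∈ Ico s1 (1 : ℝ) ∧ cap (tau n r s) < ll n r s) := by
    intro s hs
    by_cases h1 : s < s1
    · exact Or.inl (Or.inl h1)
    · by_cases h2 : ll n r s ≤ cap (tau n r s)
      · exact Or.inl (Or.inr h2)
      · exact Or.inr ⟨⟨not_lt.1 h1, hs.2⟩, not_le.1 h2⟩
  obtain ⟨n1, hU⟩ := tail_hU (n := n) (by omega) hr hu hu' hum hub (fun s hs => by
      rcases hcase s hs with h | ⟨h1, h2⟩
      · rw [(hz s hs h).1, Real.exp_zero, mul_one]; exact hs.2
      · rw [(hhigh s hs h1.1).1]; exact (hfar s h1 h2).1) hn0 hn1 (fun s hs => by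
      rcases hcase s hs with h | ⟨h1, h2⟩
      · rw [(hz s hs h).1, Real.exp_zero, mul_one, sub_zero, ll_eq_log hs]
        exact (hnear s hs h).1.adm hs
      · rw [(hhigh s hs h1.1).1]; exact (hfar s h1 h2).2.1)
  obtain ⟨n2, j2⟩ := null_softG (n := n) (e0 := e0) (e1 := e1) hn hu hu' hum hub
  rw [int_raw_eq hr (by omega)] at hU
  refine conclude hr (by omega) (nP.add (n1.add n2)) ?_ ?_ ?_
  · rw [JJ_add nP (n1.add n2), JJ_add n1 n2, j2, add_zero]
    linarith
  · intro s hs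
    rcases hcase s hs with h | ⟨h1, h2⟩
    · rw [(hz s hs h).1, (hz s hs h).2, lineC_zero, softG_zero, add_zero, add_zero]
      exact (hnear s hs h).2.1
    · rw [(hhigh s hs h1.1).1, (hhigh s hs h1.1).2]
      exact (hfar s h1 h2).2.2.le
  · intro s hs h0
    rcases hcase s hs with h | ⟨h1, h2⟩
    · rw [(hz s hs h).1, (hz s hs h).2, lineC_zero, softG_zero, add_zero, add_zero] at h0
      exact (hnear s hs h).2.2 h0
    · rw [(hhigh s hs h1.1).1, (hhigh s hs h1.1).2] at h0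
      exact absurd h0 (hfar s h1 h2).2.2.ne'











end Crest.Agent.R230.WR
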