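import Crest.Agent.R230.LegalB
import Crest.Agent.R230.Cyl90
import Crest.Agent.R230.WSoft

/-!
# Row 230: legality of the soft contact (helper640), block F3 of the large-`N` plan

For `x ∈ (0,1)`, `0 < T ≤ 1` and `log (T/x) ≤ 471/1000 - 17/200 T²` the XLOG line with contact
parameter `x` is admissible: `xA ≤ xB` (`soft_LG`, `soft_adm`, `soft_adm_path`).
-/

set_option autoImplicit false

open MeasureTheory Set Filter Topology
open scoped Pointwise ENNReal

namespace Crest.Agent.R230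








namespace WR

variable {n : ℕ} {r : ℝ → ℝ}

/-- `log (τ/(s e^u)) = l - u` -/
lemma log_tau_div (hr : Prof r) {s u : ℝ} (hs : s ∈ Ioo (0 : ℝ) 1) :
    Real.log (tau n r s / (s * Real.exp u)) = ll n r s - u := by
  have hT := (tau_mem_half hr n hs).1
  rw [ll_of_ne n hs.1.ne', Real.log_div hT.ne' (mul_pos hs.1 (Real.exp_pos _)).ne',
    Real.log_div hT.ne' hs.1.ne', Real.log_mul hs.1.ne' (Real.exp_pos _).ne', Real.log_exp]
  ring








end WR

section

open WR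

variable {n : ℕ} {r : ℝ → ℝ}

/-- logarithmic form of the cylinder bound, `F₀ ≤ 9/10` -/
lemma ll_le_of_cyl90 (hn : 2 ≤ n) (hr : Prof r) (hN : NleB n r) {s : ℝ} (hs : s ∈ Ioo (0 : ℝ) 1)
    (hp : lB n s ≤ 9 / 10 * hB n 0) : ll n r s ≤ 1 / 2 + Real.log (lB n s / s) := by
  have hT := tau_pos hr n (s := s) ⟨hs.1, hs.2.le⟩
  have hl := lB_pos n (s := s) ⟨hs.1, hs.2.le⟩
  have h1 := tau_le_of_NleB90 hr hn hN hs hp
  have h2 := R_le n hn
  have h3 : tau n r s ≤ Real.exp (1 / 2) * lB n s := h1.trans (mul_le_mul_of_nonneg_right h2 hl.le)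
  rw [ll_eq_log hs]
  have h4 : tau n r s / s ≤ Real.exp (1 / 2) * (lB n s / s) := by
    rw [← mul_div_assoc]
    exact div_le_div_of_nonneg_right h3 hs.1.le
  have hq : 0 < lB n s / s := div_pos hl hs.1
  calc Real.log (tau n r s / s) ≤ Real.log (Real.exp (1 / 2) * (lB n s / s)) :=
        Real.log_le_log (div_pos hT hs.1) h4
    _ = _ := by rw [Real.log_mul (Real.exp_pos _).ne' hq.ne', Real.log_exp]

/-- the region `F₀ ≤ 9/10`: `l (1+c) ≤ c²` -/
theorem ll_le_reg90 (hn : 4 ≤ n) (hr : Prof r) (hN : NleB n r) {s : ℝ} (hs : s ∈ Ioo (0 : ℝ) 1)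
    (hp : lB n s ≤ 9 / 10 * hB n 0) : ll n r s * (1 + cc s) ≤ cc s ^ 2 := by
  have h1 := ll_le_of_cyl90 (by omega) hr hN hs hp
  have hl := lB_pos n (s := s) ⟨hs.1, hs.2.le⟩
  have h2 := lB_le_quintic (n := n) hn (s := s) ⟨hs.1.le, hs.2.le⟩
  have hs0 := hs.1
  have hs1 := hs.2
  set y := s ^ 2 with hy
  have hy0 : 0 < y := by positivity
  have hy1 : y < 1 := by rw [hy]; nlinarith
  set x := 2 / 3 * y - 1 / 5 * y ^ 2 with hx
  have hx0 : 0 < x := by rw [hx]; nlinarith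
  have hx1 : x < 1 := by rw [hx]; nlinarith
  have h3 : lB n s / s ≤ 1 - x := by
    rw [div_le_iff₀ hs0]
    refine h2.trans (le_of_eq ?_)
    rw [hx, hy]
    ring
  have h4 : Real.log (lB n s / s) ≤ -(2 * x) / (2 - x) := by
    have h5 := Real.log_le_log (div_pos hl hs0) h3
    have h6 := log_pade (y := 1 - x) (by linarith) (by linarith)
    refine h5.trans (h6.trans (le_of_eq ?_))
    congr 1 <;> ring
  have hc0 := cc_nonneg s
  have hc2 : cc s ^ 2 = 1 - y := cc_sq ⟨by linarith, hs1.le⟩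
  set c := cc s with hcdef
  have h7 : 1 + c ≤ (4 - y) / 2 := by nlinarith [sq_nonneg (1 - c)]
  have h8 : 1 / 2 + -(2 * x) / (2 - x) ≤ 2 * (1 - y) / (4 - y) := by
    have h9 : 0 < 2 - x := by linarith
    have h10 : 0 < 4 - y := by linarith
    rw [div_add_div _ _ (by norm_num) h9.ne', div_le_div_iff₀ (by positivity) h10]
    have : 6 * y ≤ x * (16 - y) := by
      have h11 : x * (16 - y) - 6 * y = y * ((2 / 3 - 1 / 5 * y) * (16 - y) - 6) := by rw [hx]; ring
      have h12 : 0 ≤ (2 / 3 - 1 / 5 * y) * (16 - y) - 6 := by nlinarith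
      nlinarith [mul_nonneg hy0.le h12]
    nlinarith
  have h9 : ll n r s ≤ 2 * (1 - y) / (4 - y) := by linarith
  have h10 : 0 < 4 - y := by linarith
  calc ll n r s * (1 + c) ≤ 2 * (1 - y) / (4 - y) * (1 + c) :=
        mul_le_mul_of_nonneg_right h9 (by linarith)
    _ ≤ 2 * (1 - y) / (4 - y) * ((4 - y) / 2) :=
        mul_le_mul_of_nonneg_left h7 (div_nonneg (by linarith) h10.le)
    _ = c ^ 2 := by rw [hc2]; field_simp

/-- legality on `F₀ ≤ 9/10` -/
theorem legal_cyl90 (hn : 4 ≤ n) (hr : Prof r) (hN : NleB n r) {s : ℝ} (hs : s ∈ Ioo (0 : ℝ) 1)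
    (hp : lB n s ≤ 9 / 10 * hB n 0) : Legal n r s :=
  Legal.of_le hr hs (ll_le_reg90 hn hr hN hs hp)

end

end Crest.Agent.R230
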