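import Crest.Agent.R230.XlogWR
import Crest.Agent.R230.WMain3
import Crest.Agent.R230.CRbound
import Crest.Agent.R230.HmBound

-- ▼ part R230/MasterCap
section

/-!
# Row 230: master theorem for the capped range

Contact `φ(s) = max (s, ψ(τ s))`, gauge `-(θ₀ Y + θ₁ s²) l²`, kink gauge
`G = v h`, `v = l - l_b(s)`, `h = a + η - (3/2) Y (l + l_b)` in the capped region.
-/

set_option autoImplicit false

open MeasureTheory Set Filter Topology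
open scoped Pointwise ENNReal

namespace Crest.Agent.R230

/-! ### the contact curve and its inverse -/

/-- a contact curve: `C¹`, strictly increasing, `ψ 0 = 0`, `ψ 1 < 1 = ψ t₂` -/
structure Crv (ψ ψ' : ℝ → ℝ) (t₂ : ℝ) : Prop where
  one_lt : 1 < t₂
  zero : ψ 0 = 0
  top : ψ t₂ = 1
  cont : ContinuousOn ψ (Icc 0 t₂)
  deriv : ∀ t ∈ Ioo (0 : ℝ) t₂, HasDerivAt ψ (ψ' t) t
  cont' : ContinuousOn ψ' (Ioo 0 t₂)
  pos' : ∀ t ∈ Ioo (0 : ℝ) t₂, 0 < ψ' t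

namespace Crv

variable {ψ ψ' : ℝ → ℝ} {t₂ : ℝ} (h : Crv ψ ψ' t₂)
include h

lemma mono : StrictMonoOn ψ (Icc 0 t₂) := by
  refine strictMonoOn_of_deriv_pos (convex_Icc _ _) h.cont fun t ht => ?_
  rw [interior_Icc] at ht
  rw [(h.deriv t ht).deriv]
  exact h.pos' t ht

omit h in
/-- the inverse curve -/
noncomputable def inv (ψ : ℝ → ℝ) (t₂ : ℝ) : ℝ → ℝ := Function.invFunOn ψ (Icc 0 t₂)

lemma surj {s : ℝ} (hs : s ∈ Icc (0 : ℝ) 1) : s ∈ ψ '' Icc 0 t₂ := by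
  have h1 := intermediate_value_Icc (by linarith [h.one_lt] : (0 : ℝ) ≤ t₂) h.cont
  rw [h.zero, h.top] at h1
  exact h1 hs

lemma inv_mem {s : ℝ} (hs : s ∈ Icc (0 : ℝ) 1) : inv ψ t₂ s ∈ Icc 0 t₂ :=
  Function.invFunOn_mem (h.surj hs)

lemma ψ_inv {s : ℝ} (hs : s ∈ Icc (0 : ℝ) 1) : ψ (inv ψ t₂ s) = s :=
  Function.invFunOn_eq (h.surj hs)

lemma inv_ψ {t : ℝ} (ht : t ∈ Icc 0 t₂) : inv ψ t₂ (ψ t) = t := by
  have h1 : ψ t ∈ Icc (0 : ℝ) 1 := by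
    rw [← h.zero, ← h.top]
    exact ⟨h.mono.monotoneOn (left_mem_Icc.2 (by linarith [h.one_lt])) ht ht.1,
      h.mono.monotoneOn ht (right_mem_Icc.2 (by linarith [h.one_lt])) ht.2⟩
  exact h.mono.injOn (h.inv_mem h1) ht (h.ψ_inv h1)

lemma lt_iff {t s : ℝ} (ht : t ∈ Icc 0 t₂) (hs : s ∈ Icc (0 : ℝ) 1) : ψ t < s ↔ t < inv ψ t₂ s := by
  conv_lhs => rw [← h.ψ_inv hs]
  exact h.mono.lt_iff_lt ht (h.inv_mem hs)


lemma inv_mono : StrictMonoOn (inv ψ t₂) (Icc 0 1) := by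
  intro a ha b hb hab
  rw [← h.lt_iff (h.inv_mem ha) hb, h.ψ_inv ha]
  exact hab

lemma inv_mem' {s : ℝ} (hs : s ∈ Ioo (0 : ℝ) 1) : inv ψ t₂ s ∈ Ioo 0 t₂ := by
  have h0 : inv ψ t₂ 0 = 0 := by
    have := h.inv_ψ (t := 0) (left_mem_Icc.2 (by linarith [h.one_lt]))
    rwa [h.zero] at this
  have h1 : inv ψ t₂ 1 = t₂ := by
    have := h.inv_ψ (t := t₂) (right_mem_Icc.2 (by linarith [h.one_lt]))
    rwa [h.top] at this
  constructor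
  · calc (0 : ℝ) = inv ψ t₂ 0 := h0.symm
      _ < _ := h.inv_mono (by norm_num) ⟨hs.1.le, hs.2.le⟩ hs.1
  · calc inv ψ t₂ s < inv ψ t₂ 1 := h.inv_mono ⟨hs.1.le, hs.2.le⟩ (by norm_num) hs.2
      _ = t₂ := h1

lemma ψ_mem {t : ℝ} (ht : t ∈ Ioo 0 t₂) : ψ t ∈ Ioo (0 : ℝ) 1 := by
  rw [← h.zero, ← h.top]
  exact ⟨h.mono (left_mem_Icc.2 (by linarith [h.one_lt])) ⟨ht.1.le, ht.2.le⟩ ht.1,
    h.mono ⟨ht.1.le, ht.2.le⟩ (right_mem_Icc.2 (by linarith [h.one_lt])) ht.2⟩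

lemma inv_image : inv ψ t₂ '' Ioo 0 1 = Ioo 0 t₂ := by
  ext y
  constructor
  · rintro ⟨s, hs, rfl⟩
    exact h.inv_mem' hs
  · intro hy
    exact ⟨ψ y, h.ψ_mem hy, h.inv_ψ ⟨hy.1.le, hy.2.le⟩⟩

lemma inv_continuousAt {s : ℝ} (hs : s ∈ Ioo (0 : ℝ) 1) : ContinuousAt (inv ψ t₂) s := by
  refine (h.inv_mono.mono Ioo_subset_Icc_self).continuousAt_of_image_mem_nhds
    (Ioo_mem_nhds hs.1 hs.2) ?_
  rw [h.inv_image]
  have := h.inv_mem' hs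
  exact Ioo_mem_nhds this.1 this.2

lemma hasDerivAt_inv {s : ℝ} (hs : s ∈ Ioo (0 : ℝ) 1) :
    HasDerivAt (inv ψ t₂) (ψ' (inv ψ t₂ s))⁻¹ s := by
  have hm := h.inv_mem' hs
  refine HasDerivAt.of_local_left_inverse (h.inv_continuousAt hs) (h.deriv _ hm)
    (h.pos' _ hm).ne' ?_
  filter_upwards [Ioo_mem_nhds hs.1 hs.2] with y hy
  exact h.ψ_inv ⟨hy.1.le, hy.2.le⟩

end Crv

namespace WR

/-! ### path functions -/

/-- the cap `l_b(s) = log (ψ⁻¹(s)/s)` -/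
noncomputable def lbf (ψ : ℝ → ℝ) (t₂ s : ℝ) : ℝ := Real.log (Crv.inv ψ t₂ s / s)


/-- `h = a + η - (3/2) Y (l + l_b)` -/
noncomputable def hK (η s l lb : ℝ) : ℝ := aq s + η - 3 / 2 * (Y s * (l + lb))






section

variable {n : ℕ} {r ψ ψ' : ℝ → ℝ} {t₂ : ℝ}








/-- `h` along the path -/
noncomputable def hP (n : ℕ) (r ψ : ℝ → ℝ) (t₂ η s : ℝ) : ℝ := hK η s (ll n r s) (lbf ψ t₂ s)



















end

end WR

end Crest.Agent.R230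
end

-- ▼ part R230/RegXneg

/-!
# Row 230: positivity of `PA` for `k ≤ 0` in the uncapped region, large dimension (helper237)

`PA_k_nonpos` : `n ≥ 20`, `θ₀ = 3/2`, `0 ≤ θ₁`, `39/8 + 3 θ₁ ≤ σ`, `0 ≤ B ≤ b ≤ 6/25`, `0 ≤ μ ≤ 243/200`,
`θ₁ ≤ (1 - μ/2 - b)(n-1)`; region `0 < s < 1`, `l ≤ 11/20`, `s e^l ≤ 1`, `-1 < k ≤ 0`: no a-priori bound.
-/

set_option autoImplicit false

open MeasureTheory Set Filter Topology
open scoped Pointwise ENNReal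

namespace Crest.Agent.R230.WR

/-- `- log κ ≤ (1-κ)/√κ` for `0 < κ ≤ 1` -/
lemma neg_log_le {w : ℝ} (hw : 0 < w) (hw1 : w ≤ 1) : -Real.log (w ^ 2) ≤ (1 - w ^ 2) / w := by
  have h1 : 0 ≤ Real.log w⁻¹ := Real.log_nonneg ((one_le_inv₀ hw).2 hw1)
  have h2 := (Real.self_le_sinh_iff).2 h1
  rw [Real.sinh_log (inv_pos.2 hw), inv_inv] at h2
  rw [Real.log_inv] at h2
  rw [Real.log_pow]
  have e : (1 - w ^ 2) / w = w⁻¹ - w := by field_simp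
  rw [e]
  push_cast
  linarith





/-- `Y l ≤ s/2` if `0 ≤ l`, `s e^l ≤ 1` -/
lemma Yl_le {s l : ℝ} (hs : s ∈ Ioo (0 : ℝ) 1) (hl : 0 ≤ l) (hT : s * Real.exp l ≤ 1) :
    Y s * l ≤ s / 2 := by
  have hs0 := hs.1
  have h1 : l ≤ Real.log s⁻¹ := by
    rw [Real.le_log_iff_exp_le (inv_pos.2 hs0), le_inv_comm₀ (Real.exp_pos _) hs0, ← one_div,
      le_div_iff₀ (Real.exp_pos _)]
    exact hT
  have h2 := (Real.self_le_sinh_iff).2 (hl.trans h1)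
  rw [Real.sinh_log (inv_pos.2 hs0), inv_inv] at h2
  have h3 : l ≤ (s⁻¹ - s) / 2 := h1.trans h2
  have hY := Y_nonneg hs
  calc Y s * l ≤ Y s * ((s⁻¹ - s) / 2) := mul_le_mul_of_nonneg_left h3 hY
    _ = s / 2 := by
        unfold Y
        have := (one_sub_sq_pos hs).ne'
        field_simp

lemma aq_sub_ge {s : ℝ} (hs : s ∈ Ioo (0 : ℝ) 1) : 1 / 3 ≤ aq s - 3 / 2 * s := by
  have hc := cc_pos' hs
  have hc1 := cc_le_one s
  have hc2 := cc_sq' hs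
  have hs0 := hs.1
  unfold aq
  set c := cc s with hcd
  have h1 : 0 < 1 + c := by linarith
  -- s ≤ S, S = (10/9 (1+c) - 4/3 c²)/(1+c)
  have hpoly : (1 - c ^ 2) * (9 / 4 * (1 + c) ^ 2) ≤ (5 / 3 * (1 + c) - 2 * c ^ 2) ^ 2 := by
    nlinarith [sq_nonneg (c ^ 2 - 2 / 10 * c - 3 / 10), sq_nonneg (c ^ 2 - 13 / 20 * c), sq_nonneg (c - 13 / 20),
      mul_nonneg hc.le (sq_nonneg (c - 13 / 20)), mul_nonneg (mul_nonneg hc.le hc.le) (sq_nonneg (c - 13 / 20))]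
  have hR : 0 ≤ 5 / 3 * (1 + c) - 2 * c ^ 2 := by nlinarith
  have h2 : 3 / 2 * s * (1 + c) ≤ 5 / 3 * (1 + c) - 2 * c ^ 2 := by
    refine le_of_sq_le_sq ?_ hR
    have : (3 / 2 * s * (1 + c)) ^ 2 = (1 - c ^ 2) * (9 / 4 * (1 + c) ^ 2) := by
      rw [hc2]; ring
    rw [this]
    exact hpoly
  have h3 : 2 * c ^ 2 / (1 + c) ≤ 5 / 3 - 3 / 2 * s := by
    rw [div_le_iff₀ h1]
    nlinarith
  linarith



end Crest.Agent.R230.WR
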