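import Mathlib

-- ▼ part R230/PolyCheck
section

/-!
# Row 230: a small verified checker for positivity of polynomials in two variables on a box

Polynomials are lists (low degree first) of integers, polynomials in two variables are lists
(over the powers of the second variable) of polynomials in the first variable.
The test substitutes `x = (u + w z)/(d (1 + z))`, clears denominators and looks whether all
coefficients are nonnegative (this is the test of Bernstein).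
-/

set_option autoImplicit false

namespace Crest.Agent.R230.PolyC

/-! ## one variable -/

/-- value of a polynomial -/
noncomputable def ev : List ℤ → ℝ → ℝ
  | [], _ => 0
  | a :: L, x => (a : ℝ) + x * ev L x

/-- sum (written with the recursor: fast in the kernel) -/
def add (L : List ℤ) : List ℤ → List ℤ :=
  List.rec (motive := fun _ => List ℤ → List ℤ) (fun M => M)
    (fun a L' ih M => List.rec (motive := fun _ => List ℤ) (a :: L')
      (fun b M' _ => Int.add a b :: ih M') M) L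

theorem add_nil' (M : List ℤ) : add [] M = M := rfl
theorem add_cons_nil (a : ℤ) (L : List ℤ) : add (a :: L) [] = a :: L := rfl
theorem add_cons_cons (a b : ℤ) (L M : List ℤ) : add (a :: L) (b :: M) = (a + b) :: add L M := rfl

/-- multiple by an integer -/
def sm (k : ℤ) (L : List ℤ) : List ℤ :=
  List.rec (motive := fun _ => List ℤ) [] (fun a _ ih => Int.mul k a :: ih) L

theorem sm_nil (k : ℤ) : sm k [] = [] := rfl
theorem sm_cons (k a : ℤ) (L : List ℤ) : sm k (a :: L) = (k * a) :: sm k L := rfl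

/-- product -/
def mul (L M : List ℤ) : List ℤ :=
  List.rec (motive := fun _ => List ℤ) [] (fun a _ ih => add (sm a M) (0 :: ih)) L

theorem mul_nil' (M : List ℤ) : mul [] M = [] := rfl
theorem mul_cons (a : ℤ) (L M : List ℤ) : mul (a :: L) M = add (sm a M) (0 :: mul L M) := rfl

@[simp] theorem ev_nil (x : ℝ) : ev [] x = 0 := rfl
@[simp] theorem ev_cons (a : ℤ) (L : List ℤ) (x : ℝ) : ev (a :: L) x = a + x * ev L x := rfl

@[simp] theorem ev_add (L M : List ℤ) (x : ℝ) : ev (add L M) x = ev L x + ev M x := by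
  induction L generalizing M with
  | nil => simp [add_nil']
  | cons a L ih =>
    cases M with
    | nil => simp [add_cons_nil]
    | cons b M => simp only [add_cons_cons, ev_cons, ih]; push_cast; ring

@[simp] theorem ev_sm (k : ℤ) (L : List ℤ) (x : ℝ) : ev (sm k L) x = k * ev L x := by
  induction L with
  | nil => simp [sm_nil]
  | cons a L ih => simp only [sm_cons, ev_cons, ih]; push_cast; ring

@[simp] theorem ev_mul (L M : List ℤ) (x : ℝ) : ev (mul L M) x = ev L x * ev M x := by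
  induction L with
  | nil => simp [mul_nil']
  | cons a L ih => simp only [mul_cons, ev_cons, ev_add, ev_sm, ih]; push_cast; ring

/-- sign test -/
def nng : ℤ → Bool
  | Int.ofNat _ => true
  | Int.negSucc _ => false

theorem nng_iff (a : ℤ) : nng a = true ↔ 0 ≤ a := by
  cases a with
  | ofNat n => simp [nng]
  | negSucc n => simp [nng, Int.negSucc_not_nonneg]

/-- all coefficients are nonnegative -/
def nn (L : List ℤ) : Bool :=
  List.rec (motive := fun _ => Bool) true (fun a _ ih => and (nng a) ih) L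

theorem nn_cons (a : ℤ) (L : List ℤ) : nn (a :: L) = (nng a && nn L) := rfl

theorem ev_nonneg {L : List ℤ} (h : nn L = true) {x : ℝ} (hx : 0 ≤ x) : 0 ≤ ev L x := by
  induction L with
  | nil => simp
  | cons a L ih =>
    simp only [nn_cons, Bool.and_eq_true, nng_iff] at h
    have h1 : (0 : ℝ) ≤ a := by exact_mod_cast h.1
    have h2 := ih h.2
    simp only [ev_cons]
    positivity

/-! ## two variables -/

/-- value of a polynomial in two variables -/
noncomputable def ev2 : List (List ℤ) → ℝ → ℝ → ℝ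
  | [], _, _ => 0
  | A :: L, x, y => ev A x + y * ev2 L x y

/-- sum -/
def add2 (L : List (List ℤ)) : List (List ℤ) → List (List ℤ) :=
  List.rec (motive := fun _ => List (List ℤ) → List (List ℤ)) (fun M => M)
    (fun a L' ih M => List.rec (motive := fun _ => List (List ℤ)) (a :: L')
      (fun b M' _ => add a b :: ih M') M) L

theorem add2_nil' (M : List (List ℤ)) : add2 [] M = M := rfl
theorem add2_cons_nil (a : List ℤ) (L : List (List ℤ)) : add2 (a :: L) [] = a :: L := rfl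
theorem add2_cons_cons (a b : List ℤ) (L M : List (List ℤ)) :
    add2 (a :: L) (b :: M) = add a b :: add2 L M := rfl

/-- multiple by an integer -/
def sm2 (k : ℤ) (L : List (List ℤ)) : List (List ℤ) :=
  List.rec (motive := fun _ => List (List ℤ)) [] (fun a _ ih => sm k a :: ih) L

theorem sm2_nil (k : ℤ) : sm2 k [] = [] := rfl
theorem sm2_cons (k : ℤ) (a : List ℤ) (L : List (List ℤ)) : sm2 k (a :: L) = sm k a :: sm2 k L := rfl

/-- multiple by a polynomial in the first variable -/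
def pm2 (P : List ℤ) (L : List (List ℤ)) : List (List ℤ) :=
  List.rec (motive := fun _ => List (List ℤ)) [] (fun a _ ih => mul P a :: ih) L

theorem pm2_nil (P : List ℤ) : pm2 P [] = [] := rfl
theorem pm2_cons (P : List ℤ) (a : List ℤ) (L : List (List ℤ)) :
    pm2 P (a :: L) = mul P a :: pm2 P L := rfl

/-- product -/
def mul2 (L M : List (List ℤ)) : List (List ℤ) :=
  List.rec (motive := fun _ => List (List ℤ)) [] (fun a _ ih => add2 (pm2 a M) ([] :: ih)) L

theorem mul2_nil' (M : List (List ℤ)) : mul2 [] M = [] := rfl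
theorem mul2_cons (a : List ℤ) (L M : List (List ℤ)) :
    mul2 (a :: L) M = add2 (pm2 a M) ([] :: mul2 L M) := rfl

@[simp] theorem ev2_nil (x y : ℝ) : ev2 [] x y = 0 := rfl
@[simp] theorem ev2_cons (A : List ℤ) (L : List (List ℤ)) (x y : ℝ) :
    ev2 (A :: L) x y = ev A x + y * ev2 L x y := rfl

@[simp] theorem ev2_add (L M : List (List ℤ)) (x y : ℝ) :
    ev2 (add2 L M) x y = ev2 L x y + ev2 M x y := by
  induction L generalizing M with
  | nil => simp [add2_nil']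
  | cons a L ih =>
    cases M with
    | nil => simp [add2_cons_nil]
    | cons b M => simp only [add2_cons_cons, ev2_cons, ev_add, ih]; ring

@[simp] theorem ev2_sm (k : ℤ) (L : List (List ℤ)) (x y : ℝ) :
    ev2 (sm2 k L) x y = k * ev2 L x y := by
  induction L with
  | nil => simp [sm2_nil]
  | cons a L ih => simp only [sm2_cons, ev2_cons, ev_sm, ih]; ring

@[simp] theorem ev2_pm (P : List ℤ) (L : List (List ℤ)) (x y : ℝ) :
    ev2 (pm2 P L) x y = ev P x * ev2 L x y := by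
  induction L with
  | nil => simp [pm2_nil]
  | cons a L ih => simp only [pm2_cons, ev2_cons, ev_mul, ih]; ring

@[simp] theorem ev2_mul (L M : List (List ℤ)) (x y : ℝ) :
    ev2 (mul2 L M) x y = ev2 L x y * ev2 M x y := by
  induction L with
  | nil => simp [mul2_nil']
  | cons a L ih => simp only [mul2_cons, ev2_cons, ev2_add, ev2_pm, ev_nil, ih]; ring

/-- all coefficients are nonnegative -/
def nn2 (L : List (List ℤ)) : Bool :=
  List.rec (motive := fun _ => Bool) true (fun a _ ih => and (nn a) ih) L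

theorem nn2_cons (a : List ℤ) (L : List (List ℤ)) : nn2 (a :: L) = (nn a && nn2 L) := rfl

theorem ev2_nonneg {L : List (List ℤ)} (h : nn2 L = true) {x y : ℝ} (hx : 0 ≤ x) (hy : 0 ≤ y) :
    0 ≤ ev2 L x y := by
  induction L with
  | nil => simp
  | cons a L ih =>
    simp only [nn2_cons, Bool.and_eq_true] at h
    have h1 := ev_nonneg h.1 hx
    have h2 := ih h.2
    simp only [ev2_cons]
    positivity

/-! ## the substitution in one variable -/

/-- product with `u + w z` -/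
def ml (u w : ℤ) (L : List ℤ) : List ℤ := add (sm u L) (0 :: sm w L)

@[simp] theorem ev_ml (u w : ℤ) (L : List ℤ) (z : ℝ) : ev (ml u w L) z = (u + w * z) * ev L z := by
  simp only [ml, ev_add, ev_sm, ev_cons]; push_cast; ring

/-- `(d (1 + z))^n` -/
def pw (d : ℤ) : ℕ → List ℤ
  | 0 => [1]
  | n + 1 => ml d d (pw d n)

@[simp] theorem ev_pw (d : ℤ) (n : ℕ) (z : ℝ) : ev (pw d n) z = (d * (1 + z)) ^ n := by
  induction n with
  | zero => simp [pw]
  | succ n ih => simp only [pw, ev_ml, ih, pow_succ]; ring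

/-- the substitution -/
def mob (u w d : ℤ) : List ℤ → List ℤ
  | [] => []
  | a :: L => add (sm a (pw d (L.length + 1))) (ml u w (mob u w d L))

theorem ev_mob (u w d : ℤ) (L : List ℤ) {x z : ℝ} (hx : x * (d * (1 + z)) = u + w * z) :
    ev (mob u w d L) z = (d * (1 + z)) ^ L.length * ev L x := by
  induction L with
  | nil => simp [mob]
  | cons a L ih =>
    simp only [mob, ev_add, ev_sm, ev_pw, ev_ml, ih, ev_cons, List.length_cons, ← hx]
    ring

/-- padding with zeros to length `n` -/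
def padTo : ℕ → List ℤ → List ℤ
  | 0, L => L
  | n + 1, [] => 0 :: padTo n []
  | n + 1, a :: L => a :: padTo n L

theorem ev_padTo (n : ℕ) (L : List ℤ) (x : ℝ) : ev (padTo n L) x = ev L x := by
  induction n generalizing L with
  | zero => rfl
  | succ n ih =>
    cases L with
    | nil => simp [padTo, ih]
    | cons a L => simp [padTo, ih]

/-- the substitution in the inner variable, all lists of length `n` -/
def mobI (n : ℕ) (u w d : ℤ) : List (List ℤ) → List (List ℤ)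
  | [] => []
  | A :: L => mob u w d (padTo n A) :: mobI n u w d L

/-- all inner lists have length `n` after padding -/
def lenOk (n : ℕ) : List (List ℤ) → Bool
  | [] => true
  | A :: L => ((padTo n A).length == n) && lenOk n L

theorem ev_mobI (n : ℕ) (u w d : ℤ) (P : List (List ℤ)) (h : lenOk n P = true) {x z : ℝ} (y : ℝ)
    (hx : x * (d * (1 + z)) = u + w * z) :
    ev2 (mobI n u w d P) z y = (d * (1 + z)) ^ n * ev2 P x y := by
  induction P with
  | nil => simp [mobI]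
  | cons A L ih =>
    simp only [lenOk, Bool.and_eq_true, beq_iff_eq] at h
    simp only [mobI, ev2_cons, ev_mob u w d _ hx, h.1, ev_padTo, ih h.2]
    ring

/-- multiples of `A` by the entries of a list -/
def out (A : List ℤ) : List ℤ → List (List ℤ)
  | [] => []
  | k :: L => sm k A :: out A L

@[simp] theorem ev_out (A L : List ℤ) (x y : ℝ) : ev2 (out A L) x y = ev A x * ev L y := by
  induction L with
  | nil => simp [out]
  | cons a L ih => simp only [out, ev2_cons, ev_sm, ih, ev_cons]; ring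

/-- product with `u + w z` in the outer variable -/
def ml2 (u w : ℤ) (L : List (List ℤ)) : List (List ℤ) := add2 (sm2 u L) ([] :: sm2 w L)

@[simp] theorem ev_ml2 (u w : ℤ) (L : List (List ℤ)) (x z : ℝ) :
    ev2 (ml2 u w L) x z = (u + w * z) * ev2 L x z := by
  simp only [ml2, ev2_add, ev2_sm, ev2_cons, ev_nil]; ring

/-- the substitution in the outer variable -/
def mobO (u w d : ℤ) : List (List ℤ) → List (List ℤ)
  | [] => []
  | A :: L => add2 (out A (pw d (L.length + 1))) (ml2 u w (mobO u w d L))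

theorem ev_mobO (u w d : ℤ) (L : List (List ℤ)) (x : ℝ) {y z : ℝ}
    (hy : y * (d * (1 + z)) = u + w * z) :
    ev2 (mobO u w d L) x z = (d * (1 + z)) ^ L.length * ev2 L x y := by
  induction L with
  | nil => simp [mobO]
  | cons A L ih =>
    simp only [mobO, ev2_add, ev_out, ev_pw, ev_ml2, ih, ev2_cons, List.length_cons, ← hy]
    ring

/-- maximal length -/
def maxLen : List (List ℤ) → ℕ
  | [] => 0
  | A :: L => max A.length (maxLen L)

/-- the test on `[u/d, w/d] × [u'/d', w'/d']` -/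
def chk (P : List (List ℤ)) (u w d u' w' d' : ℤ) : Bool :=
  lenOk (maxLen P) P && nn2 (mobO u' w' d' (mobI (maxLen P) u w d P))

theorem pointZ {u w d : ℤ} (hd : (0:ℝ) < d) {x : ℝ} (h0 : (u:ℝ) ≤ d * x) (h1 : d * x < w) :
    ∃ z : ℝ, 0 ≤ z ∧ x * (d * (1 + z)) = u + w * z := by
  have h2 : 0 < (w:ℝ) - d * x := by linarith
  have hne : (w:ℝ) - d * x ≠ 0 := h2.ne'
  refine ⟨(d * x - u) / (w - d * x), div_nonneg (by linarith) h2.le, ?_⟩
  have e : (d * x - u) / (w - d * x) * (w - d * x) = d * x - u := div_mul_cancel₀ _ hne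
  apply mul_right_cancel₀ hne
  linear_combination (x * d - w) * e

theorem continuous_ev (L : List ℤ) : Continuous (ev L) := by
  induction L with
  | nil => exact continuous_const
  | cons a L ih =>
    have : ev (a :: L) = fun x => (a : ℝ) + x * ev L x := by ext x; simp
    rw [this]
    exact continuous_const.add (continuous_id.mul ih)

theorem continuous_ev2 (L : List (List ℤ)) : Continuous (fun p : ℝ × ℝ => ev2 L p.1 p.2) := by
  induction L with
  | nil => simp only [ev2_nil]; exact continuous_const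
  | cons A L ih =>
    simp only [ev2_cons]
    exact ((continuous_ev A).comp continuous_fst).add (continuous_snd.mul ih)

/-- extension of an inequality to the closed box -/
theorem nonneg_closed {f : ℝ × ℝ → ℝ} (hf : Continuous f) {a b c d : ℝ} (hab : a < b) (hcd : c < d)
    (h : ∀ x y, a ≤ x → x < b → c ≤ y → y < d → 0 ≤ f (x, y)) {x y : ℝ}
    (h1 : a ≤ x) (h2 : x ≤ b) (h3 : c ≤ y) (h4 : y ≤ d) : 0 ≤ f (x, y) := by
  have hcl : (x, y) ∈ closure (Set.Ico a b ×ˢ Set.Ico c d) := by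
    rw [closure_prod_eq, closure_Ico hab.ne, closure_Ico hcd.ne]
    exact ⟨⟨h1, h2⟩, ⟨h3, h4⟩⟩
  have hc : IsClosed {p : ℝ × ℝ | 0 ≤ f p} := isClosed_le continuous_const hf
  have hs : Set.Ico a b ×ˢ Set.Ico c d ⊆ {p : ℝ × ℝ | 0 ≤ f p} := by
    rintro ⟨x', y'⟩ ⟨hx, hy⟩
    exact h x' y' hx.1 hx.2 hy.1 hy.2
  exact closure_minimal hs hc hcl

theorem chk_sound {P : List (List ℤ)} {u w d u' w' d' : ℤ} (h : chk P u w d u' w' d' = true)
    (hd : 0 < d) (hd' : 0 < d') (huw : u < w) (huw' : u' < w') {x y : ℝ}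
    (h0 : (u:ℝ) ≤ d * x) (h1 : d * x ≤ w) (h2 : (u':ℝ) ≤ d' * y) (h3 : d' * y ≤ w') :
    0 ≤ ev2 P x y := by
  simp only [chk, Bool.and_eq_true] at h
  have hdR : (0:ℝ) < d := by exact_mod_cast hd
  have hdR' : (0:ℝ) < d' := by exact_mod_cast hd'
  have huwR : (u:ℝ) < w := by exact_mod_cast huw
  have huwR' : (u':ℝ) < w' := by exact_mod_cast huw'
  have key : ∀ x y : ℝ, (u:ℝ) / d ≤ x → x < w / d → (u':ℝ) / d' ≤ y → y < w' / d' →
      0 ≤ (fun p : ℝ × ℝ => ev2 P p.1 p.2) (x, y) := by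
    intro x y a1 a2 a3 a4
    rw [div_le_iff₀ hdR] at a1
    rw [lt_div_iff₀ hdR] at a2
    rw [div_le_iff₀ hdR'] at a3
    rw [lt_div_iff₀ hdR'] at a4
    obtain ⟨z, hz, ez⟩ := pointZ (u := u) (w := w) hdR (x := x) (by linarith) (by linarith)
    obtain ⟨z', hz', ez'⟩ := pointZ (u := u') (w := w') hdR' (x := y) (by linarith) (by linarith)
    have e1 := ev_mobO u' w' d' (mobI (maxLen P) u w d P) z ez'
    rw [ev_mobI (maxLen P) u w d P h.1 y ez] at e1
    have e2 := ev2_nonneg h.2 hz hz'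
    rw [e1] at e2
    have p1 : 0 < ((d':ℝ) * (1 + z')) ^ (mobI (maxLen P) u w d P).length := by positivity
    have p2 : 0 < ((d:ℝ) * (1 + z)) ^ (maxLen P) := by positivity
    have e3 := nonneg_of_mul_nonneg_right e2 p1
    exact nonneg_of_mul_nonneg_right e3 p2
  refine nonneg_closed (continuous_ev2 P) (a := (u:ℝ) / d) (b := w / d) (c := (u':ℝ) / d')
    (d := w' / d') ?_ ?_ key ?_ ?_ ?_ ?_
  · exact (div_lt_div_iff_of_pos_right hdR).mpr huwR
  · exact (div_lt_div_iff_of_pos_right hdR').mpr huwR'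
  · rw [div_le_iff₀ hdR]; linarith
  · rw [le_div_iff₀ hdR]; linarith
  · rw [div_le_iff₀ hdR']; linarith
  · rw [le_div_iff₀ hdR']; linarith

end Crest.Agent.R230.PolyC
private theorem rz_fdd3da8939 : type_of% @_root_.Crest.Agent.R230.PolyC.lenOk.eq_def := @_root_.Crest.Agent.R230.PolyC.lenOk.eq_def -- L234
private theorem rz_b17185e319 : type_of% @_root_.Crest.Agent.R230.PolyC.lenOk.eq_1 := @_root_.Crest.Agent.R230.PolyC.lenOk.eq_1 -- L234
private theorem rz_f16df262e0 : type_of% @_root_.Crest.Agent.R230.PolyC.mob.eq_def := @_root_.Crest.Agent.R230.PolyC.mob.eq_def -- L202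
private theorem rz_a081d6a1bc : type_of% @_root_.Crest.Agent.R230.PolyC.mob.eq_1 := @_root_.Crest.Agent.R230.PolyC.mob.eq_1 -- L202
private theorem rz_8844cb6cd1 : type_of% @_root_.Crest.Agent.R230.PolyC.mobI.eq_def := @_root_.Crest.Agent.R230.PolyC.mobI.eq_def -- L229
private theorem rz_2d74144006 : type_of% @_root_.Crest.Agent.R230.PolyC.mobI.eq_1 := @_root_.Crest.Agent.R230.PolyC.mobI.eq_1 -- L229
private theorem rz_6c8ec786da : type_of% @_root_.Crest.Agent.R230.PolyC.mobO.eq_def := @_root_.Crest.Agent.R230.PolyC.mobO.eq_def -- L266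
private theorem rz_2e40e6f849 : type_of% @_root_.Crest.Agent.R230.PolyC.mobO.eq_1 := @_root_.Crest.Agent.R230.PolyC.mobO.eq_1 -- L266
private theorem rz_d676423ed6 : type_of% @_root_.Crest.Agent.R230.PolyC.nng.eq_1 := @_root_.Crest.Agent.R230.PolyC.nng.eq_1 -- L69
private theorem rz_07a766c84d : type_of% @_root_.Crest.Agent.R230.PolyC.out.eq_def := @_root_.Crest.Agent.R230.PolyC.out.eq_def -- L249
private theorem rz_244e01cb8b : type_of% @_root_.Crest.Agent.R230.PolyC.out.eq_1 := @_root_.Crest.Agent.R230.PolyC.out.eq_1 -- L249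
private theorem rz_57710a06dd : type_of% @_root_.Crest.Agent.R230.PolyC.padTo.eq_def := @_root_.Crest.Agent.R230.PolyC.padTo.eq_def -- L215
private theorem rz_129965d1ff : type_of% @_root_.Crest.Agent.R230.PolyC.padTo.eq_1 := @_root_.Crest.Agent.R230.PolyC.padTo.eq_1 -- L215
private theorem rz_89dd6089d8 : type_of% @_root_.Crest.Agent.R230.PolyC.pw.eq_def := @_root_.Crest.Agent.R230.PolyC.pw.eq_def -- L192
private theorem rz_29975ad162 : type_of% @_root_.Crest.Agent.R230.PolyC.pw.eq_1 := @_root_.Crest.Agent.R230.PolyC.pw.eq_1 -- L192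
end

-- ▼ part R230/SD5Defs
section

/-!
# Row 230: the polynomials of the certificates for `SDL 4`
-/

set_option autoImplicit false

namespace Crest.Agent.R230.SD

/-- slice mass of the surface density, divided by the square of the tangent length (lower bound) -/
noncomputable def m5 (c r : ℝ) : ℝ := 50929 / 120000 * (c ^ 2 + 2 * c * r + 3 * r ^ 2)

/-- `(1 - c²)` times (slice mass of the volume density, plus the gauge, plus a small multiple of `m5`) -/
noncomputable def B5 (c r : ℝ) : ℝ :=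
  (1 - c ^ 2) * (153 / 280 * (c ^ 3 + 2 * c ^ 2 * r + 3 * c * r ^ 2 + 4 * r ^ 3) -
    5 / 49 * (c ^ 5 + 2 * c ^ 4 * r + 3 * c ^ 3 * r ^ 2 + 4 * c ^ 2 * r ^ 3 + 5 * c * r ^ 4 + 6 * r ^ 5)) +
  6 / 245 * (r - c) ^ 2 * (c ^ 3 + 4 * c ^ 2 * r + 10 * c * r ^ 2 + 20 * r ^ 3) +
  3 / 50 * (1 - c ^ 2) * ((r - c) ^ 3 * (6 * c * (1 - c ^ 2) - (r - c))) +
  1 / 10000 * (m5 c r * (1 - c ^ 2))

/-- lower bound of the swept mass, form A -/
noncomputable def CA5 (a b c r : ℝ) : ℝ :=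
  50929 / 30000 * (r ^ 2 * (a * (r - c) ^ 2 - b * (1 - c ^ 2)))

/-- lower bound of the swept mass, form M -/
noncomputable def CM5 (x0 Xb lam c r : ℝ) : ℝ :=
  50929 / 30000 * ((3 / 2 * x0 * (r - c) ^ 2 - 1 / 2 * x0 ^ 3 * (1 - c ^ 2)) *
    (r ^ 2 / 2 - Xb / 10 + lam * (c ^ 2 / 12 + c * r / 4)))

/-- lower bound of the swept mass, form B -/
noncomputable def CB5 (t0 lam x0 c r : ℝ) : ℝ :=
  50929 / 30000 * ((r ^ 3 - 1) * ((1 - r * c) * (1 + c ^ 2 / 2)) * (1 - c ^ 2) +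
    ((3 / 4 * t0 - 1 / 4 * t0 ^ 3) * (1 - r * c) ^ 2 - (1 / 4 * t0 ^ 3 - 3 / 20 * t0 ^ 5) * (1 - c ^ 2)) +
    lam * (c ^ 2 / 12 + c * r / 4) * (3 / 2 * x0 * (r - c) ^ 2 - 1 / 2 * x0 ^ 3 * (1 - c ^ 2)))

/-- lower bound of the swept mass, second form B -/
noncomputable def CC5 (ls t0 lam x0 c r : ℝ) : ℝ :=
  50929 / 30000 * (3 * r * (r - 1) * ((1 - r * c) * ls) * (1 - c ^ 2) +
    ((3 / 4 * t0 - 1 / 4 * t0 ^ 3) * (1 - r * c) ^ 2 - (1 / 4 * t0 ^ 3 - 3 / 20 * t0 ^ 5) * (1 - c ^ 2)) +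
    lam * (c ^ 2 / 12 + c * r / 4) * (3 / 2 * x0 * (r - c) ^ 2 - 1 / 2 * x0 ^ 3 * (1 - c ^ 2)))

/-- the chord inequality -/
noncomputable def Fi5 (al s CD c r : ℝ) : ℝ :=
  4 / 3 * m5 c r * ((1 - c ^ 2) * al + s * CD) - B5 c r

end Crest.Agent.R230.SD
end

-- ▼ part R230/SD5Poly
section

/-!
# Row 230: the certificates for `SDL 4`, polynomials with integer parameters
-/

set_option autoImplicit false

namespace Crest.Agent.R230.SD

open PolyC

/-! ## The polynomials in `(c, r)` (inner variable `c`, outer variable `r`) -/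

/-- `1 - c²` -/
def pD : List (List ℤ) := [[1, 0, -1]]
/-- `(r - c)²` -/
def pQ : List (List ℤ) := [[0, 0, 1], [0, -2], [1]]
/-- `120000 m5` -/
def pM : List (List ℤ) := [[0, 0, 50929], [0, 101858], [152787]]
/-- `58800000000 B5` -/
def pB : List (List ℤ) :=
  add2 (mul2 pD (add2
    [[0, 0, 0, 32130000000, 0, -6000000000], [0, 0, 64260000000, 0, -12000000000],
      [0, 96390000000, 0, -18000000000], [128520000000, 0, -24000000000], [0, -30000000000],
      [-36000000000]]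
    (add2 (sm2 3528000000 (mul2 (mul2 pQ [[0, -1], [1]]) [[0, 7, 0, -6], [-1]])) (sm2 49 pM))))
  (mul2 pQ [[0, 0, 0, 1440000000], [0, 0, 5760000000], [0, 14400000000], [28800000000]])

/-- `16000000 (3/2 x0 (r - c)² - 1/2 x0³ (1 - c²))`, `x0 = X/200` -/
def pLX (X : ℤ) : List (List ℤ) := add2 (sm2 (120000 * X) pQ) (sm2 (-(X * X * X)) pD)

/-- form A, times `3 * 10^9` -/
def pA (a b : ℤ) : List (List ℤ) :=
  mul2 [[], [], [254645]] (add2 (sm2 (10 * a) pQ) (sm2 (-b) pD))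

/-- form M, times `5760000 * 10^9` -/
def pMM (X Xb lam : ℤ) : List (List ℤ) :=
  mul2 (pLX X) (sm2 50929 [[-(12 * Xb), 0, 5 * lam], [0, 15 * lam], [6000]])

/-- form B, times `576000000 * 10^9` -/
def pBB (T lam X : ℤ) : List (List ℤ) :=
  sm2 50929 (add2 (add2
    (mul2 (mul2 [[-1], [], [], [1]] [[1], [0, -1]]) (mul2 [[2, 0, 1]] (sm2 9600000000000 pD)))
    (sm2 (600000 * (120000 * T - T * T * T)) [[1], [0, -2], [0, 0, 1]]))
    (add2 (sm2 (-(3 * (200000 * (T * T * T) - 3 * (T * T * T * T * T)))) pD)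
      (mul2 (sm2 (500 * lam) [[0, 0, 1], [0, 3]]) (pLX X))))

/-- form C, times `576000000 * 10^9` -/
def pCC (ls T lam X : ℤ) : List (List ℤ) :=
  sm2 50929 (add2 (add2
    (mul2 (mul2 [[], [-1], [1]] [[1], [0, -1]]) (sm2 (57600000000 * ls) pD))
    (sm2 (600000 * (120000 * T - T * T * T)) [[1], [0, -2], [0, 0, 1]]))
    (add2 (sm2 (-(3 * (200000 * (T * T * T) - 3 * (T * T * T * T * T)))) pD)
      (mul2 (sm2 (500 * lam) [[0, 0, 1], [0, 3]]) (pLX X))))

/-- the chord inequality, times `3 * 58800000000 * S * K` -/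
def pFi (G0 G1 K : ℤ) (CD : List (List ℤ)) : List (List ℤ) :=
  add2 (sm2 1960 (mul2 pM (add2 (sm2 (K * (G0 * (G1 * G1 + G1 * G0) + 1000000000)) pD) CD)))
    (sm2 (-(3 * (G1 * G1 + G1 * G0 + G0 * G0) * K)) pB)

/-- the ceiling inequality, times `3 * 58800000000` -/
def pG (G1 : ℤ) : List (List ℤ) :=
  add2 (sm2 (1960 * G1) (mul2 pM pD)) (sm2 (-3) pB)

/-- the floor inequality, times `K * 10^9` -/
def pC0 (G0 K : ℤ) (CD : List (List ℤ)) : List (List ℤ) :=
  add2 CD (sm2 (-(K * (G0 * G0 * G0 - 1000000000))) pD)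

/-- kind of coordinates: `0`: `(c, r)`; `1`: `r = 1 - v (1 - c)`; `2`: `r = 1 + v (1 - c)`;
`3`: `c r = c + v (1 - c)` -/
def comp (R : List (List ℤ)) : List (List ℤ) → List (List ℤ)
  | [] => []
  | A :: L => add2 [A] (mul2 R (comp R L))

/-- `n` zeros in front -/
def shiftC : ℕ → List ℤ → List ℤ
  | 0, A => A
  | n + 1, A => 0 :: shiftC n A

/-- homogeneous composition -/
def compH (R : List (List ℤ)) : List (List ℤ) → List (List ℤ)
  | [] => []
  | A :: L => add2 [shiftC L.length A] (mul2 R (compH R L))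

/-- division by `1 - c` -/
def psum (acc : ℤ) : List ℤ → List ℤ
  | [] => []
  | a :: L => (acc + a) :: psum (acc + a) L

/-- division by `1 - c` of all coefficients -/
def psum2 : List (List ℤ) → List (List ℤ)
  | [] => []
  | A :: L => psum 0 A :: psum2 L

/-- sum of the coefficients -/
def sumL : List ℤ → ℤ
  | [] => 0
  | a :: L => a + sumL L

/-- all inner polynomials vanish at `1` -/
def zer : List (List ℤ) → Bool
  | [] => true
  | A :: L => decide (sumL A = 0) && zer L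

/-- the test of a polynomial in `(c, r)` on a box of the given kind -/
def chkK (kind : ℕ) (P : List (List ℤ)) (u w d u' w' d' : ℤ) : Bool :=
  match kind with
  | 0 => chk P u w d u' w' d'
  | 1 => zer (comp [[1], [-1, 1]] P) && chk (psum2 (comp [[1], [-1, 1]] P)) u w d u' w' d'
  | 2 => zer (comp [[1], [1, -1]] P) && chk (psum2 (comp [[1], [1, -1]] P)) u w d u' w' d'
  | _ => zer (compH [[0, 1], [1, -1]] P) && chk (psum2 (compH [[0, 1], [1, -1]] P)) u w d u' w' d'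

/-- coefficients (times 40000) of `(r - c)² - (x/200)² (1 - c²)` -/
def pXa (xa : ℤ) : List (List ℤ) := add2 (sm2 40000 pQ) (sm2 (-(xa * xa)) pD)
/-- `(x/200)² (1 - c²) - (r - c)²`, times 40000 -/
def pXb (xb : ℤ) : List (List ℤ) := add2 (sm2 (-40000) pQ) (sm2 (xb * xb) pD)
/-- `X/100 (1 - c²) - (r - c)²`, times 100 -/
def pXc (xb : ℤ) : List (List ℤ) := add2 (sm2 (-100) pQ) (sm2 xb pD)
/-- `w/100 r² (1 - c²) - (r - c)²`, times 100 -/
def pW (W : ℤ) : List (List ℤ) := add2 (sm2 (-100) pQ) (mul2 [[], [], [W]] pD)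
/-- second factor of form M, times `12000 (1 - c²)` -/
def pG2 (Xb lam : ℤ) : List (List ℤ) :=
  mul2 pD [[-(12 * Xb), 0, 5 * lam], [0, 15 * lam], [6000]]
/-- the line of form A: `20000 (x³ (1 + x²/2) - (a/2000 x² - b/20000) (1 + x²)²)` -/
def pL (a b : ℤ) : List ℤ :=
  [b, 0, 2 * b - 10 * a, 20000, b - 20 * a, 10000, -(10 * a)]

/-- one variable test with bisection -/
def chk1 : ℕ → List ℤ → ℤ → ℤ → ℤ → Bool
  | 0, P, u, w, d => chk [P] u w d 0 1 1
  | n + 1, P, u, w, d => chk [P] u w d 0 1 1 ||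
      (chk1 n P (2 * u) (u + w) (2 * d) && chk1 n P (u + w) (2 * w) (2 * d))

/-! ## Values -/

theorem ev_pD (c r : ℝ) : ev2 pD c r = 1 - c ^ 2 := by
  simp only [pD, ev2_cons, ev2_nil, ev_cons, ev_nil]; push_cast; ring

theorem ev_pQ (c r : ℝ) : ev2 pQ c r = (r - c) ^ 2 := by
  simp only [pQ, ev2_cons, ev2_nil, ev_cons, ev_nil]; push_cast; ring

theorem ev_pM (c r : ℝ) : ev2 pM c r = 120000 * m5 c r := by
  simp only [pM, ev2_cons, ev2_nil, ev_cons, ev_nil]; unfold m5; push_cast; ring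

theorem ev_pB (c r : ℝ) : ev2 pB c r = 58800000000 * B5 c r := by
  simp only [pB, ev2_add, ev2_mul, ev2_sm, ev_pD, ev_pQ, ev_pM, ev2_cons, ev2_nil, ev_cons, ev_nil]
  unfold B5
  push_cast
  ring

theorem ev_pLX (X : ℤ) (c r : ℝ) : ev2 (pLX X) c r =
    16000000 * (3 / 2 * (X / 200) * (r - c) ^ 2 - 1 / 2 * (X / 200) ^ 3 * (1 - c ^ 2)) := by
  simp only [pLX, ev2_add, ev2_sm, ev_pD, ev_pQ]
  push_cast
  ring

theorem ev_pA (a b : ℤ) (c r : ℝ) :
    ev2 (pA a b) c r = (3 : ℤ) * 1000000000 * CA5 (a / 2000) (b / 20000) c r := by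
  simp only [pA, ev2_add, ev2_mul, ev2_sm, ev_pD, ev_pQ, ev2_cons, ev2_nil, ev_cons, ev_nil]
  unfold CA5
  push_cast
  ring

theorem ev_pMM (X Xb lam : ℤ) (c r : ℝ) :
    ev2 (pMM X Xb lam) c r = (5760000 : ℤ) * 1000000000 * CM5 (X / 200) (Xb / 100) (lam / 200) c r := by
  simp only [pMM, ev2_mul, ev2_sm, ev_pLX, ev2_cons, ev2_nil, ev_cons, ev_nil]
  unfold CM5
  push_cast
  ring

theorem ev_pBB (T lam X : ℤ) (c r : ℝ) :
    ev2 (pBB T lam X) c r = (576000000 : ℤ) * 1000000000 * CB5 (T / 200) (lam / 200) (X / 200) c r := by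
  simp only [pBB, ev2_mul, ev2_add, ev2_sm, ev_pLX, ev_pD, ev2_cons, ev2_nil, ev_cons, ev_nil]
  unfold CB5
  push_cast
  ring

theorem ev_pCC (ls T lam X : ℤ) (c r : ℝ) :
    ev2 (pCC ls T lam X) c r =
      (576000000 : ℤ) * 1000000000 * CC5 (ls / 1000) (T / 200) (lam / 200) (X / 200) c r := by
  simp only [pCC, ev2_mul, ev2_add, ev2_sm, ev_pLX, ev_pD, ev2_cons, ev2_nil, ev_cons, ev_nil]
  unfold CC5
  push_cast
  ring

/-- slope of the chord of the cube root -/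
noncomputable def sl (g0 g1 : ℝ) : ℝ := 1 / (g1 ^ 2 + g1 * g0 + g0 ^ 2)

/-- constant term of the chord of the cube root -/
noncomputable def ic (g0 g1 : ℝ) : ℝ := g0 - sl g0 g1 * (g0 ^ 3 - 1)

theorem ev_pFi {G0 G1 K : ℤ} {CDP : List (List ℤ)} {CD c r : ℝ} (h0 : 0 < G0) (h1 : 0 < G1)
    (hCD : ev2 CDP c r = K * 1000000000 * CD) :
    ev2 (pFi G0 G1 K CDP) c r =
      3 * 58800000000 * (((G1:ℝ) ^ 2 + G1 * G0 + (G0:ℝ) ^ 2) * K) *
        Fi5 (ic (G0 / 1000) (G1 / 1000)) (sl (G0 / 1000) (G1 / 1000)) CD c r := by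
  have h0' : (0:ℝ) < G0 := by exact_mod_cast h0
  have h1' : (0:ℝ) < G1 := by exact_mod_cast h1
  simp only [pFi, ev2_add, ev2_mul, ev2_sm, ev_pD, ev_pM, ev_pB, hCD]
  unfold Fi5 ic
  have hs : sl ((G0:ℝ) / 1000) (G1 / 1000) * ((G1:ℝ) ^ 2 + G1 * G0 + (G0:ℝ) ^ 2) = 1000000 := by
    unfold sl
    field_simp
    ring
  set s := sl ((G0:ℝ) / 1000) (G1 / 1000)
  push_cast
  linear_combination (-(3 * 58800000000 * (K:ℝ) * (4 / 3) * m5 c r *
    (-(((G0:ℝ) / 1000) ^ 3 - 1) * (1 - c ^ 2) + CD))) * hs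

theorem ev_pG (G1 : ℤ) (c r : ℝ) :
    ev2 (pG G1) c r = 3 * 58800000000 * (4 / 3 * (G1 / 1000) * m5 c r * (1 - c ^ 2) - B5 c r) := by
  simp only [pG, ev2_add, ev2_mul, ev2_sm, ev_pD, ev_pM, ev_pB]
  push_cast
  ring

theorem ev_pC0 {G0 K : ℤ} {CDP : List (List ℤ)} {CD c r : ℝ}
    (hCD : ev2 CDP c r = K * 1000000000 * CD) :
    ev2 (pC0 G0 K CDP) c r =
      1000000000 * K * (CD - (((G0:ℝ) / 1000) ^ 3 - 1) * (1 - c ^ 2)) := by
  simp only [pC0, ev2_add, ev2_sm, ev_pD, hCD]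
  push_cast
  ring

theorem ev_pXa (xa : ℤ) (c r : ℝ) :
    ev2 (pXa xa) c r = 40000 * ((r - c) ^ 2 - ((xa:ℝ) / 200) ^ 2 * (1 - c ^ 2)) := by
  simp only [pXa, ev2_add, ev2_sm, ev_pD, ev_pQ]
  push_cast
  ring

theorem ev_pXb (xb : ℤ) (c r : ℝ) :
    ev2 (pXb xb) c r = 40000 * (((xb:ℝ) / 200) ^ 2 * (1 - c ^ 2) - (r - c) ^ 2) := by
  simp only [pXb, ev2_add, ev2_sm, ev_pD, ev_pQ]
  push_cast
  ring

theorem ev_pXc (xb : ℤ) (c r : ℝ) :
    ev2 (pXc xb) c r = 100 * ((xb:ℝ) / 100 * (1 - c ^ 2) - (r - c) ^ 2) := by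
  simp only [pXc, ev2_add, ev2_sm, ev_pD, ev_pQ]
  push_cast
  ring

theorem ev_pW (W : ℤ) (c r : ℝ) :
    ev2 (pW W) c r = 100 * ((W:ℝ) / 100 * (1 - c ^ 2) * r ^ 2 - (r - c) ^ 2) := by
  simp only [pW, ev2_add, ev2_mul, ev2_sm, ev_pD, ev_pQ, ev2_cons, ev2_nil, ev_cons, ev_nil]
  push_cast
  ring

theorem ev_pG2 (Xb lam : ℤ) (c r : ℝ) :
    ev2 (pG2 Xb lam) c r = 12000 * (r ^ 2 / 2 - (Xb / 100) / 10 +
      (lam / 200) * (c ^ 2 / 12 + c * r / 4)) * (1 - c ^ 2) := by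
  simp only [pG2, ev2_mul, ev_pD, ev2_cons, ev2_nil, ev_cons, ev_nil]
  push_cast
  ring

theorem ev_pL (a b : ℤ) (x : ℝ) :
    ev (pL a b) x = 20000 * (x ^ 3 * (1 + x ^ 2 / 2) -
      ((a:ℝ) / 2000 * x ^ 2 - (b:ℝ) / 20000) * (1 + x ^ 2) ^ 2) := by
  simp only [pL, ev_cons, ev_nil]
  push_cast
  ring

/-! ## Soundness of the coordinates -/

theorem ev_comp (R P : List (List ℤ)) (c v : ℝ) : ev2 (comp R P) c v = ev2 P c (ev2 R c v) := by
  induction P with
  | nil => simp [comp]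
  | cons A L ih => simp only [comp, ev2_add, ev2_mul, ih, ev2_cons, ev2_nil]; ring

theorem ev_shiftC (n : ℕ) (A : List ℤ) (c : ℝ) : ev (shiftC n A) c = c ^ n * ev A c := by
  induction n with
  | zero => simp [shiftC]
  | succ n ih => simp only [shiftC, ev_cons, ih, pow_succ]; push_cast; ring

theorem ev_compH (R P : List (List ℤ)) {c v r : ℝ} (h : ev2 R c v = c * r) :
    c * ev2 (compH R P) c v = c ^ P.length * ev2 P c r := by
  induction P with
  | nil => simp [compH]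
  | cons A L ih =>
    simp only [compH, ev2_add, ev2_mul, ev2_cons, ev2_nil, ev_shiftC, h, List.length_cons, pow_succ]
    linear_combination (c * r) * ih

theorem ev_psum (acc : ℤ) (L : List ℤ) (x : ℝ) :
    (1 - x) * ev (psum acc L) x = acc + ev L x - x ^ L.length * ((acc + sumL L : ℤ) : ℝ) := by
  induction L generalizing acc with
  | nil => simp [psum, sumL]
  | cons a L ih =>
    have := ih (acc + a)
    simp only [psum, sumL, ev_cons, List.length_cons, pow_succ]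
    push_cast at this ⊢
    linear_combination x * this

theorem ev_psum2 {P : List (List ℤ)} (h : zer P = true) (x y : ℝ) :
    (1 - x) * ev2 (psum2 P) x y = ev2 P x y := by
  induction P with
  | nil => simp [psum2]
  | cons A L ih =>
    simp only [zer, Bool.and_eq_true, decide_eq_true_eq] at h
    have h1 := ev_psum 0 A x
    rw [zero_add, h.1] at h1
    simp only [Int.cast_zero, mul_zero, sub_zero, zero_add] at h1
    have h2 := ih h.2
    simp only [psum2, ev2_cons]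
    linear_combination h1 + y * h2

/-- the coordinates -/
def rel (k : ℕ) (c v r : ℝ) : Prop :=
  match k with
  | 0 => v = r
  | 1 => r = 1 - v * (1 - c)
  | 2 => r = 1 + v * (1 - c)
  | _ => c * r = c + v * (1 - c) ∧ 0 < c

theorem chkK_sound {k : ℕ} {P : List (List ℤ)} {u w u' w' : ℤ}
    (h : chkK k P u w 32 u' w' 32 = true) (huw : u < w) (huw' : u' < w') {c v r : ℝ} (hc1 : c ≤ 1)
    (hrel : rel k c v r) (h0 : (u:ℝ) ≤ 32 * c) (h1 : 32 * c ≤ w) (h2 : (u':ℝ) ≤ 32 * v)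
    (h3 : 32 * v ≤ w') : 0 ≤ ev2 P c r := by
  have hD : 0 ≤ 1 - c := by linarith
  have key : ∀ Q : List (List ℤ), chk Q u w 32 u' w' 32 = true → 0 ≤ ev2 Q c v := by
    intro Q hQ
    exact chk_sound hQ (by norm_num) (by norm_num) huw huw' (by push_cast; exact h0)
      (by push_cast; exact h1) (by push_cast; exact h2) (by push_cast; exact h3)
  match k, h, hrel with
  | 0, h, hrel =>
    have hr : v = r := hrel
    rw [← hr]
    exact key P h
  | 1, h, hrel =>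
    have hr : r = 1 - v * (1 - c) := hrel
    simp only [chkK, Bool.and_eq_true] at h
    have e1 := ev_psum2 h.1 c v
    have e2 := mul_nonneg hD (key _ h.2)
    rw [e1, ev_comp] at e2
    have e3 : ev2 [[1], [-1, 1]] c v = r := by
      simp only [ev2_cons, ev2_nil, ev_cons, ev_nil]; push_cast; rw [hr]; ring
    rwa [e3] at e2
  | 2, h, hrel =>
    have hr : r = 1 + v * (1 - c) := hrel
    simp only [chkK, Bool.and_eq_true] at h
    have e1 := ev_psum2 h.1 c v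
    have e2 := mul_nonneg hD (key _ h.2)
    rw [e1, ev_comp] at e2
    have e3 : ev2 [[1], [1, -1]] c v = r := by
      simp only [ev2_cons, ev2_nil, ev_cons, ev_nil]; push_cast; rw [hr]; ring
    rwa [e3] at e2
  | (n + 3), h, hrel =>
    have hr : c * r = c + v * (1 - c) ∧ 0 < c := hrel
    simp only [chkK, Bool.and_eq_true] at h
    have e1 := ev_psum2 h.1 c v
    have e2 := mul_nonneg hD (key _ h.2)
    rw [e1] at e2
    have e3 : ev2 [[0, 1], [1, -1]] c v = c * r := by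
      simp only [ev2_cons, ev2_nil, ev_cons, ev_nil]; push_cast; rw [hr.1]; ring
    have e4 := mul_nonneg hr.2.le e2
    rw [ev_compH _ _ e3] at e4
    exact nonneg_of_mul_nonneg_right e4 (pow_pos hr.2 _)

theorem chk1_sound {n : ℕ} {P : List ℤ} {u w d : ℤ} (h : chk1 n P u w d = true) (hd : 0 < d)
    (huw : u < w) {x : ℝ} (h0 : (u:ℝ) ≤ d * x) (h1 : d * x ≤ w) : 0 ≤ ev P x := by
  have key : ∀ (Q : List ℤ) (u w d : ℤ), chk [Q] u w d 0 1 1 = true → 0 < d → u < w →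
      (u:ℝ) ≤ d * x → d * x ≤ w → 0 ≤ ev Q x := by
    intro Q u w d hQ hd huw h0 h1
    have := chk_sound hQ hd (by norm_num) huw (by norm_num) (x := x) (y := 0) h0 h1 (by simp) (by simp)
    simpa using this
  induction n generalizing u w d with
  | zero => exact key P u w d h hd huw h0 h1
  | succ n ih =>
    simp only [chk1, Bool.or_eq_true, Bool.and_eq_true] at h
    rcases h with h | ⟨ha, hb⟩
    · exact key P u w d h hd huw h0 h1
    · rcases le_total (2 * (d:ℝ) * x) (u + w) with hh | hh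
      · exact ih ha (by linarith) (by linarith) (by push_cast; linarith) (by push_cast; linarith)
      · exact ih hb (by linarith) (by linarith) (by push_cast; linarith) (by push_cast; linarith)

end Crest.Agent.R230.SD
private theorem rz_5b7e62fd5b : type_of% @_root_.Crest.Agent.R230.SD.chk1.eq_def := @_root_.Crest.Agent.R230.SD.chk1.eq_def -- L131
private theorem rz_c0bf9b7e28 : type_of% @_root_.Crest.Agent.R230.SD.chk1.eq_1 := @_root_.Crest.Agent.R230.SD.chk1.eq_1 -- L131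
private theorem rz_447f61081d : type_of% @_root_.Crest.Agent.R230.SD.chkK.eq_1 := @_root_.Crest.Agent.R230.SD.chkK.eq_1 -- L108
private theorem rz_91d02fa9fc : type_of% @_root_.Crest.Agent.R230.SD.comp.eq_def := @_root_.Crest.Agent.R230.SD.comp.eq_def -- L73
private theorem rz_4e4b35e21d : type_of% @_root_.Crest.Agent.R230.SD.comp.eq_1 := @_root_.Crest.Agent.R230.SD.comp.eq_1 -- L73
private theorem rz_dbe8646f48 : type_of% @_root_.Crest.Agent.R230.SD.compH.eq_def := @_root_.Crest.Agent.R230.SD.compH.eq_def -- L83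
private theorem rz_7a60a81b07 : type_of% @_root_.Crest.Agent.R230.SD.compH.eq_1 := @_root_.Crest.Agent.R230.SD.compH.eq_1 -- L83
private theorem rz_19d4c35a4f : type_of% @_root_.Crest.Agent.R230.SD.psum.eq_def := @_root_.Crest.Agent.R230.SD.psum.eq_def -- L88
private theorem rz_09a13c2af1 : type_of% @_root_.Crest.Agent.R230.SD.psum.eq_1 := @_root_.Crest.Agent.R230.SD.psum.eq_1 -- L88
private theorem rz_eecfa6edf4 : type_of% @_root_.Crest.Agent.R230.SD.psum2.eq_def := @_root_.Crest.Agent.R230.SD.psum2.eq_def -- L93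
private theorem rz_8f65ef7dfc : type_of% @_root_.Crest.Agent.R230.SD.psum2.eq_1 := @_root_.Crest.Agent.R230.SD.psum2.eq_1 -- L93
private theorem rz_e120843cf4 : type_of% @_root_.Crest.Agent.R230.SD.shiftC.eq_def := @_root_.Crest.Agent.R230.SD.shiftC.eq_def -- L78
private theorem rz_6d5c2a2d1d : type_of% @_root_.Crest.Agent.R230.SD.shiftC.eq_1 := @_root_.Crest.Agent.R230.SD.shiftC.eq_1 -- L78
private theorem rz_37e9770c5b : type_of% @_root_.Crest.Agent.R230.SD.sumL.eq_def := @_root_.Crest.Agent.R230.SD.sumL.eq_def -- L98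
private theorem rz_f9125bd763 : type_of% @_root_.Crest.Agent.R230.SD.sumL.eq_1 := @_root_.Crest.Agent.R230.SD.sumL.eq_1 -- L98
private theorem rz_e9a6d2a1fd : type_of% @_root_.Crest.Agent.R230.SD.zer.eq_def := @_root_.Crest.Agent.R230.SD.zer.eq_def -- L103
private theorem rz_286cdf5c3a : type_of% @_root_.Crest.Agent.R230.SD.zer.eq_1 := @_root_.Crest.Agent.R230.SD.zer.eq_1 -- L103
end

-- ▼ part R230/SD5Leaf

/-!
# Row 230: pointwise inequality for `SDL 4`: soundness of the certificates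
-/

set_option autoImplicit false
set_option maxHeartbeats 1000000
set_option linter.unusedVariables false

namespace Crest.Agent.R230.SD

open PolyC

/-- all facts about a boundary point: `c, σ` cosine and sine of the angle of the right tangent point,
`x` tangent length, `(t, r)` the point, `F` the swept mass, `f³ = 1 + F` -/
structure Geo (c r x t σ F f : ℝ) : Prop where
  hc : 0 < c
  hc1 : c < 1
  hr : 0 < r
  hσ : 0 < σ
  hcs : σ ^ 2 + c ^ 2 = 1
  hx : 0 < x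
  ht : 0 ≤ t
  ht1 : t ≤ 1
  h1 : t * σ = 1 - r * c
  h2 : x * σ = r - c
  hX : x ^ 2 = r ^ 2 + t ^ 2 - 1
  hF : 0 ≤ F
  hf : 0 < f
  hfF : f ^ 3 = 1 + F
  FA : r ≤ 1 → 50929 / 30000 * (r ^ 2 * (x ^ 3 * (1 + x ^ 2 / 2) / (1 + x ^ 2) ^ 2)) ≤ F
  FM : r ≤ 1 → 50929 / 30000 * (x ^ 3 * (r ^ 2 / 2 - x ^ 2 / 10 +
    (3 / 2 - x ^ 2 / (2 * r ^ 2)) * (c ^ 2 / 12 + c * r / 4))) ≤ F
  FB : 1 ≤ r → 50929 / 30000 * (t * (r ^ 3 - 1) + (t ^ 3 / 2 - t ^ 5 / 10) +
    (3 / 2 - x ^ 2 / (2 * r ^ 2)) * (c ^ 2 / 12 + c * r / 4) * x ^ 3) ≤ F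

/-- the pointwise inequality -/
def Goal (c r : ℝ) : Prop :=
  ∀ x t σ F f : ℝ, Geo c r x t σ F f → B5 c r ≤ 4 / 3 * m5 c r * (1 - c ^ 2) * f

theorem m5_nonneg {c r : ℝ} (hc : 0 ≤ c) (hr : 0 ≤ r) : 0 ≤ m5 c r := by
  unfold m5; positivity

/-- the chord of the cube root -/
theorem chord3 {g0 g1 f : ℝ} (h0 : 0 < g0) (h1 : g0 ≤ f) (h2 : f ≤ g1) :
    ic g0 g1 + sl g0 g1 * (f ^ 3 - 1) ≤ f := by
  unfold ic
  have hg1 : 0 < g1 := by linarith
  have hS : 0 < g1 ^ 2 + g1 * g0 + g0 ^ 2 := by positivity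
  have hs : sl g0 g1 * (f ^ 2 + f * g0 + g0 ^ 2) ≤ 1 := by
    unfold sl
    rw [one_div_mul_eq_div, div_le_one hS]
    nlinarith
  nlinarith [mul_nonneg (sub_nonneg.2 h1) (sub_nonneg.2 hs)]

theorem fin5 {c r F f g0 g1 CD : ℝ} (hc : 0 ≤ c) (hc1 : c < 1) (hr : 0 ≤ r) (hF : 0 ≤ F) (hf : 0 < f)
    (hfF : f ^ 3 = 1 + F) (hg0 : 1 ≤ g0) (hg : g0 < g1) (hCD : CD ≤ (1 - c ^ 2) * F)
    (hi : 0 ≤ Fi5 (ic g0 g1) (sl g0 g1) CD c r)
    (hG : 0 ≤ 4 / 3 * g1 * m5 c r * (1 - c ^ 2) - B5 c r)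
    (h0 : g0 = 1 ∨ 0 ≤ CD - (g0 ^ 3 - 1) * (1 - c ^ 2)) :
    B5 c r ≤ 4 / 3 * m5 c r * (1 - c ^ 2) * f := by
  have hD : 0 < 1 - c ^ 2 := by nlinarith
  have hm := m5_nonneg hc hr
  rcases le_total g1 f with h | h
  · have : 0 ≤ 4 / 3 * m5 c r * (1 - c ^ 2) * (f - g1) := by
      have : 0 ≤ f - g1 := by linarith
      positivity
    linarith
  · have hg0f : g0 ≤ f := by
      have h3 : g0 ^ 3 ≤ f ^ 3 := by
        rcases h0 with h0 | h0
        · rw [h0, hfF]; linarith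
        · have : 0 ≤ (1 - c ^ 2) * (F - (g0 ^ 3 - 1)) := by linarith
          have := nonneg_of_mul_nonneg_right this hD
          rw [hfF]; linarith
      exact le_of_pow_le_pow_left₀ (by norm_num) hf.le h3
    have hch := chord3 (by linarith) hg0f h
    have hs : 0 ≤ sl g0 g1 := by
      unfold sl
      have : 0 < g1 := by linarith
      positivity
    have e1 : f ^ 3 - 1 = F := by linarith
    rw [e1] at hch
    have h4 := mul_le_mul_of_nonneg_left hch hD.le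
    have h5 := mul_le_mul_of_nonneg_left hCD hs
    have h6 : (1 - c ^ 2) * ic g0 g1 + sl g0 g1 * CD ≤ (1 - c ^ 2) * f := by linarith
    have h7 := mul_le_mul_of_nonneg_left h6 (by positivity : 0 ≤ 4 / 3 * m5 c r)
    unfold Fi5 at hi
    linarith

theorem Geo.D {c r x t σ F f : ℝ} (g : Geo c r x t σ F f) : 0 < 1 - c ^ 2 := by
  have := g.hc; have := g.hc1; nlinarith

theorem Geo.XD {c r x t σ F f : ℝ} (g : Geo c r x t σ F f) : x ^ 2 * (1 - c ^ 2) = (r - c) ^ 2 := by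
  rw [← g.h2, show 1 - c ^ 2 = σ ^ 2 by linarith [g.hcs]]; ring

theorem Geo.TD {c r x t σ F f : ℝ} (g : Geo c r x t σ F f) :
    t ^ 2 * (1 - c ^ 2) = (1 - r * c) ^ 2 := by
  rw [← g.h1, show 1 - c ^ 2 = σ ^ 2 by linarith [g.hcs]]; ring

/-- tangent line for the cube, as a function of the square -/
theorem cube_lb' {z z0 : ℝ} (hz : 0 ≤ z) (hz0 : 0 ≤ z0) :
    3 / 2 * z0 * z ^ 2 - 1 / 2 * z0 ^ 3 ≤ z ^ 3 := by
  nlinarith [mul_nonneg (sq_nonneg (z - z0)) (by positivity : 0 ≤ z + z0 / 2)]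

theorem Geo.LX {c r x t σ F f x0 : ℝ} (g : Geo c r x t σ F f) (hx0 : 0 ≤ x0) :
    3 / 2 * x0 * (r - c) ^ 2 - 1 / 2 * x0 ^ 3 * (1 - c ^ 2) ≤ (1 - c ^ 2) * x ^ 3 := by
  have h := mul_le_mul_of_nonneg_left (cube_lb' g.hx.le hx0) g.D.le
  rw [← g.XD]
  linarith

/-- tangent line for `t³/2 - t⁵/10` -/
theorem t_lb {t t0 : ℝ} (h0 : 0 ≤ t) (h1 : t ≤ 1) (h2 : 0 ≤ t0) (h3 : t0 ≤ 1) :
    (3 / 4 * t0 - 1 / 4 * t0 ^ 3) * t ^ 2 - (1 / 4 * t0 ^ 3 - 3 / 20 * t0 ^ 5) ≤
      t ^ 3 / 2 - t ^ 5 / 10 := by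
  have h4 : 0 ≤ -t ^ 3 / 10 - t0 * t ^ 2 / 5 + (1 / 2 - 3 / 10 * t0 ^ 2) * t + t0 / 4 -
      3 / 20 * t0 ^ 3 := by
    have a1 : t ^ 2 ≤ 1 := by nlinarith
    have a2 : t0 ^ 2 ≤ 1 := by nlinarith
    have a3 : t * t0 ≤ 1 := by nlinarith
    have b1 : 0 ≤ t * (1 - t ^ 2) := mul_nonneg h0 (by linarith)
    have b2 : 0 ≤ t * (1 - t * t0) := mul_nonneg h0 (by linarith)
    have b3 : 0 ≤ t * (1 - t0 ^ 2) := mul_nonneg h0 (by linarith)
    have b4 : 0 ≤ t0 * (1 - t0 ^ 2) := mul_nonneg h2 (by linarith)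
    nlinarith
  nlinarith [mul_nonneg (sq_nonneg (t - t0)) h4]

theorem capA5 {c r x t σ F f a b xa xb : ℝ} (g : Geo c r x t σ F f) (hr1 : r ≤ 1)
    (hl : a * x ^ 2 - b ≤ x ^ 3 * (1 + x ^ 2 / 2) / (1 + x ^ 2) ^ 2) :
    CA5 a b c r ≤ (1 - c ^ 2) * F := by
  have hD := g.D
  have h1 := mul_le_mul_of_nonneg_left (g.FA hr1) hD.le
  have h2 := mul_le_mul_of_nonneg_left hl (by positivity : 0 ≤ (1 - c ^ 2) * (50929 / 30000 * r ^ 2))
  unfold CA5
  rw [← g.XD]
  linarith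

theorem ratio_le {r x2 w1 : ℝ} (hr : 0 < r) (hw : x2 ≤ w1 * r ^ 2) :
    3 / 2 - w1 / 2 ≤ 3 / 2 - x2 / (2 * r ^ 2) := by
  have : x2 / (2 * r ^ 2) ≤ w1 / 2 := by
    rw [div_le_iff₀ (by positivity)]; linarith
  linarith

theorem capM5 {c r x t σ F f x0 Xb w1 : ℝ} (g : Geo c r x t σ F f) (hr1 : r ≤ 1) (hx0 : 0 ≤ x0)
    (hXb : x ^ 2 ≤ Xb) (hw : x ^ 2 ≤ w1 * r ^ 2)
    (hG2 : 0 ≤ r ^ 2 / 2 - Xb / 10 + (3 / 2 - w1 / 2) * (c ^ 2 / 12 + c * r / 4)) :
    CM5 x0 Xb (3 / 2 - w1 / 2) c r ≤ (1 - c ^ 2) * F := by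
  have hD := g.D
  have hc := g.hc
  have hr := g.hr
  have hx := g.hx
  have h1 := mul_le_mul_of_nonneg_left (g.FM hr1) hD.le
  have h2 := ratio_le hr hw
  have h3 := g.LX hx0
  have h4 : (3 / 2 - w1 / 2) * (c ^ 2 / 12 + c * r / 4) ≤
      (3 / 2 - x ^ 2 / (2 * r ^ 2)) * (c ^ 2 / 12 + c * r / 4) := by gcongr
  set G' := r ^ 2 / 2 - x ^ 2 / 10 + (3 / 2 - x ^ 2 / (2 * r ^ 2)) * (c ^ 2 / 12 + c * r / 4) with hG'
  set G := r ^ 2 / 2 - Xb / 10 + (3 / 2 - w1 / 2) * (c ^ 2 / 12 + c * r / 4) with hG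
  have h5 : G ≤ G' := by rw [hG, hG']; linarith
  have h6 := mul_le_mul_of_nonneg_right h3 hG2
  have h7 : (1 - c ^ 2) * x ^ 3 * G ≤ (1 - c ^ 2) * x ^ 3 * G' := by gcongr
  unfold CM5
  rw [← hG]
  linarith

theorem capB5 {c r x t σ F f t0 x0 w1 : ℝ} (g : Geo c r x t σ F f) (hr1 : 1 ≤ r) (ht0 : 0 ≤ t0)
    (ht0' : t0 ≤ 1) (hx0 : 0 ≤ x0) (hw : x ^ 2 ≤ w1 * r ^ 2) (hw1 : w1 ≤ 3) :
    CB5 t0 (3 / 2 - w1 / 2) x0 c r ≤ (1 - c ^ 2) * F := by
  have hD := g.D
  have hc := g.hc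
  have hc1 := g.hc1
  have hr := g.hr
  have hx := g.hx
  have ht := g.ht
  have hσ := g.hσ
  have hcs := g.hcs
  have h1 := mul_le_mul_of_nonneg_left (g.FB hr1) hD.le
  have h2 := ratio_le hr hw
  have h3 := g.LX hx0
  have h4 := mul_le_mul_of_nonneg_left (t_lb g.ht g.ht1 ht0 ht0') hD.le
  have hσ1 : σ * (1 + c ^ 2 / 2) ≤ 1 := by
    have : (σ * (1 + c ^ 2 / 2)) ^ 2 ≤ 1 ^ 2 := by
      have e : (σ * (1 + c ^ 2 / 2)) ^ 2 = (1 - c ^ 2) * (1 + c ^ 2 / 2) ^ 2 := by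
        rw [mul_pow, show σ ^ 2 = 1 - c ^ 2 by linarith]
      rw [e]
      have : (1 - c ^ 2) * (1 + c ^ 2 / 2) ^ 2 = 1 - 3 / 4 * c ^ 4 - 1 / 4 * c ^ 6 := by ring
      rw [this]
      have : 0 ≤ c ^ 4 := by positivity
      have : 0 ≤ c ^ 6 := by positivity
      linarith
    exact (abs_le_of_sq_le_sq' this zero_le_one).2
  have e1 : (1 - r * c) * (1 + c ^ 2 / 2) ≤ t := by
    rw [← g.h1, mul_assoc]
    nlinarith
  have hr3 : 0 ≤ r ^ 3 - 1 := by
    have : 1 ^ 3 ≤ r ^ 3 := pow_le_pow_left₀ zero_le_one hr1 3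
    linarith
  have k1 : (1 - c ^ 2) * ((r ^ 3 - 1) * ((1 - r * c) * (1 + c ^ 2 / 2))) ≤
      (1 - c ^ 2) * ((r ^ 3 - 1) * t) := by gcongr
  have hlam : 0 ≤ 3 / 2 - w1 / 2 := by linarith
  have k2 : (3 / 2 - w1 / 2) * (c ^ 2 / 12 + c * r / 4) *
      (3 / 2 * x0 * (r - c) ^ 2 - 1 / 2 * x0 ^ 3 * (1 - c ^ 2)) ≤
      (3 / 2 - w1 / 2) * (c ^ 2 / 12 + c * r / 4) * ((1 - c ^ 2) * x ^ 3) := by gcongr
  have k3 : (3 / 2 - w1 / 2) * (c ^ 2 / 12 + c * r / 4) * ((1 - c ^ 2) * x ^ 3) ≤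
      (3 / 2 - x ^ 2 / (2 * r ^ 2)) * (c ^ 2 / 12 + c * r / 4) * ((1 - c ^ 2) * x ^ 3) := by gcongr
  have e2 := g.TD
  unfold CB5
  rw [← e2]
  linarith

theorem capC5 {c r x t σ F f t0 x0 w1 ls : ℝ} (g : Geo c r x t σ F f) (hr1 : 1 ≤ r) (ht0 : 0 ≤ t0)
    (ht0' : t0 ≤ 1) (hx0 : 0 ≤ x0) (hw : x ^ 2 ≤ w1 * r ^ 2) (hw1 : w1 ≤ 3) (hls : 0 ≤ ls)
    (hls2 : ls ^ 2 * (1 - c ^ 2) ≤ 1) :
    CC5 ls t0 (3 / 2 - w1 / 2) x0 c r ≤ (1 - c ^ 2) * F := by
  have hD := g.D
  have hc := g.hc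
  have hc1 := g.hc1
  have hr := g.hr
  have hx := g.hx
  have ht := g.ht
  have hσ := g.hσ
  have hcs := g.hcs
  have h1 := mul_le_mul_of_nonneg_left (g.FB hr1) hD.le
  have h2 := ratio_le hr hw
  have h3 := g.LX hx0
  have h4 := mul_le_mul_of_nonneg_left (t_lb g.ht g.ht1 ht0 ht0') hD.le
  have hσ1 : σ * ls ≤ 1 := by
    have : (σ * ls) ^ 2 ≤ 1 ^ 2 := by
      rw [mul_pow, show σ ^ 2 = 1 - c ^ 2 by linarith]; linarith
    exact (abs_le_of_sq_le_sq' this zero_le_one).2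
  have e1 : (1 - r * c) * ls ≤ t := by
    rw [← g.h1, mul_assoc]
    nlinarith
  have e0 : 0 ≤ (1 - r * c) * ls := by
    rw [← g.h1]; positivity
  have hr3 : 0 ≤ r ^ 3 - 1 := by
    have : 1 ^ 3 ≤ r ^ 3 := pow_le_pow_left₀ zero_le_one hr1 3
    linarith
  have hr4 : 3 * r * (r - 1) ≤ r ^ 3 - 1 := by
    nlinarith [pow_nonneg (sub_nonneg.2 hr1) 3]
  have k1 : (1 - c ^ 2) * (3 * r * (r - 1) * ((1 - r * c) * ls)) ≤
      (1 - c ^ 2) * ((r ^ 3 - 1) * t) := by
    have : 3 * r * (r - 1) * ((1 - r * c) * ls) ≤ (r ^ 3 - 1) * t :=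
      mul_le_mul hr4 e1 e0 hr3
    exact mul_le_mul_of_nonneg_left this hD.le
  have hlam : 0 ≤ 3 / 2 - w1 / 2 := by linarith
  have k2 : (3 / 2 - w1 / 2) * (c ^ 2 / 12 + c * r / 4) *
      (3 / 2 * x0 * (r - c) ^ 2 - 1 / 2 * x0 ^ 3 * (1 - c ^ 2)) ≤
      (3 / 2 - w1 / 2) * (c ^ 2 / 12 + c * r / 4) * ((1 - c ^ 2) * x ^ 3) := by gcongr
  have k3 : (3 / 2 - w1 / 2) * (c ^ 2 / 12 + c * r / 4) * ((1 - c ^ 2) * x ^ 3) ≤
      (3 / 2 - x ^ 2 / (2 * r ^ 2)) * (c ^ 2 / 12 + c * r / 4) * ((1 - c ^ 2) * x ^ 3) := by gcongr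
  have e2 := g.TD
  unfold CC5
  rw [← e2]
  linarith

/-! ## Boxes -/

/-- the pointwise inequality on a box `[u/32, w/32] × [u'/32, w'/32]` -/
def OK (k : ℕ) (u w u' w' : ℤ) : Prop :=
  ∀ c v r : ℝ, rel k c v r → (u:ℝ) ≤ 32 * c → 32 * c ≤ w → (u':ℝ) ≤ 32 * v → 32 * v ≤ w' →
    Goal c r

theorem OK.sx {k : ℕ} {u m w u' w' : ℤ} (h1 : OK k u m u' w') (h2 : OK k m w u' w') :
    OK k u w u' w' := by
  intro c v r hr a1 a2 a3 a4
  rcases le_total (32 * c) (m:ℝ) with h | h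
  · exact h1 c v r hr a1 h a3 a4
  · exact h2 c v r hr h a2 a3 a4

theorem OK.sy {k : ℕ} {u w u' m w' : ℤ} (h1 : OK k u w u' m) (h2 : OK k u w m w') :
    OK k u w u' w' := by
  intro c v r hr a1 a2 a3 a4
  rcases le_total (32 * v) (m:ℝ) with h | h
  · exact h1 c v r hr a1 a2 a3 h
  · exact h2 c v r hr a1 a2 h a4

/-- beyond the axis -/
theorem OK.skip {u w u' w' : ℤ} (h0 : 0 < u) (h1 : 1024 < u * u') : OK 2 u w u' w' := by
  intro c v r hr a1 a2 a3 a4 x t σ F f g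
  exfalso
  have hr' : r = 1 + v * (1 - c) := hr
  have hc1 := g.hc1
  have hc := g.hc
  have h3 : r * c ≤ 1 := by
    have : 0 ≤ t * σ := mul_nonneg g.ht g.hσ.le
    rw [g.h1] at this; linarith
  have h4 : (1024:ℝ) < u * u' := by exact_mod_cast h1
  have h0' : (0:ℝ) < u := by exact_mod_cast h0
  have h5 : (u:ℝ) * u' ≤ (32 * c) * (32 * v) := by
    have hu' : (0:ℝ) < u' := by
      by_contra hneg
      have : (u:ℝ) * u' ≤ 0 := mul_nonpos_of_nonneg_of_nonpos h0'.le (not_lt.1 hneg)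
      linarith
    exact mul_le_mul a1 a3 hu'.le (by linarith)
  have h6 : 1 < c * v := by linarith
  rw [hr'] at h3
  have h7 : 0 < (1 - c) * (v * c - 1) := mul_pos (by linarith) (by linarith)
  linarith

section leaf

variable {k : ℕ} {u w u' w' : ℤ}

theorem nonneg_of_scaled {a b : ℝ} (ha : 0 < a) (h : 0 ≤ a * b) : 0 ≤ b :=
  nonneg_of_mul_nonneg_right h ha

theorem leafCommon (G0 G1 K : ℤ) (CDP : List (List ℤ)) (hK : 0 < K) (hG0 : 1000 ≤ G0) (hG : G0 < G1)
    (huw : u < w) (huw' : u' < w')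
    (hi : chkK k (pFi G0 G1 K CDP) u w 32 u' w' 32 = true)
    (hg : chkK k (pG G1) u w 32 u' w' 32 = true)
    (hc : G0 = 1000 ∨ chkK k (pC0 G0 K CDP) u w 32 u' w' 32 = true)
    {c v r x t σ F f CD : ℝ} (g : Geo c r x t σ F f) (hrel : rel k c v r)
    (a1 : (u:ℝ) ≤ 32 * c) (a2 : 32 * c ≤ w) (a3 : (u':ℝ) ≤ 32 * v) (a4 : 32 * v ≤ w')
    (hCD : ev2 CDP c r = K * 1000000000 * CD) (hcap : CD ≤ (1 - c ^ 2) * F) :
    B5 c r ≤ 4 / 3 * m5 c r * (1 - c ^ 2) * f := by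
  have hKR : (0:ℝ) < K := by exact_mod_cast hK
  have hG0R : (1000:ℝ) ≤ G0 := by exact_mod_cast hG0
  have hGR : (G0:ℝ) < G1 := by exact_mod_cast hG
  have e1 := chkK_sound hi huw huw' g.hc1.le hrel a1 a2 a3 a4
  have e2 := chkK_sound hg huw huw' g.hc1.le hrel a1 a2 a3 a4
  rw [ev_pFi (by linarith) (by linarith) hCD] at e1
  rw [ev_pG] at e2
  refine fin5 (g0 := (G0:ℝ) / 1000) (g1 := (G1:ℝ) / 1000) g.hc.le g.hc1 g.hr.le g.hF g.hf g.hfF
    (by linarith) (by linarith) hcap (nonneg_of_scaled ?_ e1) (nonneg_of_scaled (by norm_num) e2) ?_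
  · have : (0:ℝ) < G1 := by linarith
    have : (0:ℝ) < G0 := by linarith
    positivity
  · rcases hc with hc | hc
    · left
      rw [hc]; norm_num
    · right
      have e3 := chkK_sound hc huw huw' g.hc1.le hrel a1 a2 a3 a4
      rw [ev_pC0 hCD] at e3
      exact nonneg_of_scaled (by positivity) e3

theorem OK.A (hk : 1 = k) (hu0 : 0 ≤ u') (G0 G1 a b xa xb : ℤ) (hG0 : 1000 ≤ G0) (hG : G0 < G1) (huw : u < w)
    (huw' : u' < w') (hxa : 0 ≤ xa) (hxab : xa < xb)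
    (hi : chkK k (pFi G0 G1 3 (pA a b)) u w 32 u' w' 32 = true)
    (hg : chkK k (pG G1) u w 32 u' w' 32 = true)
    (hc : G0 = 1000 ∨ chkK k (pC0 G0 3 (pA a b)) u w 32 u' w' 32 = true)
    (h3 : xa = 0 ∨ chkK k (pXa xa) u w 32 u' w' 32 = true)
    (h4 : xb = 200 ∨ chkK k (pXb xb) u w 32 u' w' 32 = true)
    (h5 : chk1 12 (pL a b) xa xb 200 = true) : OK k u w u' w' := by
  intro c v r hrel a1 a2 a3 a4 x t σ F f g
  have hD := g.D
  have hx := g.hx
  have hr1 : r ≤ 1 := by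
    subst hk
    have hr' : r = 1 - v * (1 - c) := hrel
    have : (0:ℝ) ≤ u' := by exact_mod_cast hu0
    have : 0 ≤ v * (1 - c) := mul_nonneg (by linarith) (by linarith [g.hc1])
    linarith
  have hxaR : (0:ℝ) ≤ xa := by exact_mod_cast hxa
  have hxabR : (xa:ℝ) < xb := by exact_mod_cast hxab
  have b1 : (xa:ℝ) / 200 ≤ x := by
    rcases h3 with h3 | h3
    · rw [h3]; simp only [Int.cast_zero, zero_div]; exact hx.le
    · have e := chkK_sound h3 huw huw' g.hc1.le hrel a1 a2 a3 a4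
      rw [ev_pXa] at e
      have e := nonneg_of_scaled (by norm_num) e
      rw [← g.XD] at e
      have e : 0 ≤ (1 - c ^ 2) * (x ^ 2 - ((xa:ℝ) / 200) ^ 2) := by linarith
      have := nonneg_of_mul_nonneg_right e hD
      exact (abs_le_of_sq_le_sq' (by linarith) hx.le).2
  have b2 : x ≤ (xb:ℝ) / 200 := by
    rcases h4 with h4 | h4
    · rw [h4]
      have : x ^ 2 ≤ 1 ^ 2 := by
        rw [g.hX]
        have := g.ht; have := g.ht1; have := g.hr
        nlinarith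
      have := (abs_le_of_sq_le_sq' this zero_le_one).2
      norm_num
      linarith
    · have e := chkK_sound h4 huw huw' g.hc1.le hrel a1 a2 a3 a4
      rw [ev_pXb] at e
      have e := nonneg_of_scaled (by norm_num) e
      rw [← g.XD] at e
      have e : 0 ≤ (1 - c ^ 2) * (((xb:ℝ) / 200) ^ 2 - x ^ 2) := by linarith
      have := nonneg_of_mul_nonneg_right e hD
      exact (abs_le_of_sq_le_sq' (by linarith) (by linarith)).2
  have hl : (a:ℝ) / 2000 * x ^ 2 - (b:ℝ) / 20000 ≤ x ^ 3 * (1 + x ^ 2 / 2) / (1 + x ^ 2) ^ 2 := by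
    rw [le_div_iff₀ (by positivity)]
    have e := chk1_sound h5 (by norm_num) hxab (x := x) (by push_cast; linarith)
      (by push_cast; linarith)
    rw [ev_pL] at e
    have e := nonneg_of_scaled (by norm_num) e
    linarith
  exact leafCommon G0 G1 3 (pA a b) (by norm_num) hG0 hG huw huw' hi hg hc g hrel a1 a2 a3 a4
    (ev_pA a b c r) (capA5 (xa := 0) (xb := 0) g hr1 hl)

theorem W_sound {c v r x t σ F f : ℝ} {W : ℤ} (g : Geo c r x t σ F f) (huw : u < w) (huw' : u' < w')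
    (h : W = 100 ∨ chkK k (pW W) u w 32 u' w' 32 = true) (hrel : rel k c v r)
    (a1 : (u:ℝ) ≤ 32 * c) (a2 : 32 * c ≤ w) (a3 : (u':ℝ) ≤ 32 * v) (a4 : 32 * v ≤ w') :
    x ^ 2 ≤ (W:ℝ) / 100 * r ^ 2 := by
  rcases h with h | h
  · have h1 := g.ht; have h2 := g.ht1
    have h3 : t ^ 2 ≤ 1 := by nlinarith
    have e : ((100 : ℤ) : ℝ) / 100 = 1 := by norm_num
    rw [h, g.hX, e]
    linarith
  · have e := chkK_sound h huw huw' g.hc1.le hrel a1 a2 a3 a4
    rw [ev_pW] at e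
    have e := nonneg_of_scaled (by norm_num) e
    rw [← g.XD] at e
    have e : 0 ≤ (1 - c ^ 2) * ((W:ℝ) / 100 * r ^ 2 - x ^ 2) := by linarith
    have := nonneg_of_mul_nonneg_right e g.D
    linarith

theorem OK.M (hk : 1 = k) (hu0 : 0 ≤ u') (G0 G1 X Xb W : ℤ) (hG0 : 1000 ≤ G0) (hG : G0 < G1) (huw : u < w)
    (huw' : u' < w') (hX0 : 0 ≤ X)
    (hi : chkK k (pFi G0 G1 5760000 (pMM X Xb (300 - W))) u w 32 u' w' 32 = true)
    (hg : chkK k (pG G1) u w 32 u' w' 32 = true)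
    (hc : G0 = 1000 ∨ chkK k (pC0 G0 5760000 (pMM X Xb (300 - W))) u w 32 u' w' 32 = true)
    (h3 : Xb = 100 ∨ chkK k (pXc Xb) u w 32 u' w' 32 = true)
    (h4 : W = 100 ∨ chkK k (pW W) u w 32 u' w' 32 = true)
    (h5 : chkK k (pG2 Xb (300 - W)) u w 32 u' w' 32 = true) : OK k u w u' w' := by
  intro c v r hrel a1 a2 a3 a4 x t σ F f g
  have hD := g.D
  have hx := g.hx
  have hr1 : r ≤ 1 := by
    subst hk
    have hr' : r = 1 - v * (1 - c) := hrel
    have : (0:ℝ) ≤ u' := by exact_mod_cast hu0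
    have : 0 ≤ v * (1 - c) := mul_nonneg (by linarith) (by linarith [g.hc1])
    linarith
  have hX0R : (0:ℝ) ≤ X := by exact_mod_cast hX0
  have b1 : x ^ 2 ≤ (Xb:ℝ) / 100 := by
    rcases h3 with h3 | h3
    · rw [h3, g.hX]
      have := g.ht; have := g.ht1; have := g.hr
      norm_num
      nlinarith
    · have e := chkK_sound h3 huw huw' g.hc1.le hrel a1 a2 a3 a4
      rw [ev_pXc] at e
      have e := nonneg_of_scaled (by norm_num) e
      rw [← g.XD] at e
      have e : 0 ≤ (1 - c ^ 2) * ((Xb:ℝ) / 100 - x ^ 2) := by linarith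
      have := nonneg_of_mul_nonneg_right e hD
      linarith
  have b2 := W_sound g huw huw' h4 hrel a1 a2 a3 a4
  have e5 := chkK_sound h5 huw huw' g.hc1.le hrel a1 a2 a3 a4
  rw [ev_pG2] at e5
  have e5 := nonneg_of_mul_nonneg_left e5 hD
  have e5 := nonneg_of_scaled (by norm_num) e5
  have elam : (((300 - W : ℤ)):ℝ) / 200 = 3 / 2 - ((W:ℝ) / 100) / 2 := by push_cast; ring
  refine leafCommon G0 G1 5760000 (pMM X Xb (300 - W)) (by norm_num) hG0 hG huw huw' hi hg hc g hrel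
    a1 a2 a3 a4 (ev_pMM X Xb (300 - W) c r) ?_
  rw [elam] at e5 ⊢
  exact capM5 g hr1 (by positivity) b1 b2 e5

theorem OK.B (G0 G1 T X W : ℤ) (hG0 : 1000 ≤ G0) (hG : G0 < G1) (huw : u < w) (huw' : u' < w')
    (hk : ∀ c v r : ℝ, rel k c v r → c < 1 → (u':ℝ) ≤ 32 * v → 1 ≤ r)
    (hT : 0 ≤ T) (hT1 : T ≤ 200) (hX0 : 0 ≤ X) (hW : W ≤ 300)
    (hi : chkK k (pFi G0 G1 576000000 (pBB T (300 - W) X)) u w 32 u' w' 32 = true)
    (hg : chkK k (pG G1) u w 32 u' w' 32 = true)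
    (hc : G0 = 1000 ∨ chkK k (pC0 G0 576000000 (pBB T (300 - W) X)) u w 32 u' w' 32 = true)
    (h4 : W = 100 ∨ chkK k (pW W) u w 32 u' w' 32 = true) : OK k u w u' w' := by
  intro c v r hrel a1 a2 a3 a4 x t σ F f g
  have hr1 := hk c v r hrel g.hc1 a3
  have hX0R : (0:ℝ) ≤ X := by exact_mod_cast hX0
  have hT0R : (0:ℝ) ≤ T := by exact_mod_cast hT
  have hT1R : (T:ℝ) ≤ 200 := by exact_mod_cast hT1
  have hWR : (W:ℝ) ≤ 300 := by exact_mod_cast hW
  have b2 := W_sound g huw huw' h4 hrel a1 a2 a3 a4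
  have elam : (((300 - W : ℤ)):ℝ) / 200 = 3 / 2 - ((W:ℝ) / 100) / 2 := by push_cast; ring
  refine leafCommon G0 G1 576000000 (pBB T (300 - W) X) (by norm_num) hG0 hG huw huw' hi hg hc g hrel
    a1 a2 a3 a4 (ev_pBB T (300 - W) X c r) ?_
  rw [elam]
  exact capB5 g hr1 (by positivity) (by linarith) (by positivity) b2 (by linarith)

theorem OK.C (G0 G1 T X W ls : ℤ) (hG0 : 1000 ≤ G0) (hG : G0 < G1) (huw : u < w) (huw' : u' < w')
    (hk : ∀ c v r : ℝ, rel k c v r → c < 1 → (u':ℝ) ≤ 32 * v → 1 ≤ r)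
    (hT : 0 ≤ T) (hT1 : T ≤ 200) (hX0 : 0 ≤ X) (hW : W ≤ 300) (hls : 0 ≤ ls) (hu : 0 ≤ u)
    (hls2 : ls * ls * (1024 - u * u) ≤ 1024000000)
    (hi : chkK k (pFi G0 G1 576000000 (pCC ls T (300 - W) X)) u w 32 u' w' 32 = true)
    (hg : chkK k (pG G1) u w 32 u' w' 32 = true)
    (hc : G0 = 1000 ∨ chkK k (pC0 G0 576000000 (pCC ls T (300 - W) X)) u w 32 u' w' 32 = true)
    (h4 : W = 100 ∨ chkK k (pW W) u w 32 u' w' 32 = true) : OK k u w u' w' := by
  intro c v r hrel a1 a2 a3 a4 x t σ F f g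
  have hr1 := hk c v r hrel g.hc1 a3
  have hX0R : (0:ℝ) ≤ X := by exact_mod_cast hX0
  have hT0R : (0:ℝ) ≤ T := by exact_mod_cast hT
  have hT1R : (T:ℝ) ≤ 200 := by exact_mod_cast hT1
  have hWR : (W:ℝ) ≤ 300 := by exact_mod_cast hW
  have hlsR : (0:ℝ) ≤ ls := by exact_mod_cast hls
  have huR : (0:ℝ) ≤ u := by exact_mod_cast hu
  have hls2R : (ls:ℝ) * ls * (1024 - u * u) ≤ 1024000000 := by exact_mod_cast hls2
  have b2 := W_sound g huw huw' h4 hrel a1 a2 a3 a4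
  have b3 : ((ls:ℝ) / 1000) ^ 2 * (1 - c ^ 2) ≤ 1 := by
    have h1 : (u:ℝ) * u ≤ (32 * c) * (32 * c) := mul_le_mul a1 a1 huR (by linarith)
    have h2 : (ls:ℝ) * ls * (1024 - (32 * c) * (32 * c)) ≤ ls * ls * (1024 - u * u) := by gcongr
    linarith
  have elam : (((300 - W : ℤ)):ℝ) / 200 = 3 / 2 - ((W:ℝ) / 100) / 2 := by push_cast; ring
  refine leafCommon G0 G1 576000000 (pCC ls T (300 - W) X) (by norm_num) hG0 hG huw huw' hi hg hc g
    hrel a1 a2 a3 a4 (ev_pCC ls T (300 - W) X c r) ?_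
  rw [elam]
  exact capC5 g hr1 (by positivity) (by linarith) (by positivity) b2 (by linarith) (by positivity) b3

theorem rel0_ge {u' : ℤ} (h : 32 ≤ u') (c v r : ℝ) (hr : rel 0 c v r) (hc1 : c < 1)
    (a3 : (u':ℝ) ≤ 32 * v) : 1 ≤ r := by
  have e : v = r := hr
  have : (32:ℝ) ≤ u' := by exact_mod_cast h
  rw [← e]; linarith

theorem rel2_ge {u' : ℤ} (h : 0 ≤ u') (c v r : ℝ) (hr : rel 2 c v r) (hc1 : c < 1)
    (a3 : (u':ℝ) ≤ 32 * v) : 1 ≤ r := by
  have e : r = 1 + v * (1 - c) := hr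
  have : (0:ℝ) ≤ u' := by exact_mod_cast h
  have : 0 ≤ v * (1 - c) := mul_nonneg (by linarith) (by linarith)
  rw [e]; linarith

theorem rel3_ge {u' : ℤ} (h : 0 ≤ u') (c v r : ℝ) (hr : rel 3 c v r) (hc1 : c < 1)
    (a3 : (u':ℝ) ≤ 32 * v) : 1 ≤ r := by
  have e : c * r = c + v * (1 - c) ∧ 0 < c := hr
  have : (0:ℝ) ≤ u' := by exact_mod_cast h
  have : 0 ≤ v * (1 - c) := mul_nonneg (by linarith) (by linarith)
  have h1 : c * 1 ≤ c * r := by linarith
  exact le_of_mul_le_mul_left h1 e.2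

end leaf

end Crest.Agent.R230.SD
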