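import Crest.Agent.R230.SDDens
import Crest.Agent.R230.SDCert3
import Crest.Agent.R230.SDCert4
import Crest.Agent.R230.SDBound
import Crest.Agent.R230.DefsE

-- ▼ part R230/SDPoint
section

/-!
# Row 230: the pointwise inequalities for `SDL 2`, `SDL 3`
-/

set_option autoImplicit false
set_option maxHeartbeats 1000000
set_option linter.unusedVariables false

open Real

namespace Crest.Agent.R230.SD

/-- slice mass of the volume density (`n = 3`), divided by the square of the tangent length `√X` -/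
noncomputable def EV (c r X : ℝ) : ℝ :=
  (c ^ 2 + 2 * c * r + 3 * r ^ 2) / 8 + X * (c ^ 2 + 4 * c * r + 10 * r ^ 2) / 120 -
    (c ^ 4 + 2 * c ^ 3 * r + 3 * c ^ 2 * r ^ 2 + 4 * c * r ^ 3 + 5 * r ^ 4) / 45

/-- same for `n = 2` -/
noncomputable def R3 (c r X : ℝ) : ℝ :=
  3 / 4 * (c + 2 * r) + 3 / 40 * X * (c + 4 * r) -
    9 / 80 * (c ^ 3 + 2 * c ^ 2 * r + 3 * c * r ^ 2 + 4 * r ^ 3)

theorem mV4_eq (α x : ℝ) : mV4 α x = x ^ 2 * EV (cos α) (cos α + x * sin α) (x ^ 2) := by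
  have h := Real.sin_sq_add_cos_sq α
  unfold mV4 EV
  set σ := sin α
  set c := cos α
  linear_combination (1/12 * σ^2 * x^6 + 1/8 * σ^2 * x^4 + 1/5 * σ * c * x^5 + 1/3 * σ * c * x^3 +
    1/8 * c^2 * x^4 + 1/4 * c^2 * x^2) * h

theorem mV3_eq (α x : ℝ) : mV3 α x = x ^ 2 * R3 (cos α) (cos α + x * sin α) (x ^ 2) := by
  have h := Real.sin_sq_add_cos_sq α
  unfold mV3 R3
  set σ := sin α
  set c := cos α
  linear_combination (3/10 * σ * x^5 + 1/2 * σ * x^3 + 3/8 * c * x^4 + 3/4 * c * x^2) * h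

theorem mD4_eq (α x : ℝ) : mD4 α x = x ^ 2 * (cos α + 2 * (cos α + x * sin α)) / 2 := by
  unfold mD4
  ring

theorem mD3_eq (α x : ℝ) : mD3 α x = x ^ 2 / 2 := by
  unfold mD3
  ring

theorem sqrt_lb {K M F g : ℝ} (hg : 1 ≤ g) (hF : 0 ≤ F) (hK : 0 ≤ K)
    (h1 : M ≤ K * (1 + F / (1 + g))) (h2 : M ≤ K * g) : M ≤ K * √(1 + F) := by
  have hg' : 0 < 1 + g := by linarith
  by_cases h : F ≤ g ^ 2 - 1
  · refine h1.trans (mul_le_mul_of_nonneg_left ?_ hK)
    apply Real.le_sqrt_of_sq_le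
    set u := F / (1 + g) with hu
    have hu0 : 0 ≤ u := by positivity
    have hFu : F = u * (1 + g) := by rw [hu]; field_simp
    have hu1 : u ≤ g - 1 := by
      rw [hu, div_le_iff₀ hg']; nlinarith
    nlinarith
  · refine h2.trans (mul_le_mul_of_nonneg_left ?_ hK)
    apply Real.le_sqrt_of_sq_le
    linarith [not_le.1 h]

/-- tangent line for the cube, as a function of the square -/
theorem cube_lb {z z0 : ℝ} (hz : 0 ≤ z) (hz0 : 0 ≤ z0) :
    3 / 2 * z0 * z ^ 2 - 1 / 2 * z0 ^ 3 ≤ z ^ 3 := by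
  nlinarith [mul_nonneg (sq_nonneg (z - z0)) (by positivity : 0 ≤ z + z0 / 2)]

theorem fin4 {c r X g Cp F : ℝ} (hc : 0 ≤ c) (hc1 : c < 1) (hr : 0 ≤ r) (hF : 0 ≤ F) (hg : 1 ≤ g)
    (hX : X * (1 - c ^ 2) = (r - c) ^ 2) (hCp : Cp ≤ (1 - c ^ 2) * F)
    (h1 : 0 ≤ (c + 2 * r) * (3 / 4 * ((1 - c ^ 2) + Cp / (1 + g)) - (1/1000) * (1 - c ^ 2)) -
      (12733/2500) * ((1 - c ^ 2) * ((c ^ 2 + 2 * c * r + 3 * r ^ 2) / 8 -
      (c ^ 4 + 2 * c ^ 3 * r + 3 * c ^ 2 * r ^ 2 + 4 * c * r ^ 3 + 5 * r ^ 4) / 45) +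
      (r - c) ^ 2 * (c ^ 2 + 4 * c * r + 10 * r ^ 2) / 120))
    (h2 : 0 ≤ (c + 2 * r) * (3 / 4 * g - (1/1000)) * (1 - c ^ 2) -
      (12733/2500) * ((1 - c ^ 2) * ((c ^ 2 + 2 * c * r + 3 * r ^ 2) / 8 -
      (c ^ 4 + 2 * c ^ 3 * r + 3 * c ^ 2 * r ^ 2 + 4 * c * r ^ 3 + 5 * r ^ 4) / 45) +
      (r - c) ^ 2 * (c ^ 2 + 4 * c * r + 10 * r ^ 2) / 120)) :
    12733 / 2500 * EV c r X + 1 / 1000 * (c + 2 * r) ≤ 3 / 4 * (c + 2 * r) * √(1 + F) := by
  have hD : 0 < 1 - c ^ 2 := by nlinarith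
  have hg' : 0 < 1 + g := by linarith
  have hE : (1 - c ^ 2) * EV c r X = (1 - c ^ 2) * ((c ^ 2 + 2 * c * r + 3 * r ^ 2) / 8 -
      (c ^ 4 + 2 * c ^ 3 * r + 3 * c ^ 2 * r ^ 2 + 4 * c * r ^ 3 + 5 * r ^ 4) / 45) +
      (r - c) ^ 2 * (c ^ 2 + 4 * c * r + 10 * r ^ 2) / 120 := by
    rw [← hX]; unfold EV; ring
  rw [← hE] at h1 h2
  apply sqrt_lb hg hF (by positivity)
  · have h3 : Cp / (1 + g) ≤ (1 - c ^ 2) * F / (1 + g) := by gcongr
    have h4 : 0 ≤ (c + 2 * r) * ((1 - c ^ 2) * F / (1 + g) - Cp / (1 + g)) :=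
      mul_nonneg (by positivity) (by linarith)
    have h5 : 0 ≤ (1 - c ^ 2) * (3 / 4 * (c + 2 * r) * (1 + F / (1 + g)) -
        (12733 / 2500 * EV c r X + 1 / 1000 * (c + 2 * r))) := by
      have e : (1 - c ^ 2) * (3 / 4 * (c + 2 * r) * (1 + F / (1 + g)) -
        (12733 / 2500 * EV c r X + 1 / 1000 * (c + 2 * r))) =
        ((c + 2 * r) * (3 / 4 * ((1 - c ^ 2) + Cp / (1 + g)) - (1/1000) * (1 - c ^ 2)) -
          (12733/2500) * ((1 - c ^ 2) * EV c r X)) +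
        3 / 4 * ((c + 2 * r) * ((1 - c ^ 2) * F / (1 + g) - Cp / (1 + g))) := by ring
      rw [e]; linarith
    have := nonneg_of_mul_nonneg_right h5 hD
    linarith
  · have h5 : 0 ≤ (1 - c ^ 2) * (3 / 4 * (c + 2 * r) * g -
        (12733 / 2500 * EV c r X + 1 / 1000 * (c + 2 * r))) := by
      have e : (1 - c ^ 2) * (3 / 4 * (c + 2 * r) * g -
        (12733 / 2500 * EV c r X + 1 / 1000 * (c + 2 * r))) =
        (c + 2 * r) * (3 / 4 * g - (1/1000)) * (1 - c ^ 2) -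
          (12733/2500) * ((1 - c ^ 2) * EV c r X) := by ring
      rw [e]; exact h2
    have := nonneg_of_mul_nonneg_right h5 hD
    linarith

/-- the polynomial lower bound of the swept mass, `r ≥ 1` -/
theorem capB {c r x t σ t0 x0 : ℝ} (hc : 0 ≤ c) (hc1 : c < 1) (hr : 1 ≤ r) (hx : 0 ≤ x) (ht : 0 ≤ t)
    (hσ : 0 < σ) (hcs : σ ^ 2 + c ^ 2 = 1) (ht0 : 0 ≤ t0) (hx0 : 0 ≤ x0)
    (h1 : t * σ = 1 - r * c) (h2 : x * σ = r - c) :
    (3 / 2 * (r ^ 2 - 1) * ((1 - r * c) * (1 + c ^ 2 / 2)) * (1 - c ^ 2) +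
      1 / 2 * (3 / 2 * t0 * (1 - r * c) ^ 2 - 1 / 2 * t0 ^ 3 * (1 - c ^ 2)) +
      1 / 2 * c * (3 / 2 * x0 * (r - c) ^ 2 - 1 / 2 * x0 ^ 3 * (1 - c ^ 2))) ≤
    (1 - c ^ 2) * (3 / 2 * t * (r ^ 2 - 1) + 1 / 2 * t ^ 3 + 1 / 2 * x ^ 3 * c) := by
  have hD : 0 < 1 - c ^ 2 := by nlinarith
  have hσ1 : σ * (1 + c ^ 2 / 2) ≤ 1 := by
    have : (σ * (1 + c ^ 2 / 2)) ^ 2 ≤ 1 ^ 2 := by
      have e : (σ * (1 + c ^ 2 / 2)) ^ 2 = (1 - c ^ 2) * (1 + c ^ 2 / 2) ^ 2 := by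
        rw [mul_pow, show σ ^ 2 = 1 - c ^ 2 by linarith]
      rw [e]
      have : (1 - c ^ 2) * (1 + c ^ 2 / 2) ^ 2 = 1 - 3 / 4 * c ^ 4 - 1 / 4 * c ^ 6 := by ring
      rw [this]
      have : 0 ≤ c ^ 4 := by positivity
      have : 0 ≤ c ^ 6 := by positivity
      linarith
    exact (abs_le_of_sq_le_sq' this zero_le_one).2
  have e1 : (1 - r * c) * (1 + c ^ 2 / 2) ≤ t := by
    rw [← h1, mul_assoc]
    nlinarith
  have e2 : t ^ 2 * (1 - c ^ 2) = (1 - r * c) ^ 2 := by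
    rw [← h1, show 1 - c ^ 2 = σ ^ 2 by linarith]; ring
  have e3 : x ^ 2 * (1 - c ^ 2) = (r - c) ^ 2 := by
    rw [← h2, show 1 - c ^ 2 = σ ^ 2 by linarith]; ring
  have k1 := mul_le_mul_of_nonneg_left (cube_lb ht ht0) hD.le
  have k2 := mul_le_mul_of_nonneg_left (cube_lb hx hx0) (mul_nonneg hD.le hc)
  have k3 : 3 / 2 * (r ^ 2 - 1) * ((1 - r * c) * (1 + c ^ 2 / 2)) * (1 - c ^ 2) ≤
      3 / 2 * (r ^ 2 - 1) * t * (1 - c ^ 2) := by
    have : 0 ≤ 3 / 2 * (r ^ 2 - 1) := by nlinarith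
    gcongr
  rw [← e2, ← e3]
  linarith

/-- lower bound of `x³/(1+x²)` -/
theorem hlow {x : ℝ} (hx : 0 ≤ x) (hx1 : x ≤ 1) :
    463 / 1000 * x ^ 2 - 191 / 10000 ≤ x ^ 3 / (1 + x ^ 2) := by
  rw [le_div_iff₀ (by positivity)]
  have h1 : 0 ≤ -(463/1000) * x ^ 2 + (1 - 2 * (463/1000) * (39/100)) * x + 12/100 := by
    nlinarith
  nlinarith [mul_nonneg (sq_nonneg (x - 39/100)) h1, sq_nonneg (x - 39/100)]

/-- pointwise inequality, `n = 3` -/
theorem pw4 {c σ x F : ℝ} (hc : 0 < c) (hσ : 0 ≤ σ) (hcs : σ ^ 2 + c ^ 2 = 1) (hx : 0 < x)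
    (ht : 0 ≤ σ - x * c) (hF0 : 0 ≤ F)
    (hFa : c + x * σ ≤ 1 → x ^ 3 * (c + x * σ) / (1 + x ^ 2) ≤ F)
    (hFb : 1 ≤ c + x * σ → 3 / 2 * (σ - x * c) * ((c + x * σ) ^ 2 - 1) + 1 / 2 * (σ - x * c) ^ 3 +
      1 / 2 * x ^ 3 * c ≤ F) :
    12733 / 2500 * EV c (c + x * σ) (x ^ 2) + 1 / 1000 * (c + 2 * (c + x * σ)) ≤
      3 / 4 * (c + 2 * (c + x * σ)) * √(1 + F) := by
  have hσ0 : 0 < σ := by nlinarith [mul_pos hx hc]
  have hc1 : c < 1 := by nlinarith
  have hD : 0 < 1 - c ^ 2 := by nlinarith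
  have h1 : (σ - x * c) * σ = 1 - (c + x * σ) * c := by nlinarith
  have h2 : x * σ = (c + x * σ) - c := by ring
  have hrc : c ≤ c + x * σ := by nlinarith [mul_pos hx hσ0]
  have hcr : (c + x * σ) * c ≤ 1 := by nlinarith [mul_nonneg ht hσ]
  have hX : x ^ 2 * (1 - c ^ 2) = ((c + x * σ) - c) ^ 2 := by
    rw [show 1 - c ^ 2 = σ ^ 2 by linarith]; ring
  generalize hr : c + x * σ = r at *
  generalize htt : σ - x * c = t at *
  rcases le_total r 1 with hr1 | hr1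
  · have hFa' := hFa hr1
    have hr0 : 0 < r := by linarith
    have hx1 : x ≤ 1 := by
      have : x ^ 2 = r ^ 2 + t ^ 2 - 1 := by
        rw [← hr, ← htt]; nlinarith
      have ht1 : t ≤ 1 := by nlinarith [mul_pos hx hc]
      have : x ^ 2 ≤ 1 := by nlinarith
      nlinarith
    have hCp : r * ((463/1000) * (r - c) ^ 2 - (191/10000) * (1 - c ^ 2)) ≤ (1 - c ^ 2) * F := by
      rw [← hX]
      have h5 := hlow hx.le hx1
      have h6 : r * (463 / 1000 * x ^ 2 - 191 / 10000) ≤ r * (x ^ 3 / (1 + x ^ 2)) := by gcongr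
      have h7 : r * (x ^ 3 / (1 + x ^ 2)) = x ^ 3 * r / (1 + x ^ 2) := by ring
      have h8 : (1 - c ^ 2) * (r * (463 / 1000 * x ^ 2 - 191 / 10000)) ≤ (1 - c ^ 2) * F := by
        gcongr; linarith
      linarith
    rcases le_total c (1/2) with h | h
    · exact fin4 hc.le hc1 hr0.le hF0 (by norm_num) hX hCp
        (c4a3 (by linarith) hc1 h hrc hr1) (g4a (by linarith) hc1 hrc hr1)
    rcases le_total c (3/4) with h' | h'
    · exact fin4 hc.le hc1 hr0.le hF0 (by norm_num) hX hCp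
        (c4a2 (by linarith) hc1 h' hrc hr1) (g4a (by linarith) hc1 hrc hr1)
    · exact fin4 hc.le hc1 hr0.le hF0 (by norm_num) hX hCp
        (c4a1 (by linarith) hc1 hrc hr1) (g4a (by linarith) hc1 hrc hr1)
  · have hFb' := hFb hr1
    have hr0 : 0 < r := by linarith
    have hcap : ∀ t0 x0 : ℝ, 0 ≤ t0 → 0 ≤ x0 →
        (3 / 2 * (r ^ 2 - 1) * ((1 - r * c) * (1 + c ^ 2 / 2)) * (1 - c ^ 2) +
          1 / 2 * (3 / 2 * t0 * (1 - r * c) ^ 2 - 1 / 2 * t0 ^ 3 * (1 - c ^ 2)) +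
          1 / 2 * c * (3 / 2 * x0 * (r - c) ^ 2 - 1 / 2 * x0 ^ 3 * (1 - c ^ 2))) ≤
        (1 - c ^ 2) * F := fun t0 x0 ht0 hx0 =>
      (capB hc.le hc1 hr1 hx.le ht hσ0 hcs ht0 hx0 h1 h2).trans
        (mul_le_mul_of_nonneg_left hFb' hD.le)
    rcases le_total c (5/16) with h | h
    · rcases le_total r (13/10) with h' | h'
      · exact fin4 hc.le hc1 hr0.le hF0 (by norm_num) hX (hcap _ _ (by norm_num) (by norm_num))
          (c4b1 hc.le h hr1 h') (g4b1 hc.le h hr1 h')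
      rcases le_total r (16/5) with h'' | h''
      · exact fin4 hc.le hc1 hr0.le hF0 (by norm_num) hX (hcap _ _ (by norm_num) (by norm_num))
          (c4b2 hc.le h h' h'') (g4b2 hc.le h h' h'')
      · have hG := g4b5 hc.le h h''
        refine fin4 hc.le hc1 hr0.le hF0 (le_refl (1:ℝ)) hX
          (Cp := 0) (mul_nonneg hD.le hF0) ?_ hG
        have e : (c + 2 * r) * (3 / 4 * (1 - c ^ 2 + 0 / (1 + 1)) - 1 / 1000 * (1 - c ^ 2)) =
          (c + 2 * r) * (3 / 4 * 1 - (1/1000)) * (1 - c ^ 2) := by ring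
        rw [e]
        exact hG
    · rcases le_total c (3/5) with h' | h'
      · exact fin4 hc.le hc1 hr0.le hF0 (by norm_num) hX (hcap _ _ (by norm_num) (by norm_num))
          (c4b3 h hc1 h' hr1 hcr) (g4b3 h hc1 h' hr1 hcr)
      · exact fin4 hc.le hc1 hr0.le hF0 (by norm_num) hX (hcap _ _ (by norm_num) (by norm_num))
          (c4b4 h' hc1 hr1 hcr) (g4b4 h' hc1 hr1 hcr)

/-- pointwise inequality, `n = 2` -/
theorem pw3 {c σ x C : ℝ} (hc : 0 < c) (hσ : 0 ≤ σ) (hcs : σ ^ 2 + c ^ 2 = 1) (hx : 0 < x)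
    (ht : 0 ≤ σ - x * c) (hC0 : 0 ≤ C)
    (hCa : c + x * σ ≤ 1 → x ^ 3 / 6 * (1 + c / (c + x * σ)) ≤ C)
    (hCb : 1 ≤ c + x * σ → (σ - x * c) * ((c + x * σ) - 1) + (σ - x * c) ^ 3 / 6 ≤ C) :
    R3 c (c + x * σ) (x ^ 2) + 1 / 1000 ≤ 3183 / 2500 + (3183 / 2500) ^ 2 * C := by
  have hσ0 : 0 < σ := by nlinarith [mul_pos hx hc]
  have hc1 : c < 1 := by nlinarith
  have hD : 0 < 1 - c ^ 2 := by nlinarith
  have h1 : (σ - x * c) * σ = 1 - (c + x * σ) * c := by nlinarith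
  have h2 : x * σ = (c + x * σ) - c := by ring
  have hrc : c ≤ c + x * σ := by nlinarith [mul_pos hx hσ0]
  have hcr : (c + x * σ) * c ≤ 1 := by nlinarith [mul_nonneg ht hσ]
  have hX : x ^ 2 * (1 - c ^ 2) = ((c + x * σ) - c) ^ 2 := by
    rw [show 1 - c ^ 2 = σ ^ 2 by linarith]; ring
  generalize hr : c + x * σ = r at *
  generalize htt : σ - x * c = t at *
  have hr0 : 0 < r := by linarith
  have hE : (1 - c ^ 2) * R3 c r (x ^ 2) = (1 - c ^ 2) * (3 / 4 * (c + 2 * r) -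
      9 / 80 * (c ^ 3 + 2 * c ^ 2 * r + 3 * c * r ^ 2 + 4 * r ^ 3)) +
      3 / 40 * (r - c) ^ 2 * (c + 4 * r) := by
    rw [← hX]; unfold R3; ring
  -- it suffices to multiply by `1 - c²`
  suffices h : 0 ≤ (1 - c ^ 2) * (3183 / 2500 + (3183 / 2500) ^ 2 * C -
      (R3 c r (x ^ 2) + 1 / 1000)) by
    have := nonneg_of_mul_nonneg_right h hD
    linarith
  have hred : (1 - c ^ 2) * (3183 / 2500 + (3183 / 2500) ^ 2 * C -
      (R3 c r (x ^ 2) + 1 / 1000)) = (3183 / 2500 - 1 / 1000) * (1 - c ^ 2) -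
      ((1 - c ^ 2) * (3 / 4 * (c + 2 * r) -
      9 / 80 * (c ^ 3 + 2 * c ^ 2 * r + 3 * c * r ^ 2 + 4 * r ^ 3)) +
      3 / 40 * (r - c) ^ 2 * (c + 4 * r)) + (3183 / 2500) ^ 2 * ((1 - c ^ 2) * C) := by
    rw [← hE]; ring
  rw [hred]
  rcases le_total r 1 with hr1 | hr1
  · have hCa' := hCa hr1
    have hinv : 2 - r ≤ 1 / r := by
      rw [le_div_iff₀ hr0]; nlinarith [sq_nonneg (r - 1)]
    have hk : (1 + c * (2 - r)) * (3 / 2 * (7/20) * (r - c) ^ 2 - 1 / 2 * (7/20) ^ 3 * (1 - c ^ 2)) ≤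
        6 * ((1 - c ^ 2) * C) := by
      rw [← hX]
      have h3 := cube_lb hx.le (show (0:ℝ) ≤ 7/20 by norm_num)
      have h4 : 1 + c * (2 - r) ≤ 1 + c / r := by
        have : c * (2 - r) ≤ c * (1 / r) := by gcongr
        have e : c * (1 / r) = c / r := by ring
        linarith
      have h5 : 0 ≤ 1 + c * (2 - r) := by nlinarith
      have h6 : (1 + c * (2 - r)) * (3 / 2 * (7/20) * x ^ 2 - 1 / 2 * (7/20) ^ 3) ≤
          (1 + c * (2 - r)) * x ^ 3 := by gcongr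
      have h7 : (1 + c * (2 - r)) * x ^ 3 ≤ (1 + c / r) * x ^ 3 := by gcongr
      have h8' : (1 + c * (2 - r)) * (3 / 2 * (7/20) * x ^ 2 - 1 / 2 * (7/20) ^ 3) ≤ 6 * C := by
        linarith
      have h8 := mul_le_mul_of_nonneg_left h8' hD.le
      linarith
    rcases le_total c (1/2) with h | h
    · have := c3a3 hc.le hc1 h hrc hr1
      linarith
    rcases le_total c (3/4) with h' | h'
    · have := c3a2 h hc1 h' hrc hr1
      linarith
    · have := c3a1 h' hc1 hrc hr1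
      linarith
  · have hCb' := hCb hr1
    have hcap := capB (x0 := 0) hc.le hc1 hr1 hx.le ht hσ0 hcs (show (0:ℝ) ≤ 3/5 by norm_num)
      le_rfl h1 h2
    have hCD : (1 - c ^ 2) * (t * (r - 1) + t ^ 3 / 6) ≤ (1 - c ^ 2) * C := by gcongr
    have hk : (r - 1) * ((1 - r * c) * (1 + c ^ 2 / 2)) * (1 - c ^ 2) +
        (3 / 2 * (3/5) * (1 - r * c) ^ 2 - 1 / 2 * (3/5) ^ 3 * (1 - c ^ 2)) / 6 ≤
        (1 - c ^ 2) * (t * (r - 1) + t ^ 3 / 6) := by
      have hσ1 : σ * (1 + c ^ 2 / 2) ≤ 1 := by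
        have : (σ * (1 + c ^ 2 / 2)) ^ 2 ≤ 1 ^ 2 := by
          have e : (σ * (1 + c ^ 2 / 2)) ^ 2 = (1 - c ^ 2) * (1 + c ^ 2 / 2) ^ 2 := by
            rw [mul_pow, show σ ^ 2 = 1 - c ^ 2 by linarith]
          rw [e]
          have : (1 - c ^ 2) * (1 + c ^ 2 / 2) ^ 2 = 1 - 3 / 4 * c ^ 4 - 1 / 4 * c ^ 6 := by ring
          rw [this]
          have : 0 ≤ c ^ 4 := by positivity
          have : 0 ≤ c ^ 6 := by positivity
          linarith
        exact (abs_le_of_sq_le_sq' this zero_le_one).2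
      have e1 : (1 - r * c) * (1 + c ^ 2 / 2) ≤ t := by
        rw [← h1, mul_assoc]
        nlinarith
      have e2 : t ^ 2 * (1 - c ^ 2) = (1 - r * c) ^ 2 := by
        rw [← h1, show 1 - c ^ 2 = σ ^ 2 by linarith]; ring
      have k1 := mul_le_mul_of_nonneg_left (cube_lb ht (show (0:ℝ) ≤ 3/5 by norm_num)) hD.le
      have k3 : (r - 1) * ((1 - r * c) * (1 + c ^ 2 / 2)) * (1 - c ^ 2) ≤
          (r - 1) * t * (1 - c ^ 2) := by
        have : 0 ≤ r - 1 := by linarith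
        gcongr
      rw [← e2]
      linarith
    rcases le_total c (1/3) with h | h
    · rcases le_total r 3 with h' | h'
      · have := c3b1 hc.le h hr1 h'
        linarith
      · have := c3b3 hc.le h h'
        have h0 : 0 ≤ (1 - c ^ 2) * C := mul_nonneg hD.le hC0
        nlinarith
    · have := c3b2 h hc1 hr1 hcr
      linarith

end Crest.Agent.R230.SD
end

-- ▼ part R230/SDMain
section

/-!
# Row 230: the one dimensional inequalities behind `SDL 2`, `SDL 3`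
-/

set_option autoImplicit false
set_option maxHeartbeats 1000000
set_option linter.unusedVariables false

open MeasureTheory Set Filter Topology Real

namespace Crest.Agent.R230.SD

theorem GD4_eq (α x : ℝ) : GD4 α x = 1 / 2 * x ^ 3 * cos α - 3 / 2 * (sin α - x * cos α) +
    1 / 2 * (sin α - x * cos α) ^ 3 := by
  have hcs := Real.sin_sq_add_cos_sq α
  unfold GD4
  set σ := sin α
  set c := cos α
  linear_combination (1 / 2 * c * x ^ 3 + 3 / 2 * x * c) * hcs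

theorem pt4 {α x F : ℝ} (hc : 0 < cos α) (hσ : 0 ≤ sin α) (hx : 0 < x)
    (ht : 0 ≤ sin α - x * cos α) (hF0 : 0 ≤ F)
    (hFa : cos α + x * sin α ≤ 1 → x ^ 3 * (cos α + x * sin α) / (1 + x ^ 2) ≤ F)
    (hFb : 1 ≤ cos α + x * sin α → 3 / 2 * (sin α - x * cos α) * ((cos α + x * sin α) ^ 2 - 1) +
      1 / 2 * (sin α - x * cos α) ^ 3 + 1 / 2 * x ^ 3 * cos α ≤ F) :
    16 / π * mV4 α x + 1 / 500 * mD4 α x ≤ 3 / 2 * √(1 + F) * mD4 α x := by
  have h := pw4 hc hσ (Real.sin_sq_add_cos_sq α) hx ht hF0 hFa hFb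
  rw [mV4_eq, mD4_eq]
  have hr0 : 0 ≤ cos α + x * sin α := by positivity
  generalize hr : cos α + x * sin α = r at *
  generalize cos α = c at *
  set E := EV c r (x ^ 2) with hE
  have hpi := Real.pi_gt_d4
  have hpi0 := Real.pi_pos
  have h1 : 16 / π * E + 1 / 1000 * (c + 2 * r) ≤ 3 / 4 * (c + 2 * r) * √(1 + F) := by
    rcases le_total 0 E with hE0 | hE0
    · have : 16 / π ≤ 12733 / 2500 := by
        rw [div_le_iff₀ hpi0]; linarith
      have := mul_le_mul_of_nonneg_right this hE0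
      linarith
    · have h2 : 16 / π * E ≤ 0 := mul_nonpos_of_nonneg_of_nonpos (by positivity) hE0
      have h3 : 1 ≤ √(1 + F) := Real.one_le_sqrt.2 (by linarith)
      have h4 : 0 ≤ c + 2 * r := by positivity
      nlinarith
  have h2 := mul_le_mul_of_nonneg_left h1 (sq_nonneg x)
  linarith

theorem pt3 {α x C : ℝ} (hc : 0 < cos α) (hσ : 0 ≤ sin α) (hx : 0 < x)
    (ht : 0 ≤ sin α - x * cos α) (hC0 : 0 ≤ C)
    (hCa : cos α + x * sin α ≤ 1 → x ^ 3 / 6 * (1 + cos α / (cos α + x * sin α)) ≤ C)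
    (hCb : 1 ≤ cos α + x * sin α → (sin α - x * cos α) * ((cos α + x * sin α) - 1) +
      (sin α - x * cos α) ^ 3 / 6 ≤ C) :
    mV3 α x + 1 / 1000 * (4 / π * mD3 α x) ≤ 2 * (1 + 4 / π * C) * (4 / π * mD3 α x) := by
  have h := pw3 hc hσ (Real.sin_sq_add_cos_sq α) hx ht hC0 hCa hCb
  rw [mV3_eq, mD3_eq]
  generalize hr : cos α + x * sin α = r at *
  generalize cos α = c at *
  set E := R3 c r (x ^ 2) with hE
  have hpi := Real.pi_lt_d4
  have hpi' := Real.pi_gt_three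
  have hpi0 := Real.pi_pos
  have h1 : 3183 / 2500 ≤ 4 / π := by
    rw [le_div_iff₀ hpi0]; linarith
  have h2 : 4 / π ≤ 2 := by
    rw [div_le_iff₀ hpi0]; linarith
  have h3 : (3183 / 2500) ^ 2 * C ≤ (4 / π) ^ 2 * C := by gcongr
  have h4 : E + 1 / 1000 * (1 / 2 * (4 / π)) ≤ (1 + 4 / π * C) * (4 / π) := by
    have : (1 + 4 / π * C) * (4 / π) = 4 / π + (4 / π) ^ 2 * C := by ring
    rw [this]
    linarith
  have h5 := mul_le_mul_of_nonneg_left h4 (sq_nonneg x)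
  linarith

theorem arctan_facts {x : ℝ} (hx : 0 < x) : 0 < cos (arctan x) ∧ 0 ≤ sin (arctan x) ∧
    sin (arctan x) - x * cos (arctan x) = 0 ∧ 1 < cos (arctan x) + x * sin (arctan x) := by
  have hp : 0 < 1 + x ^ 2 := by positivity
  have hs : 0 < √(1 + x ^ 2) := Real.sqrt_pos.2 hp
  have hq : √(1 + x ^ 2) ^ 2 = 1 + x ^ 2 := Real.sq_sqrt hp.le
  have h1 : 0 < cos (arctan x) := Real.cos_arctan_pos x
  refine ⟨h1, ?_, ?_, ?_⟩
  · rw [Real.sin_arctan]; positivity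
  · rw [Real.sin_arctan, Real.cos_arctan]; field_simp; ring
  · rw [Real.sin_arctan, Real.cos_arctan]
    have e : 1 / √(1 + x ^ 2) + x * (x / √(1 + x ^ 2)) = √(1 + x ^ 2) := by
      field_simp
      rw [hq]
    rw [e]
    exact Real.lt_sqrt_of_sq_lt (by nlinarith)

theorem GD3_arctan {x : ℝ} : GD3 (arctan x) x = (x - arctan x) / 2 := by
  have hp : 0 < 1 + x ^ 2 := by positivity
  have hs : 0 < √(1 + x ^ 2) := Real.sqrt_pos.2 hp
  have hq : √(1 + x ^ 2) ^ 2 = 1 + x ^ 2 := Real.sq_sqrt hp.le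
  unfold GD3
  rw [Real.sin_arctan, Real.cos_arctan]
  have e : (1/2 : ℝ) * (x / √(1 + x ^ 2) * (1 / √(1 + x ^ 2)) * x ^ 2) +
      (-1/2 : ℝ) * (x / √(1 + x ^ 2) * (1 / √(1 + x ^ 2))) + (1 : ℝ) * ((1 / √(1 + x ^ 2)) ^ 2 * x) =
      x / 2 * ((x ^ 2 + 1) / √(1 + x ^ 2) ^ 2) := by
    field_simp
    ring
  rw [e, hq, show (x ^ 2 + 1) / (1 + x ^ 2) = 1 by rw [add_comm, div_self hp.ne']]
  ring

/-- the inequality for strict profiles, `n = 3` -/
theorem core4 {r : ℝ → ℝ} (hr : SP r) :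
    (∫ s in (0 : ℝ)..1, 16 / π * PV4 s (r s)) +
      1 / 500 * (∫ s in (0 : ℝ)..1, 3 / 2 * (r s ^ 2 - (1 - s ^ 2))) ≤
    (1 + ∫ s in (0 : ℝ)..1, 3 / 2 * (r s ^ 2 - (1 - s ^ 2))) *
      √(1 + ∫ s in (0 : ℝ)..1, 3 / 2 * (r s ^ 2 - (1 - s ^ 2))) := by
  have h := core (H := fun F => (1 + F) * √(1 + F)) (k := fun F => 3 / 2 * √(1 + F)) (e0 := 1 / 500)
    densD4 (densV4.smul (16 / π)) hr ?_ ?_ (fun t ht => FT4_nonneg hr ht) ?_ ?_ ?_ ?_
  · have e1 : FT PD4 GD4 r 1 = ∫ s in (0 : ℝ)..1, 3 / 2 * (r s ^ 2 - (1 - s ^ 2)) := by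
      rw [FT4_eq hr ⟨zero_le_one, le_rfl⟩, al_one hr]
      simp
    have e2 : FT (fun s ρ => 16 / π * PV4 s ρ) (fun α x => 16 / π * GV4 α x) r 1 =
        (∫ s in (0 : ℝ)..1, 16 / π * PV4 s (r s)) - 1 := by
      unfold FT
      rw [al_one hr]
      have : GV4 (π / 2) (xx r 1) = -(π / 16) := by
        unfold GV4
        rw [Real.sin_pi_div_two, Real.cos_pi_div_two]
        ring
      have e3 : 16 / π * GV4 (π / 2) (xx r 1) = -1 := by
        rw [this]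
        have := Real.pi_pos.ne'
        field_simp
      change (∫ s in (0 : ℝ)..1, 16 / π * PV4 s (r s)) + 16 / π * GV4 (π / 2) (xx r 1) = _
      rw [e3]
      ring
    rw [e1, e2] at h
    simp only [add_zero, Real.sqrt_one, mul_one] at h
    linarith
  · intro F hF
    have h1 : HasDerivAt (fun F : ℝ => 1 + F) 1 F := (hasDerivAt_id F).const_add 1
    have h2 := h1.mul (h1.sqrt (by linarith))
    refine HasDerivAt.congr_deriv h2 ?_
    have hs : 0 < √(1 + F) := Real.sqrt_pos.2 (by linarith)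
    have hq : √(1 + F) ^ 2 = 1 + F := Real.sq_sqrt (by linarith)
    field_simp
    rw [hq]; ring
  · intro t ht
    have ht' : t ∈ Icc (0 : ℝ) 1 := ⟨ht.1, ht.2.le⟩
    have hte := t_eq hr ht'
    have hre := r_eq hr ht'
    refine pt4 (cos_al_pos hr ht) (sin_al_nonneg hr ht') (xx_pos hr ht') (by rw [hte]; exact ht.1)
      (FT4_nonneg hr ht') ?_ ?_
    · rw [hre]
      intro h1
      exact FT4_A hr ht h1
    · rw [hre, hte]
      intro h1
      exact FT4_B hr ht' h1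
  · intro x hx
    obtain ⟨a1, a2, a3, a4⟩ := arctan_facts hx
    have hG : GD4 (arctan x) x = 1 / 2 * x ^ 3 * cos (arctan x) := by
      rw [GD4_eq, a3]; ring
    refine pt4 a1 a2 hx a3.ge ?_ (fun h => absurd h (not_le.2 a4)) ?_
    · rw [hG]; positivity
    · intro _
      rw [hG, a3]
      linarith
  · intro x hx
    rcases eq_or_lt_of_le hx with h | h
    · rw [← h]; unfold GD4; simp
    · obtain ⟨a1, a2, a3, a4⟩ := arctan_facts h
      rw [GD4_eq, a3]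
      have : 0 ≤ 1 / 2 * x ^ 3 * cos (arctan x) := by positivity
      linarith
  · unfold GD4; simp
  · unfold GV4; simp

/-- the inequality for strict profiles, `n = 2` -/
theorem core3 {r : ℝ → ℝ} (hr : SP r) :
    (∫ s in (0 : ℝ)..1, PV3 s (r s)) +
      1 / 1000 * (4 / π * (∫ s in (0 : ℝ)..1, (r s - √(1 - s ^ 2)))) ≤
    (1 + 4 / π * (∫ s in (0 : ℝ)..1, (r s - √(1 - s ^ 2)))) ^ 2 := by
  have hFTs : ∀ t, FT (fun s ρ => 4 / π * PD3 s ρ) (fun α x => 4 / π * GD3 α x) r t =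
      4 / π * FT PD3 GD3 r t := by
    intro t
    unfold FT
    rw [intervalIntegral.integral_const_mul]
    ring
  have h := core (H := fun F => (1 + F) ^ 2) (k := fun F => 2 * (1 + F)) (e0 := 1 / 1000)
    (densD3.smul (4 / π)) densV3 hr ?_ ?_ ?_ ?_ ?_ ?_ ?_
  · rw [hFTs] at h
    have e1 : FT PD3 GD3 r 1 = ∫ s in (0 : ℝ)..1, (r s - √(1 - s ^ 2)) := by
      rw [FT3_eq hr, al_one hr]
      have hI := int_sqrt (α := π / 2) (by positivity) le_rfl
      rw [Real.sin_pi_div_two, Real.cos_pi_div_two] at hI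
      rw [hI]
      unfold GD3
      rw [Real.sin_pi_div_two, Real.cos_pi_div_two]
      ring
    have e2 : FT PV3 GV3 r 1 = (∫ s in (0 : ℝ)..1, PV3 s (r s)) - 1 := by
      unfold FT
      rw [al_one hr]
      have : GV3 (π / 2) (xx r 1) = -1 := by
        unfold GV3
        rw [Real.sin_pi_div_two, Real.cos_pi_div_two]
        ring
      rw [this]
      ring
    rw [e1, e2] at h
    simp only [add_zero, one_pow] at h
    linarith
  · intro F hF
    have h1 : HasDerivAt (fun F : ℝ => 1 + F) 1 F := (hasDerivAt_id F).const_add 1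
    refine HasDerivAt.congr_deriv (h1.pow 2) ?_
    simp
  · intro t ht
    rw [hFTs]
    have ht' : t ∈ Icc (0 : ℝ) 1 := ⟨ht.1, ht.2.le⟩
    have hte := t_eq hr ht'
    have hre := r_eq hr ht'
    refine pt3 (cos_al_pos hr ht) (sin_al_nonneg hr ht') (xx_pos hr ht') (by rw [hte]; exact ht.1)
      (FT3_nonneg hr ht') ?_ ?_
    · rw [hre]
      intro h1
      exact FT3_A hr ht h1
    · rw [hre, hte]
      intro h1
      exact FT3_B hr ht h1
  · intro t ht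
    rw [hFTs]
    have := FT3_nonneg hr ht
    positivity
  · intro x hx
    obtain ⟨a1, a2, a3, a4⟩ := arctan_facts hx
    have hG : 0 ≤ GD3 (arctan x) x := by
      rw [GD3_arctan]
      have := Real.le_tan (Real.arctan_nonneg.2 hx.le) (Real.arctan_lt_pi_div_two x)
      rw [Real.tan_arctan] at this
      linarith
    refine pt3 a1 a2 hx a3.ge hG (fun h => absurd h (not_le.2 a4)) ?_
    intro _
    rw [a3]
    linarith
  · intro x hx
    have hG : 0 ≤ GD3 (arctan x) x := by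
      rw [GD3_arctan]
      have := Real.le_tan (Real.arctan_nonneg.2 hx) (Real.arctan_lt_pi_div_two x)
      rw [Real.tan_arctan] at this
      linarith
    positivity
  · unfold GD3; simp
  · unfold GV3; simp

end Crest.Agent.R230.SD
end

-- ▼ part R230/SDWrap

/-!
# Row 230: limit from strict profiles, and the constants, for `SDL 2`, `SDL 3`
-/

set_option autoImplicit false
set_option maxHeartbeats 1000000
set_option linter.unusedVariables false

open MeasureTheory Set Filter Topology Real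

namespace Crest.Agent.R230.SD

/-- continuous extension of a profile -/
noncomputable def ext (r : ℝ → ℝ) : ℝ → ℝ :=
  IccExtend (by norm_num : (-1 : ℝ) ≤ 1) (domRestrict (Icc (-1) 1) r)

theorem ext_cont {r : ℝ → ℝ} (hr : Prof r) : Continuous (ext r) :=
  (continuousOn_iff_continuous_domRestrict.1 hr.cont).Icc_extend'

theorem ext_eq {r : ℝ → ℝ} {s : ℝ} (hs : s ∈ Icc (-1 : ℝ) 1) : ext r s = r s :=
  IccExtend_of_mem _ _ hs

theorem ext_nonneg {r : ℝ → ℝ} (h : ∀ s ∈ Icc (-1 : ℝ) 1, √(1 - s ^ 2) ≤ r s) (s : ℝ) :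
    0 ≤ ext r s := by
  unfold ext IccExtend
  simp only [Function.comp, domRestrict]
  exact (Real.sqrt_nonneg _).trans (h _ (projIcc (-1 : ℝ) 1 (by norm_num) s).2)

theorem prof_anti {r : ℝ → ℝ} (hr : Prof r) : AntitoneOn r (Icc 0 1) := by
  intro a ha b hb hab
  have hb1 : b ∈ Icc (-1 : ℝ) 1 := ⟨by linarith [hb.1], hb.2⟩
  have hb2 : -b ∈ Icc (-1 : ℝ) 1 := ⟨by linarith [hb.2], by linarith [hb.1]⟩
  have := hr.conc.min_le_of_mem_Icc hb2 hb1 (z := a) ⟨by linarith [ha.1, hb.1], hab⟩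
  rwa [hr.even b hb1, min_self] at this

theorem sp_ext {r : ℝ → ℝ} (hr : Prof r) (h : ∀ s ∈ Icc (-1 : ℝ) 1, √(1 - s ^ 2) ≤ r s)
    {ε : ℝ} (hε : 0 < ε) : SP (fun s => ext r s + ε) where
  cont := (ext_cont hr).add continuous_const
  conc := by
    have h1 : ConcaveOn ℝ (Icc (-1) 1) (fun s => r s + ε) := hr.conc.add_const ε
    refine h1.congr ?_
    intro s hs
    simp only [ext_eq hs]
  anti := by
    intro a ha b hb hab
    have e1 : ext r a = r a := ext_eq ⟨by linarith [ha.1], ha.2⟩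
    have e2 : ext r b = r b := ext_eq ⟨by linarith [hb.1], hb.2⟩
    have := prof_anti hr ha hb hab
    simp only [e1, e2]
    linarith
  pos := fun s => by have := ext_nonneg h s; linarith
  lt := by
    intro s hs
    have hs' : s ∈ Icc (-1 : ℝ) 1 := ⟨by linarith [hs.1], hs.2⟩
    have h1 := h s hs'
    have h0 := Real.sqrt_nonneg (1 - s ^ 2)
    have h2 : √(1 - s ^ 2) ^ 2 = 1 - s ^ 2 := Real.sq_sqrt (by nlinarith [hs.1, hs.2])
    simp only [ext_eq hs']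
    rw [← h2]
    have : √(1 - s ^ 2) < r s + ε := by linarith
    gcongr

theorem lim_le {A B : ℝ → ℝ} (hA : Continuous A) (hB : Continuous B) (h : ∀ ε, 0 < ε → A ε ≤ B ε) :
    A 0 ≤ B 0 := by
  have hA' : Tendsto A (𝓝[>] 0) (𝓝 (A 0)) := (hA.tendsto 0).mono_left nhdsWithin_le_nhds
  have hB' : Tendsto B (𝓝[>] 0) (𝓝 (B 0)) := (hB.tendsto 0).mono_left nhdsWithin_le_nhds
  exact le_of_tendsto_of_tendsto hA' hB' (eventually_nhdsWithin_of_forall fun ε hε => h ε hε)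

theorem main4 {r : ℝ → ℝ} (hr : Prof r) (h : ∀ s ∈ Icc (-1 : ℝ) 1, √(1 - s ^ 2) ≤ r s) :
    (∫ s in (0 : ℝ)..1, 16 / π * PV4 s (ext r s)) +
      1 / 500 * (∫ s in (0 : ℝ)..1, 3 / 2 * (ext r s ^ 2 - (1 - s ^ 2))) ≤
    (1 + ∫ s in (0 : ℝ)..1, 3 / 2 * (ext r s ^ 2 - (1 - s ^ 2))) *
      √(1 + ∫ s in (0 : ℝ)..1, 3 / 2 * (ext r s ^ 2 - (1 - s ^ 2))) := by
  have hc := ext_cont hr
  have c1 : Continuous fun ε : ℝ => ∫ s in (0 : ℝ)..1, 16 / π * PV4 s (ext r s + ε) := by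
    apply intervalIntegral.continuous_parametric_intervalIntegral_of_continuous'
    unfold PV4 Function.uncurry
    fun_prop
  have c2 : Continuous fun ε : ℝ => ∫ s in (0 : ℝ)..1, 3 / 2 * ((ext r s + ε) ^ 2 - (1 - s ^ 2)) := by
    apply intervalIntegral.continuous_parametric_intervalIntegral_of_continuous'
    unfold Function.uncurry
    fun_prop
  have := lim_le (A := fun ε => (∫ s in (0 : ℝ)..1, 16 / π * PV4 s (ext r s + ε)) +
      1 / 500 * (∫ s in (0 : ℝ)..1, 3 / 2 * ((ext r s + ε) ^ 2 - (1 - s ^ 2))))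
    (B := fun ε => (1 + ∫ s in (0 : ℝ)..1, 3 / 2 * ((ext r s + ε) ^ 2 - (1 - s ^ 2))) *
      √(1 + ∫ s in (0 : ℝ)..1, 3 / 2 * ((ext r s + ε) ^ 2 - (1 - s ^ 2))))
    (c1.add (continuous_const.mul c2)) (by fun_prop) (fun ε hε => core4 (sp_ext hr h hε))
  simpa only [add_zero] using this

theorem main3 {r : ℝ → ℝ} (hr : Prof r) (h : ∀ s ∈ Icc (-1 : ℝ) 1, √(1 - s ^ 2) ≤ r s) :
    (∫ s in (0 : ℝ)..1, PV3 s (ext r s)) +
      1 / 1000 * (4 / π * (∫ s in (0 : ℝ)..1, (ext r s - √(1 - s ^ 2)))) ≤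
    (1 + 4 / π * (∫ s in (0 : ℝ)..1, (ext r s - √(1 - s ^ 2)))) ^ 2 := by
  have hc := ext_cont hr
  have c1 : Continuous fun ε : ℝ => ∫ s in (0 : ℝ)..1, PV3 s (ext r s + ε) := by
    apply intervalIntegral.continuous_parametric_intervalIntegral_of_continuous'
    unfold PV3 Function.uncurry
    fun_prop
  have c2 : Continuous fun ε : ℝ => ∫ s in (0 : ℝ)..1, ((ext r s + ε) - √(1 - s ^ 2)) := by
    apply intervalIntegral.continuous_parametric_intervalIntegral_of_continuous'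
    unfold Function.uncurry
    fun_prop
  have := lim_le (A := fun ε => (∫ s in (0 : ℝ)..1, PV3 s (ext r s + ε)) +
      1 / 1000 * (4 / π * (∫ s in (0 : ℝ)..1, ((ext r s + ε) - √(1 - s ^ 2)))))
    (B := fun ε => (1 + 4 / π * (∫ s in (0 : ℝ)..1, ((ext r s + ε) - √(1 - s ^ 2)))) ^ 2)
    (c1.add (continuous_const.mul (continuous_const.mul c2))) (by fun_prop)
    (fun ε hε => core3 (sp_ext hr h hε))
  simpa only [add_zero] using this

theorem even_int {f : ℝ → ℝ} (hf : Continuous f) (he : ∀ s ∈ Icc (0 : ℝ) 1, f (-s) = f s) :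
    ∫ s in (-1 : ℝ)..1, f s = 2 * ∫ s in (0 : ℝ)..1, f s := by
  rw [← intervalIntegral.integral_add_adjacent_intervals (hf.intervalIntegrable (-1) 0)
    (hf.intervalIntegrable 0 1)]
  have h1 : ∫ s in (-1 : ℝ)..0, f s = ∫ s in (0 : ℝ)..1, f (-s) := by
    rw [intervalIntegral.integral_comp_neg (fun s => f s)]; simp
  have h2 : ∫ s in (0 : ℝ)..1, f (-s) = ∫ s in (0 : ℝ)..1, f s := by
    apply intervalIntegral.integral_congr
    intro s hs
    rw [uIcc_of_le zero_le_one] at hs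
    exact he s hs
  rw [h1, h2]; ring

theorem ext_even {r : ℝ → ℝ} (hr : Prof r) {s : ℝ} (hs : s ∈ Icc (0 : ℝ) 1) :
    ext r (-s) = ext r s := by
  have h1 : s ∈ Icc (-1 : ℝ) 1 := ⟨by linarith [hs.1], hs.2⟩
  rw [ext_eq h1, ext_eq ⟨by linarith [hs.2], by linarith [hs.1]⟩, hr.even s h1]

theorem mom_eq {r : ℝ → ℝ} (hr : Prof r) (k : ℕ) :
    mom k r = 2 * ∫ s in (0 : ℝ)..1, ext r s ^ k := by
  have hc := ext_cont hr
  have h1 : mom k r = ∫ s in (-1 : ℝ)..1, ext r s ^ k := by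
    unfold mom
    apply intervalIntegral.integral_congr
    intro s hs
    rw [uIcc_of_le (by norm_num)] at hs
    simp only [ext_eq hs]
  rw [h1, even_int (by fun_prop)]
  intro s hs
  rw [ext_even hr hs]

theorem zero_of_int {f : ℝ → ℝ} (hf : Continuous f) (h0 : ∀ s ∈ Icc (0 : ℝ) 1, 0 ≤ f s)
    (hi : ∫ s in (0 : ℝ)..1, f s ≤ 0) : ∀ s ∈ Icc (0 : ℝ) 1, f s = 0 := by
  intro s hs
  by_contra hne
  have : 0 < ∫ s in (0 : ℝ)..1, f s :=
    intervalIntegral.integral_pos zero_lt_one hf.continuousOn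
      (fun x hx => h0 x ⟨hx.1.le, hx.2⟩) ⟨s, hs, lt_of_le_of_ne (h0 s hs) (Ne.symm hne)⟩
  linarith

theorem w_one : w 1 = π / 2 := by
  unfold w
  simp only [pow_one]
  exact integral_sqrt_one_sub_sq

theorem w_two : w 2 = 4 / 3 := by
  unfold w
  have : ∫ s in (-1 : ℝ)..1, √(1 - s ^ 2) ^ 2 = ∫ s in (-1 : ℝ)..1, (1 - s ^ 2) := by
    apply intervalIntegral.integral_congr
    intro s hs
    rw [uIcc_of_le (by norm_num)] at hs
    exact Real.sq_sqrt (by nlinarith [hs.1, hs.2])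
  rw [this, intervalIntegral.integral_sub (by simp) ((continuous_pow 2).intervalIntegrable _ _),
    integral_pow]
  norm_num

theorem w_three : w 3 = 3 * π / 8 := by
  unfold w
  have hg : Continuous fun s : ℝ => √(1 - s ^ 2) ^ 3 := by fun_prop
  have h := intervalIntegral.integral_comp_mul_deriv (a := -(π / 2)) (b := π / 2) (f := sin)
    (f' := cos) (fun x _ => Real.hasDerivAt_sin x) Real.continuous_cos.continuousOn hg
  rw [Real.sin_neg, Real.sin_pi_div_two] at h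
  rw [← h]
  have e : ∀ x ∈ uIcc (-(π / 2)) (π / 2),
      ((fun s : ℝ => √(1 - s ^ 2) ^ 3) ∘ sin) x * cos x = cos x ^ (2 + 2) := by
    intro x hx
    rw [uIcc_of_le (by linarith [Real.pi_pos])] at hx
    have hc : 0 ≤ cos x := Real.cos_nonneg_of_mem_Icc hx
    simp only [Function.comp]
    rw [← Real.abs_cos_eq_sqrt_one_sub_sin_sq, abs_of_nonneg hc]; ring
  rw [intervalIntegral.integral_congr e, integral_cos_pow, integral_cos_sq]
  simp only [Real.cos_neg, Real.cos_pi_div_two, Real.sin_neg, Real.sin_pi_div_two]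
  norm_num
  ring

end Crest.Agent.R230.SD
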