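import Crest.Agent.R230.SDCore
import Crest.Agent.R230.SDDens
import Crest.Agent.R230.SDBound
import Crest.Agent.R230.SD5Axis
import Crest.Agent.R230.SD5Root1
import Crest.Agent.R230.SD5Root2
import Crest.Agent.R230.SD5Root3
import Crest.Agent.R230.SD5Root4
import Crest.Agent.R230.SDWrap

-- ▼ part R230/SD5Core
section

/-!
# Row 230: the tangent foliation with a gauge term (core of the lemma `SDL 4`)
-/

set_option autoImplicit false
set_option maxHeartbeats 1000000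

open MeasureTheory Set Filter Topology Real

namespace Crest.Agent.R230.SD

variable {P G m PV GV mV : ℝ → ℝ → ℝ} {H k : ℝ → ℝ} {e0 : ℝ}

/-- the gauge -/
noncomputable def GE (α x : ℝ) : ℝ := 3 / 50 * (cos α * sin α ^ 5 * x ^ 6)

theorem continuous_GE : Continuous (fun q : ℝ × ℝ => GE q.1 q.2) := by
  unfold GE; fun_prop

theorem deriv_GE (a x : ℝ → ℝ) (a' x' u : ℝ) (S : Set ℝ) (ha : HasDerivWithinAt a a' S u)
    (hx : HasDerivWithinAt x x' S u) : HasDerivWithinAt (fun v => GE (a v) (x v))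
      (3 / 50 * (sin (a u) ^ 4 * x u ^ 5) * (x u * (5 * cos (a u) ^ 2 - sin (a u) ^ 2) * a' +
        6 * (cos (a u) * sin (a u)) * x')) S u := by
  have hs := ha.sin
  have hc := ha.cos
  have h := ((hc.mul (hs.pow 5)).mul (hx.pow 6)).const_mul (3 / 50 : ℝ)
  unfold GE
  refine HasDerivWithinAt.congr_deriv h ?_
  simp only [Pi.mul_apply, Pi.pow_apply]
  push_cast
  ring


/-- both derivatives, with the sign of the derivative of `r` -/
theorem deriv_al' {r : ℝ → ℝ} (hr : SP r) {t : ℝ} (ht : t ∈ Ico (0 : ℝ) 1) :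
    ∃ a' x' : ℝ, 0 ≤ a' ∧ HasDerivWithinAt (al r) a' (Ici t) t ∧ HasDerivWithinAt (xx r) x' (Ici t) t ∧
      (cos (al r t) + xx r t * sin (al r t)) * a' - cos (al r t) * x' = 1 ∧
      sin (al r t) * x' ≤ t * a' := by
  obtain ⟨a', x', ha0, ha, hx, h1⟩ := deriv_al hr ht
  refine ⟨a', x', ha0, ha, hx, h1, ?_⟩
  have ht' : t ∈ Icc (0 : ℝ) 1 := ⟨ht.1, ht.2.le⟩
  have hd : HasDerivWithinAt (fun s => cos (al r s) + xx r s * sin (al r s))
      (-sin (al r t) * a' + (x' * sin (al r t) + xx r t * (cos (al r t) * a'))) (Icc t 1) t :=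
    (ha.cos.add (hx.mul ha.sin)).mono Icc_subset_Ici_self
  have hd2 : HasDerivWithinAt r
      (-sin (al r t) * a' + (x' * sin (al r t) + xx r t * (cos (al r t) * a'))) (Icc t 1) t := by
    refine hd.congr ?_ (r_eq hr ht').symm
    intro s hs
    exact (r_eq hr ⟨ht.1.trans hs.1, hs.2⟩).symm
  have h2 : UniqueDiffWithinAt ℝ (Icc t 1) t := uniqueDiffOn_Icc ht.2 t ⟨le_rfl, ht.2.le⟩
  have h3 : -sin (al r t) * a' + (x' * sin (al r t) + xx r t * (cos (al r t) * a')) ≤ 0 := by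
    rw [← hd2.derivWithin h2]
    exact (hr.anti.mono (Icc_subset_Icc_left ht.1)).derivWithin_nonpos
  have h4 := t_eq hr ht'
  have h5 : t * a' = (sin (al r t) - xx r t * cos (al r t)) * a' := by rw [h4]
  rw [h5]
  linarith

theorem gauge_alg {σ c x t a' x' : ℝ} (hcs : σ ^ 2 + c ^ 2 = 1) (ht : σ - x * c = t) (hc : 0 ≤ c)
    (hx : 0 ≤ x) (hs : σ * x' ≤ t * a') :
    3 / 50 * (σ ^ 4 * x ^ 5) * (x * (5 * c ^ 2 - σ ^ 2) * a' + 6 * (c * σ) * x') ≤
      3 / 50 * (σ ^ 4 * x ^ 5) * (6 * (c * σ) - x) * a' := by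
  have h4 : 0 ≤ 3 / 50 * (σ ^ 4 * x ^ 5) * (6 * c) * (t * a' - σ * x') := by
    have : 0 ≤ σ ^ 4 := by positivity
    have := sub_nonneg.2 hs
    positivity
  have h5 : 3 / 50 * (σ ^ 4 * x ^ 5) * (6 * (c * σ) - x) * a' - 3 / 50 * (σ ^ 4 * x ^ 5) *
      (x * (5 * c ^ 2 - σ ^ 2) * a' + 6 * (c * σ) * x') =
      3 / 50 * (σ ^ 4 * x ^ 5) * (6 * c) * (t * a' - σ * x') := by
    rw [← ht, show σ ^ 2 = 1 - c ^ 2 by linarith]
    ring
  linarith

theorem fin_alg {kF mm mv e g a' E' : ℝ} (hp : mv + e * mm + g ≤ kF * mm) (h0 : 0 ≤ a')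
    (hE : E' ≤ g * a') : 0 ≤ kF * (mm * a') - mv * a' - e * (mm * a') - E' := by
  have h3 := mul_nonneg (sub_nonneg.2 hp) h0
  linarith

/-- path 2: along the profile -/
theorem path2g (hD : Dens P G m) (hV : Dens PV GV mV) {r : ℝ → ℝ} (hr : SP r)
    (hH : ∀ F, 0 ≤ F → HasDerivAt H (k F) F)
    (hpt : ∀ t ∈ Ico (0 : ℝ) 1, mV (al r t) (xx r t) + e0 * m (al r t) (xx r t) +
      3 / 50 * (sin (al r t) ^ 4 * xx r t ^ 5) * (6 * (cos (al r t) * sin (al r t)) - xx r t) ≤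
      k (FT P G r t) * m (al r t) (xx r t))
    (hF : ∀ t ∈ Icc (0 : ℝ) 1, 0 ≤ FT P G r t) :
    H (FT P G r 0) - FT PV GV r 0 - e0 * FT P G r 0 - GE (al r 0) (xx r 0) ≤
      H (FT P G r 1) - FT PV GV r 1 - e0 * FT P G r 1 - GE (al r 1) (xx r 1) := by
  have hFc := continuous_FT hD hr
  have hVc := continuous_FT hV hr
  have hxc : Continuous (xx r) := Continuous.sqrt (by have := hr.cont; fun_prop)
  have hEc : Continuous fun t => GE (al r t) (xx r t) :=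
    Continuous.comp (g := fun q : ℝ × ℝ => GE q.1 q.2) (f := fun t => (al r t, xx r t)) continuous_GE
      ((continuous_al hr).prodMk hxc)
  have key : ∀ (P G m : ℝ → ℝ → ℝ), Dens P G m → ∀ t ∈ Ico (0 : ℝ) 1, ∀ a' x' : ℝ,
      HasDerivWithinAt (al r) a' (Ici t) t → HasDerivWithinAt (xx r) x' (Ici t) t →
      (cos (al r t) + xx r t * sin (al r t)) * a' - cos (al r t) * x' = 1 →
      HasDerivWithinAt (FT P G r) (m (al r t) (xx r t) * a') (Ici t) t := by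
    intro P G m hD t ht a' x' ha hx h1
    have ht' : t ∈ Icc (0 : ℝ) 1 := ⟨ht.1, ht.2.le⟩
    have hP : Continuous fun s => P s (r s) := hD.contP.comp (continuous_id.prodMk hr.cont)
    have hI : HasDerivAt (fun t => ∫ s in (0 : ℝ)..t, P s (r s)) (P t (r t)) t :=
      intervalIntegral.integral_hasDerivAt_right (hP.intervalIntegrable _ _)
        (hP.stronglyMeasurableAtFilter _ _) hP.continuousAt
    have hG := hD.der (al r) (xx r) a' x' t (Ici t) ha hx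
    rw [t_eq hr ht', h1, r_eq hr ht'] at hG
    have := hI.hasDerivWithinAt (s := Ici t) |>.add hG
    refine HasDerivWithinAt.congr_deriv this ?_
    ring
  choose! a' x' ha0 ha hx h1 h2 using fun t (ht : t ∈ Ico (0 : ℝ) 1) => deriv_al' hr ht
  have hHc : ContinuousOn (fun t => H (FT P G r t)) (Icc 0 1) := by
    intro t ht
    exact ((hH _ (hF t ht)).continuousAt.comp hFc.continuousAt).continuousWithinAt
  have hB : ∀ t ∈ Ico (0 : ℝ) 1, HasDerivWithinAt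
      (fun t => H (FT P G r t) - FT PV GV r t - e0 * FT P G r t - GE (al r t) (xx r t))
      (k (FT P G r t) * (m (al r t) (xx r t) * a' t) - mV (al r t) (xx r t) * a' t -
        e0 * (m (al r t) (xx r t) * a' t) - (3 / 50 * (sin (al r t) ^ 4 * xx r t ^ 5) *
        (xx r t * (5 * cos (al r t) ^ 2 - sin (al r t) ^ 2) * a' t +
        6 * (cos (al r t) * sin (al r t)) * x' t))) (Ici t) t := by
    intro t ht
    have ht' : t ∈ Icc (0 : ℝ) 1 := ⟨ht.1, ht.2.le⟩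
    have d1 := key P G m hD t ht _ _ (ha t ht) (hx t ht) (h1 t ht)
    have d2 := key PV GV mV hV t ht _ _ (ha t ht) (hx t ht) (h1 t ht)
    have d3 : HasDerivWithinAt (fun t => H (FT P G r t))
        (k (FT P G r t) * (m (al r t) (xx r t) * a' t)) (Ici t) t :=
      HasDerivAt.comp_hasDerivWithinAt (h₂ := H) (h := FT P G r) t (hH _ (hF t ht')) d1
    have d4 := deriv_GE (al r) (xx r) (a' t) (x' t) t (Ici t) (ha t ht) (hx t ht)
    exact ((d3.sub d2).sub (d1.const_mul e0)).sub d4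
  have hb : ∀ t ∈ Ico (0 : ℝ) 1, 0 ≤ (k (FT P G r t) * (m (al r t) (xx r t) * a' t) -
        mV (al r t) (xx r t) * a' t -
        e0 * (m (al r t) (xx r t) * a' t) - (3 / 50 * (sin (al r t) ^ 4 * xx r t ^ 5) *
        (xx r t * (5 * cos (al r t) ^ 2 - sin (al r t) ^ 2) * a' t +
        6 * (cos (al r t) * sin (al r t)) * x' t))) := by
    intro t ht
    have ht' : t ∈ Icc (0 : ℝ) 1 := ⟨ht.1, ht.2.le⟩
    have g0 := h2 t ht
    have g1 := gauge_alg (Real.sin_sq_add_cos_sq (al r t)) (t_eq hr ht')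
      (cos_al_pos hr ht).le (xx_pos hr ht').le g0
    have g2 := ha0 t ht
    have g3 := hpt t ht
    exact fin_alg g3 g2 g1
  have hcont : ContinuousOn
      (fun t => H (FT P G r t) - FT PV GV r t - e0 * FT P G r t - GE (al r t) (xx r t)) (Icc 0 1) :=
    ((hHc.sub hVc.continuousOn).sub (continuousOn_const.mul hFc.continuousOn)).sub hEc.continuousOn
  exact image_le_of_deriv_right_le_deriv_boundary
    (f := fun _ => H (FT P G r 0) - FT PV GV r 0 - e0 * FT P G r 0 - GE (al r 0) (xx r 0))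
    (f' := fun _ => 0) (a := 0) (b := 1)
    continuousOn_const (fun t _ => hasDerivWithinAt_const _ _ _) (B' := fun t =>
      (k (FT P G r t) * (m (al r t) (xx r t) * a' t) - mV (al r t) (xx r t) * a' t -
        e0 * (m (al r t) (xx r t) * a' t) - (3 / 50 * (sin (al r t) ^ 4 * xx r t ^ 5) *
        (xx r t * (5 * cos (al r t) ^ 2 - sin (al r t) ^ 2) * a' t +
        6 * (cos (al r t) * sin (al r t)) * x' t)))) le_rfl hcont hB hb (right_mem_Icc.2 zero_le_one)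

/-- path 1: along the axis -/
theorem path1g (hD : Dens P G m) (hV : Dens PV GV mV) {X : ℝ} (hX : 0 ≤ X)
    (hH : ∀ F, 0 ≤ F → HasDerivAt H (k F) F)
    (hpt : ∀ x ∈ Ioo (0 : ℝ) X, mV (arctan x) x + e0 * m (arctan x) x +
      3 / 50 * (sin (arctan x) ^ 4 * x ^ 6) * (5 + 6 * cos (arctan x) ^ 2) ≤
      k (G (arctan x) x) * m (arctan x) x)
    (hF : ∀ x ∈ Icc (0 : ℝ) X, 0 ≤ G (arctan x) x) :
    H (G 0 0) - GV 0 0 - e0 * G 0 0 - GE 0 0 ≤
      H (G (arctan X) X) - GV (arctan X) X - e0 * G (arctan X) X - GE (arctan X) X := by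
  have key : ∀ (P G m : ℝ → ℝ → ℝ), Dens P G m → ∀ x : ℝ,
      HasDerivAt (fun x => G (arctan x) x) (m (arctan x) x * (1 / (1 + x ^ 2))) x := by
    intro P G m hD x
    have h1 := hD.der arctan id (1 / (1 + x ^ 2)) 1 x univ
      (Real.hasDerivAt_arctan x).hasDerivWithinAt (hasDerivWithinAt_id x univ)
    rw [hasDerivWithinAt_univ] at h1
    have hp : 0 < 1 + x ^ 2 := by positivity
    have hs : 0 < √(1 + x ^ 2) := Real.sqrt_pos.2 hp
    have hq : √(1 + x ^ 2) ^ 2 = 1 + x ^ 2 := Real.sq_sqrt hp.le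
    have h2 : (cos (arctan x) + id x * sin (arctan x)) * (1 / (1 + x ^ 2)) - cos (arctan x) * 1 = 0 := by
      rw [Real.cos_arctan, Real.sin_arctan, ← hq]
      simp only [id]
      field_simp
      rw [hq]; ring
    rw [h2, mul_zero, sub_zero] at h1
    exact h1
  have keyE : ∀ x : ℝ, HasDerivAt (fun x => GE (arctan x) x)
      ((3 / 50 * (sin (arctan x) ^ 4 * x ^ 6) * (5 + 6 * cos (arctan x) ^ 2)) *
        (1 / (1 + x ^ 2))) x := by
    intro x
    have h1 := deriv_GE arctan id (1 / (1 + x ^ 2)) 1 x univ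
      (Real.hasDerivAt_arctan x).hasDerivWithinAt (hasDerivWithinAt_id x univ)
    rw [hasDerivWithinAt_univ] at h1
    refine HasDerivAt.congr_deriv h1 ?_
    have hp : 0 < 1 + x ^ 2 := by positivity
    have hs : 0 < √(1 + x ^ 2) := Real.sqrt_pos.2 hp
    have hq : √(1 + x ^ 2) ^ 2 = 1 + x ^ 2 := Real.sq_sqrt hp.le
    have e1 : sin (arctan x) = x * cos (arctan x) := by
      rw [Real.cos_arctan, Real.sin_arctan]; ring
    have e2 : cos (arctan x) ^ 2 * (1 + x ^ 2) = 1 := by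
      rw [Real.cos_arctan, div_pow, hq]; field_simp
    have e3 : cos (arctan x) ^ 2 = 1 / (1 + x ^ 2) := by
      rw [eq_div_iff hp.ne']; exact e2
    simp only [id]
    have e4 : cos (arctan x) * sin (arctan x) = x * (1 / (1 + x ^ 2)) := by
      rw [e1, ← e3]; ring
    have e5 : sin (arctan x) ^ 2 = 1 - cos (arctan x) ^ 2 := by
      have := Real.sin_sq_add_cos_sq (arctan x); linarith
    rw [e4, e5]
    ring
  have hHd : ∀ x ∈ Icc (0 : ℝ) X, HasDerivAt (fun x => H (G (arctan x) x) - GV (arctan x) x -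
      e0 * G (arctan x) x - GE (arctan x) x) (k (G (arctan x) x) * (m (arctan x) x * (1 / (1 + x ^ 2))) -
        mV (arctan x) x * (1 / (1 + x ^ 2)) - e0 * (m (arctan x) x * (1 / (1 + x ^ 2))) -
        ((3 / 50 * (sin (arctan x) ^ 4 * x ^ 6) * (5 + 6 * cos (arctan x) ^ 2)) *
        (1 / (1 + x ^ 2)))) x := by
    intro x hx
    have hc := HasDerivAt.comp (h₂ := H) (h := fun x => G (arctan x) x) x (hH _ (hF x hx))
      (key P G m hD x)
    exact ((hc.sub (key PV GV mV hV x)).sub ((key P G m hD x).const_mul e0)).sub (keyE x)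
  have hmono : MonotoneOn (fun x => H (G (arctan x) x) - GV (arctan x) x - e0 * G (arctan x) x -
      GE (arctan x) x) (Icc 0 X) := by
    apply monotoneOn_of_deriv_nonneg (convex_Icc 0 X)
    · intro x hx
      exact (hHd x hx).continuousAt.continuousWithinAt
    · intro x hx
      rw [interior_Icc] at hx
      exact (hHd x (Ioo_subset_Icc_self hx)).differentiableAt.differentiableWithinAt
    · intro x hx
      rw [interior_Icc] at hx
      rw [(hHd x (Ioo_subset_Icc_self hx)).deriv]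
      have := hpt x hx
      have h0 : 0 ≤ 1 / (1 + x ^ 2) := by positivity
      have := mul_nonneg (sub_nonneg.2 this) h0
      linarith
  have := hmono (left_mem_Icc.2 hX) (right_mem_Icc.2 hX) hX
  simpa using this

/-- the two paths together -/
theorem coreg (hD : Dens P G m) (hV : Dens PV GV mV) {r : ℝ → ℝ} (hr : SP r)
    (hH : ∀ F, 0 ≤ F → HasDerivAt H (k F) F)
    (hpt : ∀ t ∈ Ico (0 : ℝ) 1, mV (al r t) (xx r t) + e0 * m (al r t) (xx r t) +
      3 / 50 * (sin (al r t) ^ 4 * xx r t ^ 5) * (6 * (cos (al r t) * sin (al r t)) - xx r t) ≤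
      k (FT P G r t) * m (al r t) (xx r t))
    (hF : ∀ t ∈ Icc (0 : ℝ) 1, 0 ≤ FT P G r t)
    (hpt0 : ∀ x : ℝ, 0 < x → mV (arctan x) x + e0 * m (arctan x) x +
      3 / 50 * (sin (arctan x) ^ 4 * x ^ 6) * (5 + 6 * cos (arctan x) ^ 2) ≤
      k (G (arctan x) x) * m (arctan x) x)
    (hF0 : ∀ x : ℝ, 0 ≤ x → 0 ≤ G (arctan x) x)
    (h00 : G 0 0 = 0) (h00' : GV 0 0 = 0) :
    H 0 ≤ H (FT P G r 1) - FT PV GV r 1 - e0 * FT P G r 1 := by
  have h0 : (0 : ℝ) ∈ Icc (0 : ℝ) 1 := ⟨le_rfl, zero_le_one⟩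
  have hx0 := xx_pos hr h0
  have e1 : ∀ P G : ℝ → ℝ → ℝ, FT P G r 0 = G (arctan (xx r 0)) (xx r 0) := by
    intro P G
    simp [FT, al]
  have e2 : GE (al r 0) (xx r 0) = GE (arctan (xx r 0)) (xx r 0) := by simp [al]
  have e3 : GE (al r 1) (xx r 1) = 0 := by
    rw [al_one hr]; unfold GE; rw [Real.cos_pi_div_two]; ring
  have e4 : GE 0 0 = 0 := by unfold GE; simp
  have p1 := path1g (e0 := e0) hD hV hx0.le hH (fun x hx => hpt0 x hx.1) (fun x hx => hF0 x hx.1)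
  have p2 := path2g (e0 := e0) hD hV hr hH hpt hF
  rw [e1 P G, e1 PV GV, e2, e3] at p2
  rw [h00, h00', e4] at p1
  have := p1.trans p2
  simpa using this

end Crest.Agent.R230.SD
end

-- ▼ part R230/SD5Dens
section

/-!
# Row 230: the densities for `SDL 4`
-/

set_option autoImplicit false
set_option maxHeartbeats 4000000

open MeasureTheory Set Filter Topology Real

namespace Crest.Agent.R230.SD

/-- density `D5` -/
noncomputable def PD5 (_s ρ : ℝ) : ℝ := ρ ^ 3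

/-- tangent triangle function -/
noncomputable def GD5 (α x : ℝ) : ℝ :=
  (1/4 : ℝ) * (sin α ^ 3 * cos α * x ^ 4) + (1 : ℝ) * (sin α ^ 2 * cos α ^ 2 * x ^ 3) +
  (3/2 : ℝ) * (sin α * cos α ^ 3 * x ^ 2) + (-1/4 : ℝ) * (sin α * cos α ^ 3) +
  (-3/8 : ℝ) * (sin α * cos α) + (1 : ℝ) * (cos α ^ 4 * x) + (-3/8 : ℝ) * α

/-- slice mass -/
noncomputable def mD5 (α x : ℝ) : ℝ :=
  (3/4 : ℝ) * (sin α ^ 2 * x ^ 4) + (2 : ℝ) * (sin α * cos α * x ^ 3) +
  (3/2 : ℝ) * (cos α ^ 2 * x ^ 2)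

theorem densD5 : Dens PD5 GD5 mD5 where
  contP := by unfold PD5; fun_prop
  contG := by unfold GD5; fun_prop
  der := by
    intro a x a' x' u S ha hx
    have hs := ha.sin
    have hc := ha.cos
    have hcs := Real.sin_sq_add_cos_sq (a u)
    have h1 := ((((hs.pow 3).mul hc).mul (hx.pow 4)).const_mul (1/4 : ℝ))
    have h2 := h1.add ((((hs.pow 2).mul (hc.pow 2)).mul (hx.pow 3)).const_mul (1 : ℝ))
    have h3 := h2.add (((hs.mul (hc.pow 3)).mul (hx.pow 2)).const_mul (3/2 : ℝ))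
    have h4 := h3.add ((hs.mul (hc.pow 3)).const_mul (-1/4 : ℝ))
    have h5 := h4.add ((hs.mul hc).const_mul (-3/8 : ℝ))
    have h6 := h5.add (((hc.pow 4).mul hx).const_mul (1 : ℝ))
    have h7 := h6.add (ha.const_mul (-3/8 : ℝ))
    unfold GD5
    refine HasDerivWithinAt.congr_deriv h7 ?_
    unfold mD5 PD5
    simp only [Pi.mul_apply, Pi.pow_apply]
    push_cast
    linear_combination (a' * (
      (3/4 : ℝ) * (sin (a u) ^ 2 * x u ^ 4) + (2 : ℝ) * (sin (a u) * cos (a u) * x u ^ 3) +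
      (3/2 : ℝ) * (cos (a u) ^ 2 * x u ^ 2) + (3/4 : ℝ) * (cos (a u) ^ 2) + (3/8 : ℝ))) * hcs

/-- density `V5` -/
noncomputable def PV5 (s ρ : ℝ) : ℝ := 15 / 8 * ρ ^ 4 + 6 / 7 * (s ^ 2 * ρ ^ 4) - 1 / 7 * ρ ^ 6

/-- tangent triangle function -/
noncomputable def GV5 (α x : ℝ) : ℝ :=
  (-1/7 : ℝ) * (sin α ^ 7) + (-1/49 : ℝ) * (sin α ^ 6 * cos α * x ^ 7) +
  (6/35 : ℝ) * (sin α ^ 6 * cos α * x ^ 5) + (-3/7 : ℝ) * (sin α ^ 5 * cos α ^ 2 * x ^ 6) +
  (6/7 : ℝ) * (sin α ^ 5 * cos α ^ 2 * x ^ 4) + (3/56 : ℝ) * (sin α ^ 5) +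
  (6/49 : ℝ) * (sin α ^ 4 * cos α ^ 3 * x ^ 7) + (-9/5 : ℝ) * (sin α ^ 4 * cos α ^ 3 * x ^ 5) +
  (12/7 : ℝ) * (sin α ^ 4 * cos α ^ 3 * x ^ 3) + (3/8 : ℝ) * (sin α ^ 4 * cos α * x ^ 5) +
  (4/7 : ℝ) * (sin α ^ 3 * cos α ^ 4 * x ^ 6) + (-23/7 : ℝ) * (sin α ^ 3 * cos α ^ 4 * x ^ 4) +
  (12/7 : ℝ) * (sin α ^ 3 * cos α ^ 4 * x ^ 2) + (15/8 : ℝ) * (sin α ^ 3 * cos α ^ 2 * x ^ 4) +
  (23/28 : ℝ) * (sin α ^ 3) + (36/35 : ℝ) * (sin α ^ 2 * cos α ^ 5 * x ^ 5) +
  (-3 : ℝ) * (sin α ^ 2 * cos α ^ 5 * x ^ 3) + (6/7 : ℝ) * (sin α ^ 2 * cos α ^ 5 * x) +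
  (15/4 : ℝ) * (sin α ^ 2 * cos α ^ 3 * x ^ 3) + (6/7 : ℝ) * (sin α * cos α ^ 6 * x ^ 4) +
  (-9/7 : ℝ) * (sin α * cos α ^ 6 * x ^ 2) + (15/4 : ℝ) * (sin α * cos α ^ 4 * x ^ 2) +
  (-97/56 : ℝ) * (sin α) + (2/7 : ℝ) * (cos α ^ 7 * x ^ 3) + (-1/7 : ℝ) * (cos α ^ 7 * x) +
  (15/8 : ℝ) * (cos α ^ 5 * x)

/-- slice mass -/
noncomputable def mV5 (α x : ℝ) : ℝ :=
  (-6/49 : ℝ) * (sin α ^ 5 * x ^ 7) + (24/35 : ℝ) * (sin α ^ 5 * x ^ 5) +
  (-13/7 : ℝ) * (sin α ^ 4 * cos α * x ^ 6) + (18/7 : ℝ) * (sin α ^ 4 * cos α * x ^ 4) +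
  (24/49 : ℝ) * (sin α ^ 3 * cos α ^ 2 * x ^ 7) + (-204/35 : ℝ) * (sin α ^ 3 * cos α ^ 2 * x ^ 5) +
  (24/7 : ℝ) * (sin α ^ 3 * cos α ^ 2 * x ^ 3) + (3/2 : ℝ) * (sin α ^ 3 * x ^ 5) +
  (12/7 : ℝ) * (sin α ^ 2 * cos α ^ 3 * x ^ 6) + (-51/7 : ℝ) * (sin α ^ 2 * cos α ^ 3 * x ^ 4) +
  (12/7 : ℝ) * (sin α ^ 2 * cos α ^ 3 * x ^ 2) + (45/8 : ℝ) * (sin α ^ 2 * cos α * x ^ 4) +
  (72/35 : ℝ) * (sin α * cos α ^ 4 * x ^ 5) + (-26/7 : ℝ) * (sin α * cos α ^ 4 * x ^ 3) +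
  (15/2 : ℝ) * (sin α * cos α ^ 2 * x ^ 3) + (6/7 : ℝ) * (cos α ^ 5 * x ^ 4) +
  (-3/7 : ℝ) * (cos α ^ 5 * x ^ 2) + (15/4 : ℝ) * (cos α ^ 3 * x ^ 2)

theorem densV5 : Dens PV5 GV5 mV5 where
  contP := by unfold PV5; fun_prop
  contG := by unfold GV5; fun_prop
  der := by
    intro a x a' x' u S ha hx
    have hs := ha.sin
    have hc := ha.cos
    have hcs := Real.sin_sq_add_cos_sq (a u)
    have h1 := ((hs.pow 7).const_mul (-1/7 : ℝ))
    have h2 := h1.add ((((hs.pow 6).mul hc).mul (hx.pow 7)).const_mul (-1/49 : ℝ))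
    have h3 := h2.add ((((hs.pow 6).mul hc).mul (hx.pow 5)).const_mul (6/35 : ℝ))
    have h4 := h3.add ((((hs.pow 5).mul (hc.pow 2)).mul (hx.pow 6)).const_mul (-3/7 : ℝ))
    have h5 := h4.add ((((hs.pow 5).mul (hc.pow 2)).mul (hx.pow 4)).const_mul (6/7 : ℝ))
    have h6 := h5.add ((hs.pow 5).const_mul (3/56 : ℝ))
    have h7 := h6.add ((((hs.pow 4).mul (hc.pow 3)).mul (hx.pow 7)).const_mul (6/49 : ℝ))
    have h8 := h7.add ((((hs.pow 4).mul (hc.pow 3)).mul (hx.pow 5)).const_mul (-9/5 : ℝ))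
    have h9 := h8.add ((((hs.pow 4).mul (hc.pow 3)).mul (hx.pow 3)).const_mul (12/7 : ℝ))
    have h10 := h9.add ((((hs.pow 4).mul hc).mul (hx.pow 5)).const_mul (3/8 : ℝ))
    have h11 := h10.add ((((hs.pow 3).mul (hc.pow 4)).mul (hx.pow 6)).const_mul (4/7 : ℝ))
    have h12 := h11.add ((((hs.pow 3).mul (hc.pow 4)).mul (hx.pow 4)).const_mul (-23/7 : ℝ))
    have h13 := h12.add ((((hs.pow 3).mul (hc.pow 4)).mul (hx.pow 2)).const_mul (12/7 : ℝ))
    have h14 := h13.add ((((hs.pow 3).mul (hc.pow 2)).mul (hx.pow 4)).const_mul (15/8 : ℝ))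
    have h15 := h14.add ((hs.pow 3).const_mul (23/28 : ℝ))
    have h16 := h15.add ((((hs.pow 2).mul (hc.pow 5)).mul (hx.pow 5)).const_mul (36/35 : ℝ))
    have h17 := h16.add ((((hs.pow 2).mul (hc.pow 5)).mul (hx.pow 3)).const_mul (-3 : ℝ))
    have h18 := h17.add ((((hs.pow 2).mul (hc.pow 5)).mul hx).const_mul (6/7 : ℝ))
    have h19 := h18.add ((((hs.pow 2).mul (hc.pow 3)).mul (hx.pow 3)).const_mul (15/4 : ℝ))
    have h20 := h19.add (((hs.mul (hc.pow 6)).mul (hx.pow 4)).const_mul (6/7 : ℝ))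
    have h21 := h20.add (((hs.mul (hc.pow 6)).mul (hx.pow 2)).const_mul (-9/7 : ℝ))
    have h22 := h21.add (((hs.mul (hc.pow 4)).mul (hx.pow 2)).const_mul (15/4 : ℝ))
    have h23 := h22.add (hs.const_mul (-97/56 : ℝ))
    have h24 := h23.add (((hc.pow 7).mul (hx.pow 3)).const_mul (2/7 : ℝ))
    have h25 := h24.add (((hc.pow 7).mul hx).const_mul (-1/7 : ℝ))
    have h26 := h25.add (((hc.pow 5).mul hx).const_mul (15/8 : ℝ))
    unfold GV5
    refine HasDerivWithinAt.congr_deriv h26 ?_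
    unfold mV5 PV5
    simp only [Pi.mul_apply, Pi.pow_apply]
    push_cast
    linear_combination (a' * (
      (-6/49 : ℝ) * (sin (a u) ^ 5 * x u ^ 7) + (24/35 : ℝ) * (sin (a u) ^ 5 * x u ^ 5) +
      (-13/7 : ℝ) * (sin (a u) ^ 4 * cos (a u) * x u ^ 6) +
      (18/7 : ℝ) * (sin (a u) ^ 4 * cos (a u) * x u ^ 4) + (-1 : ℝ) * (sin (a u) ^ 4 * cos (a u)) +
      (24/49 : ℝ) * (sin (a u) ^ 3 * cos (a u) ^ 2 * x u ^ 7) +
      (-204/35 : ℝ) * (sin (a u) ^ 3 * cos (a u) ^ 2 * x u ^ 5) +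
      (24/7 : ℝ) * (sin (a u) ^ 3 * cos (a u) ^ 2 * x u ^ 3) +
      (3/2 : ℝ) * (sin (a u) ^ 3 * x u ^ 5) +
      (12/7 : ℝ) * (sin (a u) ^ 2 * cos (a u) ^ 3 * x u ^ 6) +
      (-51/7 : ℝ) * (sin (a u) ^ 2 * cos (a u) ^ 3 * x u ^ 4) +
      (12/7 : ℝ) * (sin (a u) ^ 2 * cos (a u) ^ 3 * x u ^ 2) +
      (1 : ℝ) * (sin (a u) ^ 2 * cos (a u) ^ 3) +
      (45/8 : ℝ) * (sin (a u) ^ 2 * cos (a u) * x u ^ 4) +
      (-41/56 : ℝ) * (sin (a u) ^ 2 * cos (a u)) +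
      (72/35 : ℝ) * (sin (a u) * cos (a u) ^ 4 * x u ^ 5) +
      (-26/7 : ℝ) * (sin (a u) * cos (a u) ^ 4 * x u ^ 3) +
      (15/2 : ℝ) * (sin (a u) * cos (a u) ^ 2 * x u ^ 3) + (6/7 : ℝ) * (cos (a u) ^ 5 * x u ^ 4) +
      (-3/7 : ℝ) * (cos (a u) ^ 5 * x u ^ 2) + (-1/7 : ℝ) * (cos (a u) ^ 5) +
      (15/4 : ℝ) * (cos (a u) ^ 3 * x u ^ 2) + (97/56 : ℝ) * (cos (a u) ^ 3) +
      (97/56 : ℝ) * (cos (a u)))) * hcs

/-- slice mass of the volume density, divided by the square of the tangent length `√X` -/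
noncomputable def E5 (c r X : ℝ) : ℝ :=
  153 / 280 * (c ^ 3 + 2 * c ^ 2 * r + 3 * c * r ^ 2 + 4 * r ^ 3) +
    6 / 245 * X * (c ^ 3 + 4 * c ^ 2 * r + 10 * c * r ^ 2 + 20 * r ^ 3) -
    5 / 49 * (c ^ 5 + 2 * c ^ 4 * r + 3 * c ^ 3 * r ^ 2 + 4 * c ^ 2 * r ^ 3 + 5 * c * r ^ 4 + 6 * r ^ 5)

theorem mV5_eq (α x : ℝ) : mV5 α x = x ^ 2 * E5 (cos α) (cos α + x * sin α) (x ^ 2) := by
  have h := Real.sin_sq_add_cos_sq α
  unfold mV5 E5
  set σ := sin α
  set c := cos α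
  linear_combination (24/49 * σ^3 * x^7 + 24/35 * σ^3 * x^5 + 12/7 * σ^2 * c * x^6 + 18/7 * σ^2 * c * x^4 + 72/35 * σ * c^2 * x^5 + 24/7 * σ * c^2 * x^3 + 6/7 * c^3 * x^4 + 12/7 * c^3 * x^2) * h

theorem mD5_eq (α x : ℝ) : mD5 α x =
    x ^ 2 * (cos α ^ 2 + 2 * cos α * (cos α + x * sin α) + 3 * (cos α + x * sin α) ^ 2) / 4 := by
  unfold mD5
  ring

end Crest.Agent.R230.SD
end

-- ▼ part R230/SD5Bound
section

/-!
# Row 230: lower bounds of the swept mass for `SDL 4`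
-/

set_option autoImplicit false
set_option maxHeartbeats 1000000
set_option linter.unusedVariables false

open MeasureTheory Set Filter Topology Real

namespace Crest.Agent.R230.SD

theorem int_sqrt3 {α : ℝ} (h0 : 0 ≤ α) (h1 : α ≤ π / 2) :
    ∫ s in (0 : ℝ)..sin α, √(1 - s ^ 2) ^ 3 =
      3 / 8 * α + 3 / 8 * (sin α * cos α) + 1 / 4 * (sin α * cos α ^ 3) := by
  have hg : Continuous fun s : ℝ => √(1 - s ^ 2) ^ 3 := by fun_prop
  have h := intervalIntegral.integral_comp_mul_deriv (a := 0) (b := α) (f := sin) (f' := cos)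
    (fun x _ => Real.hasDerivAt_sin x) Real.continuous_cos.continuousOn hg
  rw [Real.sin_zero] at h
  rw [← h]
  have e : ∀ x ∈ uIcc 0 α, ((fun s : ℝ => √(1 - s ^ 2) ^ 3) ∘ sin) x * cos x = cos x ^ (2 + 2) := by
    intro x hx
    rw [uIcc_of_le h0] at hx
    have hc : 0 ≤ cos x :=
      Real.cos_nonneg_of_mem_Icc ⟨by linarith [hx.1, Real.pi_pos], by linarith [hx.2]⟩
    simp only [Function.comp]
    rw [← Real.abs_cos_eq_sqrt_one_sub_sin_sq, abs_of_nonneg hc]; ring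
  rw [intervalIntegral.integral_congr e, integral_cos_pow, integral_cos_sq]
  simp only [Real.sin_zero, mul_zero, sub_zero]
  norm_num
  ring

/-- integral of a polynomial of degree at most five -/
theorem pint (x a0 a1 a2 a3 a4 a5 : ℝ) :
    ∫ u in (0 : ℝ)..x, (a0 + a1 * u + a2 * u ^ 2 + a3 * u ^ 3 + a4 * u ^ 4 + a5 * u ^ 5) =
      a0 * x + a1 * x ^ 2 / 2 + a2 * x ^ 3 / 3 + a3 * x ^ 4 / 4 + a4 * x ^ 5 / 5 + a5 * x ^ 6 / 6 := by
  have hd : ∀ u ∈ uIcc 0 x, HasDerivAt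
      (fun u : ℝ => a0 * u + a1 * u ^ 2 / 2 + a2 * u ^ 3 / 3 + a3 * u ^ 4 / 4 + a4 * u ^ 5 / 5 +
        a5 * u ^ 6 / 6) (a0 + a1 * u + a2 * u ^ 2 + a3 * u ^ 3 + a4 * u ^ 4 + a5 * u ^ 5) u := by
    intro u _
    have h0 := (hasDerivAt_id u).const_mul a0
    have h1 := ((hasDerivAt_pow 2 u).const_mul a1).div_const 2
    have h2 := ((hasDerivAt_pow 3 u).const_mul a2).div_const 3
    have h3 := ((hasDerivAt_pow 4 u).const_mul a3).div_const 4
    have h4 := ((hasDerivAt_pow 5 u).const_mul a4).div_const 5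
    have h5 := ((hasDerivAt_pow 6 u).const_mul a5).div_const 6
    refine HasDerivAt.congr_deriv (((((h0.add h1).add h2).add h3).add h4).add h5) ?_
    push_cast
    ring
  rw [intervalIntegral.integral_eq_sub_of_hasDerivAt hd
    ((by fun_prop : Continuous fun u : ℝ =>
      (a0 + a1 * u + a2 * u ^ 2 + a3 * u ^ 3 + a4 * u ^ 4 + a5 * u ^ 5)).intervalIntegrable _ _)]
  ring

/-- the gap of the cubes -/
theorem cube_gap {l q v : ℝ} (hl : 0 < l) (hq : 0 ≤ q) (hv : 0 ≤ v) (h : q ^ 2 = l ^ 2 - v) :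
    3 / 2 * l * v - v ^ 2 / (2 * l) ≤ l ^ 3 - q ^ 3 := by
  have hvl : v ≤ l ^ 2 := by nlinarith
  have h1 : 0 ≤ l - v / (2 * l) := by
    have : v / (2 * l) ≤ l := by
      rw [div_le_iff₀ (by positivity)]; nlinarith
    linarith
  have h2 : q ≤ l - v / (2 * l) := by
    have : q ^ 2 ≤ (l - v / (2 * l)) ^ 2 := by
      have e : (l - v / (2 * l)) ^ 2 = l ^ 2 - v + (v / (2 * l)) ^ 2 := by
        field_simp; ring
      rw [e, h]
      have := sq_nonneg (v / (2 * l))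
      linarith
    exact (abs_le_of_sq_le_sq' this h1).2
  have h3 : q ^ 3 ≤ (l - v / (2 * l)) * (l ^ 2 - v) := by
    have : q ^ 3 = q * q ^ 2 := by ring
    rw [this, h]
    exact mul_le_mul_of_nonneg_right h2 (by linarith)
  have e : (l - v / (2 * l)) * (l ^ 2 - v) = l ^ 3 - 3 / 2 * l * v + v ^ 2 / (2 * l) := by
    field_simp; ring
  linarith

section tri

variable {p s x r : ℝ} {q : ℝ → ℝ}

/-- hypotheses on a tangent triangle -/
structure Tri (p s x r : ℝ) (q : ℝ → ℝ) : Prop where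
  hp : 0 < p
  hx : 0 < x
  hr : 0 < r
  hrx : r = p + x * s
  hq : Continuous q
  q0 : ∀ u, 0 ≤ q u
  q2 : ∀ u ∈ Icc 0 x, q u ^ 2 = (p + u * s) ^ 2 - u ^ 2

theorem Tri.l_pos (T : Tri p s x r q) {u : ℝ} (hu : u ∈ Icc 0 x) : 0 < p + u * s := by
  have h1 := T.hp; have h2 := T.hx; have h3 := T.hr; have h4 := T.hrx
  have e : x * (p + u * s) = (x - u) * p + u * r := by rw [h4]; ring
  have : 0 < x * (p + u * s) := by
    rw [e]
    rcases eq_or_lt_of_le hu.1 with h | h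
    · rw [← h]; simp; positivity
    · have : 0 ≤ (x - u) * p := mul_nonneg (by linarith [hu.2]) h1.le
      have : 0 < u * r := mul_pos h h3
      linarith
  exact (mul_pos_iff_of_pos_left h2).1 this

theorem Tri.gap (T : Tri p s x r q) {u : ℝ} (hu : u ∈ Icc 0 x) :
    3 / 2 * (p + u * s) * u ^ 2 - u ^ 4 / (2 * (p + u * s)) ≤ (p + u * s) ^ 3 - q u ^ 3 := by
  have h := cube_gap (T.l_pos hu) (T.q0 u) (sq_nonneg u) (T.q2 u hu)
  have e : (u ^ 2) ^ 2 = u ^ 4 := by ring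
  rwa [e] at h

theorem Tri.int1 (T : Tri p s x r q) (g : ℝ → ℝ) (hg : Continuous g)
    (h : ∀ u ∈ Icc 0 x, g u ≤ 3 / 2 * (p + u * s) * u ^ 2 - u ^ 4 / (2 * (p + u * s))) :
    ∫ u in (0 : ℝ)..x, g u ≤ ∫ u in (0 : ℝ)..x, ((p + u * s) ^ 3 - q u ^ 3) := by
  have hq := T.hq
  apply intervalIntegral.integral_mono_on T.hx.le (hg.intervalIntegrable _ _)
  · exact (by fun_prop : Continuous fun u : ℝ => (p + u * s) ^ 3 - q u ^ 3).intervalIntegrable _ _
  · intro u hu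
    exact (h u hu).trans (T.gap hu)

/-- first lower bound -/
theorem Tri.A (T : Tri p s x r q) : x ^ 3 * (p ^ 2 / 8 + 3 / 8 * (r * p)) - x ^ 5 / 60 -
    p * x ^ 5 / (12 * r) ≤ p * ∫ u in (0 : ℝ)..x, ((p + u * s) ^ 3 - q u ^ 3) := by
  have hp := T.hp; have hx := T.hx; have hr := T.hr; have hrx := T.hrx
  have h := T.int1 (fun u => 0 + 0 * u + (3 / 2 * p) * u ^ 2 + (3 / 2 * s) * u ^ 3 +
    (-(1 / (2 * p))) * u ^ 4 + (-(1 / (2 * x)) * (1 / r - 1 / p)) * u ^ 5) (by fun_prop) ?_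
  · rw [pint] at h
    have h2 := mul_le_mul_of_nonneg_left h hp.le
    refine le_trans (le_of_eq ?_) h2
    have es : s = (r - p) / x := by rw [hrx]; field_simp; ring
    rw [es]
    field_simp
    ring
  · intro u hu
    have hl := T.l_pos hu
    have e : x * (p + u * s) = (x - u) * p + u * r := by rw [hrx]; ring
    have h1 : 1 / (p + u * s) ≤ 1 / p + u / x * (1 / r - 1 / p) := by
      rw [div_le_iff₀ hl]
      have e2 : (1 / p + u / x * (1 / r - 1 / p)) * (p + u * s) =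
          (((x - u) * r + u * p) * (x * (p + u * s))) / (x ^ 2 * p * r) := by
        field_simp
        ring
      rw [e2, e, le_div_iff₀ (by positivity)]
      have : 0 ≤ u * (x - u) * (r - p) ^ 2 :=
        mul_nonneg (mul_nonneg hu.1 (by linarith [hu.2])) (sq_nonneg _)
      nlinarith
    have h2 : 0 ≤ u ^ 4 / 2 := by positivity
    have h3 := mul_le_mul_of_nonneg_left h1 h2
    have e3 : u ^ 4 / 2 * (1 / (p + u * s)) = u ^ 4 / (2 * (p + u * s)) := by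
      field_simp
    have e4 : u ^ 4 / 2 * (1 / p + u / x * (1 / r - 1 / p)) =
        1 / (2 * p) * u ^ 4 + (1 / (2 * x)) * (1 / r - 1 / p) * u ^ 5 := by
      field_simp
    rw [e3, e4] at h3
    linarith

/-- second lower bound -/
theorem Tri.B (T : Tri p s x r q) : (3 / 2 - x ^ 2 / (2 * r ^ 2)) * (p ^ 2 / 12 + p * r / 4) * x ^ 3 ≤
    p * ∫ u in (0 : ℝ)..x, ((p + u * s) ^ 3 - q u ^ 3) := by
  have hp := T.hp; have hx := T.hx; have hr := T.hr; have hrx := T.hrx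
  have h := T.int1 (fun u => 0 + 0 * u + ((3 / 2 - x ^ 2 / (2 * r ^ 2)) * p) * u ^ 2 +
    ((3 / 2 - x ^ 2 / (2 * r ^ 2)) * s) * u ^ 3 + 0 * u ^ 4 + 0 * u ^ 5) (by fun_prop) ?_
  · rw [pint] at h
    have h2 := mul_le_mul_of_nonneg_left h hp.le
    refine le_trans (le_of_eq ?_) h2
    have es : s = (r - p) / x := by rw [hrx]; field_simp; ring
    rw [es]
    field_simp
    ring
  · intro u hu
    have hl := T.l_pos hu
    have e : x * (p + u * s) = (x - u) * p + u * r := by rw [hrx]; ring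
    have h1 : u * r ≤ x * (p + u * s) := by
      rw [e]
      have : 0 ≤ (x - u) * p := mul_nonneg (by linarith [hu.2]) hp.le
      linarith
    have h2 : u ^ 2 / (p + u * s) ≤ x ^ 2 / r ^ 2 * (p + u * s) := by
      rw [div_le_iff₀ hl]
      have h3 : (u * r) ^ 2 ≤ (x * (p + u * s)) ^ 2 :=
        pow_le_pow_left₀ (mul_nonneg hu.1 hr.le) h1 2
      have e2 : x ^ 2 / r ^ 2 * (p + u * s) * (p + u * s) = (x * (p + u * s)) ^ 2 / r ^ 2 := by
        ring
      rw [e2, le_div_iff₀ (by positivity)]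
      linarith
    have h3 := mul_le_mul_of_nonneg_left h2 (by positivity : 0 ≤ u ^ 2 / 2)
    have e3 : u ^ 2 / 2 * (u ^ 2 / (p + u * s)) = u ^ 4 / (2 * (p + u * s)) := by
      field_simp
    have e4 : u ^ 2 / 2 * (x ^ 2 / r ^ 2 * (p + u * s)) =
        x ^ 2 / (2 * r ^ 2) * (p + u * s) * u ^ 2 := by
      field_simp
    rw [e3, e4] at h3
    linarith

/-- third lower bound (`p ≥ r`) -/
theorem Tri.C (T : Tri p s x r q) (hpr : r ≤ p) (hxr : x ^ 2 ≤ r ^ 2) :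
    x ^ 3 * (r ^ 2 / 2 - x ^ 2 / 10) ≤
    p * ∫ u in (0 : ℝ)..x, ((p + u * s) ^ 3 - q u ^ 3) := by
  have hp := T.hp; have hx := T.hx; have hr := T.hr; have hrx := T.hrx
  have h := T.int1 (fun u => 0 + 0 * u + (3 / 2 * r) * u ^ 2 +
    0 * u ^ 3 + (-(1 / (2 * r))) * u ^ 4 + 0 * u ^ 5) (by fun_prop) ?_
  · rw [pint] at h
    have h2 := mul_le_mul_of_nonneg_left h hp.le
    refine le_trans ?_ h2
    have e : p * (0 * x + 0 * x ^ 2 / 2 + 3 / 2 * r * x ^ 3 / 3 + 0 * x ^ 4 / 4 +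
        -(1 / (2 * r)) * x ^ 5 / 5 + 0 * x ^ 6 / 6) = p / r * (x ^ 3 * (r ^ 2 / 2 - x ^ 2 / 10)) := by
      field_simp
      ring
    rw [e]
    have h3 : 1 ≤ p / r := by rwa [one_le_div hr]
    have h4 : 0 ≤ x ^ 3 * (r ^ 2 / 2 - x ^ 2 / 10) := by
      have : 0 ≤ r ^ 2 / 2 - x ^ 2 / 10 := by nlinarith
      positivity
    nlinarith
  · intro u hu
    have hl := T.l_pos hu
    have e : x * (p + u * s) = (x - u) * p + u * r := by rw [hrx]; ring
    have h1 : r ≤ p + u * s := by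
      have : x * r ≤ x * (p + u * s) := by
        rw [e]
        have : 0 ≤ (x - u) * (p - r) := mul_nonneg (by linarith [hu.2]) (by linarith)
        linarith
      exact le_of_mul_le_mul_left this hx
    have h2 : 3 / 2 * r * u ^ 2 ≤ 3 / 2 * (p + u * s) * u ^ 2 := by gcongr
    have h3 : u ^ 4 / (2 * (p + u * s)) ≤ u ^ 4 / (2 * r) := by gcongr
    have e3 : 1 / (2 * r) * u ^ 4 = u ^ 4 / (2 * r) := by field_simp
    linarith

end tri

/-! ## The right triangle -/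

/-- the right triangle as a `Tri` -/
theorem triR {r : ℝ → ℝ} (hr : SP r) {t : ℝ} (ht : t ∈ Ico (0 : ℝ) 1) :
    Tri (cos (al r t)) (sin (al r t)) (xx r t) (r t)
      (fun u => √(1 - (sin (al r t) - cos (al r t) * u) ^ 2)) where
  hp := cos_al_pos hr ht
  hx := xx_pos hr ⟨ht.1, ht.2.le⟩
  hr := hr.pos t
  hrx := (r_eq hr ⟨ht.1, ht.2.le⟩).symm
  hq := by fun_prop
  q0 := fun u => Real.sqrt_nonneg _
  q2 := by
    intro u hu
    have ht' : t ∈ Icc (0 : ℝ) 1 := ⟨ht.1, ht.2.le⟩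
    have hc := cos_al_pos hr ht
    have hs := Real.sin_le_one (al r t)
    have hte := t_eq hr ht'
    have hcs := Real.sin_sq_add_cos_sq (al r t)
    have h1 : sin (al r t) - cos (al r t) * u ≤ 1 := by
      have : 0 ≤ cos (al r t) * u := mul_nonneg hc.le hu.1
      linarith
    have h2 : 0 ≤ sin (al r t) - cos (al r t) * u := by
      have : cos (al r t) * u ≤ cos (al r t) * xx r t := by
        gcongr
        exact hu.2
      have := ht.1
      linarith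
    rw [Real.sq_sqrt (by nlinarith)]
    linear_combination (-(u ^ 2) - 1) * hcs

/-- the area above the tangent, right side -/
theorem RT5_eq {r : ℝ → ℝ} (hr : SP r) {t : ℝ} (ht : t ∈ Ico (0 : ℝ) 1) :
    GD5 (al r t) (xx r t) + ∫ s in (0 : ℝ)..t, √(1 - s ^ 2) ^ 3 =
      cos (al r t) * ∫ u in (0 : ℝ)..xx r t, ((cos (al r t) + u * sin (al r t)) ^ 3 -
        √(1 - (sin (al r t) - cos (al r t) * u) ^ 2) ^ 3) := by
  have ht' : t ∈ Icc (0 : ℝ) 1 := ⟨ht.1, ht.2.le⟩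
  have hc := cos_al_pos hr ht
  have hte := t_eq hr ht'
  obtain ⟨ha0, ha1⟩ := al_mem hr ht
  have hI := int_sqrt3 ha0 ha1
  have hg : Continuous fun s : ℝ => √(1 - s ^ 2) ^ 3 := by fun_prop
  have hsplit := intervalIntegral.integral_add_adjacent_intervals (hg.intervalIntegrable 0 t)
    (hg.intervalIntegrable t (sin (al r t))) (μ := volume)
  have hsub := intervalIntegral.integral_comp_sub_mul (a := 0) (b := xx r t)
    (fun s : ℝ => √(1 - s ^ 2) ^ 3) hc.ne' (sin (al r t))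
  have e0 : sin (al r t) - cos (al r t) * xx r t = t := by
    rw [mul_comm (cos (al r t))]; exact hte
  rw [e0, mul_zero, sub_zero, smul_eq_mul] at hsub
  have hsub' : cos (al r t) * ∫ u in (0 : ℝ)..xx r t, √(1 - (sin (al r t) - cos (al r t) * u) ^ 2) ^ 3 =
      ∫ s in t..sin (al r t), √(1 - s ^ 2) ^ 3 := by
    rw [hsub]; exact mul_inv_cancel_left₀ hc.ne' _
  rw [intervalIntegral.integral_sub
    ((by fun_prop : Continuous fun u : ℝ => (cos (al r t) + u * sin (al r t)) ^ 3).intervalIntegrable _ _)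
    ((by fun_prop : Continuous fun u : ℝ =>
      √(1 - (sin (al r t) - cos (al r t) * u) ^ 2) ^ 3).intervalIntegrable _ _), mul_sub, hsub']
  have hp : ∫ u in (0 : ℝ)..xx r t, (cos (al r t) + u * sin (al r t)) ^ 3 =
      cos (al r t) ^ 3 * xx r t + (3 * cos (al r t) ^ 2 * sin (al r t)) * xx r t ^ 2 / 2 +
      (3 * cos (al r t) * sin (al r t) ^ 2) * xx r t ^ 3 / 3 + sin (al r t) ^ 3 * xx r t ^ 4 / 4 := by
    have e : ∀ u : ℝ, (cos (al r t) + u * sin (al r t)) ^ 3 = cos (al r t) ^ 3 +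
      (3 * cos (al r t) ^ 2 * sin (al r t)) * u + (3 * cos (al r t) * sin (al r t) ^ 2) * u ^ 2 +
      sin (al r t) ^ 3 * u ^ 3 + 0 * u ^ 4 + 0 * u ^ 5 := by intro u; ring
    simp only [e]
    rw [pint]
    ring
  rw [hp]
  unfold GD5
  linarith

/-- the swept mass -/
theorem FT5_eq {r : ℝ → ℝ} (hr : SP r) {t : ℝ} :
    FT PD5 GD5 r t = (∫ s in (0 : ℝ)..t, (r s ^ 3 - √(1 - s ^ 2) ^ 3)) +
      (GD5 (al r t) (xx r t) + ∫ s in (0 : ℝ)..t, √(1 - s ^ 2) ^ 3) := by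
  have hrc := hr.cont
  rw [intervalIntegral.integral_sub ((by fun_prop : Continuous fun s => r s ^ 3).intervalIntegrable _ _)
    ((by fun_prop : Continuous fun s : ℝ => √(1 - s ^ 2) ^ 3).intervalIntegrable _ _)]
  unfold FT PD5
  ring

theorem q_le_r {r : ℝ → ℝ} (hr : SP r) {s : ℝ} (hs : s ∈ Icc (0 : ℝ) 1) :
    √(1 - s ^ 2) ^ 3 ≤ r s ^ 3 :=
  pow_le_pow_left₀ (Real.sqrt_nonneg _) (sqrt_lt_r hr hs) 3

/-- the left triangle -/
theorem LT5 {r : ℝ → ℝ} (hr : SP r) {t : ℝ} (ht : t ∈ Icc (0 : ℝ) 1) (hr1 : r t ≤ 1) :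
    ∃ (p s : ℝ) (q : ℝ → ℝ), Tri p s (xx r t) (r t) q ∧ s ≤ 0 ∧
      p = (r t + t * xx r t) / (1 + xx r t ^ 2) ∧
      p * ∫ u in (0 : ℝ)..xx r t, ((p + u * s) ^ 3 - q u ^ 3) ≤
        ∫ s in (0 : ℝ)..t, (r s ^ 3 - √(1 - s ^ 2) ^ 3) := by
  obtain ⟨b, cb, hb0, hcb, hbc, htb, hbt, hcbe, hl⟩ := chord hr ht hr1
  have hrc := hr.cont
  have hx := xx_pos hr ht
  have ht1 := ht.2
  have hrt : r t * cb = 1 - t * b := by
    have hp : 0 < 1 + xx r t ^ 2 := by positivity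
    have hx2 := xx_sq hr ht
    have hb : b = t - xx r t * cb := by linarith
    rw [hb]
    have h1 : cb * (1 + xx r t ^ 2) = r t + t * xx r t := by rw [hcbe]; field_simp
    -- r cb = 1 - t (t - x cb)
    have h2 : (r t - t * xx r t) * cb * (1 + xx r t ^ 2) = (1 - t ^ 2) * (1 + xx r t ^ 2) := by
      have : (r t - t * xx r t) * cb * (1 + xx r t ^ 2) =
        (r t - t * xx r t) * (r t + t * xx r t) := by rw [← h1]; ring
      rw [this]
      have : (r t - t * xx r t) * (r t + t * xx r t) = r t ^ 2 - t ^ 2 * xx r t ^ 2 := by ring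
      rw [this, hx2]; ring
    have h3 := mul_right_cancel₀ hp.ne' h2
    linarith
  refine ⟨cb, -b, fun u => √(1 - (b + cb * u) ^ 2), ?_, by linarith, hcbe, ?_⟩
  · refine ⟨hcb, hx, hr.pos t, ?_, by fun_prop, fun u => Real.sqrt_nonneg _, ?_⟩
    · have : r t * cb = (cb + xx r t * -b) * cb := by
        linear_combination hrt - b * htb - hbc
      exact mul_right_cancel₀ hcb.ne' this
    · intro u hu
      have h1 : b + cb * u ≤ 1 := by
        have : cb * u ≤ cb * xx r t := by gcongr; exact hu.2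
        linarith
      have h2 : 0 ≤ b + cb * u := by
        have : 0 ≤ cb * u := mul_nonneg hcb.le hu.1
        linarith
      rw [Real.sq_sqrt (by nlinarith)]
      linear_combination (-(u ^ 2) - 1) * hbc
  · have hf : Continuous fun s : ℝ => r s ^ 3 - √(1 - s ^ 2) ^ 3 := by fun_prop
    rw [← intervalIntegral.integral_add_adjacent_intervals (hf.intervalIntegrable 0 b)
      (hf.intervalIntegrable b t)]
    have h1 : 0 ≤ ∫ s in (0 : ℝ)..b, (r s ^ 3 - √(1 - s ^ 2) ^ 3) := by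
      apply intervalIntegral.integral_nonneg hb0
      intro s hs
      have := q_le_r hr (s := s) ⟨hs.1, by linarith [hs.2]⟩
      linarith
    have h2 : ∫ s in b..t, (((1 - s * b) / cb) ^ 3 - √(1 - s ^ 2) ^ 3) ≤
        ∫ s in b..t, (r s ^ 3 - √(1 - s ^ 2) ^ 3) := by
      apply intervalIntegral.integral_mono_on hbt
      · exact (by fun_prop : Continuous fun s : ℝ =>
          (((1 - s * b) / cb) ^ 3 - √(1 - s ^ 2) ^ 3)).intervalIntegrable _ _
      · exact hf.intervalIntegrable _ _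
      · intro s hs
        have h3 := hl s hs
        have h4 : 0 ≤ (1 - s * b) / cb := by
          apply div_nonneg _ hcb.le
          nlinarith [hs.1, hs.2]
        have := pow_le_pow_left₀ h4 h3 3
        linarith
    have hsub := intervalIntegral.integral_comp_add_mul (a := 0) (b := xx r t)
      (fun s : ℝ => (((1 - s * b) / cb) ^ 3 - √(1 - s ^ 2) ^ 3)) hcb.ne' b
    have e0 : b + cb * xx r t = t := by linarith
    rw [e0, mul_zero, add_zero, smul_eq_mul] at hsub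
    have e1 : cb * ∫ u in (0 : ℝ)..xx r t, ((cb + u * -b) ^ 3 - √(1 - (b + cb * u) ^ 2) ^ 3) =
        ∫ s in b..t, (((1 - s * b) / cb) ^ 3 - √(1 - s ^ 2) ^ 3) := by
      have e2 : ∀ u : ℝ, (cb + u * -b) ^ 3 - √(1 - (b + cb * u) ^ 2) ^ 3 =
          ((1 - (b + cb * u) * b) / cb) ^ 3 - √(1 - (b + cb * u) ^ 2) ^ 3 := by
        intro u
        have : cb + u * -b = (1 - (b + cb * u) * b) / cb := by
          rw [eq_div_iff hcb.ne']
          linear_combination hbc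
        rw [this]
      simp only [e2]
      rw [hsub]
      exact mul_inv_cancel_left₀ hcb.ne' _
    rw [e1]
    linarith

theorem X_le {r : ℝ → ℝ} (hr : SP r) {t : ℝ} (ht : t ∈ Icc (0 : ℝ) 1) : xx r t ^ 2 ≤ r t ^ 2 := by
  rw [xx_sq hr ht]
  have := ht.1; have := ht.2
  nlinarith

theorem FT5_A {r : ℝ → ℝ} (hr : SP r) {t : ℝ} (ht : t ∈ Ico (0 : ℝ) 1) (hr1 : r t ≤ 1) :
    r t ^ 2 * (xx r t ^ 3 * (1 + xx r t ^ 2 / 2) / (1 + xx r t ^ 2) ^ 2) ≤ FT PD5 GD5 r t := by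
  have ht' : t ∈ Icc (0 : ℝ) 1 := ⟨ht.1, ht.2.le⟩
  rw [FT5_eq hr, RT5_eq hr ht]
  obtain ⟨p, s, q, T, hs, hp, hL⟩ := LT5 hr ht' hr1
  have hR := (triR hr ht).A
  have hL2 := T.A
  have hX := X_le hr ht'
  have hX2 := xx_sq hr ht'
  have hx := xx_pos hr ht'
  have h0 := hr.pos t
  have hc := cos_al hr ht'
  have hX1 : xx r t ^ 2 ≤ 1 := by nlinarith
  generalize (∫ s in (0 : ℝ)..t, (r s ^ 3 - √(1 - s ^ 2) ^ 3)) = I1 at *
  generalize cos (al r t) * (∫ u in (0 : ℝ)..xx r t, ((cos (al r t) + u * sin (al r t)) ^ 3 -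
        √(1 - (sin (al r t) - cos (al r t) * u) ^ 2) ^ 3)) = I2 at *
  generalize p * (∫ u in (0 : ℝ)..xx r t, ((p + u * s) ^ 3 - q u ^ 3)) = I3 at *
  rw [hc] at hR
  rw [hp] at hL2
  generalize xx r t = x at *
  generalize r t = ρ at *
  have hpp : 0 < 1 + x ^ 2 := by positivity
  have key : x ^ 3 * (((ρ - t * x) / (1 + x ^ 2)) ^ 2 / 8 + 3 / 8 * (ρ * ((ρ - t * x) / (1 + x ^ 2)))) -
      x ^ 5 / 60 - (ρ - t * x) / (1 + x ^ 2) * x ^ 5 / (12 * ρ) +
      (x ^ 3 * (((ρ + t * x) / (1 + x ^ 2)) ^ 2 / 8 + 3 / 8 * (ρ * ((ρ + t * x) / (1 + x ^ 2)))) -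
      x ^ 5 / 60 - (ρ + t * x) / (1 + x ^ 2) * x ^ 5 / (12 * ρ)) =
      ρ ^ 2 * (x ^ 3 * (1 + x ^ 2 / 2) / (1 + x ^ 2) ^ 2) +
        x ^ 5 * (1 / (12 * (1 + x ^ 2)) - 1 / 30) := by
    have ht2 : t ^ 2 = 1 + x ^ 2 - ρ ^ 2 := by linarith
    have e : x ^ 3 * (((ρ - t * x) / (1 + x ^ 2)) ^ 2 / 8 + 3 / 8 * (ρ * ((ρ - t * x) / (1 + x ^ 2)))) -
      x ^ 5 / 60 - (ρ - t * x) / (1 + x ^ 2) * x ^ 5 / (12 * ρ) +
      (x ^ 3 * (((ρ + t * x) / (1 + x ^ 2)) ^ 2 / 8 + 3 / 8 * (ρ * ((ρ + t * x) / (1 + x ^ 2)))) -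
      x ^ 5 / 60 - (ρ + t * x) / (1 + x ^ 2) * x ^ 5 / (12 * ρ)) =
      x ^ 3 * ((2 * ρ ^ 2 + 2 * t ^ 2 * x ^ 2) / (1 + x ^ 2) ^ 2 / 8 + 3 / 4 * ρ ^ 2 / (1 + x ^ 2)) -
        x ^ 5 / 30 - x ^ 5 / (6 * (1 + x ^ 2)) := by
      field_simp
      ring
    rw [e, ht2]
    field_simp
    ring
  have h1 : 0 ≤ x ^ 5 * (1 / (12 * (1 + x ^ 2)) - 1 / 30) := by
    have : 1 / 30 ≤ 1 / (12 * (1 + x ^ 2)) := by
      apply one_div_le_one_div_of_le (by positivity)
      linarith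
    have h2 : 0 ≤ 1 / (12 * (1 + x ^ 2)) - 1 / 30 := by linarith
    positivity
  linarith

theorem FT5_M {r : ℝ → ℝ} (hr : SP r) {t : ℝ} (ht : t ∈ Ico (0 : ℝ) 1) (hr1 : r t ≤ 1) :
    xx r t ^ 3 * (r t ^ 2 / 2 - xx r t ^ 2 / 10 + (3 / 2 - xx r t ^ 2 / (2 * r t ^ 2)) *
      (cos (al r t) ^ 2 / 12 + cos (al r t) * r t / 4)) ≤ FT PD5 GD5 r t := by
  have ht' : t ∈ Icc (0 : ℝ) 1 := ⟨ht.1, ht.2.le⟩
  rw [FT5_eq hr, RT5_eq hr ht]
  obtain ⟨p, s, q, T, hs, hp, hL⟩ := LT5 hr ht' hr1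
  have hR := (triR hr ht).B
  have hpr : r t ≤ p := by
    have h1 := T.hrx
    have h2 := T.hx
    have : xx r t * s ≤ 0 := mul_nonpos_of_nonneg_of_nonpos h2.le hs
    linarith
  have hL2 := T.C hpr (X_le hr ht')
  linarith

theorem FT5_B {r : ℝ → ℝ} (hr : SP r) {t : ℝ} (ht : t ∈ Ico (0 : ℝ) 1) (hr1 : 1 ≤ r t) :
    t * (r t ^ 3 - 1) + (t ^ 3 / 2 - t ^ 5 / 10) + (3 / 2 - xx r t ^ 2 / (2 * r t ^ 2)) *
      (cos (al r t) ^ 2 / 12 + cos (al r t) * r t / 4) * xx r t ^ 3 ≤ FT PD5 GD5 r t := by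
  have ht' : t ∈ Icc (0 : ℝ) 1 := ⟨ht.1, ht.2.le⟩
  rw [FT5_eq hr, RT5_eq hr ht]
  have hR := (triR hr ht).B
  have hrc := hr.cont
  have h2 : ∫ s in (0 : ℝ)..t, ((r t ^ 3 - 1) + 0 * s + (3 / 2) * s ^ 2 + 0 * s ^ 3 +
      (-(1 / 2)) * s ^ 4 + 0 * s ^ 5) ≤ ∫ s in (0 : ℝ)..t, (r s ^ 3 - √(1 - s ^ 2) ^ 3) := by
    apply intervalIntegral.integral_mono_on ht.1
    · exact (by fun_prop : Continuous fun s : ℝ => ((r t ^ 3 - 1) + 0 * s + (3 / 2) * s ^ 2 +
        0 * s ^ 3 + (-(1 / 2)) * s ^ 4 + 0 * s ^ 5)).intervalIntegrable _ _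
    · exact (by fun_prop : Continuous fun s : ℝ => (r s ^ 3 - √(1 - s ^ 2) ^ 3)).intervalIntegrable _ _
    · intro s hs
      have h3 := hr.anti ⟨hs.1, hs.2.trans ht'.2⟩ ht' hs.2
      have h4 : r t ^ 3 ≤ r s ^ 3 := pow_le_pow_left₀ (hr.pos t).le h3 3
      have hs1 : s ^ 2 ≤ 1 := by nlinarith [hs.1, hs.2, ht.2]
      have h5 := cube_gap (l := 1) (q := √(1 - s ^ 2)) (v := s ^ 2) one_pos (Real.sqrt_nonneg _)
        (sq_nonneg s) (by rw [Real.sq_sqrt (by linarith)]; ring)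
      have e : (s ^ 2) ^ 2 = s ^ 4 := by ring
      rw [e] at h5
      linarith
  rw [pint] at h2
  linarith

theorem FT5_nonneg {r : ℝ → ℝ} (hr : SP r) {t : ℝ} (ht : t ∈ Icc (0 : ℝ) 1) :
    0 ≤ FT PD5 GD5 r t := by
  rw [FT5_eq hr]
  have hrc := hr.cont
  have h1 : 0 ≤ ∫ s in (0 : ℝ)..t, (r s ^ 3 - √(1 - s ^ 2) ^ 3) := by
    apply intervalIntegral.integral_nonneg ht.1
    intro s hs
    have := q_le_r hr (s := s) ⟨hs.1, hs.2.trans ht.2⟩
    linarith
  have h2 : 0 ≤ GD5 (al r t) (xx r t) + ∫ s in (0 : ℝ)..t, √(1 - s ^ 2) ^ 3 := by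
    rcases eq_or_lt_of_le ht.2 with h | h
    · rw [h, al_one hr]
      have hI := int_sqrt3 (α := π / 2) (by positivity) le_rfl
      rw [Real.sin_pi_div_two, Real.cos_pi_div_two] at hI
      rw [hI]
      unfold GD5
      rw [Real.sin_pi_div_two, Real.cos_pi_div_two]
      linarith
    · have h0 := hr.pos t
      have hx := (xx_pos hr ht).le
      have hc := (cos_al_pos hr ⟨ht.1, h⟩).le
      rw [RT5_eq hr ⟨ht.1, h⟩]
      refine le_trans ?_ (triR hr ⟨ht.1, h⟩).B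
      have : xx r t ^ 2 / (2 * r t ^ 2) ≤ 1 := by
        rw [div_le_one (by positivity)]
        have := X_le hr ht
        nlinarith
      have : 0 ≤ 3 / 2 - xx r t ^ 2 / (2 * r t ^ 2) := by linarith
      positivity
  linarith

theorem FT5_one {r : ℝ → ℝ} (hr : SP r) :
    FT PD5 GD5 r 1 = ∫ s in (0 : ℝ)..1, (r s ^ 3 - √(1 - s ^ 2) ^ 3) := by
  rw [FT5_eq hr, al_one hr]
  have hI := int_sqrt3 (α := π / 2) (by positivity) le_rfl
  rw [Real.sin_pi_div_two, Real.cos_pi_div_two] at hI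
  rw [hI]
  unfold GD5
  rw [Real.sin_pi_div_two, Real.cos_pi_div_two]
  ring

end Crest.Agent.R230.SD
end

-- ▼ part R230/SD5Point
section

/-!
# Row 230: the pointwise inequalities for `SDL 4`
-/

set_option autoImplicit false
set_option maxHeartbeats 1000000
set_option linter.unusedVariables false

open Real

namespace Crest.Agent.R230.SD

/-- all boxes together -/
theorem goal_all {c r x t σ F f : ℝ} (g : Geo c r x t σ F f) :
    B5 c r ≤ 4 / 3 * m5 c r * (1 - c ^ 2) * f := by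
  have hc := g.hc
  have hc1 := g.hc1
  have h1c : 0 < 1 - c := by linarith
  have hrc : c < r := by
    have h := mul_pos g.hx g.hσ
    rw [g.h2] at h; linarith
  have hcr : r * c ≤ 1 := by
    have h := mul_nonneg g.ht g.hσ.le
    rw [g.h1] at h; linarith
  rcases le_total r 1 with hr | hr
  · have e : (1 - r) / (1 - c) * (1 - c) = 1 - r := div_mul_cancel₀ _ h1c.ne'
    have hv0 : 0 ≤ (1 - r) / (1 - c) := div_nonneg (by linarith) h1c.le
    have hv1 : (1 - r) / (1 - c) ≤ 1 := by rw [div_le_one h1c]; linarith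
    exact rootA c ((1 - r) / (1 - c)) r (show r = 1 - (1 - r) / (1 - c) * (1 - c) by rw [e]; ring)
      (by push_cast; linarith) (by push_cast; linarith) (by push_cast; linarith)
      (by push_cast; linarith) x t σ F f g
  · rcases le_total c (1 / 4) with h | h
    · rcases le_total r (5 / 4) with h2 | h2
      · exact rootR1 c r r (show r = r from rfl) (by push_cast; linarith) (by push_cast; linarith)
          (by push_cast; linarith) (by push_cast; linarith) x t σ F f g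
      rcases le_total r 2 with h3 | h3
      · exact rootR2 c r r (show r = r from rfl) (by push_cast; linarith) (by push_cast; linarith)
          (by push_cast; linarith) (by push_cast; linarith) x t σ F f g
      rcases le_total r 4 with h4 | h4
      · exact rootR3 c r r (show r = r from rfl) (by push_cast; linarith) (by push_cast; linarith)
          (by push_cast; linarith) (by push_cast; linarith) x t σ F f g
      · exact goal_big h h4 x t σ F f g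
    · have e : (r - 1) / (1 - c) * (1 - c) = r - 1 := div_mul_cancel₀ _ h1c.ne'
      have hv0 : 0 ≤ (r - 1) / (1 - c) := div_nonneg (by linarith) h1c.le
      have hrel : r = 1 + (r - 1) / (1 - c) * (1 - c) := by rw [e]; ring
      have hvc : c * ((r - 1) / (1 - c)) ≤ 1 := by
        rw [← mul_div_assoc, div_le_one h1c]; linarith
      rcases le_total c (1 / 2) with h2 | h2
      · have hv4 : (r - 1) / (1 - c) ≤ 4 := by nlinarith
        exact rootY1 c ((r - 1) / (1 - c)) r hrel (by push_cast; linarith) (by push_cast; linarith)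
          (by push_cast; linarith) (by push_cast; linarith) x t σ F f g
      rcases le_total c (3 / 4) with h3 | h3
      · have hv4 : (r - 1) / (1 - c) ≤ 2 := by nlinarith
        exact rootY2 c ((r - 1) / (1 - c)) r hrel (by push_cast; linarith) (by push_cast; linarith)
          (by push_cast; linarith) (by push_cast; linarith) x t σ F f g
      rcases le_total ((r - 1) / (1 - c)) 1 with h4 | h4
      · exact rootY3 c ((r - 1) / (1 - c)) r hrel (by push_cast; linarith) (by push_cast; linarith)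
          (by push_cast; linarith) (by push_cast; linarith) x t σ F f g
      · have h5 : 3 / 4 ≤ c * ((r - 1) / (1 - c)) := by nlinarith
        refine rootC c (c * ((r - 1) / (1 - c))) r ⟨?_, hc⟩ (by push_cast; linarith)
          (by push_cast; linarith) (by push_cast; linarith) (by push_cast; linarith) x t σ F f g
        rw [mul_assoc, e]; ring

theorem q_lb : (50929 : ℝ) / 30000 ≤ 16 / (3 * π) := by
  have := Real.pi_lt_d4
  have hpi := Real.pi_pos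
  rw [le_div_iff₀ (by positivity)]
  linarith

/-- path 2 -/
theorem pt5 {α x t F f : ℝ} (g : Geo (cos α) (cos α + x * sin α) x t (sin α) F f) :
    mV5 α x + 1 / 10000 * (16 / (3 * π) * mD5 α x) +
      3 / 50 * (sin α ^ 4 * x ^ 5) * (6 * (cos α * sin α) - x) ≤
      4 / 3 * f * (16 / (3 * π) * mD5 α x) := by
  have h := goal_all g
  rw [mV5_eq, mD5_eq]
  have hD := g.D
  have hXD := g.XD
  have hcs := g.hcs
  have hr0 := g.hr
  have hc := g.hc
  have hx := g.hx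
  have hf := g.hf
  have hf1 : 1 ≤ f := by
    have : (1:ℝ) ^ 3 ≤ f ^ 3 := by rw [g.hfF]; linarith [g.hF]
    exact le_of_pow_le_pow_left₀ (by norm_num) g.hf.le this
  have h2 := g.h2
  have hq := q_lb
  generalize hr : cos α + x * sin α = r at *
  generalize cos α = c at *
  generalize sin α = σ at *
  generalize 16 / (3 * π) = Q at *
  have hB : B5 c r = (1 - c ^ 2) * (E5 c r (x ^ 2) + 3 / 50 * ((r - c) ^ 3 * (6 * c * (1 - c ^ 2) -
      (r - c))) + 1 / 10000 * m5 c r) := by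
    unfold B5 E5
    rw [← hXD]
    ring
  rw [hB] at h
  have h3 : E5 c r (x ^ 2) + 3 / 50 * ((r - c) ^ 3 * (6 * c * (1 - c ^ 2) -
      (r - c))) + 1 / 10000 * m5 c r ≤ 4 / 3 * m5 c r * f := by
    have : (1 - c ^ 2) * (E5 c r (x ^ 2) + 3 / 50 * ((r - c) ^ 3 * (6 * c * (1 - c ^ 2) -
      (r - c))) + 1 / 10000 * m5 c r) ≤ (1 - c ^ 2) * (4 / 3 * m5 c r * f) := by linarith
    exact le_of_mul_le_mul_left this hD
  have hM : 0 ≤ c ^ 2 + 2 * c * r + 3 * r ^ 2 := by positivity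
  have h4 : m5 c r = 50929 / 30000 * ((c ^ 2 + 2 * c * r + 3 * r ^ 2) / 4) := by unfold m5; ring
  have h5 : 0 ≤ (4 / 3 * f - 1 / 10000) * ((Q - 50929 / 30000) *
      ((c ^ 2 + 2 * c * r + 3 * r ^ 2) / 4)) := by
    have : 0 ≤ 4 / 3 * f - 1 / 10000 := by linarith
    have : 0 ≤ Q - 50929 / 30000 := by linarith
    positivity
  have h6 : E5 c r (x ^ 2) + 3 / 50 * ((r - c) ^ 3 * (6 * c * (1 - c ^ 2) - (r - c))) +
      1 / 10000 * (Q * ((c ^ 2 + 2 * c * r + 3 * r ^ 2) / 4)) ≤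
      4 / 3 * f * (Q * ((c ^ 2 + 2 * c * r + 3 * r ^ 2) / 4)) := by
    rw [h4] at h3
    linarith
  have h7 := mul_le_mul_of_nonneg_left h6 (sq_nonneg x)
  have h8 : x ^ 2 * (3 / 50 * ((r - c) ^ 3 * (6 * c * (1 - c ^ 2) - (r - c)))) =
      3 / 50 * (σ ^ 4 * x ^ 5) * (6 * (c * σ) - x) := by
    rw [← h2, show 1 - c ^ 2 = σ ^ 2 by linarith]
    ring
  linarith

/-- path 1 -/
theorem pt5x {α x F f : ℝ} (g : Ax (cos α) x F f) (hs : sin α = x * cos α) :
    mV5 α x + 1 / 10000 * (16 / (3 * π) * mD5 α x) +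
      3 / 50 * (sin α ^ 4 * x ^ 6) * (5 + 6 * cos α ^ 2) ≤
      4 / 3 * f * (16 / (3 * π) * mD5 α x) := by
  have h := axis (cos α) x F f g (by push_cast; linarith [g.hc]) (by push_cast; linarith [g.hc1])
  rw [mV5_eq, mD5_eq]
  have hc := g.hc
  have hx := g.hx
  have hxc := g.hxc
  have hf := g.hf
  have hf1 : 1 ≤ f := by
    have : (1:ℝ) ^ 3 ≤ f ^ 3 := by rw [g.hfF]; linarith [g.hF]
    exact le_of_pow_le_pow_left₀ (by norm_num) g.hf.le this
  have hq := q_lb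
  have hrc : (cos α + x * sin α) * cos α = 1 := by
    rw [hs]; linear_combination hxc
  have hr0 : 0 < cos α + x * sin α := by
    rw [hs]; positivity
  generalize hr : cos α + x * sin α = r at *
  generalize cos α = c at *
  generalize sin α = σ at *
  generalize 16 / (3 * π) = Q at *
  subst hs
  have hcr1 : c * r = 1 := by linarith
  have p2 : c ^ 2 * r ^ 2 = 1 := by rw [← mul_pow, hcr1, one_pow]
  have p3 : c ^ 3 * r ^ 3 = 1 := by rw [← mul_pow, hcr1, one_pow]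
  have p4 : c ^ 4 * r ^ 4 = 1 := by rw [← mul_pow, hcr1, one_pow]
  have p5 : c ^ 5 * r ^ 5 = 1 := by rw [← mul_pow, hcr1, one_pow]
  have hm : mX c * c ^ 2 = c ^ 5 * m5 c r := by
    unfold mX m5
    linear_combination (-(50929 / 120000) * 2 * c ^ 5) * hcr1 - (50929 / 120000) * 3 * c ^ 3 * p2
  have hB : BX c = c ^ 5 * (E5 c r (x ^ 2) + 3 / 50 * ((x * c) ^ 4 * x ^ 4 * (5 + 6 * c ^ 2)) +
      1 / 10000 * m5 c r) := by
    have e1 : c ^ 5 * (153 / 280 * (c ^ 3 + 2 * c ^ 2 * r + 3 * c * r ^ 2 + 4 * r ^ 3)) =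
        153 / 280 * (4 * c ^ 2 + 3 * c ^ 4 + 2 * c ^ 6 + c ^ 8) := by
      linear_combination (153 / 280 * 2 * c ^ 6) * hcr1 + (153 / 280 * 3 * c ^ 4) * p2 +
        (153 / 280 * 4 * c ^ 2) * p3
    have e2 : c ^ 5 * (6 / 245 * x ^ 2 * (c ^ 3 + 4 * c ^ 2 * r + 10 * c * r ^ 2 + 20 * r ^ 3)) =
        6 / 245 * ((1 - c ^ 2) * (20 + 10 * c ^ 2 + 4 * c ^ 4 + c ^ 6)) := by
      rw [← hxc]
      linear_combination (6 / 245 * x ^ 2 * 4 * c ^ 6) * hcr1 + (6 / 245 * x ^ 2 * 10 * c ^ 4) * p2 +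
        (6 / 245 * x ^ 2 * 20 * c ^ 2) * p3
    have e3 : c ^ 5 * (5 / 49 * (c ^ 5 + 2 * c ^ 4 * r + 3 * c ^ 3 * r ^ 2 + 4 * c ^ 2 * r ^ 3 +
        5 * c * r ^ 4 + 6 * r ^ 5)) =
        5 / 49 * (6 + 5 * c ^ 2 + 4 * c ^ 4 + 3 * c ^ 6 + 2 * c ^ 8 + c ^ 10) := by
      linear_combination (5 / 49 * 2 * c ^ 8) * hcr1 + (5 / 49 * 3 * c ^ 6) * p2 +
        (5 / 49 * 4 * c ^ 4) * p3 + (5 / 49 * 5 * c ^ 2) * p4 + (5 / 49 * 6) * p5
    have e4 : c ^ 5 * (3 / 50 * ((x * c) ^ 4 * x ^ 4 * (5 + 6 * c ^ 2))) =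
        3 / 50 * (c * (1 - c ^ 2) ^ 4 * (5 + 6 * c ^ 2)) := by
      rw [← hxc]; ring
    have e5 : c ^ 5 * (1 / 10000 * m5 c r) =
        1 / 10000 * (50929 / 120000 * (3 * c ^ 3 + 2 * c ^ 5 + c ^ 7)) := by
      have : c ^ 5 * (1 / 10000 * m5 c r) = 1 / 10000 * (mX c * c ^ 2) := by rw [hm]; ring
      rw [this]; unfold mX; ring
    unfold BX
    rw [← e1, ← e2, ← e3, ← e4, ← e5]
    unfold E5
    ring
  rw [hB] at h
  have h3 : E5 c r (x ^ 2) + 3 / 50 * ((x * c) ^ 4 * x ^ 4 * (5 + 6 * c ^ 2)) +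
      1 / 10000 * m5 c r ≤ 4 / 3 * m5 c r * f := by
    have hc5 : 0 < c ^ 5 := by positivity
    have e : 4 / 3 * mX c * c ^ 2 * f = c ^ 5 * (4 / 3 * m5 c r * f) := by
      have : 4 / 3 * mX c * c ^ 2 * f = 4 / 3 * (mX c * c ^ 2) * f := by ring
      rw [this, hm]; ring
    rw [e] at h
    exact le_of_mul_le_mul_left h hc5
  have hM : 0 ≤ c ^ 2 + 2 * c * r + 3 * r ^ 2 := by positivity
  have h4 : m5 c r = 50929 / 30000 * ((c ^ 2 + 2 * c * r + 3 * r ^ 2) / 4) := by unfold m5; ring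
  have h5 : 0 ≤ (4 / 3 * f - 1 / 10000) * ((Q - 50929 / 30000) *
      ((c ^ 2 + 2 * c * r + 3 * r ^ 2) / 4)) := by
    have : 0 ≤ 4 / 3 * f - 1 / 10000 := by linarith
    have : 0 ≤ Q - 50929 / 30000 := by linarith
    positivity
  have h6 : E5 c r (x ^ 2) + 3 / 50 * ((x * c) ^ 4 * x ^ 4 * (5 + 6 * c ^ 2)) +
      1 / 10000 * (Q * ((c ^ 2 + 2 * c * r + 3 * r ^ 2) / 4)) ≤
      4 / 3 * f * (Q * ((c ^ 2 + 2 * c * r + 3 * r ^ 2) / 4)) := by
    rw [h4] at h3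
    linarith
  have h7 := mul_le_mul_of_nonneg_left h6 (sq_nonneg x)
  linarith

end Crest.Agent.R230.SD
end

-- ▼ part R230/SD5Main
section

/-!
# Row 230: the one dimensional inequality behind `SDL 4`
-/

set_option autoImplicit false
set_option maxHeartbeats 1000000
set_option linter.unusedVariables false

open MeasureTheory Set Filter Topology Real

namespace Crest.Agent.R230.SD

/-- cube root of `1 + F` -/
noncomputable def cr (F : ℝ) : ℝ := (1 + F) ^ (1 / 3 : ℝ)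

theorem cr_pos {F : ℝ} (hF : 0 ≤ F) : 0 < cr F := Real.rpow_pos_of_pos (by linarith) _

theorem cr_cube {F : ℝ} (hF : 0 ≤ F) : cr F ^ 3 = 1 + F := by
  unfold cr
  rw [← Real.rpow_natCast, ← Real.rpow_mul (by linarith)]
  norm_num

theorem deriv_H {F : ℝ} (hF : 0 ≤ F) :
    HasDerivAt (fun F : ℝ => (1 + F) ^ (4 / 3 : ℝ)) (4 / 3 * cr F) F := by
  have h1 : HasDerivAt (fun F : ℝ => 1 + F) 1 F := (hasDerivAt_id F).const_add 1
  have h2 := h1.rpow_const (p := (4 / 3 : ℝ)) (Or.inl (by linarith))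
  refine HasDerivAt.congr_deriv h2 ?_
  unfold cr
  norm_num

/-- the facts along the profile -/
theorem geo_of {r : ℝ → ℝ} (hr : SP r) {t : ℝ} (ht : t ∈ Ico (0 : ℝ) 1) :
    Geo (cos (al r t)) (r t) (xx r t) t (sin (al r t)) (16 / (3 * π) * FT PD5 GD5 r t)
      (cr (16 / (3 * π) * FT PD5 GD5 r t)) := by
  have ht' : t ∈ Icc (0 : ℝ) 1 := ⟨ht.1, ht.2.le⟩
  have hpi := Real.pi_pos
  have hQ : (0:ℝ) < 16 / (3 * π) := by positivity
  have hF := FT5_nonneg hr ht'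
  have hF0 : 0 ≤ 16 / (3 * π) * FT PD5 GD5 r t := by positivity
  have hc := cos_al_pos hr ht
  have hs := sin_al_nonneg hr ht'
  have hx := xx_pos hr ht'
  have hte := t_eq hr ht'
  have hre := r_eq hr ht'
  have hcs := Real.sin_sq_add_cos_sq (al r t)
  have hσ : 0 < sin (al r t) := by
    have : 0 < xx r t * cos (al r t) := mul_pos hx hc
    linarith [ht.1]
  have hup : ∀ z : ℝ, 0 ≤ z → z ≤ FT PD5 GD5 r t → 50929 / 30000 * z ≤
      16 / (3 * π) * FT PD5 GD5 r t := by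
    intro z hz hzF
    exact mul_le_mul q_lb hzF hz hQ.le
  have hX := X_le hr ht'
  have h0 := hr.pos t
  have ht0 := ht.1
  have hlam : 0 ≤ 3 / 2 - xx r t ^ 2 / (2 * r t ^ 2) := by
    have : xx r t ^ 2 / (2 * r t ^ 2) ≤ 1 := by
      rw [div_le_one (by positivity)]
      nlinarith
    linarith
  refine ⟨hc, ?_, h0, hσ, hcs, hx, ht.1, ht.2.le, ?_, ?_, ?_, hF0, cr_pos hF0, cr_cube hF0, ?_, ?_, ?_⟩
  · nlinarith
  · rw [← hre]
    have e : t * sin (al r t) = (sin (al r t) - xx r t * cos (al r t)) * sin (al r t) := by rw [hte]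
    rw [e]
    linear_combination hcs
  · rw [← hre]; ring
  · exact xx_sq hr ht'
  · intro h1
    exact hup _ (by positivity) (FT5_A hr ht h1)
  · intro h1
    refine hup _ ?_ (FT5_M hr ht h1)
    have : 0 ≤ r t ^ 2 / 2 - xx r t ^ 2 / 10 := by nlinarith
    positivity
  · intro h1
    refine hup _ ?_ (FT5_B hr ht h1)
    have e1 : 0 ≤ r t ^ 3 - 1 := by
      have : (1:ℝ) ^ 3 ≤ r t ^ 3 := pow_le_pow_left₀ zero_le_one h1 3
      linarith
    have e2 : 0 ≤ t ^ 3 / 2 - t ^ 5 / 10 := by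
      have : t ^ 3 / 2 - t ^ 5 / 10 = t ^ 3 * (1 / 2 - t ^ 2 / 10) := by ring
      rw [this]
      have : 0 ≤ 1 / 2 - t ^ 2 / 10 := by nlinarith [ht.2]
      positivity
    positivity

/-- swept mass on the axis -/
theorem GD5_axis {x : ℝ} (hx : 0 < x) :
    (1 + cos (arctan x) ^ 2 / 2) * (cos (arctan x) ^ 2 + 3) / 12 * x ^ 3 ≤ GD5 (arctan x) x := by
  obtain ⟨hc, hs, ht, hr⟩ := arctan_facts hx
  have hcs := Real.sin_sq_add_cos_sq (arctan x)
  have ha0 : 0 ≤ arctan x := Real.arctan_nonneg.2 hx.le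
  have ha1 : arctan x ≤ π / 2 := (Real.arctan_lt_pi_div_two x).le
  have hI := int_sqrt3 ha0 ha1
  have hs1 := Real.sin_le_one (arctan x)
  have hGdef : GD5 (arctan x) x = (1/4 : ℝ) * (sin (arctan x) ^ 3 * cos (arctan x) * x ^ 4) +
    (1 : ℝ) * (sin (arctan x) ^ 2 * cos (arctan x) ^ 2 * x ^ 3) +
    (3/2 : ℝ) * (sin (arctan x) * cos (arctan x) ^ 3 * x ^ 2) + (1 : ℝ) * (cos (arctan x) ^ 4 * x) -
    (3 / 8 * arctan x + 3 / 8 * (sin (arctan x) * cos (arctan x)) +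
      1 / 4 * (sin (arctan x) * cos (arctan x) ^ 3)) := by unfold GD5; ring
  rw [← hI] at hGdef
  have hxc : x ^ 2 * cos (arctan x) ^ 2 = 1 - cos (arctan x) ^ 2 := by
    have : sin (arctan x) = x * cos (arctan x) := by linarith
    rw [this] at hcs
    linarith
  have hsx : sin (arctan x) = x * cos (arctan x) := by linarith
  set c := cos (arctan x) with hcdef
  set σ := sin (arctan x) with hσdef
  have T : Tri c σ x (c + x * σ) (fun u => √(1 - (σ - c * u) ^ 2)) := by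
    refine ⟨hc, hx, by linarith, rfl, by fun_prop, fun u => Real.sqrt_nonneg _, ?_⟩
    intro u hu
    have h1 : σ - c * u ≤ 1 := by
      have : 0 ≤ c * u := mul_nonneg hc.le hu.1
      linarith
    have h2 : 0 ≤ σ - c * u := by
      have : c * u ≤ c * x := by
        gcongr
        exact hu.2
      linarith
    rw [Real.sq_sqrt (by nlinarith)]
    linear_combination (-(u ^ 2) - 1) * hcs
  have hB := T.B
  have hsub := intervalIntegral.integral_comp_sub_mul (a := 0) (b := x)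
    (fun s : ℝ => √(1 - s ^ 2) ^ 3) hc.ne' σ
  have e0 : σ - c * x = 0 := by linarith
  rw [e0, mul_zero, sub_zero, smul_eq_mul] at hsub
  have hsub' : c * ∫ u in (0 : ℝ)..x, √(1 - (σ - c * u) ^ 2) ^ 3 =
      ∫ s in (0 : ℝ)..σ, √(1 - s ^ 2) ^ 3 := by
    rw [hsub]; exact mul_inv_cancel_left₀ hc.ne' _
  rw [intervalIntegral.integral_sub
    ((by fun_prop : Continuous fun u : ℝ => (c + u * σ) ^ 3).intervalIntegrable _ _)
    ((by fun_prop : Continuous fun u : ℝ => √(1 - (σ - c * u) ^ 2) ^ 3).intervalIntegrable _ _),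
    mul_sub, hsub'] at hB
  have hp : ∫ u in (0 : ℝ)..x, (c + u * σ) ^ 3 = c ^ 3 * x + (3 * c ^ 2 * σ) * x ^ 2 / 2 +
      (3 * c * σ ^ 2) * x ^ 3 / 3 + σ ^ 3 * x ^ 4 / 4 := by
    have e : ∀ u : ℝ, (c + u * σ) ^ 3 = c ^ 3 + (3 * c ^ 2 * σ) * u + (3 * c * σ ^ 2) * u ^ 2 +
      σ ^ 3 * u ^ 3 + 0 * u ^ 4 + 0 * u ^ 5 := by intro u; ring
    simp only [e]
    rw [pint]
    ring
  rw [hp] at hB
  have hrc : (c + x * σ) * c = 1 := by
    rw [hsx]; linear_combination hxc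
  have e1 : x ^ 2 / (2 * (c + x * σ) ^ 2) = (1 - c ^ 2) / 2 := by
    rw [div_eq_iff (by positivity), ← hxc]
    have : (c + x * σ) ^ 2 * c ^ 2 = 1 := by rw [← mul_pow, hrc, one_pow]
    linear_combination (-(x ^ 2)) * this
  rw [e1] at hB
  have e2 : (3 / 2 - (1 - c ^ 2) / 2) * (c ^ 2 / 12 + c * (c + x * σ) / 4) * x ^ 3 =
      (1 + c ^ 2 / 2) * (c ^ 2 + 3) / 12 * x ^ 3 := by
    linear_combination ((3 / 2 - (1 - c ^ 2) / 2) / 4 * x ^ 3) * hrc
  rw [e2] at hB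
  rw [hGdef]
  linarith

theorem ax_of {x : ℝ} (hx : 0 < x) : Ax (cos (arctan x)) x (16 / (3 * π) * GD5 (arctan x) x)
    (cr (16 / (3 * π) * GD5 (arctan x) x)) := by
  obtain ⟨hc, hs, ht, hr⟩ := arctan_facts hx
  have hcs := Real.sin_sq_add_cos_sq (arctan x)
  have hpi := Real.pi_pos
  have hQ : (0:ℝ) < 16 / (3 * π) := by positivity
  have hG := GD5_axis hx
  have hG0 : 0 ≤ (1 + cos (arctan x) ^ 2 / 2) * (cos (arctan x) ^ 2 + 3) / 12 * x ^ 3 := by positivity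
  have hF0 : 0 ≤ 16 / (3 * π) * GD5 (arctan x) x := mul_nonneg hQ.le (hG0.trans hG)
  have hsx : sin (arctan x) = x * cos (arctan x) := by linarith
  have hxc : x ^ 2 * cos (arctan x) ^ 2 = 1 - cos (arctan x) ^ 2 := by
    rw [hsx] at hcs
    linarith
  refine ⟨hc, ?_, hx, hxc, hF0, cr_pos hF0, cr_cube hF0, ?_⟩
  · have : 0 < x ^ 2 * cos (arctan x) ^ 2 := by positivity
    nlinarith
  · have := mul_le_mul q_lb hG hG0 hQ.le
    linarith

theorem FT_smul (C : ℝ) (P G : ℝ → ℝ → ℝ) (r : ℝ → ℝ) (t : ℝ) :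
    FT (fun s ρ => C * P s ρ) (fun α x => C * G α x) r t = C * FT P G r t := by
  unfold FT
  rw [intervalIntegral.integral_const_mul]
  ring

/-- the inequality for strict profiles, `n = 4` -/
theorem core5 {r : ℝ → ℝ} (hr : SP r) :
    (∫ s in (0 : ℝ)..1, PV5 s (r s)) +
      1 / 10000 * (16 / (3 * π) * ∫ s in (0 : ℝ)..1, (r s ^ 3 - √(1 - s ^ 2) ^ 3)) ≤
    (1 + 16 / (3 * π) * ∫ s in (0 : ℝ)..1, (r s ^ 3 - √(1 - s ^ 2) ^ 3)) ^ (4 / 3 : ℝ) := by
  have hpi := Real.pi_pos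
  have hQ : (0:ℝ) < 16 / (3 * π) := by positivity
  have h := coreg (H := fun F => (1 + F) ^ (4 / 3 : ℝ)) (k := fun F => 4 / 3 * cr F)
    (e0 := 1 / 10000) (densD5.smul (16 / (3 * π))) densV5 hr ?_ ?_ ?_ ?_ ?_ ?_ ?_
  · rw [FT_smul, FT5_one hr] at h
    have e2 : FT PV5 GV5 r 1 = (∫ s in (0 : ℝ)..1, PV5 s (r s)) - 1 := by
      unfold FT
      rw [al_one hr]
      have : GV5 (π / 2) (xx r 1) = -1 := by
        unfold GV5
        rw [Real.sin_pi_div_two, Real.cos_pi_div_two]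
        ring
      rw [this]
      ring
    rw [e2] at h
    simp only [add_zero, Real.one_rpow] at h
    linarith
  · intro F hF
    exact deriv_H hF
  · intro t ht
    rw [FT_smul]
    have g := geo_of hr ht
    rw [← r_eq hr ⟨ht.1, ht.2.le⟩] at g
    exact pt5 g
  · intro t ht
    rw [FT_smul]
    exact mul_nonneg hQ.le (FT5_nonneg hr ht)
  · intro x hx
    have hs : sin (arctan x) = x * cos (arctan x) := by
      obtain ⟨hc, hs, ht, hr⟩ := arctan_facts hx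
      linarith
    exact pt5x (ax_of hx) hs
  · intro x hx
    rcases eq_or_lt_of_le hx with h | h
    · rw [← h]; unfold GD5; simp
    · exact (ax_of h).hF
  · unfold GD5; simp
  · unfold GV5; simp

theorem main5 {r : ℝ → ℝ} (hr : Prof r) (h : ∀ s ∈ Icc (-1 : ℝ) 1, √(1 - s ^ 2) ≤ r s) :
    (∫ s in (0 : ℝ)..1, PV5 s (ext r s)) +
      1 / 10000 * (16 / (3 * π) * ∫ s in (0 : ℝ)..1, (ext r s ^ 3 - √(1 - s ^ 2) ^ 3)) ≤
    (1 + 16 / (3 * π) * ∫ s in (0 : ℝ)..1, (ext r s ^ 3 - √(1 - s ^ 2) ^ 3)) ^ (4 / 3 : ℝ) := by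
  have hc := ext_cont hr
  have c1 : Continuous fun ε : ℝ => ∫ s in (0 : ℝ)..1, PV5 s (ext r s + ε) := by
    apply intervalIntegral.continuous_parametric_intervalIntegral_of_continuous'
    unfold PV5 Function.uncurry
    fun_prop
  have c2 : Continuous fun ε : ℝ => ∫ s in (0 : ℝ)..1, ((ext r s + ε) ^ 3 - √(1 - s ^ 2) ^ 3) := by
    apply intervalIntegral.continuous_parametric_intervalIntegral_of_continuous'
    unfold Function.uncurry
    fun_prop
  have c3 : Continuous fun ε : ℝ =>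
      (1 + 16 / (3 * π) * ∫ s in (0 : ℝ)..1, ((ext r s + ε) ^ 3 - √(1 - s ^ 2) ^ 3)) ^ (4 / 3 : ℝ) :=
    (continuous_const.add (continuous_const.mul c2)).rpow_const (fun _ => Or.inr (by norm_num))
  have := lim_le (A := fun ε => (∫ s in (0 : ℝ)..1, PV5 s (ext r s + ε)) +
      1 / 10000 * (16 / (3 * π) * ∫ s in (0 : ℝ)..1, ((ext r s + ε) ^ 3 - √(1 - s ^ 2) ^ 3)))
    (B := fun ε => (1 + 16 / (3 * π) * ∫ s in (0 : ℝ)..1, ((ext r s + ε) ^ 3 -
      √(1 - s ^ 2) ^ 3)) ^ (4 / 3 : ℝ))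
    (c1.add (continuous_const.mul (continuous_const.mul c2))) c3
    (fun ε hε => core5 (sp_ext hr h hε))
  simpa only [add_zero] using this

end Crest.Agent.R230.SD
end

-- ▼ part R230/SDL4

/-!
# Row 230: `SDL 4`
-/

set_option autoImplicit false
set_option maxHeartbeats 1000000

open MeasureTheory Set Filter Topology Real

namespace Crest.Agent.R230

namespace SD

theorem w_four : w 4 = 16 / 15 := by
  unfold w
  have h1 : ∫ s in (-1 : ℝ)..1, √(1 - s ^ 2) ^ 4 =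
      ∫ s in (-1 : ℝ)..1, (1 - 2 * s ^ 2 + s ^ 4) := by
    apply intervalIntegral.integral_congr
    intro s hs
    rw [uIcc_of_le (by norm_num)] at hs
    have h2 : √(1 - s ^ 2) ^ 2 = 1 - s ^ 2 := Real.sq_sqrt (by nlinarith [hs.1, hs.2])
    have e : √(1 - s ^ 2) ^ 4 = (√(1 - s ^ 2) ^ 2) ^ 2 := by ring
    simp only [e, h2]
    ring
  rw [h1]
  have hd : ∀ u ∈ uIcc (-1 : ℝ) 1, HasDerivAt (fun u : ℝ => u - 2 * u ^ 3 / 3 + u ^ 5 / 5)
      (1 - 2 * u ^ 2 + u ^ 4) u := by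
    intro u _
    have h0 := hasDerivAt_id u
    have h2 := ((hasDerivAt_pow 3 u).const_mul 2).div_const 3
    have h4 := (hasDerivAt_pow 5 u).div_const 5
    refine HasDerivAt.congr_deriv ((h0.sub h2).add h4) ?_
    push_cast
    ring
  rw [intervalIntegral.integral_eq_sub_of_hasDerivAt hd
    ((by fun_prop : Continuous fun u : ℝ => (1 - 2 * u ^ 2 + u ^ 4)).intervalIntegrable _ _)]
  norm_num

end SD

open SD in
theorem sdl_four : SDL 4 := by
  intro r hr hge hN hM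
  have hc := ext_cont hr
  have hmain := main5 hr hge
  have hpi := Real.pi_pos
  set I3 := ∫ s in (0 : ℝ)..1, ext r s ^ 3 with hI3
  set I4 := ∫ s in (0 : ℝ)..1, ext r s ^ 4 with hI4
  set J := ∫ s in (0 : ℝ)..1, (s ^ 2 * ext r s ^ 4 - ext r s ^ 6 / 6) with hJ
  set D := ∫ s in (0 : ℝ)..1, (ext r s ^ 3 - √(1 - s ^ 2) ^ 3) with hDdef
  have hD : D = I3 - 3 * π / 16 := by
    rw [hDdef, intervalIntegral.integral_sub
      ((by fun_prop : Continuous fun s : ℝ => ext r s ^ 3).intervalIntegrable _ _)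
      ((by fun_prop : Continuous fun s : ℝ => √(1 - s ^ 2) ^ 3).intervalIntegrable _ _)]
    have hI := int_sqrt3 (α := π / 2) (by positivity) le_rfl
    rw [Real.sin_pi_div_two, Real.cos_pi_div_two] at hI
    rw [hI]
    ring
  have hV : ∫ s in (0 : ℝ)..1, PV5 s (ext r s) = 15 / 8 * I4 + 6 / 7 * J := by
    have e : ∀ s : ℝ, PV5 s (ext r s) =
        15 / 8 * ext r s ^ 4 + 6 / 7 * (s ^ 2 * ext r s ^ 4 - ext r s ^ 6 / 6) := by
      intro s; unfold PV5; ring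
    simp only [e]
    rw [intervalIntegral.integral_add
      ((by fun_prop : Continuous fun s : ℝ => 15 / 8 * ext r s ^ 4).intervalIntegrable _ _)
      ((by fun_prop : Continuous fun s : ℝ =>
        6 / 7 * (s ^ 2 * ext r s ^ 4 - ext r s ^ 6 / 6)).intervalIntegrable _ _),
      intervalIntegral.integral_const_mul, intervalIntegral.integral_const_mul]
  have hJ0 : 0 ≤ J := by
    have e1 : ∫ s in (-1 : ℝ)..1, (s ^ 2 * r s ^ 4 - r s ^ (4 + 2) / (((4 : ℕ) : ℝ) + 2)) =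
        ∫ s in (-1 : ℝ)..1, (s ^ 2 * ext r s ^ 4 - ext r s ^ 6 / 6) := by
      apply intervalIntegral.integral_congr
      intro s hs
      rw [uIcc_of_le (by norm_num)] at hs
      simp only [ext_eq hs]
      norm_num
    rw [e1, even_int (by fun_prop)] at hM
    · linarith
    · intro s hs
      rw [ext_even hr hs]; ring
  have hm3 : mom 3 r = 2 * I3 := mom_eq hr 3
  have hm4 : mom 4 r = 2 * I4 := mom_eq hr 4
  have hN' : (2 * I3) ^ 4 * (16 / 15) ^ 3 ≤ (3 * π / 8) ^ 4 * (2 * I4) ^ 3 := by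
    have := hN
    unfold NleB at this
    simp only [show 4 - 1 = 3 from rfl, hm3, hm4, w_three, w_four] at this
    exact this
  have hI3' : 0 ≤ I3 := intervalIntegral.integral_nonneg zero_le_one fun s _ =>
    pow_nonneg (ext_nonneg hge s) 3
  have hI4' : 0 ≤ I4 := intervalIntegral.integral_nonneg zero_le_one fun s _ =>
    pow_nonneg (ext_nonneg hge s) 4
  have hF : 1 + 16 / (3 * π) * D = 16 / (3 * π) * I3 := by
    rw [hD]; field_simp; ring
  rw [hV, hF] at hmain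
  have hkey : (16 / (3 * π) * I3) ^ (4 / 3 : ℝ) ≤ 15 / 8 * I4 := by
    have hA : 0 ≤ 16 / (3 * π) * I3 := by positivity
    have h1 : (16 / (3 * π) * I3) ^ 4 ≤ (15 / 8 * I4) ^ 3 := by
      have e2 : (16 / (3 * π) * I3) ^ 4 = (65536 / 81) * I3 ^ 4 / π ^ 4 := by
        field_simp
        ring
      rw [e2, div_le_iff₀ (by positivity)]
      nlinarith
    have h2 : ((16 / (3 * π) * I3) ^ 4) ^ (1 / 3 : ℝ) ≤ ((15 / 8 * I4) ^ 3) ^ (1 / 3 : ℝ) :=
      Real.rpow_le_rpow (by positivity) h1 (by norm_num)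
    have e3 : ((16 / (3 * π) * I3) ^ 4) ^ (1 / 3 : ℝ) = (16 / (3 * π) * I3) ^ (4 / 3 : ℝ) := by
      rw [← Real.rpow_natCast, ← Real.rpow_mul hA]
      norm_num
    have e4 : ((15 / 8 * I4) ^ 3) ^ (1 / 3 : ℝ) = 15 / 8 * I4 := by
      rw [← Real.rpow_natCast, ← Real.rpow_mul (by positivity)]
      norm_num
    rw [e3, e4] at h2
    exact h2
  have hD0 : D ≤ 0 := by
    have h1 : 16 / (3 * π) * D ≤ 0 := by linarith
    by_contra hneg
    push Not at hneg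
    have : 0 < 16 / (3 * π) * D := by positivity
    linarith
  have hz := zero_of_int (f := fun s => ext r s ^ 3 - √(1 - s ^ 2) ^ 3) (by fun_prop) ?_ hD0
  · have key : ∀ s ∈ Icc (0 : ℝ) 1, r s = √(1 - s ^ 2) := by
      intro s hs
      have hs' : s ∈ Icc (-1 : ℝ) 1 := ⟨by linarith [hs.1], hs.2⟩
      have h1 := hz s hs
      simp only [ext_eq hs'] at h1
      have h2 : r s ^ 3 = √(1 - s ^ 2) ^ 3 := by linarith
      exact (pow_left_inj₀ ((Real.sqrt_nonneg _).trans (hge s hs')) (Real.sqrt_nonneg _)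
        (by norm_num)).1 h2
    intro s hs
    rcases le_total 0 s with h0 | h0
    · exact key s ⟨h0, hs.2⟩
    · have h1 := key (-s) ⟨by linarith, by linarith [hs.1]⟩
      rw [hr.even s hs] at h1
      rw [h1]; congr 1; ring
  · intro s hs
    have hs' : s ∈ Icc (-1 : ℝ) 1 := ⟨by linarith [hs.1], hs.2⟩
    simp only [ext_eq hs']
    have h1 := pow_le_pow_left₀ (Real.sqrt_nonneg _) (hge s hs') 3
    linarith

end Crest.Agent.R230
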