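import Crest.Agent.R230.WMain

/-!
# Row 230: master theorem with both Poincaré inequalities

`PQ n μ β₁ β₂ θ ξ lm s l k` : certificate density with `-β₁ k² - β₂ c² k²`, potential
`σ Y l²`, `σ = 2(n+2) β₁ + 2(n-3) β₂`.  `PP n μ σ θ ξ = PQ n μ (σ/(2(n+2))) 0 θ ξ`.
-/

set_option autoImplicit false

open MeasureTheory Set Filter Topology
open scoped Pointwise ENNReal

namespace Crest.Agent.R230.WR

/-- the total potential -/
noncomputable def sg (n : ℕ) (β₁ β₂ : ℝ) : ℝ := 2 * ((n : ℝ) + 2) * β₁ + 2 * ((n : ℝ) - 3) * β₂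

/-- certificate density with two Poincaré terms -/
noncomputable def PQ (n : ℕ) (μ β₁ β₂ θ ξ lm s l k : ℝ) : ℝ :=
  μ * (((n : ℝ) - 1) * Y s * Gm n l - Real.exp (l / n) * hm n k) + (aq s - 3 * Y s * l) * KK k +
    (3 - 2 * θ) * (Y s * l * k) + (θ * ((n : ℝ) - 3) * Y s ^ 2 + (sg n β₁ β₂ - 3 * θ) * Y s) * l ^ 2 +
    cR s l - β₁ * k ^ 2 - β₂ * (cc s ^ 2 * k ^ 2) + ξ * (Y s * (l - lm))


section path

variable {r : ℝ → ℝ} (hr : Prof r) {n : ℕ}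
include hr

lemma NI_ckk_sq (hn : 5 ≤ n) : NI n (fun s => cc s ^ 2 * kk n r s ^ 2) := by
  have := intervalIntegrable_kk_sq hr n hn (g := fun s => cc s ^ 2)
    (cc_continuous.pow 2).continuousOn
  exact NI_of this fun s _ => by ring

lemma NI_PQ (hn : 5 ≤ n) (μ β₁ β₂ θ ξ lm : ℝ) :
    NI n (fun s => PQ n μ β₁ β₂ θ ξ lm s (ll n r s) (kk n r s)) := by
  have h1 := NI_PP hr hn μ (sg n β₁ β₂) θ ξ lm
  have h2 := (NI_kk_sq hr hn).smul (sg n β₁ β₂ / (2 * ((n : ℝ) + 2)) - β₁)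
  have h3 := (NI_ckk_sq hr hn).smul β₂
  refine ((h1.add h2).sub h3).congr fun s _ => ?_
  unfold PP PQ
  ring

/-- **the certificate inequality** with two Poincaré terms; `hW` is the weighted Poincaré inequality -/
theorem JJ_PQ_le (hn : 5 ≤ n) (hN : NleB n r) {μ β₁ β₂ θ ξ : ℝ} (hμ0 : 0 ≤ μ) (hβ₁ : 0 ≤ β₁)
    (hβ₂ : 0 ≤ β₂)
    (hW : 0 < β₂ → 0 ≤ JJ n (fun s => cc s ^ 2 * kk n r s ^ 2 -
      2 * ((n : ℝ) - 3) * (Y s * (ll n r s - lam n r) ^ 2)))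
    (hμ : 0 ≤ (μ * ((n : ℝ) - 1) - ((n : ℝ) + 1) - sg n β₁ β₂ * lam n r) * lam n r) :
    JJ n (fun s => PQ n μ β₁ β₂ θ ξ (lam n r) s (ll n r s) (kk n r s)) ≤
      JJ n (fun s => clo n s (ll n r s) (kk n r s)) := by
  have hl := continuousOn_ll hr n
  set lm := lam n r with hlm
  have hG : ContinuousOn (fun s => Gm n (ll n r s)) (Icc 0 1) := by
    unfold Gm
    exact (continuousOn_const.mul (((hl.div_const _).rexp).sub continuousOn_const)).sub hl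
  have hS := strong hr (n := n) (by omega) hN
  have hQ := poinc hr hn
  rw [← hlm] at hQ
  have hT := null_Y hr hn (g := fun x => θ * x ^ 2) (g' := fun x => θ * (2 * x))
    (fun x => by simpa using (hasDerivAt_pow 2 x).const_mul θ) (by fun_prop)
  have hL := JJ_lam hr (n := n) (by omega)
  rw [← hlm] at hL
  have nPP := NI_PQ hr hn μ β₁ β₂ θ ξ lm
  have nS : NI n (fun s => Real.exp (ll n r s / n) * hm n (kk n r s) -
      ((n : ℝ) - 1) * (Y s * (ll n r s + Gm n (ll n r s)))) :=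
    (NI_ehm hr (by omega)).sub ((NI_Y (by omega) (hl.add hG)).smul _)
  have nQ : NI n (fun s => kk n r s ^ 2 - 2 * ((n : ℝ) + 2) * (Y s * (ll n r s - lm) ^ 2)) :=
    (NI_kk_sq hr hn).sub ((NI_Y (by omega) ((hl.sub continuousOn_const).pow 2)).smul _)
  have nW : NI n (fun s => cc s ^ 2 * kk n r s ^ 2 - 2 * ((n : ℝ) - 3) * (Y s * (ll n r s - lm) ^ 2)) :=
    (NI_ckk_sq hr hn).sub ((NI_Y (by omega) ((hl.sub continuousOn_const).pow 2)).smul _)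
  have nT : NI n (fun s => 3 * (Y s * (θ * ll n r s ^ 2)) - ((n : ℝ) - 3) * (Y s ^ 2 * (θ * ll n r s ^ 2)) +
      Y s * (θ * (2 * ll n r s) * kk n r s)) :=
    (((NI_Y (by omega) (continuousOn_const.mul (hl.pow 2))).smul 3).sub
      ((NI_Y2 hn (continuousOn_const.mul (hl.pow 2))).smul _)).add
      (NI_Ykk hr (by omega) (continuousOn_const.mul (continuousOn_const.mul hl)))
  have nL : NI n (fun s => Y s * (ll n r s - lm)) := NI_Y (by omega) (hl.sub continuousOn_const)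
  have nY : NI n (fun s => Y s * (1 : ℝ)) := NI_Y (by omega) continuousOn_const
  have hYp := JJ_Y_pos (n := n) (by omega)
  have key : JJ n (fun s => clo n s (ll n r s) (kk n r s)) =
      JJ n (fun s => PQ n μ β₁ β₂ θ ξ lm s (ll n r s) (kk n r s)) +
      μ * JJ n (fun s => Real.exp (ll n r s / n) * hm n (kk n r s) -
        ((n : ℝ) - 1) * (Y s * (ll n r s + Gm n (ll n r s)))) +
      β₁ * JJ n (fun s => kk n r s ^ 2 - 2 * ((n : ℝ) + 2) * (Y s * (ll n r s - lm) ^ 2)) +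
      β₂ * JJ n (fun s => cc s ^ 2 * kk n r s ^ 2 - 2 * ((n : ℝ) - 3) * (Y s * (ll n r s - lm) ^ 2)) +
      JJ n (fun s => 3 * (Y s * (θ * ll n r s ^ 2)) - ((n : ℝ) - 3) * (Y s ^ 2 * (θ * ll n r s ^ 2)) +
        Y s * (θ * (2 * ll n r s) * kk n r s)) +
      (μ * ((n : ℝ) - 1) - ((n : ℝ) + 1) - 2 * sg n β₁ β₂ * lm - ξ) *
        JJ n (fun s => Y s * (ll n r s - lm)) +
      ((μ * ((n : ℝ) - 1) - ((n : ℝ) + 1) - sg n β₁ β₂ * lm) * lm) * JJ n (fun s => Y s * (1 : ℝ)) := by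
    rw [← JJ_smul, ← JJ_smul, ← JJ_smul (f := fun s => cc s ^ 2 * kk n r s ^ 2 -
        2 * ((n : ℝ) - 3) * (Y s * (ll n r s - lm) ^ 2)),
      ← JJ_smul (f := fun s => Y s * (ll n r s - lm)),
      ← JJ_smul (f := fun s => Y s * (1 : ℝ)), ← JJ_add nPP (nS.smul _),
      ← JJ_add (nPP.add (nS.smul _)) (nQ.smul _),
      ← JJ_add ((nPP.add (nS.smul _)).add (nQ.smul _)) (nW.smul _),
      ← JJ_add (((nPP.add (nS.smul _)).add (nQ.smul _)).add (nW.smul _)) nT,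
      ← JJ_add ((((nPP.add (nS.smul _)).add (nQ.smul _)).add (nW.smul _)).add nT) (nL.smul _),
      ← JJ_add (((((nPP.add (nS.smul _)).add (nQ.smul _)).add (nW.smul _)).add nT).add (nL.smul _))
        (nY.smul _)]
    refine JJ_congr fun s hs => ?_
    unfold clo PQ sg
    ring
  rw [key, hT, hL]
  have h1 := mul_nonneg hμ0 hS
  have h2 := mul_nonneg hβ₁ hQ
  have h4 : 0 ≤ β₂ * JJ n (fun s => cc s ^ 2 * kk n r s ^ 2 -
      2 * ((n : ℝ) - 3) * (Y s * (ll n r s - lm) ^ 2)) := by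
    rcases hβ₂.eq_or_lt with h | h
    · rw [← h, zero_mul]
    · exact mul_nonneg hβ₂ (hW h)
  have h3 := mul_nonneg hμ hYp.le
  linarith


/-- **Abstract positivity**: if `∫ c^{n-1} f ≤ (w n / 2) U`, `f ≥ 0` and `f s = 0 → l s = 0` then `U ≥ 0`
with equality only for balls. -/
theorem conclude (hn : 1 ≤ n) {f : ℝ → ℝ} (hf : NI n f) {U : ℝ} (hU : 2 * JJ n f ≤ w n * U)
    (hP : ∀ s ∈ Ioo (0 : ℝ) 1, 0 ≤ f s) (hP0 : ∀ s ∈ Ioo (0 : ℝ) 1, f s = 0 → ll n r s = 0) :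
    0 ≤ U ∧ (U = 0 → ∃ a : ℝ, ∀ s ∈ Icc (-1 : ℝ) 1, r s = a * Real.sqrt (1 - s ^ 2)) := by
  have hw := w_pos' n
  have h2 := JJ_nonneg hf hP
  have h3 : 0 ≤ w n * U := by linarith
  refine ⟨(mul_nonneg_iff_of_pos_left hw).1 h3, fun hU0 => ?_⟩
  rw [hU0, mul_zero] at hU
  have h4 : JJ n f = 0 := by linarith
  refine ball_of_ll_zero hr (n := n) hn ?_
  have hint := hf
  unfold NI at hint
  unfold JJ at h4
  rw [intervalIntegrable_iff_integrableOn_Ioo_of_le (by norm_num)] at hint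
  rw [intervalIntegral.integral_of_le (by norm_num), integral_Ioc_eq_integral_Ioo] at h4
  have hnn : 0 ≤ᵐ[volume.restrict (Ioo (0 : ℝ) 1)] fun s => cc s ^ (n - 1) * f s := by
    rw [EventuallyLE, ae_restrict_iff' measurableSet_Ioo]
    exact Eventually.of_forall fun s hs => mul_nonneg (pow_nonneg (cc_nonneg _) _) (hP s hs)
  have h5 := (integral_eq_zero_iff_of_nonneg_ae hnn hint).1 h4
  rw [EventuallyEq, ae_restrict_iff' measurableSet_Ioo] at h5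
  have h6 : ∀ᵐ s : ℝ, s ∈ Ioo (0 : ℝ) 1 → ll n r s = 0 := by
    filter_upwards [h5] with s hs hs'
    have h7 := hs hs'
    simp only [Pi.zero_apply] at h7
    have h8 : cc s ^ (n - 1) ≠ 0 := (pow_pos (cc_pos' hs') _).ne'
    exact hP0 s hs' ((mul_eq_zero.1 h7).resolve_left h8)
  have hl := (continuousOn_ll hr n).mono Ioo_subset_Icc_self
  intro x hx
  by_contra hne
  have hopen : IsOpen (Ioo (0 : ℝ) 1 ∩ (ll n r) ⁻¹' {0}ᶜ) :=
    hl.isOpen_inter_preimage isOpen_Ioo isOpen_compl_singleton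
  have hpos : 0 < volume (Ioo (0 : ℝ) 1 ∩ (ll n r) ⁻¹' {0}ᶜ) :=
    hopen.measure_pos volume ⟨x, hx, hne⟩
  have hzero : volume (Ioo (0 : ℝ) 1 ∩ (ll n r) ⁻¹' {0}ᶜ) = 0 := by
    refine measure_mono_null (fun s hs => ?_) (ae_iff.1 h6)
    rw [Set.mem_ofPred_eq, Classical.not_imp]
    exact ⟨hs.1, hs.2⟩
  exact absurd hzero hpos.ne'

/-- **Master theorem, two Poincaré terms, extra density `Z`.** -/
theorem master2 (hn : 5 ≤ n) (hN : NleB n r) {μ β₁ β₂ θ ξ : ℝ} (hμ0 : 0 ≤ μ) (hβ₁ : 0 ≤ β₁)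
    (hβ₂ : 0 ≤ β₂)
    (hW : 0 < β₂ → 0 ≤ JJ n (fun s => cc s ^ 2 * kk n r s ^ 2 -
      2 * ((n : ℝ) - 3) * (Y s * (ll n r s - lam n r) ^ 2)))
    (hμ : 0 ≤ (μ * ((n : ℝ) - 1) - ((n : ℝ) + 1) - sg n β₁ β₂ * lam n r) * lam n r)
    {Z : ℝ → ℝ} (hZ : NI n Z) {U : ℝ}
    (hU : 2 * ((∫ s in (0 : ℝ)..1, cc s ^ n *
      (rawL n s (ll n r s) (kk n r s) + (Phi (tau n r s) - Phi s))) + JJ n Z) ≤ w n * U)
    (hP : ∀ s ∈ Ioo (0 : ℝ) 1, 0 ≤ PQ n μ β₁ β₂ θ ξ (lam n r) s (ll n r s) (kk n r s) + Z s)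
    (hP0 : ∀ s ∈ Ioo (0 : ℝ) 1, PQ n μ β₁ β₂ θ ξ (lam n r) s (ll n r s) (kk n r s) + Z s = 0 →
      ll n r s = 0) :
    0 ≤ U ∧ (U = 0 → ∃ a : ℝ, ∀ s ∈ Icc (-1 : ℝ) 1, r s = a * Real.sqrt (1 - s ^ 2)) := by
  rw [int_raw_eq hr (by omega)] at hU
  have h1 := JJ_PQ_le hr hn hN (θ := θ) (ξ := ξ) hμ0 hβ₁ hβ₂ hW hμ
  have nPP := NI_PQ hr hn μ β₁ β₂ θ ξ (lam n r)
  refine conclude hr (by omega) (nPP.add hZ) ?_ hP hP0
  rw [JJ_add nPP hZ]
  linarith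

end path

end Crest.Agent.R230.WR
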