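import Crest.Agent.R230.XlogEta
import Crest.Agent.R230.EPHalf
import Crest.Agent.R230.Apriori

/-!
# Row 230: lower bound of the XLOG functional by the lines with contact parameter `φ(s)`
-/

set_option autoImplicit false

open MeasureTheory Set Filter Topology
open scoped Pointwise ENNReal

namespace Crest.Agent.R230

/-- value at `0` of the XLOG line with parameter `q = 1/√(1-z²)`, `l = log (t/z)` (contact `z²/t`) -/
noncomputable def xA (q l : ℝ) : ℝ := (q - 1) * (l * (q - 1) * (q + 2) - 1)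

/-- slope of the XLOG line -/
noncomputable def xB (t q l : ℝ) : ℝ := t * q ^ 2 * (1 / (1 + q) - l * q)

lemma one_lt_inv_cc {z : ℝ} (hz : z ∈ Ioo (0 : ℝ) 1) : 1 < 1 / cc z := by
  have h1 : 0 < cc z := cc_pos ⟨by linarith [hz.1], hz.2⟩
  have h2 : cc z ^ 2 = 1 - z ^ 2 := cc_sq ⟨by linarith [hz.1], hz.2.le⟩
  rw [lt_div_iff₀ h1]
  nlinarith [hz.1, pow_pos hz.1 2]

/-- the lines are supporting lines of `xl t` -/
theorem xline_le {t z y : ℝ} (ht : t ∈ Ioo (0 : ℝ) 1) (hz : z ∈ Ioo (0 : ℝ) 1) (hy : y ∈ Icc (0 : ℝ) 1) :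
    xA (1 / cc z) (Real.log (t / z)) + xB t (1 / cc z) (Real.log (t / z)) * y ≤ xl t y := by
  have ht0 := ht.1
  have hz0 := hz.1
  have hzi : z ∈ Ioo (-1 : ℝ) 1 := ⟨by linarith, hz.2⟩
  have hc : 0 < cc z := cc_pos hzi
  have hc2 : cc z ^ 2 = 1 - z ^ 2 := cc_sq ⟨hzi.1.le, hzi.2.le⟩
  have hz2 : z ^ 2 < 1 := by nlinarith [hz.2]
  have htq : t * (z ^ 2 / t) = z ^ 2 := by field_simp
  have h1 := tangent_le_xl (t := t) (q := z ^ 2 / t) (y := y) ht (by positivity) (by rw [htq]; exact hz2) hy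
  have e1 : xl t (z ^ 2 / t) = -2 * (1 / cc z - 1) * Real.log (t / z) := by
    rw [xl_eq (by rw [htq]; exact hz2), htq]
    have : Real.sqrt (1 - z ^ 2) = cc z := rfl
    rw [this, Real.log_div (by positivity) ht0.ne', Real.log_div ht0.ne' hz0.ne', Real.log_pow]
    push_cast
    ring
  have e2 : xlp t (z ^ 2 / t) = xB t (1 / cc z) (Real.log (t / z)) := by
    unfold xlp xB
    rw [htq]
    have : Real.sqrt (1 - z ^ 2) = cc z := rfl
    rw [this, Real.log_div (by positivity) ht0.ne', Real.log_div ht0.ne' hz0.ne', Real.log_pow]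
    push_cast
    have h3 : (1 / cc z - 1) / (z ^ 2 / t) = t * (1 / cc z) ^ 2 * (1 / (1 + 1 / cc z)) := by
      have : z ^ 2 = 1 - cc z ^ 2 := by linarith
      have h4 : 1 - cc z ^ 2 ≠ 0 := by rw [← this]; positivity
      rw [this]
      field_simp
      ring
    rw [h3]
    field_simp
    ring
  rw [e1, e2] at h1
  refine le_trans (le_of_eq ?_) h1
  have h5 : xB t (1 / cc z) (Real.log (t / z)) * (z ^ 2 / t) =
      z ^ 2 * (1 / cc z) ^ 2 * (1 / (1 + 1 / cc z) - Real.log (t / z) * (1 / cc z)) := by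
    unfold xB
    field_simp
  have h6 : z ^ 2 = 1 - cc z ^ 2 := by linarith
  have : xB t (1 / cc z) (Real.log (t / z)) * (y - z ^ 2 / t) =
      xB t (1 / cc z) (Real.log (t / z)) * y -
      z ^ 2 * (1 / cc z) ^ 2 * (1 / (1 + 1 / cc z) - Real.log (t / z) * (1 / cc z)) := by
    rw [← h5]; ring
  rw [this, h6]
  unfold xA
  field_simp
  ring

lemma M1_one_one : M1 1 1 = 0 := by
  rw [M1_of_nonneg (by norm_num)]
  obtain ⟨q, hq, h1, e⟩ := exists_mm (t := 1) (p := 1) ⟨by norm_num, le_rfl⟩ le_rfl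
  have : q = 1 := le_antisymm hq.2 h1
  rw [e, this, xl_one_one, mul_zero]

lemma hasDerivAt_cc {z : ℝ} (hz : z ∈ Ioo (-1 : ℝ) 1) : HasDerivAt cc (-z / cc z) z := by
  unfold cc
  have h1 : HasDerivAt (fun z : ℝ => 1 - z ^ 2) (-(2 * z)) z := by
    have := (hasDerivAt_pow 2 z).const_sub 1
    simpa using this
  have h2 := h1.sqrt (by nlinarith [hz.1, hz.2])
  refine h2.congr_deriv ?_
  have : Real.sqrt (1 - z ^ 2) ≠ 0 := (cc_pos hz).ne'
  field_simp

/-- contact parameter: `φ = id` near `0` and near `1`. -/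
structure CX (φ φ' : ℝ → ℝ) : Prop where
  cont : ContinuousOn φ (Icc 0 1)
  deriv : ∀ s ∈ Ioo (0 : ℝ) 1, HasDerivWithinAt φ (φ' s) (Ioi s) s
  meas : AEStronglyMeasurable φ' (volume.restrict (Ioo 0 1))
  bdd : ∃ K, ∀ s ∈ Ioo (0 : ℝ) 1, |φ' s| ≤ K
  pos : ∀ s ∈ Ioo (0 : ℝ) 1, 0 < φ s
  lt : ∀ s ∈ Ioo (0 : ℝ) 1, φ s < 1
  near0 : ∃ δ > 0, ∀ s ∈ Icc (0 : ℝ) δ, φ s = s
  near1 : ∃ δ < 1, ∀ s ∈ Icc δ (1 : ℝ), φ s = s

lemma CX_id : CX (fun s => s) (fun _ => 1) where
  cont := continuousOn_id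
  deriv := fun s _ => hasDerivWithinAt_id s _
  meas := aestronglyMeasurable_const
  bdd := ⟨1, fun s _ => by simp⟩
  pos := fun s hs => hs.1
  lt := fun s hs => hs.2
  near0 := ⟨1, by norm_num, fun s _ => rfl⟩
  near1 := ⟨0, by norm_num, fun s _ => rfl⟩

/-- `log (T/φ)` -/
noncomputable def LX (n : ℕ) (r φ : ℝ → ℝ) (s : ℝ) : ℝ := Real.log (tau n r s / φ s)

/-- `1/√(1-φ²)` -/
noncomputable def QX (φ : ℝ → ℝ) (s : ℝ) : ℝ := 1 / cc (φ s)

/-- `T a + b` -/
noncomputable def vX (n : ℕ) (r φ : ℝ → ℝ) (s : ℝ) : ℝ :=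
  tau n r s * (cc (φ s) / (1 + cc (φ s)) + LX n r φ s * (2 - 3 / cc (φ s)))

/-- `(T a + b)'` -/
noncomputable def dvX (n : ℕ) (r φ φ' : ℝ → ℝ) (s : ℝ) : ℝ :=
  dtau n r s * (1 / (1 + QX φ s) + (LX n r φ s + 1) * (2 - 3 * QX φ s)) +
    φ' s * (tau n r s / φ s) * (2 * (QX φ s - 1 / (1 + QX φ s)) - 3 * LX n r φ s * φ s ^ 2 * QX φ s ^ 3)

section

variable {n : ℕ} {r : ℝ → ℝ} (hr : Prof r) {φ φ' : ℝ → ℝ} (hφ : CX φ φ')

include hr hφ in
lemma hasDerivWithinAt_vX {s : ℝ} (hs : s ∈ Ioo (0 : ℝ) 1) :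
    HasDerivWithinAt (vX n r φ) (dvX n r φ φ' s) (Ioi s) s := by
  have hφp := hφ.pos s hs
  have hφm : φ s ∈ Ioo (-1 : ℝ) 1 := ⟨by linarith, hφ.lt s hs⟩
  have hT := tau_mem_half hr n hs
  have hc : 0 < cc (φ s) := cc_pos hφm
  have hc2 : cc (φ s) ^ 2 = 1 - φ s ^ 2 := cc_sq ⟨hφm.1.le, hφm.2.le⟩
  have dT := (hasDerivAt_tau hr n (s := s) ⟨by linarith [hs.1], hs.2⟩).hasDerivWithinAt (s := Ioi s)
  have dφ := hφ.deriv s hs
  have dC := (hasDerivAt_cc hφm).comp_hasDerivWithinAt s dφ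
  have dL := (dT.fun_div dφ hφp.ne').log (div_pos hT.1 hφp).ne'
  have hC1 : 1 + cc (φ s) ≠ 0 := by positivity
  have h1 := dT.fun_mul ((dC.fun_div (dC.const_add 1) hC1).fun_add
    (dL.fun_mul (((dC.fun_inv hc.ne').const_mul 3).const_sub 2)))
  refine (h1.congr_deriv ?_).congr_of_eventuallyEq ?_ ?_
  · simp only [Function.comp_apply]
    unfold dvX LX QX
    have hT1 := hT.1.ne'
    have e : φ s ^ 2 = 1 - cc (φ s) ^ 2 := by linarith
    set C := cc (φ s)
    set ℓ := Real.log (tau n r s / φ s)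
    set T := tau n r s
    field_simp
    linear_combination (-(C ^ 2 * T * φ' s * (1 + C))) * e
  · filter_upwards with y
    unfold vX LX
    simp only [Function.comp_apply, div_eq_mul_inv]
  · unfold vX LX
    simp only [Function.comp_apply, div_eq_mul_inv]

end

/-! ### estimates near the ends -/

lemma inv_cc_intervalIntegrable : IntervalIntegrable (fun s : ℝ => 1 / cc s) volume 0 1 := by
  refine intervalIntegral.intervalIntegrable_deriv_of_nonneg (g := Real.arcsin)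
    Real.continuous_arcsin.continuousOn (fun x hx => ?_) (fun x hx => ?_)
  · rw [min_eq_left (by norm_num), max_eq_right (by norm_num)] at hx
    exact Real.hasDerivAt_arcsin (by linarith [hx.1]) (by linarith [hx.2])
  · exact div_nonneg zero_le_one (cc_nonneg x)

lemma abs_log_le {x : ℝ} (hx : x ∈ Ioc (0 : ℝ) 1) : |Real.log x| ≤ (1 - x) / x := by
  have h1 := Real.log_nonpos hx.1.le hx.2
  rw [abs_of_nonpos h1, ← Real.log_inv]
  have h2 := Real.log_le_sub_one_of_pos (inv_pos.2 hx.1)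
  refine h2.trans (le_of_eq ?_)
  field_simp [hx.1.ne']

section

variable {n : ℕ} {r : ℝ → ℝ} (hr : Prof r)
include hr

lemma Prof.nonneg_at {x : ℝ} (hx : x ∈ Icc (0 : ℝ) 1) : 0 ≤ r x := by
  rcases hx.2.eq_or_lt with h | h
  · have h0 := hr.pos 0 (by norm_num)
    have h1 : Tendsto r (𝓝[<] 1) (𝓝 (r 1)) := by
      have := (hr.cont 1 (by norm_num)).tendsto
      exact this.mono_left (nhdsWithin_le_of_mem (by
        filter_upwards [Ioo_mem_nhdsLT (show (0 : ℝ) < 1 by norm_num)] with y hy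
        exact ⟨by linarith [hy.1], hy.2.le⟩))
    rw [h]
    refine ge_of_tendsto h1 ?_
    filter_upwards [Ioo_mem_nhdsLT (show (0 : ℝ) < 1 by norm_num)] with y hy
    exact (hr.pos y ⟨by linarith [hy.1], hy.2⟩).le
  · exact (hr.pos x ⟨by linarith [hx.1], h⟩).le

lemma Prof.cone_ge {x y : ℝ} (hx : x ∈ Ico (0 : ℝ) 1) (hy : y ∈ Icc x 1) :
    r x * (1 - y) ≤ r y * (1 - x) := by
  have h1x : 0 < 1 - x := by linarith [hx.2]
  have hxm : x ∈ Icc (-1 : ℝ) 1 := ⟨by linarith [hx.1], hx.2.le⟩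
  have h1m : (1 : ℝ) ∈ Icc (-1 : ℝ) 1 := ⟨by norm_num, le_rfl⟩
  have ha : 0 ≤ (1 - y) / (1 - x) := div_nonneg (by linarith [hy.2]) h1x.le
  have hb : 0 ≤ (y - x) / (1 - x) := div_nonneg (by linarith [hy.1]) h1x.le
  have hab : (1 - y) / (1 - x) + (y - x) / (1 - x) = 1 := by field_simp; ring
  have hc := hr.conc.2 hxm h1m ha hb hab
  simp only [smul_eq_mul] at hc
  have e : (1 - y) / (1 - x) * x + (y - x) / (1 - x) * 1 = y := by field_simp; ring
  rw [e] at hc
  have h1 := hr.nonneg_at (x := 1) (by norm_num)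
  have h2 : 0 ≤ (y - x) / (1 - x) * r 1 := mul_nonneg (div_nonneg (by linarith [hy.1]) h1x.le) h1
  have h3 : (1 - y) / (1 - x) * r x ≤ r y := by linarith
  have h4 := mul_le_mul_of_nonneg_right h3 h1x.le
  have e2 : (1 - y) / (1 - x) * r x * (1 - x) = r x * (1 - y) := by field_simp
  linarith [e2 ▸ h4]

lemma Prof.int_right_ge (n : ℕ) {x : ℝ} (hx : x ∈ Ico (0 : ℝ) 1) :
    (1 - x) * r x ^ n ≤ (n + 1) * ∫ u in x..1, r u ^ n := by
  have h1x : 0 < 1 - x := by linarith [hx.2]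
  have hx' : x ∈ Icc (-1 : ℝ) 1 := ⟨by linarith [hx.1], hx.2.le⟩
  have hrx := hr.nonneg_at (x := x) ⟨hx.1, hx.2.le⟩
  have h := intervalIntegral.integral_mono_on (μ := volume) (a := x) (b := 1)
    (f := fun y => r x ^ n * (1 - y) ^ n) (g := fun y => r y ^ n * (1 - x) ^ n) hx.2.le
    (Continuous.intervalIntegrable (by fun_prop) _ _)
    ((prof_intervalIntegrable hr n hx' ⟨by norm_num, le_rfl⟩).mul_const _) (fun y hy => by
      rw [← mul_pow, ← mul_pow]
      exact pow_le_pow_left₀ (mul_nonneg hrx (by linarith [hy.2])) (hr.cone_ge hx hy) n)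
  rw [intervalIntegral.integral_const_mul, intervalIntegral.integral_mul_const,
    intervalIntegral.integral_comp_sub_left (fun u : ℝ => u ^ n) 1, integral_pow] at h
  simp only [sub_self, ne_eq, Nat.succ_ne_zero, not_false_eq_true, zero_pow, sub_zero] at h
  have hp : 0 < (1 - x) ^ n := pow_pos h1x n
  have h2 : (1 - x) ^ n * ((1 - x) * r x ^ n) ≤ (1 - x) ^ n * ((n + 1) * ∫ u in x..1, r u ^ n) := by
    have h3 := mul_le_mul_of_nonneg_left h (show (0 : ℝ) ≤ n + 1 by positivity)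
    have e1 : ((n : ℝ) + 1) * (r x ^ n * ((1 - x) ^ (n + 1) / (n + 1))) =
        (1 - x) ^ n * ((1 - x) * r x ^ n) := by
      field_simp
      ring
    rw [e1] at h3
    linarith
  exact le_of_mul_le_mul_left h2 hp

omit hr in
lemma hB_le_cc (n : ℕ) {s : ℝ} (hs : s ∈ Icc (0 : ℝ) 1) : hB n s ≤ cc s ^ (n + 2) := by
  have hc2 : cc s ^ 2 = 1 - s ^ 2 := cc_sq ⟨by linarith [hs.1], hs.2⟩
  have h := intervalIntegral.integral_mono_on (μ := volume) (a := s) (b := 1)
    (f := fun x => Real.sqrt (1 - x ^ 2) ^ n) (g := fun _ => cc s ^ n) hs.2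
    (intervalIntegrable_cpow n _ _) (by simp) (fun y hy => by
      refine pow_le_pow_left₀ (Real.sqrt_nonneg _) ?_ n
      refine Real.sqrt_le_sqrt ?_
      nlinarith [hs.1, hy.1])
  rw [intervalIntegral.integral_const, smul_eq_mul] at h
  refine (show hB n s ≤ _ from h).trans ?_
  rw [pow_add, mul_comm]
  refine mul_le_mul_of_nonneg_left ?_ (pow_nonneg (cc_nonneg s) n)
  rw [hc2]
  nlinarith [hs.1, hs.2]

lemma tau_tail {s : ℝ} (hs : s ∈ Ico (0 : ℝ) 1) :
    (1 - tau n r s) * r (tau n r s) ^ n ≤ (n + 1) * (mom n r / w n) * cc s ^ (n + 2) := by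
  have hT := tau_mem_half' hr n (s := s) ⟨hs.1, hs.2.le⟩
  have hT1 := tau_lt_one hr n hs
  have h1 := hr.int_right_ge n ⟨hT.1, hT1⟩
  rw [integral_tau_one hr n ⟨by linarith [hs.1], hs.2.le⟩] at h1
  have hm := hr.mom_pos' n
  have hw := w_pos' n
  refine h1.trans ?_
  rw [mul_assoc]
  refine mul_le_mul_of_nonneg_left ?_ (by positivity)
  exact mul_le_mul_of_nonneg_left (hB_le_cc n ⟨hs.1, hs.2.le⟩) (by positivity)

lemma tau_tail_pow {s : ℝ} (hs : s ∈ Ico (0 : ℝ) 1) :
    (1 - tau n r s) ^ (n + 1) * r 0 ^ n ≤ (n + 1) * (mom n r / w n) * cc s ^ (n + 2) := by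
  have hT := tau_mem_half' hr n (s := s) ⟨hs.1, hs.2.le⟩
  have h0 := hr.cone_ge (x := 0) (y := tau n r s) (by norm_num) hT
  rw [sub_zero, mul_one] at h0
  refine le_trans ?_ (tau_tail hr hs)
  have h2 : (r 0 * (1 - tau n r s)) ^ n ≤ r (tau n r s) ^ n :=
    pow_le_pow_left₀ (mul_nonneg (hr.pos 0 (by norm_num)).le (by linarith [hT.2])) h0 n
  calc (1 - tau n r s) ^ (n + 1) * r 0 ^ n = (1 - tau n r s) * (r 0 * (1 - tau n r s)) ^ n := by
        rw [mul_pow]; ring
    _ ≤ _ := mul_le_mul_of_nonneg_left h2 (by linarith [hT.2])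

lemma log_ratio_le {s : ℝ} (hs : s ∈ Ioo (0 : ℝ) 1) :
    |Real.log (tau n r s / s)| ≤ (1 - tau n r s) / tau n r s + (1 - s) / s := by
  have hT := tau_mem_half hr n hs
  rw [Real.log_div hT.1.ne' hs.1.ne']
  refine (abs_sub _ _).trans ?_
  exact add_le_add (abs_log_le ⟨hT.1, hT.2.le⟩) (abs_log_le ⟨hs.1, hs.2.le⟩)

/-- `c^n / τ'` in closed form -/
noncomputable def rhoX (n : ℕ) (r : ℝ → ℝ) (s : ℝ) : ℝ := w n / mom n r * r (tau n r s) ^ n

lemma cpow_eq {s : ℝ} (hs : s ∈ Ioo (-1 : ℝ) 1) :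
    Real.sqrt (1 - s ^ 2) ^ n = rhoX n r s * dtau n r s := by
  have h := dtau_mul_pow hr n hs
  have hm := (hr.mom_pos' n).ne'
  have hw := (w_pos' n).ne'
  unfold rhoX
  rw [show w n / mom n r * r (tau n r s) ^ n * dtau n r s =
    w n / mom n r * (dtau n r s * r (tau n r s) ^ n) by ring, h]
  field_simp

lemma rhoX_nonneg {s : ℝ} (hs : s ∈ Icc (0 : ℝ) 1) : 0 ≤ rhoX n r s := by
  have hm := hr.mom_pos' n
  have hw := w_pos' n
  exact mul_nonneg (by positivity) (pow_nonneg (hr.nonneg_at (tau_mem_half' hr n hs)) n)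

lemma rhoX_continuousOn : ContinuousOn (rhoX n r) (Icc 0 1) := by
  unfold rhoX
  refine continuousOn_const.mul (ContinuousOn.pow ?_ n)
  exact hr.cont.comp (tau_continuous hr n).continuousOn
    fun s hs => tau_mem_Icc hr n ⟨by linarith [hs.1], hs.2⟩

lemma rhoX_tail {s : ℝ} (hs : s ∈ Ico (0 : ℝ) 1) :
    (1 - tau n r s) * rhoX n r s ≤ (n + 1) * cc s ^ (n + 2) := by
  have h := tau_tail hr hs (n := n)
  have hm := hr.mom_pos' n
  have hw := w_pos' n
  have h2 := mul_le_mul_of_nonneg_left h (show 0 ≤ w n / mom n r by positivity)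
  unfold rhoX
  calc (1 - tau n r s) * (w n / mom n r * r (tau n r s) ^ n) =
        w n / mom n r * ((1 - tau n r s) * r (tau n r s) ^ n) := by ring
    _ ≤ _ := h2
    _ = _ := by field_simp

/-- `τ/s` is bounded below away from `1` -/
lemma ratio_lower (n : ℕ) : ∃ k > 0, ∀ s ∈ Ioc (0 : ℝ) (1 / 2), k ≤ tau n r s / s := by
  have hm := hr.mom_pos' n
  have hw := w_pos' n
  have h0 := hr.pos 0 (by norm_num)
  have hc : 0 < cc (1 / 2) := cc_pos (by norm_num)
  refine ⟨mom n r / w n * cc (1 / 2) ^ n / r 0 ^ n, by positivity, fun s hs => ?_⟩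
  have hs1 : s ≤ 1 := by linarith [hs.2]
  have hT := tau_mem_half' hr n (s := s) ⟨hs.1.le, hs1⟩
  have h1 : ∫ u in (0 : ℝ)..(tau n r s), r u ^ n ≤ tau n r s * r 0 ^ n := by
    have h := intervalIntegral.integral_mono_on (μ := volume) (a := 0) (b := tau n r s)
      (f := fun u => r u ^ n) (g := fun _ => r 0 ^ n) hT.1
      (prof_intervalIntegrable hr n (a := 0) (by norm_num) ⟨by linarith [hT.1], hT.2⟩) (by simp)
      (fun u hu => pow_le_pow_left₀ (hr.nonneg_at ⟨hu.1, hu.2.trans hT.2⟩)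
        (hr.antitoneOn_right (by norm_num) ⟨hu.1, hu.2.trans hT.2⟩ hu.1) n)
    rwa [intervalIntegral.integral_const, smul_eq_mul, sub_zero] at h
  rw [integral_zero_tau hr n ⟨by linarith [hs.1], hs1⟩] at h1
  have h2 : s * cc (1 / 2) ^ n ≤ lB n s := by
    have h := intervalIntegral.integral_mono_on (μ := volume) (a := 0) (b := s)
      (f := fun _ => cc (1 / 2) ^ n) (g := fun u => Real.sqrt (1 - u ^ 2) ^ n) hs.1.le (by simp)
      (intervalIntegrable_cpow n _ _) (fun u hu => by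
        refine pow_le_pow_left₀ (cc_nonneg _) ?_ n
        refine Real.sqrt_le_sqrt ?_
        nlinarith [hs.2, hu.1, hu.2])
    rwa [intervalIntegral.integral_const, smul_eq_mul, sub_zero] at h
  rw [le_div_iff₀ hs.1, div_mul_eq_mul_div, div_le_iff₀ (by positivity)]
  refine le_trans ?_ h1
  rw [mul_assoc]
  exact mul_le_mul_of_nonneg_left (by linarith) (by positivity)

lemma log_bdd (n : ℕ) : ∃ K, 0 ≤ K ∧ ∀ s ∈ Ioo (0 : ℝ) 1, |Real.log (tau n r s / s)| ≤ K := by
  obtain ⟨k, hk, hk1⟩ := ratio_lower hr n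
  have hH := hB_zero_pos n
  have hT2 := tau_mem_half hr n (s := 1 / 2) (by norm_num)
  refine ⟨max (max |Real.log k| |Real.log (1 / hB n 0)|) (1 / tau n r (1 / 2) + 1), ?_, fun s hs => ?_⟩
  · exact le_max_of_le_left (le_max_of_le_left (abs_nonneg _))
  have hT := tau_mem_half hr n hs
  rcases le_or_gt s (1 / 2) with h | h
  · refine le_max_of_le_left ?_
    have h1 := hk1 s ⟨hs.1, h⟩
    have h2 : tau n r s / s ≤ 1 / hB n 0 := by
      rw [div_le_div_iff₀ hs.1 hH, one_mul]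
      refine (tau_mul_hB_zero_le hr n ⟨hs.1.le, hs.2.le⟩).trans ?_
      have h := intervalIntegral.integral_mono_on (μ := volume) (a := 0) (b := s)
        (f := fun u => Real.sqrt (1 - u ^ 2) ^ n) (g := fun _ => (1 : ℝ)) hs.1.le
        (intervalIntegrable_cpow n _ _) (by simp) (fun u hu => pow_le_one₀ (Real.sqrt_nonneg _) (by
          have := cc_le_one u
          exact this))
      rw [intervalIntegral.integral_const, smul_eq_mul, sub_zero, mul_one] at h
      exact h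
    have l1 := Real.log_le_log hk h1
    have l2 := Real.log_le_log (div_pos hT.1 hs.1) h2
    rw [abs_le]
    constructor
    · have : -max |Real.log k| |Real.log (1 / hB n 0)| ≤ -|Real.log k| := neg_le_neg (le_max_left _ _)
      linarith [neg_abs_le (Real.log k)]
    · exact l2.trans ((le_abs_self _).trans (le_max_right _ _))
  · refine le_max_of_le_right ((log_ratio_le hr hs).trans ?_)
    have hm : tau n r (1 / 2) ≤ tau n r s :=
      (tau_strictMonoOn hr n).monotoneOn ⟨by norm_num, by norm_num⟩ ⟨by linarith [hs.1], hs.2.le⟩ h.le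
    refine add_le_add ?_ ?_
    · rw [div_le_div_iff₀ hT.1 hT2.1]
      nlinarith [hT2.1, hT.1]
    · rw [div_le_one hs.1]; linarith

end

section

variable {φ φ' : ℝ → ℝ}

lemma CX.delta (hφ : CX φ φ') : ∃ δ > 0, δ ≤ 1 / 2 ∧ (∀ s ∈ Icc (0 : ℝ) δ, φ s = s) ∧
    (∀ s ∈ Icc (1 - δ) 1, φ s = s) := by
  obtain ⟨a, ha, h1⟩ := hφ.near0
  obtain ⟨b, hb, h2⟩ := hφ.near1
  refine ⟨min (min a (1 - b)) (1 / 2), ?_, min_le_right _ _, fun s hs => ?_, fun s hs => ?_⟩
  · exact lt_min (lt_min ha (by linarith)) (by norm_num)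
  · exact h1 s ⟨hs.1, hs.2.trans ((min_le_left _ _).trans (min_le_left _ _))⟩
  · refine h2 s ⟨?_, hs.2⟩
    have := (min_le_left (min a (1 - b)) (1 / 2)).trans (min_le_right a (1 - b))
    linarith [hs.1]

lemma CX.cc_pos' (hφ : CX φ φ') {s : ℝ} (hs : s ∈ Ioo (0 : ℝ) 1) : 0 < cc (φ s) :=
  cc_pos ⟨by linarith [hφ.pos s hs], hφ.lt s hs⟩

lemma CX.QX_continuousOn (hφ : CX φ φ') : ContinuousOn (QX φ) (Ioo 0 1) := by
  unfold QX
  refine continuousOn_const.div ?_ fun s hs => (hφ.cc_pos' hs).ne'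
  exact cc_continuous.comp_continuousOn (hφ.cont.mono Ioo_subset_Icc_self)

lemma CX.QX_pos (hφ : CX φ φ') {s : ℝ} (hs : s ∈ Ioo (0 : ℝ) 1) : 0 < QX φ s :=
  one_div_pos.2 (hφ.cc_pos' hs)

lemma CX.one_lt_QX (hφ : CX φ φ') {s : ℝ} (hs : s ∈ Ioo (0 : ℝ) 1) : 1 < QX φ s :=
  one_lt_inv_cc ⟨hφ.pos s hs, hφ.lt s hs⟩

variable {n : ℕ} {r : ℝ → ℝ}

lemma CX.LX_continuousOn (hr : Prof r) (hφ : CX φ φ') : ContinuousOn (LX n r φ) (Ioo 0 1) := by
  unfold LX
  refine ContinuousOn.log ?_ fun s hs => (div_pos (tau_mem_half hr n hs).1 (hφ.pos s hs)).ne'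
  exact (tau_continuous hr n).continuousOn.div (hφ.cont.mono Ioo_subset_Icc_self)
    fun s hs => (hφ.pos s hs).ne'

lemma CX.LX_bdd (hr : Prof r) (hφ : CX φ φ') (n : ℕ) :
    ∃ K, 0 ≤ K ∧ ∀ s ∈ Ioo (0 : ℝ) 1, |LX n r φ s| ≤ K := by
  obtain ⟨δ, hδ, hδ2, h0, h1⟩ := hφ.delta
  obtain ⟨K₁, hK₁, b1⟩ := log_bdd hr n
  obtain ⟨K₂, b2⟩ := isCompact_Icc.exists_bound_of_continuousOn
    ((hφ.LX_continuousOn hr (n := n)).mono (Icc_subset_Ioo hδ (by linarith : 1 - δ < 1)))
  refine ⟨max K₁ K₂, le_max_of_le_left hK₁, fun s hs => ?_⟩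
  rcases le_or_gt s δ with h | h
  · refine le_max_of_le_left ?_
    unfold LX
    rw [h0 s ⟨hs.1.le, h⟩]
    exact b1 s hs
  rcases le_or_gt s (1 - δ) with h' | h'
  · exact le_max_of_le_right (b2 s ⟨h.le, h'⟩)
  · refine le_max_of_le_left ?_
    unfold LX
    rw [h1 s ⟨h'.le, hs.2.le⟩]
    exact b1 s hs

lemma CX.QX_bdd (hφ : CX φ φ') : ∃ K, 1 ≤ K ∧ ∀ s ∈ Ioo (0 : ℝ) 1, QX φ s ≤ K / cc s := by
  obtain ⟨δ, hδ, hδ2, h0, h1⟩ := hφ.delta
  obtain ⟨K₂, b2⟩ := isCompact_Icc.exists_bound_of_continuousOn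
    (hφ.QX_continuousOn.mono (Icc_subset_Ioo hδ (by linarith : 1 - δ < 1)))
  have hid : ∀ s ∈ Ioo (0 : ℝ) 1, φ s = s → QX φ s ≤ max 1 K₂ / cc s := fun s hs h => by
    unfold QX
    rw [h]
    exact div_le_div_of_nonneg_right (le_max_left _ _) (cc_nonneg s)
  refine ⟨max 1 K₂, le_max_left _ _, fun s hs => ?_⟩
  rcases le_or_gt s δ with h | h
  · exact hid s hs (h0 s ⟨hs.1.le, h⟩)
  rcases le_or_gt s (1 - δ) with h' | h'
  · have hc : 0 < cc s := cc_pos ⟨by linarith [hs.1], hs.2⟩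
    rw [le_div_iff₀ hc]
    have h3 := b2 s ⟨h.le, h'⟩
    rw [Real.norm_eq_abs, abs_of_pos (hφ.QX_pos hs)] at h3
    have h4 : QX φ s * cc s ≤ QX φ s * 1 := mul_le_mul_of_nonneg_left (cc_le_one s) (hφ.QX_pos hs).le
    exact h4.trans (by rw [mul_one]; exact h3.trans (le_max_right _ _))
  · exact hid s hs (h1 s ⟨h'.le, hs.2.le⟩)

lemma rhoX_bdd (hr : Prof r) (n : ℕ) : ∃ K, 0 ≤ K ∧ ∀ s ∈ Icc (0 : ℝ) 1, rhoX n r s ≤ K := by
  obtain ⟨K, b⟩ := isCompact_Icc.exists_bound_of_continuousOn (rhoX_continuousOn hr (n := n))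
  refine ⟨max 0 K, le_max_left _ _, fun s hs => ?_⟩
  exact (le_abs_self _).trans ((b s hs).trans (le_max_right _ _))

lemma one_sub_le_cc_sq {s : ℝ} (hs : s ∈ Icc (0 : ℝ) 1) : 1 - s ≤ cc s ^ 2 := by
  rw [cc_sq ⟨by linarith [hs.1], hs.2⟩]
  nlinarith [hs.1, hs.2]

lemma CX.LQ_bdd (hr : Prof r) (hφ : CX φ φ') (n : ℕ) :
    ∃ K, 0 ≤ K ∧ ∀ s ∈ Ioo (0 : ℝ) 1, |LX n r φ s| * QX φ s ^ 3 * rhoX n r s ≤ K / cc s := by
  obtain ⟨δ, hδ, hδ2, h0, h1⟩ := hφ.delta
  obtain ⟨K₁, hK₁, b1⟩ := hφ.LX_bdd hr n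
  obtain ⟨K₂, hK₂, b2⟩ := hφ.QX_bdd
  obtain ⟨K₃, hK₃, b3⟩ := rhoX_bdd hr n
  have hc1 : 0 < cc (1 - δ) := cc_pos ⟨by linarith, by linarith⟩
  have hT2 := tau_mem_half hr n (s := 1 / 2) (by norm_num)
  refine ⟨max (K₁ * (K₂ / cc (1 - δ)) ^ 3 * K₃) ((n + 1) / tau n r (1 / 2) + 2 * K₃), ?_, fun s hs => ?_⟩
  · exact le_max_of_le_left (by positivity)
  have hc : 0 < cc s := cc_pos ⟨by linarith [hs.1], hs.2⟩
  have hQ := hφ.QX_pos hs
  have hρ := rhoX_nonneg hr (n := n) ⟨hs.1.le, hs.2.le⟩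
  rw [le_div_iff₀ hc]
  rcases le_or_gt s (1 - δ) with h' | h'
  · refine le_max_of_le_left ?_
    have h2 : QX φ s ≤ K₂ / cc (1 - δ) :=
      (b2 s hs).trans (div_le_div_of_nonneg_left (by linarith) hc1 (cc_anti hs.1.le h'))
    calc |LX n r φ s| * QX φ s ^ 3 * rhoX n r s * cc s ≤ |LX n r φ s| * QX φ s ^ 3 * rhoX n r s * 1 :=
          mul_le_mul_of_nonneg_left (cc_le_one s) (by positivity)
      _ = |LX n r φ s| * QX φ s ^ 3 * rhoX n r s := by ring
      _ ≤ _ := mul_le_mul (mul_le_mul (b1 s hs) (pow_le_pow_left₀ hQ.le h2 3) (by positivity) hK₁)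
          (b3 s ⟨hs.1.le, hs.2.le⟩) hρ (by positivity)
  · refine le_max_of_le_right ?_
    have hid := h1 s ⟨h'.le, hs.2.le⟩
    have hs2 : 1 / 2 ≤ s := by linarith
    have hT := tau_mem_half hr n hs
    have hm : tau n r (1 / 2) ≤ tau n r s :=
      (tau_strictMonoOn hr n).monotoneOn ⟨by norm_num, by norm_num⟩ ⟨by linarith [hs.1], hs.2.le⟩ hs2
    have e1 : LX n r φ s = Real.log (tau n r s / s) := by unfold LX; rw [hid]
    have e2 : QX φ s = 1 / cc s := by unfold QX; rw [hid]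
    have h4 := log_ratio_le hr hs (n := n)
    have h5 : (1 - tau n r s) / tau n r s ≤ (1 - tau n r s) / tau n r (1 / 2) :=
      div_le_div_of_nonneg_left (by linarith [hT.2]) hT2.1 hm
    have h6 : (1 - s) / s ≤ 2 * (1 - s) := by
      rw [div_le_iff₀ hs.1]; nlinarith [hs.2]
    have h7 := rhoX_tail hr (n := n) (s := s) ⟨hs.1.le, hs.2⟩
    have h8 : cc s ^ (n + 2) ≤ cc s ^ 2 := by
      rw [pow_add]
      have : cc s ^ n ≤ 1 := pow_le_one₀ hc.le (cc_le_one s)
      nlinarith [pow_pos hc 2]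
    have h9 := one_sub_le_cc_sq (s := s) ⟨hs.1.le, hs.2.le⟩
    have h10 : |LX n r φ s| * rhoX n r s ≤ ((n + 1) / tau n r (1 / 2) + 2 * K₃) * cc s ^ 2 := by
      rw [e1]
      calc |Real.log (tau n r s / s)| * rhoX n r s ≤
            ((1 - tau n r s) / tau n r (1 / 2) + 2 * (1 - s)) * rhoX n r s :=
            mul_le_mul_of_nonneg_right (by linarith) hρ
        _ = ((1 - tau n r s) * rhoX n r s) / tau n r (1 / 2) + 2 * (1 - s) * rhoX n r s := by ring
        _ ≤ ((n + 1) * cc s ^ 2) / tau n r (1 / 2) + 2 * cc s ^ 2 * K₃ := by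
            refine add_le_add ?_ ?_
            · refine div_le_div_of_nonneg_right ?_ hT2.1.le
              exact h7.trans (mul_le_mul_of_nonneg_left h8 (by positivity))
            · refine mul_le_mul (by linarith) (b3 s ⟨hs.1.le, hs.2.le⟩) hρ (by positivity)
        _ = _ := by ring
    rw [e2]
    calc |LX n r φ s| * (1 / cc s) ^ 3 * rhoX n r s * cc s =
          (|LX n r φ s| * rhoX n r s) * (1 / cc s) ^ 2 := by field_simp
      _ ≤ ((n + 1) / tau n r (1 / 2) + 2 * K₃) * cc s ^ 2 * (1 / cc s) ^ 2 :=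
          mul_le_mul_of_nonneg_right h10 (by positivity)
      _ = _ := by field_simp

lemma vX_zero (hr : Prof r) : vX n r φ 0 = 0 := by
  unfold vX; rw [tau_zero hr n, zero_mul]

lemma vX_one (hr : Prof r) (hφ : CX φ φ') : vX n r φ 1 = 0 := by
  obtain ⟨δ, hδ, hδ2, h0, h1⟩ := hφ.delta
  have h := h1 1 ⟨by linarith, le_rfl⟩
  have hc : cc 1 = 0 := by unfold cc; simp
  unfold vX LX
  rw [h, hc, tau_one hr n]
  simp

lemma vX_continuousOn (hr : Prof r) (hφ : CX φ φ') : ContinuousOn (vX n r φ) (Icc 0 1) := by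
  obtain ⟨δ, hδ, hδ2, h0, h1⟩ := hφ.delta
  obtain ⟨K₁, hK₁, b1⟩ := hφ.LX_bdd hr n
  have hint : ContinuousOn (vX n r φ) (Ioo 0 1) := by
    unfold vX
    have hC : ContinuousOn (fun s => cc (φ s)) (Ioo 0 1) :=
      cc_continuous.comp_continuousOn (hφ.cont.mono Ioo_subset_Icc_self)
    refine (tau_continuous hr n).continuousOn.mul (ContinuousOn.add (hC.div (continuousOn_const.add hC)
      fun s hs => ?_) ((hφ.LX_continuousOn hr).mul (continuousOn_const.sub
        (continuousOn_const.div hC fun s hs => (hφ.cc_pos' hs).ne'))))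
    have := hφ.cc_pos' hs
    positivity
  intro x hx
  rcases hx.1.eq_or_lt with hx0 | hx0
  · -- at `0`
    rw [← hx0]
    have hc0 : 0 < cc (1 / 2) := cc_pos (by norm_num)
    have hb : ∀ᶠ s in 𝓝[Icc 0 1] (0 : ℝ), ‖vX n r φ s - 0‖ ≤
        |tau n r s| * (1 + K₁ * (2 + 3 / cc (1 / 2))) := by
      filter_upwards [self_mem_nhdsWithin, mem_nhdsWithin_of_mem_nhds (Iio_mem_nhds hδ)] with s hs hs1
      rcases hs.1.eq_or_lt with h | h
      · rw [← h, vX_zero hr, tau_zero hr n]; simp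
      · have hsI : s ∈ Ioo (0 : ℝ) 1 := ⟨h, by have : s < δ := hs1; linarith⟩
        have hid := h0 s ⟨hs.1, le_of_lt hs1⟩
        have hcs : cc (1 / 2) ≤ cc s := cc_anti hs.1 (by have : s < δ := hs1; linarith)
        have hcp := hc0.trans_le hcs
        rw [sub_zero, Real.norm_eq_abs]
        unfold vX
        rw [abs_mul]
        refine mul_le_mul_of_nonneg_left ?_ (abs_nonneg _)
        refine (abs_add_le _ _).trans (add_le_add ?_ ?_)
        · rw [hid, abs_of_nonneg (by positivity), div_le_one (by positivity)]; linarith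
        · rw [abs_mul]
          refine mul_le_mul (b1 s hsI) ?_ (abs_nonneg _) hK₁
          refine (abs_sub _ _).trans ?_
          rw [abs_of_nonneg (by norm_num), hid, abs_of_nonneg (by positivity)]
          exact add_le_add le_rfl (div_le_div_of_nonneg_left (by norm_num) hc0 hcs)
    unfold ContinuousWithinAt
    rw [vX_zero hr, tendsto_iff_norm_sub_tendsto_zero]
    refine squeeze_zero' (Eventually.of_forall fun s => norm_nonneg _) hb ?_
    have hc : Continuous fun s => |tau n r s| * (1 + K₁ * (2 + 3 / cc (1 / 2))) :=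
      ((tau_continuous hr n).abs).mul continuous_const
    have := hc.tendsto 0
    rw [tau_zero hr n, abs_zero, zero_mul] at this
    exact this.mono_left nhdsWithin_le_nhds
  rcases hx.2.eq_or_lt with hx1 | hx1
  · -- at `1`
    rw [hx1]
    have hT2 := tau_mem_half hr n (s := 1 / 2) (by norm_num)
    have h0p := hr.pos 0 (by norm_num)
    have hm := hr.mom_pos' n
    have hw := w_pos' n
    set K' := ((n : ℝ) + 1) * (mom n r / w n) / r 0 ^ n with hK'
    have hK'0 : 0 ≤ K' := by positivity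
    have hb : ∀ᶠ s in 𝓝[Icc 0 1] (1 : ℝ), ‖vX n r φ s - 0‖ ≤
        cc s + 5 * ((K' * cc s) ^ (((n + 1 : ℕ) : ℝ)⁻¹) / tau n r (1 / 2) + 2 * cc s) := by
      filter_upwards [self_mem_nhdsWithin, mem_nhdsWithin_of_mem_nhds
        (Ioi_mem_nhds (show 1 - δ < 1 by linarith))] with s hs hs1
      rcases hs.2.eq_or_lt with h | h
      · have hc1 : cc 1 = 0 := by unfold cc; simp
        rw [h, vX_one hr hφ, hc1, sub_zero, norm_zero, mul_zero, mul_zero, add_zero, zero_add,
          Real.zero_rpow (by positivity), zero_div, mul_zero]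
      · have hs1' : 1 - δ < s := hs1
        have hsI : s ∈ Ioo (0 : ℝ) 1 := ⟨by linarith, h⟩
        have hid := h1 s ⟨hs1'.le, hs.2⟩
        have hcp : 0 < cc s := cc_pos ⟨by linarith, h⟩
        have hT := tau_mem_half hr n hsI
        have hs2 : 1 / 2 ≤ s := by linarith
        have hm2 : tau n r (1 / 2) ≤ tau n r s :=
          (tau_strictMonoOn hr n).monotoneOn ⟨by norm_num, by norm_num⟩ ⟨by linarith, h.le⟩ hs2
        have hL : |LX n r φ s| * (1 / cc s) ≤
            (K' * cc s) ^ (((n + 1 : ℕ) : ℝ)⁻¹) / tau n r (1 / 2) + 2 * cc s := by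
          have e1 : LX n r φ s = Real.log (tau n r s / s) := by unfold LX; rw [hid]
          have h4 := log_ratio_le hr hsI (n := n)
          have h5 : (1 - tau n r s) / tau n r s ≤ (1 - tau n r s) / tau n r (1 / 2) :=
            div_le_div_of_nonneg_left (by linarith [hT.2]) hT2.1 hm2
          have h6 : (1 - s) / s ≤ 2 * (1 - s) := by
            rw [div_le_iff₀ hsI.1]; nlinarith
          have h9 := one_sub_le_cc_sq (s := s) ⟨hsI.1.le, h.le⟩
          have hu0 : 0 ≤ (1 - tau n r s) / cc s := div_nonneg (by linarith [hT.2]) hcp.le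
          have hup : ((1 - tau n r s) / cc s) ^ (n + 1) ≤ K' * cc s := by
            have ht := tau_tail_pow hr (n := n) (s := s) ⟨hsI.1.le, h⟩
            rw [div_pow, div_le_iff₀ (by positivity), hK']
            rw [← le_div_iff₀ (by positivity)] at ht
            refine ht.trans (le_of_eq ?_)
            ring
          have hu : (1 - tau n r s) / cc s ≤ (K' * cc s) ^ (((n + 1 : ℕ) : ℝ)⁻¹) := by
            calc (1 - tau n r s) / cc s =
                  (((1 - tau n r s) / cc s) ^ (n + 1)) ^ (((n + 1 : ℕ) : ℝ)⁻¹) :=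
                  (Real.pow_rpow_inv_natCast hu0 (Nat.succ_ne_zero n)).symm
              _ ≤ _ := Real.rpow_le_rpow (by positivity) hup (by positivity)
          rw [e1]
          calc |Real.log (tau n r s / s)| * (1 / cc s) ≤
                ((1 - tau n r s) / tau n r (1 / 2) + 2 * cc s ^ 2) * (1 / cc s) :=
                mul_le_mul_of_nonneg_right (by linarith) (by positivity)
            _ = ((1 - tau n r s) / cc s) / tau n r (1 / 2) + 2 * cc s := by field_simp
            _ ≤ _ := add_le_add (div_le_div_of_nonneg_right hu hT2.1.le) le_rfl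
        rw [sub_zero, Real.norm_eq_abs]
        unfold vX
        rw [abs_mul, abs_of_pos hT.1]
        have h10 : |cc (φ s) / (1 + cc (φ s)) + LX n r φ s * (2 - 3 / cc (φ s))| ≤
            cc s + 5 * (|LX n r φ s| * (1 / cc s)) := by
          refine (abs_add_le _ _).trans (add_le_add ?_ ?_)
          · rw [hid, abs_of_nonneg (by positivity)]
            exact div_le_self hcp.le (by linarith)
          · rw [abs_mul]
            have : |2 - 3 / cc (φ s)| ≤ 5 * (1 / cc s) := by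
              refine (abs_sub _ _).trans ?_
              rw [abs_of_nonneg (by norm_num), hid, abs_of_nonneg (by positivity)]
              have : 1 ≤ 1 / cc s := by rw [le_div_iff₀ hcp, one_mul]; exact cc_le_one s
              have e : 3 / cc s = 3 * (1 / cc s) := by ring
              linarith
            calc _ ≤ |LX n r φ s| * (5 * (1 / cc s)) := mul_le_mul_of_nonneg_left this (abs_nonneg _)
              _ = _ := by ring
        calc tau n r s * |cc (φ s) / (1 + cc (φ s)) + LX n r φ s * (2 - 3 / cc (φ s))| ≤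
              1 * |cc (φ s) / (1 + cc (φ s)) + LX n r φ s * (2 - 3 / cc (φ s))| :=
              mul_le_mul_of_nonneg_right hT.2.le (abs_nonneg _)
          _ ≤ _ := by rw [one_mul]; linarith
    unfold ContinuousWithinAt
    rw [vX_one hr hφ, tendsto_iff_norm_sub_tendsto_zero]
    refine squeeze_zero' (Eventually.of_forall fun s => norm_nonneg _) hb ?_
    have hinv : (0 : ℝ) < ((n + 1 : ℕ) : ℝ)⁻¹ := by positivity
    have hc : Continuous fun s => cc s +
        5 * ((K' * cc s) ^ (((n + 1 : ℕ) : ℝ)⁻¹) / tau n r (1 / 2) + 2 * cc s) := by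
      have hcc := cc_continuous
      refine hcc.add (continuous_const.mul (Continuous.add (Continuous.div_const ?_ _)
        (continuous_const.mul hcc)))
      exact (continuous_const.mul hcc).rpow_const fun _ => Or.inr hinv.le
    have := hc.tendsto 1
    have hc1 : cc 1 = 0 := by unfold cc; simp
    rw [hc1, mul_zero, Real.zero_rpow hinv.ne'] at this
    simp only [zero_div, mul_zero, add_zero] at this
    exact this.mono_left nhdsWithin_le_nhds
  · exact (hint.continuousAt (Ioo_mem_nhds hx0 hx1)).continuousWithinAt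

/-- the raw integrand, general contact parameter -/
noncomputable def RawG (n : ℕ) (r φ φ' : ℝ → ℝ) (s : ℝ) : ℝ :=
  (n + 1) * xA (QX φ s) (LX n r φ s) + (1 + 1 / (1 + QX φ s) - 2 * QX φ s - LX n r φ s * QX φ s ^ 3) +
    φ' s / dtau n r s * (tau n r s / φ s) *
      (2 * (QX φ s - 1 / (1 + QX φ s)) - 3 * LX n r φ s * φ s ^ 2 * QX φ s ^ 3)

lemma RawG_eq (hr : Prof r) {s : ℝ} (hs : s ∈ Ioo (0 : ℝ) 1) :
    n * xA (QX φ s) (LX n r φ s) + dvX n r φ φ' s / dtau n r s = RawG n r φ φ' s := by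
  have hd := (dtau_pos hr n (s := s) ⟨by linarith [hs.1], hs.2⟩).ne'
  unfold RawG dvX xA
  field_simp
  ring

lemma vX_sub (hφ : CX φ φ') {s : ℝ} (hs : s ∈ Ioo (0 : ℝ) 1) :
    vX n r φ s - tau n r s * xA (QX φ s) (LX n r φ s) = xB (tau n r s) (QX φ s) (LX n r φ s) := by
  have hc := hφ.cc_pos' hs
  unfold vX xA xB QX
  field_simp
  ring

lemma abs_xA_le {q l : ℝ} (hq : 1 ≤ q) : |xA q l| ≤ 3 * |l| * q ^ 3 + q := by
  unfold xA
  rw [abs_mul, abs_of_nonneg (by linarith : 0 ≤ q - 1)]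
  have h1 : |l * (q - 1) * (q + 2) - 1| ≤ |l| * q * (3 * q) + 1 := by
    refine (abs_sub _ _).trans ?_
    rw [abs_one, abs_mul, abs_mul, abs_of_nonneg (by linarith : 0 ≤ q - 1),
      abs_of_nonneg (by linarith : 0 ≤ q + 2)]
    have : |l| * (q - 1) * (q + 2) ≤ |l| * q * (3 * q) :=
      mul_le_mul (mul_le_mul_of_nonneg_left (by linarith) (abs_nonneg l)) (by linarith) (by linarith)
        (by positivity)
    linarith
  calc (q - 1) * |l * (q - 1) * (q + 2) - 1| ≤ q * (|l| * q * (3 * q) + 1) :=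
        mul_le_mul (by linarith) h1 (abs_nonneg _) (by linarith)
    _ = _ := by ring

lemma intervalIntegrable_of_le_inv_cc {f : ℝ → ℝ} {K : ℝ}
    (hm : AEStronglyMeasurable f (volume.restrict (Ioo 0 1)))
    (hb : ∀ s ∈ Ioo (0 : ℝ) 1, |f s| ≤ K / cc s) : IntervalIntegrable f volume 0 1 := by
  rw [intervalIntegrable_iff_integrableOn_Ioo_of_le (by norm_num)]
  have h1 := inv_cc_intervalIntegrable
  rw [intervalIntegrable_iff_integrableOn_Ioo_of_le (by norm_num)] at h1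
  refine Integrable.mono' (h1.const_mul K) hm ?_
  rw [ae_restrict_iff' measurableSet_Ioo]
  exact Eventually.of_forall fun s hs => by
    rw [Real.norm_eq_abs]
    refine (hb s hs).trans (le_of_eq (by ring))

lemma integrable_xA (hn : 3 ≤ n) (hr : Prof r) (hφ : CX φ φ') :
    IntervalIntegrable (fun s => Real.sqrt (1 - s ^ 2) ^ n * xA (QX φ s) (LX n r φ s)) volume 0 1 := by
  obtain ⟨K₁, hK₁, b1⟩ := hφ.LX_bdd hr n
  obtain ⟨K₂, hK₂, b2⟩ := hφ.QX_bdd
  refine intervalIntegrable_of_le_inv_cc (K := 3 * K₁ * K₂ ^ 3 + K₂) ?_ fun s hs => ?_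
  · refine ContinuousOn.aestronglyMeasurable ?_ measurableSet_Ioo
    have h1 := hφ.QX_continuousOn
    have h2 := hφ.LX_continuousOn hr (n := n)
    unfold xA
    exact (cont_cpow n).continuousOn.mul ((h1.sub continuousOn_const).mul
      (((h2.mul (h1.sub continuousOn_const)).mul (h1.add continuousOn_const)).sub continuousOn_const))
  · have hc : 0 < cc s := cc_pos ⟨by linarith [hs.1], hs.2⟩
    have hQ := hφ.one_lt_QX hs
    have hcc : Real.sqrt (1 - s ^ 2) = cc s := rfl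
    have hc3 : cc s ^ n ≤ cc s ^ 3 := pow_le_pow_of_le_one hc.le (cc_le_one s) hn
    have hinv : 1 ≤ 1 / cc s := by rw [le_div_iff₀ hc, one_mul]; exact cc_le_one s
    rw [hcc, abs_mul, abs_of_nonneg (pow_nonneg hc.le n)]
    have h3 : |xA (QX φ s) (LX n r φ s)| ≤ 3 * K₁ * (K₂ / cc s) ^ 3 + K₂ / cc s := by
      refine (abs_xA_le hQ.le).trans ?_
      refine add_le_add (mul_le_mul (by linarith [b1 s hs]) ?_ (by positivity) (by positivity)) (b2 s hs)
      exact pow_le_pow_left₀ (by linarith) (b2 s hs) 3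
    have hc31 : cc s ^ 3 ≤ 1 := pow_le_one₀ hc.le (cc_le_one s)
    calc cc s ^ n * |xA (QX φ s) (LX n r φ s)| ≤ cc s ^ 3 * (3 * K₁ * (K₂ / cc s) ^ 3 + K₂ / cc s) :=
          mul_le_mul hc3 h3 (abs_nonneg _) (by positivity)
      _ = 3 * K₁ * K₂ ^ 3 * 1 + cc s ^ 3 * (K₂ / cc s) := by field_simp
      _ ≤ 3 * K₁ * K₂ ^ 3 * (1 / cc s) + 1 * (K₂ / cc s) := by
          refine add_le_add (mul_le_mul_of_nonneg_left hinv (by positivity))
            (mul_le_mul_of_nonneg_right hc31 (by positivity))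
      _ = _ := by ring

lemma integrable_dvX (hr : Prof r) (hφ : CX φ φ') :
    IntervalIntegrable (fun s => Real.sqrt (1 - s ^ 2) ^ n * (dvX n r φ φ' s / dtau n r s)) volume 0 1 := by
  obtain ⟨K₁, hK₁, b1⟩ := hφ.LX_bdd hr n
  obtain ⟨K₂, hK₂, b2⟩ := hφ.QX_bdd
  obtain ⟨K₃, hK₃, b3⟩ := rhoX_bdd hr n
  obtain ⟨K₄, hK₄, b4⟩ := hφ.LQ_bdd hr n
  obtain ⟨K₆, b6⟩ := hφ.bdd
  have hK₆ : 0 ≤ K₆ := (abs_nonneg _).trans (b6 (1 / 2) (by norm_num))
  have hQc := hφ.QX_continuousOn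
  have hLc := hφ.LX_continuousOn hr (n := n)
  have e : ∀ s ∈ Ioo (0 : ℝ) 1, Real.sqrt (1 - s ^ 2) ^ n * (dvX n r φ φ' s / dtau n r s) =
      Real.sqrt (1 - s ^ 2) ^ n * (1 / (1 + QX φ s) + (LX n r φ s + 1) * (2 - 3 * QX φ s)) +
      φ' s * ((tau n r s / φ s) * (2 * (QX φ s - 1 / (1 + QX φ s)) -
        3 * LX n r φ s * φ s ^ 2 * QX φ s ^ 3) * rhoX n r s) := by
    intro s hs
    have hs' : s ∈ Ioo (-1 : ℝ) 1 := ⟨by linarith [hs.1], hs.2⟩
    have hd := (dtau_pos hr n hs').ne'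
    rw [cpow_eq hr hs']
    unfold dvX
    field_simp
  have i1 : IntervalIntegrable (fun s => Real.sqrt (1 - s ^ 2) ^ n *
      (1 / (1 + QX φ s) + (LX n r φ s + 1) * (2 - 3 * QX φ s))) volume 0 1 := by
    refine intervalIntegrable_of_le_inv_cc (K := 1 + (K₁ + 1) * (5 * K₂)) ?_ fun s hs => ?_
    · refine ContinuousOn.aestronglyMeasurable ?_ measurableSet_Ioo
      refine (cont_cpow n).continuousOn.mul (ContinuousOn.add (continuousOn_const.div
        (continuousOn_const.add hQc) fun s hs => ?_) ((hLc.add continuousOn_const).mul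
          (continuousOn_const.sub (continuousOn_const.mul hQc))))
      have := hφ.QX_pos hs
      positivity
    · have hc : 0 < cc s := cc_pos ⟨by linarith [hs.1], hs.2⟩
      have hQ := hφ.one_lt_QX hs
      have hcc : Real.sqrt (1 - s ^ 2) = cc s := rfl
      have hcn : cc s ^ n ≤ 1 := pow_le_one₀ hc.le (cc_le_one s)
      have hinv : 1 ≤ 1 / cc s := by rw [le_div_iff₀ hc, one_mul]; exact cc_le_one s
      rw [hcc, abs_mul, abs_of_nonneg (pow_nonneg hc.le n)]
      have h3 : |1 / (1 + QX φ s) + (LX n r φ s + 1) * (2 - 3 * QX φ s)| ≤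
          1 + (K₁ + 1) * (5 * (K₂ / cc s)) := by
        refine (abs_add_le _ _).trans (add_le_add ?_ ?_)
        · rw [abs_of_nonneg (by positivity), div_le_one (by positivity)]; linarith
        · rw [abs_mul]
          refine mul_le_mul ?_ ?_ (abs_nonneg _) (by positivity)
          · exact (abs_add_le _ _).trans (by rw [abs_one]; linarith [b1 s hs])
          · refine (abs_sub _ _).trans ?_
            rw [abs_of_nonneg (by norm_num), abs_of_nonneg (by positivity)]
            have := b2 s hs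
            linarith
      calc cc s ^ n * |1 / (1 + QX φ s) + (LX n r φ s + 1) * (2 - 3 * QX φ s)| ≤
            1 * (1 + (K₁ + 1) * (5 * (K₂ / cc s))) := mul_le_mul hcn h3 (abs_nonneg _) (by norm_num)
        _ ≤ 1 * (1 / cc s + (K₁ + 1) * (5 * (K₂ / cc s))) := by linarith
        _ = _ := by ring
  have i2 : IntervalIntegrable (fun s => φ' s * ((tau n r s / φ s) *
      (2 * (QX φ s - 1 / (1 + QX φ s)) - 3 * LX n r φ s * φ s ^ 2 * QX φ s ^ 3) * rhoX n r s))
      volume 0 1 := by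
    refine intervalIntegrable_of_le_inv_cc
      (K := K₆ * (Real.exp K₁ * (2 * (K₂ * K₃) + 3 * K₄))) ?_ fun s hs => ?_
    · refine hφ.meas.mul (ContinuousOn.aestronglyMeasurable ?_ measurableSet_Ioo)
      have hφc := hφ.cont.mono (Ioo_subset_Icc_self (a := (0 : ℝ)) (b := 1))
      refine ContinuousOn.mul (((tau_continuous hr n).continuousOn.div hφc
        fun s hs => (hφ.pos s hs).ne').mul (ContinuousOn.sub (continuousOn_const.mul (hQc.sub
          (continuousOn_const.div (continuousOn_const.add hQc) fun s hs => ?_)))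
        (((continuousOn_const.mul hLc).mul (hφc.pow 2)).mul (hQc.pow 3))))
        ((rhoX_continuousOn hr).mono Ioo_subset_Icc_self)
      have := hφ.QX_pos hs
      positivity
    · have hc : 0 < cc s := cc_pos ⟨by linarith [hs.1], hs.2⟩
      have hQ := hφ.one_lt_QX hs
      have hρ := rhoX_nonneg hr (n := n) ⟨hs.1.le, hs.2.le⟩
      have hφ0 := hφ.pos s hs
      have hT := tau_mem_half hr n hs
      rw [abs_mul, abs_mul, abs_mul, abs_of_pos (div_pos hT.1 hφ0), abs_of_nonneg hρ]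
      have h5 : tau n r s / φ s ≤ Real.exp K₁ := by
        rw [← Real.log_le_iff_le_exp (div_pos hT.1 hφ0)]
        exact (le_abs_self _).trans (b1 s hs)
      have h6 : |2 * (QX φ s - 1 / (1 + QX φ s)) - 3 * LX n r φ s * φ s ^ 2 * QX φ s ^ 3| ≤
          2 * QX φ s + 3 * (|LX n r φ s| * QX φ s ^ 3) := by
        refine (abs_sub _ _).trans (add_le_add ?_ ?_)
        · have : 1 / (1 + QX φ s) ≤ 1 := by rw [div_le_one (by positivity)]; linarith
          have : 0 ≤ 1 / (1 + QX φ s) := by positivity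
          rw [abs_of_nonneg (by linarith)]
          linarith
        · rw [abs_mul, abs_mul, abs_mul, abs_of_nonneg (by norm_num : (0 : ℝ) ≤ 3),
            abs_of_nonneg (by positivity : 0 ≤ φ s ^ 2), abs_of_nonneg (by positivity : 0 ≤ QX φ s ^ 3)]
          have h1 : φ s ^ 2 ≤ 1 := pow_le_one₀ hφ0.le (hφ.lt s hs).le
          have h2 : 0 ≤ |LX n r φ s| * QX φ s ^ 3 := by positivity
          nlinarith
      have h7 : (2 * QX φ s + 3 * (|LX n r φ s| * QX φ s ^ 3)) * rhoX n r s ≤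
          (2 * (K₂ * K₃) + 3 * K₄) / cc s := by
        have h8 : QX φ s * rhoX n r s ≤ K₂ / cc s * K₃ :=
          mul_le_mul (b2 s hs) (b3 s ⟨hs.1.le, hs.2.le⟩) hρ (by positivity)
        have h9 := b4 s hs
        calc _ = 2 * (QX φ s * rhoX n r s) + 3 * (|LX n r φ s| * QX φ s ^ 3 * rhoX n r s) := by ring
          _ ≤ 2 * (K₂ / cc s * K₃) + 3 * (K₄ / cc s) := by linarith
          _ = _ := by ring
      calc |φ' s| * (tau n r s / φ s * |2 * (QX φ s - 1 / (1 + QX φ s)) -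
            3 * LX n r φ s * φ s ^ 2 * QX φ s ^ 3| * rhoX n r s) ≤
            K₆ * (Real.exp K₁ * (2 * QX φ s + 3 * (|LX n r φ s| * QX φ s ^ 3)) * rhoX n r s) := by
            refine mul_le_mul (b6 s hs) ?_
              (mul_nonneg (mul_nonneg (div_pos hT.1 hφ0).le (abs_nonneg _)) hρ) hK₆
            refine mul_le_mul_of_nonneg_right ?_ hρ
            exact mul_le_mul h5 h6 (abs_nonneg _) (Real.exp_pos _).le
        _ = K₆ * Real.exp K₁ * ((2 * QX φ s + 3 * (|LX n r φ s| * QX φ s ^ 3)) * rhoX n r s) := by ring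
        _ ≤ K₆ * Real.exp K₁ * ((2 * (K₂ * K₃) + 3 * K₄) / cc s) :=
            mul_le_mul_of_nonneg_left h7 (by positivity)
        _ = _ := by ring
  refine (i1.add i2).congr_ae ?_
  rw [uIoc_of_le (by norm_num), ← restrict_Ioo_eq_restrict_Ioc, EventuallyEq,
    ae_restrict_iff' measurableSet_Ioo]
  exact Eventually.of_forall fun s hs => by
    simp only [e s hs]

/-- integrability of the raw integrand, general contact parameter -/
theorem integrable_RawG (hn : 3 ≤ n) (hr : Prof r) (hφ : CX φ φ') :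
    IntervalIntegrable (fun s => cc s ^ n * RawG n r φ φ' s) volume 0 1 := by
  have i1 := (integrable_xA hn hr hφ).const_mul (n : ℝ)
  have i2 := integrable_dvX (n := n) hr hφ
  refine (i1.add i2).congr_ae ?_
  rw [uIoc_of_le (by norm_num), ← restrict_Ioo_eq_restrict_Ioc, EventuallyEq,
    ae_restrict_iff' measurableSet_Ioo]
  exact Eventually.of_forall fun s hs => by
    simp only [← RawG_eq hr hs (φ' := φ') (φ := φ) (n := n)]
    unfold cc
    ring

/-- **line bound for the XLOG energy**, general contact parameter -/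
theorem EP_M1_ge (hn : 3 ≤ n) (hr : Prof r) (hφ : CX φ φ')
    (hadm : ∀ s ∈ Ioo (0 : ℝ) 1, xA (QX φ s) (LX n r φ s) ≤ xB (tau n r s) (QX φ s) (LX n r φ s)) :
    2 * (∫ s in (0 : ℝ)..1, cc s ^ n * RawG n r φ φ' s) ≤ w n * (((n : ℝ) + 1) * EP n r M1) := by
  have key := EP_half_trans hr n (by omega) (η := M1) M1_continuous.continuousOn
    (fun t _ p _ => M1_neg) (a := fun s => xA (QX φ s) (LX n r φ s)) (vX_continuousOn hr hφ)
    (vX_zero hr) (by rw [vX_one hr hφ, M1_one_one]) (fun s hs => hasDerivWithinAt_vX hr hφ hs)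
    (integrable_xA hn hr hφ) (integrable_dvX hr hφ) ?_
  · refine le_trans (le_of_eq ?_) key
    congr 1
    rw [intervalIntegral.integral_of_le (by norm_num), intervalIntegral.integral_of_le (by norm_num),
      integral_Ioc_eq_integral_Ioo, integral_Ioc_eq_integral_Ioo]
    refine setIntegral_congr_fun measurableSet_Ioo fun s hs => ?_
    simp only [← RawG_eq hr hs (φ' := φ') (φ := φ) (n := n)]
    rfl
  · intro s hs p hp
    have hT := tau_mem_half hr n hs
    rw [vX_sub hφ hs]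
    refine line_le_M1 ⟨hT.1.le, hT.2.le⟩ (fun y hy => ?_) (by linarith [hadm s hs])
      ⟨by linarith [hp.1], hp.2⟩
    exact xline_le hT ⟨hφ.pos s hs, hφ.lt s hs⟩ hy

/-- **lower bound of the XLOG functional**, general contact parameter, half interval -/
theorem UX_ge_half (hn : 3 ≤ n) (hr : Prof r) (hφ : CX φ φ')
    (hadm : ∀ s ∈ Ioo (0 : ℝ) 1, xA (QX φ s) (LX n r φ s) ≤ xB (tau n r s) (QX φ s) (LX n r φ s)) :
    2 * (∫ s in (0 : ℝ)..1, cc s ^ n * (RawG n r φ φ' s + (Phi (tau n r s) - Phi s))) ≤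
      w n * UX n r := by
  have h1 := EP_M1_ge hn hr hφ hadm
  have h2 := mean_sub_half hr n (g := Phi) Phi_continuous.continuousOn (fun s _ => Phi_neg s)
  have i1 := integrable_RawG hn hr hφ
  have i2 : IntervalIntegrable (fun s => cc s ^ n * (Phi (tau n r s) - Phi s)) volume 0 1 := by
    refine Continuous.intervalIntegrable ?_ _ _
    exact (cc_continuous.pow n).mul ((Phi_continuous.comp (tau_continuous hr n)).sub Phi_continuous)
  have e : ∫ s in (0 : ℝ)..1, cc s ^ n * (RawG n r φ φ' s + (Phi (tau n r s) - Phi s)) =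
      (∫ s in (0 : ℝ)..1, cc s ^ n * RawG n r φ φ' s) +
      ∫ s in (0 : ℝ)..1, cc s ^ n * (Phi (tau n r s) - Phi s) := by
    rw [← intervalIntegral.integral_add i1 i2]
    congr 1; ext s; ring
  rw [e]
  unfold UX
  have e2 : w n * (((n : ℝ) + 1) * EP n r M1 +
      ((∫ s in (-1 : ℝ)..1, r s ^ n * Phi s) / mom n r - Phibar n)) =
      w n * (((n : ℝ) + 1) * EP n r M1) +
      w n * ((∫ s in (-1 : ℝ)..1, r s ^ n * Phi s) / mom n r -
        (∫ s in (-1 : ℝ)..1, Real.sqrt (1 - s ^ 2) ^ n * Phi s) / w n) := by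
    unfold Phibar cc
    ring
  rw [e2, h2]
  have e3 : ∫ s in (0 : ℝ)..1, Real.sqrt (1 - s ^ 2) ^ n * (Phi (tau n r s) - Phi s) =
    ∫ s in (0 : ℝ)..1, cc s ^ n * (Phi (tau n r s) - Phi s) := rfl
  rw [e3]
  linarith

/-! ### the contact parameter `φ = id` -/

/-- the raw integrand, `q = 1/√(1-s²)`, `l = log (t/s)`, `t = τ(s)`, `t' = τ'(s)` -/
noncomputable def RawX (n : ℕ) (s t t' : ℝ) : ℝ :=
  (n + 1) * xA (1 / cc s) (Real.log (t / s)) +
    (1 + 1 / (1 + 1 / cc s) - 2 * (1 / cc s) - Real.log (t / s) * (1 / cc s) ^ 3) +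
    t / (s * t') * (2 * (1 / cc s - 1 / (1 + 1 / cc s)) - 3 * Real.log (t / s) * s ^ 2 * (1 / cc s) ^ 3)

lemma RawG_id (s : ℝ) : RawG n r (fun s => s) (fun _ => 1) s = RawX n s (tau n r s) (dtau n r s) := by
  unfold RawG RawX QX LX
  rw [mul_comm s (dtau n r s)]
  congr 2
  rw [div_mul_div_comm, one_mul]


lemma integrable_RawX (hn : 3 ≤ n) (hr : Prof r) :
    IntervalIntegrable (fun s => cc s ^ n * RawX n s (tau n r s) (dtau n r s)) volume 0 1 := by
  have := integrable_RawG hn hr CX_id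
  simpa only [RawG_id] using this

/-- **lower bound of the XLOG functional**, half interval -/
theorem UX_ge_half_id (hn : 3 ≤ n) (hr : Prof r)
    (hadm : ∀ s ∈ Ioo (0 : ℝ) 1, xA (1 / cc s) (Real.log (tau n r s / s)) ≤
      xB (tau n r s) (1 / cc s) (Real.log (tau n r s / s))) :
    2 * (∫ s in (0 : ℝ)..1, cc s ^ n * (RawX n s (tau n r s) (dtau n r s) +
      (Phi (tau n r s) - Phi s))) ≤ w n * UX n r := by
  have := UX_ge_half hn hr CX_id hadm
  simpa only [RawG_id] using this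



end

end Crest.Agent.R230
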